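import Crest.Agent.R090.AIPow_542
import Crest.Agent.R090.PowA_253

/-!
# Row 90, block (A), leaf A-ASM (helper542): the iteration of the power construction

Abstract form: `Good` a class of locally compact Hausdorff spaces, `J` a predicate on pointed self
maps, `L` the Lefschetz number (rational), integral on `Good`; `Step` = the power construction.
`exists_unit_L` : START + STEP ⟹ some `φ ∈ J` on a good space has `L φ ∈ ℤ \ qℤ`.
-/

set_option autoImplicit false
set_option linter.unusedSectionVars false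

open Topology Filter Set

namespace Crest.Agent.R090.AAsm542

open OnePoint Crest.Agent.R090.Sp962 Crest.Agent.R090.Dens255 Crest.Agent.R090.AIPow542
  Crest.Agent.R090.PowA253

/-- predicates on locally compact Hausdorff spaces -/
abbrev SpPred : Type 1 :=
  ∀ (U : Type) [TopologicalSpace U] [T2Space U] [LocallyCompactSpace U], Prop

/-- rational invariants of pointed self maps -/
abbrev LFun : Type 1 :=
  ∀ (U : Type) [TopologicalSpace U] [T2Space U] [LocallyCompactSpace U], PMap U U → ℚ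

/-- predicates on pointed self maps -/
abbrev EndPred : Type 1 :=
  ∀ (U : Type) [TopologicalSpace U] [T2Space U] [LocallyCompactSpace U], PMap U U → Prop

/-- bundled good spaces -/
structure GS (Good : SpPred) where
  /-- the space -/
  X : Type
  [top : TopologicalSpace X]
  [t2 : T2Space X]
  [lc : LocallyCompactSpace X]
  good : Good X

attribute [instance] GS.top GS.t2 GS.lc

/-- a strictly multiplicative operation commutes with iterates, from exponent one on -/
theorem iter_mult {U V : Type} [TopologicalSpace U] [TopologicalSpace V]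
    {P : PMap U U → PMap V V} (hP : ∀ φ ψ, P (φ.comp ψ) = (P φ).comp (P ψ)) (φ : PMap U U)
    {n : ℕ} (hn : 1 ≤ n) : P (iter φ n) = iter (P φ) n := by
  induction n, hn using Nat.le_induction with
  | base => rfl
  | succ n _ ih => rw [iter_succ, hP, ih, iter_succ]

/-- the power construction on the class `Good`, for the prime `q` -/
def Step (q : ℕ) (Good : SpPred) (J : EndPred) (L : LFun) : Prop :=
  ∀ U : GS Good, ∃ (R : GS Good) (P : PMap U.X U.X → PMap R.X R.X),
    (∀ φ ψ, P (φ.comp ψ) = (P φ).comp (P ψ)) ∧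
    (∀ φ, J U.X φ → ∃ k, 1 ≤ k ∧ J R.X (iter (P φ) k)) ∧
    ∀ φ, (q : ℚ) * L R.X (P φ) =
      L U.X φ ^ q - L U.X φ + ((q : ℚ) - 1) * (L U.X (iter φ q) - L U.X φ)

/-- the start of the iteration -/
def Start (q : ℕ) (Good : SpPred) (J : EndPred) (L : LFun) : Prop :=
  ∃ (U : GS Good) (φ : PMap U.X U.X), J U.X φ ∧
    ∃ (a : ℕ → ℤ) (d : ℤ), (∀ k, 1 ≤ k → L U.X (iter φ k) = a k) ∧ Lim q a d ∧ d ≠ 0

/-- the form of the start given by a quasi-idempotent -/
theorem Start.of_quasi {q : ℕ} (hq : q.Prime) {Good : SpPred} {J : EndPred} {L : LFun}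
    (U : GS Good) (φ : PMap U.X U.X) (hφ : J U.X φ) (M c : ℤ) (hM : ¬ (q : ℤ) ∣ M) (hc : c ≠ 0)
    (hL : ∀ k, 1 ≤ k → L U.X (iter φ k) = (M : ℚ) ^ k * c) : Start q Good J L :=
  ⟨U, φ, hφ, fun k => M ^ k * c, c, fun k hk => by rw [hL k hk]; push_cast; rfl,
    Lim.pow hq hM, hc⟩

/-- **the iteration** -/
theorem exists_unit_L {q : ℕ} (hq : q.Prime) {Good : SpPred} {J : EndPred} {L : LFun}
    (hint : ∀ (U : GS Good) (φ : PMap U.X U.X), ∃ z : ℤ, L U.X φ = z)
    (hJ : ∀ (U : GS Good) (φ : PMap U.X U.X), J U.X φ → ∀ k, 1 ≤ k → J U.X (iter φ k))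
    (hstep : Step q Good J L) (hstart : Start q Good J L) :
    ∃ (U : GS Good) (φ : PMap U.X U.X), J U.X φ ∧ ∃ z : ℤ, L U.X φ = z ∧ ¬ (q : ℤ) ∣ z := by
  let C : Set (ℕ → ℤ) := {a | ∃ (U : GS Good) (φ : PMap U.X U.X), J U.X φ ∧
    ∀ k, 1 ≤ k → L U.X (iter φ k) = a k}
  obtain ⟨U, φ, hφ, a, d, ha, hl, hd⟩ := hstart
  have haC : a ∈ C := ⟨U, φ, hφ, ha⟩
  have hC : ∀ a ∈ C, ∃ N : ℕ, 1 ≤ N ∧ ∃ b ∈ C, ∀ k, 1 ≤ k →
      (q : ℤ) * (b k + a (N * k)) = a (N * k) ^ q + ((q : ℤ) - 1) * a (N * (q * k)) := by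
    rintro a ⟨U, φ, hφ, ha⟩
    obtain ⟨R, P, hP, hPJ, hPL⟩ := hstep U
    obtain ⟨N, hN, hJN⟩ := hPJ φ hφ
    choose b hb using fun k => hint R (iter (iter (P φ) N) k)
    refine ⟨N, hN, b, ⟨R, iter (P φ) N, hJN, fun k _ => hb k⟩, fun k hk => ?_⟩
    have hNk : 1 ≤ N * k := Nat.mul_pos hN hk
    have hqk : 1 ≤ q * k := Nat.mul_pos hq.pos hk
    have h1 := hPL (iter φ (N * k))
    rw [iter_mult hP φ hNk, iter_mul, hb k, ← iter_mul φ (N * k) q, ha _ hNk,
      ha (N * k * q) (Nat.mul_pos hNk hq.pos)] at h1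
    have e : N * k * q = N * (q * k) := by ring
    rw [e] at h1
    have h2 : ((q : ℤ) * (b k + a (N * k)) : ℚ) =
        (a (N * k) : ℚ) ^ q + (((q : ℤ) : ℚ) - 1) * a (N * (q * k)) := by
      push_cast
      linear_combination h1
    exact_mod_cast h2
  obtain ⟨a, ⟨U, φ, hφ, ha⟩, k, hk, hqk⟩ := exists_prime_to hq C hC haC hl hd
  exact ⟨U, iter φ k, hJ U φ hφ k hk, a k, ha k hk, hqk⟩

end Crest.Agent.R090.AAsm542
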