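import Crest.Agent.R090.SpineDefs_796
import Crest.Agent.R090.AAsm_542
import Crest.Agent.R090.AClass_923

/-!
# Row 90, block (A): the assembly (owner helper923)

`aStmt_of_step : ExtractStmt Good L → (∀ q prime, M, Z, Step q Good (inI q Z) L) → StartStmt Good L
  → Spine.AStmt`  (`Step` = 542's `AAsm542.Step`)

for every class `Good` of locally compact Hausdorff spaces and every function `L` (the Lefschetz
number) on pointed self maps.

* `inI q Z φ`    : `IdQ q Z (St.ofP φ)`;
* `ExtractStmt`  : [EXTRACT, 305] `L φ` is an integer `±z`, and `φ ∈ I` implies `z • 1_S ∈ I`;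
* `PowStmt`      : [389, 542, 253, 407] the power construction `(R, pw)`;
* `StartStmt`    : [902] the start: a space level representative of the Young element.
-/

set_option autoImplicit false
set_option linter.unusedSectionVars false

open Topology Filter Set

namespace Crest.Agent.R090.AAsm923

open OnePoint Crest.Agent.R090.Sp962 Crest.Agent.R090.St528 Crest.Agent.R090.Spine
open Crest.Agent.R090.F0_933 Crest.Agent.R090.Young152 Crest.Agent.R090.AClass923
open Crest.Agent.R090.Sm202
open Crest.Agent.R090.Dens255 (iter iter_zero iter_succ)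
open Crest.Agent.R090.AIPow542 (iter_one iter_add iter_mul)
open Crest.Agent.R090.AAsm542 (LFun GS Step Start exists_unit_L)

/-! ## rules of the ideal used here -/

section rules

variable {M : Type} [TopologicalSpace M] [T2Space M] [LocallyCompactSpace M]
  {X X' X'' : Type} [TopologicalSpace X] [TopologicalSpace X'] [TopologicalSpace X'']
  [T2Space X] [T2Space X'] [T2Space X''] [LocallyCompactSpace X] [LocallyCompactSpace X']
  [LocallyCompactSpace X'']

theorem sNull_comp_left {g : St X X'} (h : St X' X'') (hg : SNull g) : SNull (h.comp g) := by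
  intro T _ _ _ j y
  rw [smR_comp, ← St.comp_assoc]
  exact hg T j _

theorem idQ_comp_left (q : ℕ) (Z : Set M) [Fact (IsClosed Z)] {g : St X X'} (h : St X' X'')
    (hg : IdQ q Z g) : IdQ q Z (h.comp g) := by
  obtain ⟨l, hl⟩ := hg
  refine ⟨l, fun K s => ?_⟩
  obtain ⟨n, hn, hn'⟩ := hl K s
  refine ⟨n, hn, ?_⟩
  have e : n • tens (St.ofP (iotaP Z K s l)) (h.comp g) =
      ((St.id _).prod h).comp (n • tens (St.ofP (iotaP Z K s l)) g) := by
    rw [St.comp_nsmul, ← prod_comp, St.id_comp]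
  rw [e]
  exact sNull_comp_left _ hn'

theorem idQ_of_zsmul {q : ℕ} (hq : q.Prime) (Z : Set M) [Fact (IsClosed Z)] {g : St X X'} {z : ℤ}
    (hz : ¬ (q : ℤ) ∣ z) (h : IdQ q Z (z • g)) : IdQ q Z g := by
  obtain ⟨l, hl⟩ := h
  refine ⟨l, fun K s => ?_⟩
  obtain ⟨n, hn, hn'⟩ := hl K s
  refine ⟨n * z.natAbs, ?_, ?_⟩
  · intro hd
    rcases hq.dvd_mul.1 hd with h | h
    · exact hn h
    · exact hz (Int.natCast_dvd.2 h)
  · have e : ((n * z.natAbs : ℕ)) • tens (St.ofP (iotaP Z K s l)) g =
        n • tens (St.ofP (iotaP Z K s l)) (z • g) ∨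
        ((n * z.natAbs : ℕ)) • tens (St.ofP (iotaP Z K s l)) g =
        -(n • tens (St.ofP (iotaP Z K s l)) (z • g)) := by
      have e1 : tens (St.ofP (iotaP Z K s l)) (z • g) =
          z • tens (St.ofP (iotaP Z K s l)) g := prod_zsmul _ _ _
      rw [e1, mul_nsmul']
      rcases Int.natAbs_eq z with h | h
      · left
        conv_rhs => rw [h]
        rw [natCast_zsmul]
      · right
        conv_rhs => rw [h]
        rw [neg_smul, natCast_zsmul, smul_neg, neg_neg]
    rcases e with e | e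
    · rw [e]; exact hn'
    · rw [e]
      intro T _ _ _ j y
      rw [smR_neg, St.comp_neg, hn' T j y, neg_zero]

/-- a pointed self map is in the ideal -/
def inI (q : ℕ) (Z : Set M) [Fact (IsClosed Z)] : AAsm542.EndPred :=
  fun _ _ _ _ φ => IdQ q Z (St.ofP φ)

theorem inI_iter {q : ℕ} (Z : Set M) [Fact (IsClosed Z)] {U : Type} [TopologicalSpace U] [T2Space U]
    [LocallyCompactSpace U] {φ : PMap U U} (h : inI q Z U φ) {k : ℕ} (hk : 1 ≤ k) :
    inI q Z U (iter φ k) := by
  obtain ⟨k, rfl⟩ : ∃ j, k = j + 1 := ⟨k - 1, by omega⟩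
  rw [inI, iter_succ, St.ofP_comp]
  exact idQ_comp_left q Z _ h

end rules

/-! ## the inputs -/

section stmts

variable (Good : SpPred) (L : LFun)

/-- (EXTRACT) [305, 698, 297, 554] : Lefschetz numbers of good spaces are integers, and every ideal
which contains `φ` contains `L φ • 1_S` -/
def ExtractStmt : Prop :=
  ∀ (U : Type) [TopologicalSpace U] [T2Space U] [LocallyCompactSpace U], Good U →
    ∀ φ : PMap U U, ∃ z : ℤ, (L U φ = z ∨ L U φ = -z) ∧
      ∀ (q : ℕ), q.Prime → ∀ (M : Type) [TopologicalSpace M] [T2Space M] [LocallyCompactSpace M]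
        (Z : Set M) [Fact (IsClosed Z)],
        IdQ q Z (St.ofP φ) → IdQ q Z (z • St.id Unit)

/-- the power construction [389: `R`, `pw`; 407/535: `Good R`; 253: trace; 542: ideal] -/
def PowStmt : Prop :=
  ∀ (q : ℕ), q.Prime →
    ∀ (U : Type) [TopologicalSpace U] [T2Space U] [LocallyCompactSpace U], Good U →
    ∃ (R : Type) (_ : TopologicalSpace R) (_ : T2Space R) (_ : LocallyCompactSpace R)
      (pw : PMap U U → PMap R R),
      Good R ∧ (∀ f g, pw (f.comp g) = (pw f).comp (pw g)) ∧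
      (∀ φ : PMap U U, (q : ℚ) * L R (pw φ) =
        L U φ ^ q - L U φ + ((q : ℚ) - 1) * (L U (iter φ q) - L U φ)) ∧
      ∀ (M : Type) [TopologicalSpace M] [T2Space M] [LocallyCompactSpace M]
        (Z : Set M) [Fact (IsClosed Z)] (φ : PMap U U), IdQ q Z (St.ofP φ) →
        ∃ k : ℕ, 1 ≤ k ∧ IdQ q Z (St.ofP (iter (pw φ) k))

/-- one step of the iteration, in 542's form -/
def StepStmt : Prop :=
  ∀ (q : ℕ), q.Prime →
    ∀ (M : Type) [TopologicalSpace M] [T2Space M] [LocallyCompactSpace M]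
      (Z : Set M) [Fact (IsClosed Z)], Step q Good (inI q Z) L

/-- (START) [902] : a space level representative `φ` of the Young element (smashed with `ℂ^k`), with
`L (φ^k) = m^k r`, `q ∤ m`, `r ≠ 0` -/
def StartStmt : Prop :=
  ∀ (c D : ℕ), (c + 1).Prime → 0 < D →
    ∀ (V : Type) [TopologicalSpace V] [T2Space V] [LocallyCompactSpace V], HasCells V D →
    ∃ (U : Type) (_ : TopologicalSpace U) (_ : T2Space U) (_ : LocallyCompactSpace U),
      Good U ∧ ∃ (φ : PMap U U) (m r : ℤ), ¬ ((c + 1 : ℕ) : ℤ) ∣ m ∧ r ≠ 0 ∧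
        (∀ k, 1 ≤ k → L U (iter φ k) = (m : ℚ) ^ k * r) ∧
        ∀ (M : Type) [TopologicalSpace M] [T2Space M] [LocallyCompactSpace M]
          (Z : Set M) [Fact (IsClosed Z)],
          IdQ (c + 1) Z (permSt V (yF D c)) → IdQ (c + 1) Z (St.ofP φ)

end stmts

/-! ## the assembly -/

section asm

variable {Good : SpPred} {L : LFun}

theorem ExtractStmt.exists_int (hE : ExtractStmt Good L) {U : Type} [TopologicalSpace U]
    [T2Space U] [LocallyCompactSpace U] (hU : Good U) (φ : PMap U U) : ∃ z : ℤ, L U φ = z := by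
  obtain ⟨z, h | h, -⟩ := hE U hU φ
  · exact ⟨z, h⟩
  · exact ⟨-z, by rw [h]; push_cast; ring⟩

theorem stepStmt (hP : PowStmt Good L) : StepStmt Good L := by
  intro q hq M _ _ _ Z _ U
  obtain ⟨R, i1, i2, i3, pw, hR, hcomp, hL, hI⟩ := hP q hq U.X U.good
  exact ⟨⟨R, hR⟩, pw, hcomp, fun φ hφ => hI M Z φ hφ, hL⟩

/-- **`1_S` is in the ideal** -/
theorem idQ_one (hE : ExtractStmt Good L) (hS : StepStmt Good L) {q : ℕ} (hq : q.Prime)
    {M : Type} [TopologicalSpace M] [T2Space M] [LocallyCompactSpace M]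
    (Z : Set M) [Fact (IsClosed Z)] (hstart : Start q Good (inI q Z) L) :
    IdQ q Z (St.id Unit) := by
  obtain ⟨U, φ, hφ, z, hz, hqz⟩ := exists_unit_L hq
    (fun U φ => hE.exists_int U.good φ) (fun U φ h k hk => inI_iter Z h hk) (hS q hq M Z) hstart
  obtain ⟨z', hz', hI⟩ := hE U.X U.good φ
  refine idQ_of_zsmul hq Z ?_ (hI q hq M Z hφ)
  rw [hz] at hz'
  rcases hz' with hz' | hz'
  · have : z = z' := by exact_mod_cast hz'
    rwa [← this]
  · have : z = -z' := by exact_mod_cast hz'
    rw [this] at hqz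
    exact fun h => hqz ((dvd_neg).2 h)

/-- **(A) from its inputs** -/
theorem aStmt_of_step (hE : ExtractStmt Good L) (hP : StepStmt Good L) (hS : StartStmt Good L) :
    Spine.AStmt := by
  intro c D hq hD V _ _ _ hV M _ _ _ Z _ hI
  obtain ⟨U, i1, i2, i3, hU, φ, m, r, hm, hr, hL, hφ⟩ := hS c D hq hD V hV
  exact idQ_one hE hP hq Z (Start.of_quasi hq ⟨U, hU⟩ φ (hφ M Z hI) m r hm hr hL)

theorem aStmt_of (hE : ExtractStmt Good L) (hP : PowStmt Good L) (hS : StartStmt Good L) :
    Spine.AStmt := aStmt_of_step hE (stepStmt hP) hS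

end asm

end Crest.Agent.R090.AAsm923
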