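import Crest.Agent.R090.ASQuotH_149
import Crest.Agent.R090.Free_253

/-!
# Row 90, block HOM/A: helper58's Alexander-Spanier cohomology as an instance of 253's `Coh`
(owner helper149)

* `h F U := Hc F {∞}` on `OnePoint U`, `hmap`, `heps`;
* `LesData F` : the exact triangle of a closed pair (helper412), literally the fields of `Coh`;
* `asCoh L : CohT253.Coh F`;  `qinv_orb`, `L_orb` : free quotients.
-/

set_option autoImplicit false
set_option linter.unusedSectionVars false
set_option linter.checkUnivs false

open Topology Filter Set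

namespace Crest.Agent.R090.ASCoh_149

open OnePoint Crest.Agent.R090 Crest.Agent.R090.Sp962 Crest.Agent.R090.Orb389
open Crest.Agent.R090.ASQuotH_149 Crest.Agent.R090.CohT253

variable (F : Type) [Field F]

/-- reduced Alexander-Spanier cohomology of `OnePoint U`, i.e. with compact supports -/
abbrev h (U : Type) [TopologicalSpace U] : Type := AS58.Hc F ({∞} : Set (OnePoint U))

variable {U V W : Type} [TopologicalSpace U] [TopologicalSpace V] [TopologicalSpace W]

/-- the induced map -/
def hmap (f : PMap U V) : h F V →ₗ[F] h F U := AS58.Hc.map F f f.cont (mapsTo_inf f)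

/-- parity -/
def heps (U : Type) [TopologicalSpace U] : h F U →ₗ[F] h F U :=
  AS58.Hc.ev F ({∞} : Set (OnePoint U))

variable {F}

theorem hmap_id (x : h F U) : hmap F (PMap.id U) x = x := AS58.Hc.map_id _ x

theorem hmap_comp (g : PMap V W) (f : PMap U V) (x : h F W) :
    hmap F (g.comp f) x = hmap F f (hmap F g x) :=
  AS58.Hc.map_comp f.cont g.cont _ _ x

theorem hmap_zero (x : h F V) : hmap F (PMap.zero U V) x = 0 := by
  obtain ⟨φ, hφ, rfl⟩ := AS58.Hc.mk_surj x
  rw [hmap, AS58.Hc.map_mk, AS58.Hc.mk_eq_zero]
  obtain ⟨N, hN, hz⟩ := AS58.mem_Sp_singleton.1 hφ.1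
  have : AS58.pull (PMap.zero U V).toFun φ = 0 := by
    funext l
    rw [AS58.pull_apply]
    apply hz
    intro y hy
    obtain ⟨x, -, rfl⟩ := List.mem_map.1 hy
    exact mem_of_mem_nhds hN
  rw [this]
  exact Submodule.zero_mem _

theorem heps_heps (x : h F U) : heps F U (heps F U x) = x := AS58.Hc.ev_ev x

theorem heps_hmap (f : PMap U V) (x : h F V) :
    heps F U (hmap F f x) = hmap F f (heps F V x) := AS58.Hc.ev_map f.cont (mapsTo_inf f) x

variable (F) in
/-- the exact triangle of a closed pair -/
structure LesData where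
  del : ∀ {K U O : Type} [TopologicalSpace K] [TopologicalSpace U] [TopologicalSpace O]
    [T2Space U] [LocallyCompactSpace U], Dec K U O → h F K →ₗ[F] h F O
  eps_del : ∀ {K U O : Type} [TopologicalSpace K] [TopologicalSpace U] [TopologicalSpace O]
    [T2Space U] [LocallyCompactSpace U] (D : Dec K U O) (x : h F K),
    heps F O (del D x) = - del D (heps F K x)
  exactU : ∀ {K U O : Type} [TopologicalSpace K] [TopologicalSpace U] [TopologicalSpace O]
    [T2Space U] [LocallyCompactSpace U] (D : Dec K U O),
    Function.Exact (hmap F (PMap.ofOpen D.j D.hj)) (hmap F (PMap.ofClosed D.i D.hi))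
  exactK : ∀ {K U O : Type} [TopologicalSpace K] [TopologicalSpace U] [TopologicalSpace O]
    [T2Space U] [LocallyCompactSpace U] (D : Dec K U O),
    Function.Exact (hmap F (PMap.ofClosed D.i D.hi)) (del D)
  exactO : ∀ {K U O : Type} [TopologicalSpace K] [TopologicalSpace U] [TopologicalSpace O]
    [T2Space U] [LocallyCompactSpace U] (D : Dec K U O),
    Function.Exact (del D) (hmap F (PMap.ofOpen D.j D.hj))
  del_nat : ∀ {K U O K' U' O' : Type} [TopologicalSpace K] [TopologicalSpace U]
    [TopologicalSpace O] [T2Space U] [LocallyCompactSpace U]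
    [TopologicalSpace K'] [TopologicalSpace U'] [TopologicalSpace O'] [T2Space U']
    [LocallyCompactSpace U'] (D : Dec K U O) (D' : Dec K' U' O')
    (fK : PMap K K') (fU : PMap U U') (fO : PMap O O'),
    fU.comp (PMap.ofClosed D.i D.hi) = (PMap.ofClosed D'.i D'.hi).comp fK →
    (PMap.ofOpen D'.j D'.hj).comp fU = fO.comp (PMap.ofOpen D.j D.hj) →
    ∀ x : h F K', hmap F fO (del D' x) = del D (hmap F fK x)

/-- 58's cohomology is a `Coh` -/
noncomputable def asCoh (L : LesData F) : Coh.{0, 0, 0} F where
  h U _ := h F U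
  map f := hmap F f
  map_id _ _ x := hmap_id x
  map_comp g f x := hmap_comp g f x
  map_zero' x := hmap_zero x
  eps U _ := heps F U
  eps_eps _ _ x := heps_heps x
  eps_map f x := heps_hmap f x
  del D := L.del D
  eps_del D x := L.eps_del D x
  exactU D := L.exactU D
  exactK D := L.exactK D
  exactO D := L.exactO D
  del_nat D D' fK fU fO h1 h2 x := L.del_nat D D' fK fU fO h1 h2 x

/-! ### free quotients -/

section quot

variable {G : Type} [Group G] [Fintype G] {E : Type} [TopologicalSpace E] [MulAction G E]
  [ContinuousConstSMul G E] [T2Space E] [LocallyCompactSpace E]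

/-- the action as 253's `Act` -/
def actE (G : Type) [Group G] [Fintype G] (E : Type) [TopologicalSpace E] [MulAction G E]
    [ContinuousConstSMul G E] : CohT253.Act G E where
  act g := actP g E
  one := actP_one
  mul g h := actP_mul g h

/-- **AS5**: the cohomology of a free quotient is the invariant part -/
theorem qinv_orb (L : LesData F) (hfree : ∀ (g : G) (x : E), g • x = x → g = 1)
    (hG : (Fintype.card G : F) ≠ 0) : (asCoh L).QInv (actE G E) (Orb.pr G E) where
  inv g := Orb.pr_actP g
  inj := orb_inj hfree (by rwa [Nat.card_eq_fintype_card])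
  surj x hx := orb_surj hfree (by rwa [Nat.card_eq_fintype_card]) x hx

/-- **Lefschetz numbers of a free quotient** -/
theorem L_orb (L : LesData F) (hfree : ∀ (g : G) (x : E), g • x = x → g = 1)
    (hG : (Fintype.card G : F) ≠ 0) (hE : (asCoh L).Fin E) (f : PMap E E) (hf : Equi G f) :
    (Fintype.card G : F) * (asCoh L).L (Orb.map f hf) =
      ∑ g : G, (asCoh L).L (f.comp (actP g E)) :=
  (qinv_orb L hfree hG).L_quot hG hE f (Orb.map f hf) (Orb.map_pr f hf).symm
    (fun g => hf g)

theorem fin_orb (L : LesData F) (hfree : ∀ (g : G) (x : E), g • x = x → g = 1)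
    (hG : (Fintype.card G : F) ≠ 0) (hE : (asCoh L).Fin E) : (asCoh L).Fin (Orb G E) :=
  (qinv_orb L hfree hG).fin hE

end quot

end Crest.Agent.R090.ASCoh_149
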