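import Crest.Agent.R090.AS3_58

/-!
# Row 90, block HOM (helper58): `h Unit = F`

* `hval : hU F Unit →ₗ[F] F`, evaluation of a cocycle at the list `[pt]`; bijective (`hval_bij`)
* `hone : hU F Unit`, the generator, `hval_one`, `heps_one`
-/

set_option autoImplicit false

open Filter Topology Set Crest.Agent.R090.Sp962

namespace Crest.Agent.R090.AS58

open OnePoint

variable {F : Type} [CommRing F]

/-- the point of `OnePoint Unit` -/
abbrev upt : OnePoint Unit := (() : Unit)

theorem upt_cases (x : OnePoint Unit) : x = ∞ ∨ x = upt := by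
  induction x using OnePoint.rec with
  | infty => exact Or.inl rfl
  | coe x => exact Or.inr rfl

theorem isOpen_upt : IsOpen ({upt} : Set (OnePoint Unit)) := by
  have h : ({upt} : Set (OnePoint Unit)) = (↑) '' (univ : Set Unit) := by
    ext x
    constructor
    · intro h
      exact ⟨(), trivial, h.symm⟩
    · rintro ⟨y, _, rfl⟩; rfl
  rw [h]
  exact isOpen_image_coe.2 isOpen_univ

theorem isOpen_inf : IsOpen ({∞} : Set (OnePoint Unit)) := by
  have h : ({∞} : Set (OnePoint Unit)) = {upt}ᶜ := by
    ext x
    rcases upt_cases x with rfl | rfl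
    · simp
    · simp
  rw [h, isOpen_compl_iff]
  exact isClosed_singleton

theorem diag_open : (diagonal (OnePoint Unit)) ∈ 𝓝ˢ (diagonal (OnePoint Unit)) := by
  have h : diagonal (OnePoint Unit) = ({upt} ×ˢ {upt}) ∪ ({∞} ×ˢ {∞}) := by
    ext ⟨x, y⟩
    rcases upt_cases x with rfl | rfl <;> rcases upt_cases y with rfl | rfl <;> simp
  have ho : IsOpen (diagonal (OnePoint Unit)) := by
    rw [h]
    exact (isOpen_upt.prod isOpen_upt).union (isOpen_inf.prod isOpen_inf)
  exact ho.mem_nhdsSet.2 subset_rfl

variable (F) in
/-- value at the point -/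
def hval : hU F Unit →ₗ[F] F :=
  Submodule.liftQ _ ((LinearMap.proj ([upt] : List (OnePoint Unit))).comp (Submodule.subtype _)) (by
    rintro ⟨φ, hφ⟩ h
    have h' : φ ∈ Bc F ({∞} : Set (OnePoint Unit)) := h
    obtain ⟨ψ, hψ, W, hW, h2⟩ := mem_Bc.1 h'
    rw [LinearMap.mem_ker]
    change φ [upt] = 0
    have h3 := h2 [upt] (by
      intro x hx y hy
      rw [List.mem_singleton] at hx hy
      rw [hx, hy]
      exact subset_of_mem_nhdsSet hW (mem_diagonal upt))
    rw [Pi.sub_apply, d_cons, Sp_nil hψ] at h3
    simpa using h3)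

theorem hval_mk (φ : List (OnePoint Unit) → F) (h : φ ∈ Zc F ({∞} : Set (OnePoint Unit))) :
    hval F (Hc.mk φ h) = φ [upt] := rfl

variable (F) in
open Classical in
/-- the unit cochain -/
noncomputable def ucoch (l : List (OnePoint Unit)) : F := if l = [upt] then 1 else 0

theorem ucoch_mem : ucoch F ∈ Zc F ({∞} : Set (OnePoint Unit)) := by
  refine ⟨mem_Sp_singleton.2 ⟨{∞}, isOpen_inf.mem_nhds rfl, fun l hl => ?_⟩, ?_⟩
  · unfold ucoch
    rw [if_neg]
    rintro rfl
    have := hl upt (by simp)
    simp at this
  · refine ⟨_, diag_open, fun l hl => ?_⟩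
    rcases l with _ | ⟨x, _ | ⟨y, l⟩⟩
    · rfl
    · rw [d_cons]; simp [ucoch]
    · have hxy : x = y := hl x (by simp) y (by simp)
      subst hxy
      rw [d_cons, d_cons]
      rcases l with _ | ⟨z, l⟩
      · simp [ucoch]
      · have e1 : ucoch F (x :: z :: l) = 0 := if_neg (by simp)
        have e2 : cs x (ucoch F) (z :: l) = (0 : F) := if_neg (by simp)
        rw [e1, e2]
        have e3 : cs x (cs x (ucoch F)) = 0 := by
          funext m
          exact if_neg (by simp)
        rw [e3, map_zero]; simp

variable (F) in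
/-- the generator of `h Unit` -/
noncomputable def hone : hU F Unit := Hc.mk (ucoch F) ucoch_mem

theorem hval_one : hval F (hone F) = 1 := by
  change ucoch F [upt] = 1
  simp [ucoch]

theorem heps_one : heps F Unit (hone F) = hone F := by
  have e : ev (ucoch F) = ucoch F := by
    funext l
    rw [ev_apply]
    unfold ucoch
    split_ifs with h
    · subst h; simp
    · simp
  change Hc.mk (ev (ucoch F)) _ = Hc.mk (ucoch F) _
  congr 1

theorem hval_inj : Function.Injective (hval F) := by
  rw [← LinearMap.ker_eq_bot, LinearMap.ker_eq_bot']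
  intro x hx
  obtain ⟨φ, hφ, rfl⟩ := Hc.mk_surj x
  rw [hval_mk] at hx
  rw [Hc.mk_eq_zero, mem_Bc]
  obtain ⟨N, hN, h1⟩ := mem_Sp_singleton.1 hφ.1
  obtain ⟨W, hW, h2⟩ := hφ.2
  classical
  let ψ : List (OnePoint Unit) → F := fun l => if upt ∈ l then φ (upt :: l) else 0
  refine ⟨ψ, mem_Sp_singleton.2 ⟨{∞}, isOpen_inf.mem_nhds rfl, fun l hl => ?_⟩, _, diag_open,
    fun l hl => ?_⟩
  · refine if_neg fun h => ?_
    have := hl upt h
    simp at this
  · rw [Pi.sub_apply]
    rcases l with _ | ⟨x, l⟩
    · simp [Sp_nil hφ.1]
    · have hall : ∀ y ∈ x :: l, y = x := fun y hy => (hl x (by simp) y hy).symm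
      rcases upt_cases x with rfl | rfl
      · have e : d ψ (∞ :: l) = 0 := d_eq_zero fun m hm => if_neg fun h => by
          have := hall upt (hm h)
          simp at this
        rw [e, h1, sub_zero]
        intro y hy
        rw [hall y hy]
        exact mem_of_mem_nhds hN
      · rcases l with _ | ⟨y, l⟩
        · have e : d ψ [upt] = 0 := by rw [d_cons]; simp [ψ]
          rw [e, hx, sub_zero]
        · have hy : y = upt := hall y (by simp)
          subst hy
          -- on lists of length at least two
          have hsm : Sm W (upt :: upt :: upt :: l) := by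
            intro a ha b hb
            have h' : ∀ a ∈ upt :: upt :: upt :: l, a = upt := by
              intro a ha
              rcases List.mem_cons.1 ha with rfl | ha
              · rfl
              · exact hall a ha
            rw [h' a ha, h' b hb]
            exact subset_of_mem_nhdsSet hW (mem_diagonal upt)
          have h3 : d φ (upt :: upt :: upt :: l) = 0 := h2 _ hsm
          rw [d_cons] at h3
          have e : d ψ (upt :: upt :: l) = d (cs upt φ) (upt :: upt :: l) := by
            rw [d_cons, d_cons, d_cons, d_cons]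
            have e1 : ψ (upt :: l) = cs upt φ (upt :: l) := if_pos (by simp)
            have e2 : cs upt ψ l = cs upt (cs upt φ) l := if_pos (by simp)
            have e3 : cs upt (cs upt ψ) = cs upt (cs upt (cs upt φ)) := by
              funext m
              exact if_pos (by simp)
            rw [e1, e2, e3]
          rw [e]
          exact h3

theorem hval_bij : Function.Bijective (hval F) := by
  refine ⟨hval_inj, fun c => ⟨c • hone F, ?_⟩⟩
  rw [_root_.map_smul, hval_one, smul_eq_mul, mul_one]

variable (F) in
/-- `h Unit = F` -/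
noncomputable def hvalE : hU F Unit ≃ₗ[F] F := LinearEquiv.ofBijective (hval F) hval_bij

theorem hone_smul (x : hU F Unit) : x = hval F x • hone F := by
  apply hval_inj
  rw [_root_.map_smul, hval_one, smul_eq_mul, mul_one]

end Crest.Agent.R090.AS58
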