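import Crest.Agent.R090.Cross_965
import Crest.Agent.R090.AS6_58

/-!
# Row 90, block HOM (owner helper811): the unit law of the cross product

`one_cr : cross F Unit U (hone F) x = hmap F (PMap.ofHomeo (Homeomorph.punitProd U)) x`.
-/

set_option autoImplicit false

open Filter Topology Set OnePoint

namespace Crest.Agent.R090.OneCr811

open Crest.Agent.R090.AS58 Crest.Agent.R090.Sp962 Crest.Agent.R090.Cross965

variable {F : Type} [CommRing F]

theorem cr_uc_tail {Y : Type} (φ : List Unit → F) (h : ∀ m : List Unit, m ≠ [] → φ m = 0)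
    (ψ : List Y → F) : ∀ l : List (Unit × Y), cr φ ψ l = 0
  | [] => rfl
  | z :: l => by
    have e : cs z.1 φ = 0 := by
      funext m
      exact h _ (by simp)
    rw [cr_cons, h _ (by simp), e, cr_zero_left]
    simp

theorem cr_uc {Y : Type} (φ : List Unit → F) (h1 : φ [()] = 1)
    (h : ∀ m : List Unit, m.length ≠ 1 → φ m = 0) (ψ : List Y → F) (h0 : ψ [] = 0) :
    ∀ l : List (Unit × Y), cr φ ψ l = ψ (l.map Prod.snd)
  | [] => by simp [h0]
  | (u, y) :: l => by
    obtain rfl : u = () := rfl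
    rw [cr_cons, cr_uc_tail (cs () φ) (fun m hm => h _ ?_) ψ l, h1]
    · simp
    · intro h2
      apply hm
      simpa using h2

theorem pull_ucoch (m : List Unit) :
    pull (co Unit) (ucoch F) m = if m.length = 1 then 1 else 0 := by
  rw [pull_apply]
  unfold ucoch
  congr 1
  apply propext
  constructor
  · intro h
    simpa using congrArg List.length h
  · intro h
    obtain ⟨a, rfl⟩ := List.length_eq_one_iff.1 h
    rfl

theorem one_cr {U : Type} [TopologicalSpace U] [T2Space U] [LocallyCompactSpace U] (x : hU F U) :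
    cross F Unit U (hone F) x = hmap F (PMap.ofHomeo (Homeomorph.punitProd U)) x := by
  obtain ⟨ψ, hψ, rfl⟩ := Hc.mk_surj x
  have h2 := (zc_iff.1 hψ).1
  obtain ⟨χ, hχ⟩ := exists_cr (zc_iff.1 (ucoch_mem (F := F))).1 h2
  rw [hone, cross_mk ucoch_mem hψ hχ, hmap_mk, Hc.mk_eq_mk]
  refine LZ_le_Bc _ (sub_mem_LZ_of_eqAt fun z => ?_)
  have hA := EqAt.pull (f := PMap.ofHomeo (Homeomorph.punitProd U)) (x := ∞)
    (PMap.ofHomeo (Homeomorph.punitProd U)).cont.continuousAt (φ := ψ) (ψ := 0)
    (by rw [PMap.map_inf]; exact h2)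
  rw [map_zero] at hA
  refine eqAt_all (hχ.inf.trans hA.symm) (fun p => ?_) z
  refine (hχ.fin p).trans (EqAt.of_eq ?_)
  rw [pull_cr']
  funext l
  rw [cr_uc (pull (co Unit) (ucoch F)) (by rw [pull_ucoch]; simp)
    (fun m hm => by rw [pull_ucoch, if_neg hm]) _ (by simpa using h2.nil) l]
  rw [pull_apply, pull_apply, pull_apply, List.map_map, List.map_map]
  rfl

end Crest.Agent.R090.OneCr811
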