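import Crest.Agent.R090.CohY_811
import Crest.Agent.R090.ASCoh_149
import Crest.Agent.R090.OneCr_811

/-!
# Row 90, block HOM (owner helper811): 58's Alexander-Spanier theory is a `CohY`

`cohYOf L hdel : CohY F` for 149's `asCoh L` (`L : LesData F`, the exact triangle) and the
compatibility `hdel` of the connecting map with the cross product.
-/

set_option autoImplicit false
set_option linter.unusedSectionVars false

namespace Crest.Agent.R090.CohInst811

open Topology Set OnePoint
open Crest.Agent.R090.Sp962 Crest.Agent.R090.St528 Crest.Agent.R090.CohT253
open Crest.Agent.R090.ASCoh_149 Crest.Agent.R090.CohY811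

variable {F : Type} [Field F]

/-- compatibility of the connecting map with the cross product -/
def DelCr (L : LesData F) : Prop :=
  ∀ {K U O V : Type} [TopologicalSpace K] [TopologicalSpace U] [TopologicalSpace O]
    [TopologicalSpace V] [T2Space K] [LocallyCompactSpace K] [T2Space U] [LocallyCompactSpace U]
    [T2Space O] [LocallyCompactSpace O] [T2Space V] [LocallyCompactSpace V] (D : Dec K U O)
    (x : AS58.hU F K) (y : AS58.hU F V),
    Cross965.cross F O V (L.del D x) y = L.del (decX D V) (Cross965.cross F K V x y)

/-- **58's theory with all its structure** -/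
noncomputable def cohYOf (L : LesData F) (hdel : DelCr L) : CohY F :=
  { asCoh L with
    hmap := fun h x => AS58.hmap_eq h x
    cr := fun U V _ _ _ _ _ _ => Cross965.cross F U V
    cr_map := fun f g x y => Cross965.cross_map f g x y
    cr_assoc := fun x y z => Cross965.cross_assoc x y z
    cr_comm_even := fun x y h => Cross965.cross_comm_even x y h
    cr_comm_odd := fun x y h => Cross965.cross_comm_odd x y h
    eps_cr := fun x y => Cross965.eps_cross x y
    del_cr := fun D x y => hdel D x y
    one := AS58.hone F
    eps_one := AS58.heps_one
    one_ne := fun h => by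
      have h1 := AS58.hval_one (F := F)
      rw [h] at h1
      exact zero_ne_one ((map_zero _).symm.trans h1)
    one_gen := fun x => ⟨AS58.hval F x, AS58.hone_smul x⟩
    one_cr := fun x => OneCr811.one_cr x }

theorem cohYOf_toCoh (L : LesData F) (hdel : DelCr L) : (cohYOf L hdel).toCoh = asCoh L := rfl

end Crest.Agent.R090.CohInst811
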