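import Crest.Agent.R090.LesC_412
import Crest.Agent.R090.CohInst_811

/-!
# Row 90, HOM: the complete theory `cohAS F : CohY F`, no hypotheses (helper412)
-/

set_option autoImplicit false

namespace Crest.Agent.R090.CohAS412

open Crest.Agent.R090.CohInst811 Crest.Agent.R090.CohY811

variable (F : Type) [Field F]

/-- compatibility of the connecting map with the cross product -/
theorem delCr : DelCr (Les412.lesData F) := by
  intro K U O V _ _ _ _ _ _ _ _ _ _ _ _ D x y
  exact Les412.del_cross D x y

/-- **Alexander-Spanier cohomology with compact supports, with all its structure** -/
noncomputable def cohAS : CohY F := cohYOf (Les412.lesData F) (delCr F)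

theorem cohAS_toCoh : (cohAS F).toCoh = Les412.coh F := rfl

end Crest.Agent.R090.CohAS412

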