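import Mathlib

/-!
# Row 90, DUAL: formal duality by induction on the target (owner helper698)

Abstract part, in a preadditive symmetric monoidal category.  `X` is fixed.  For a target `W` we
consider `Surj W` and `Inj W`; both hold for the unit, are stable under `W ↦ W ⊗ R` and under
cones.  At the end `W = X` gives a (one sided) dual of `X`.
-/

set_option autoImplicit false
set_option linter.unusedSectionVars false

open CategoryTheory MonoidalCategory BraidedCategory Limits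

namespace Crest.Agent.R090.Dual698

universe v u

variable {C : Type u} [Category.{v} C] [MonoidalCategory C] [SymmetricCategory C]

/-- exchange `X ⊗ (F ⊗ A) ⟶ F ⊗ (X ⊗ A)` -/
def bX (X F A : C) : X ⊗ (F ⊗ A) ⟶ F ⊗ (X ⊗ A) :=
  (α_ X F A).inv ≫ (β_ X F).hom ▷ A ≫ (α_ F X A).hom

theorem bX_natural (X F : C) {A B : C} (a : A ⟶ B) :
    X ◁ (F ◁ a) ≫ bX X F B = bX X F A ≫ F ◁ (X ◁ a) := by
  unfold bX
  simp only [Category.assoc]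
  rw [associator_inv_naturality_right_assoc, whisker_exchange_assoc, associator_naturality_right]

theorem bX_natural_left (X : C) {F F' : C} (f : F ⟶ F') (A : C) :
    X ◁ (f ▷ A) ≫ bX X F' A = bX X F A ≫ f ▷ (X ⊗ A) := by
  unfold bX
  simp only [Category.assoc]
  rw [associator_inv_naturality_middle_assoc, ← comp_whiskerRight_assoc,
    braiding_naturality_right, comp_whiskerRight_assoc, associator_naturality_left]

theorem bX_tensor (X F G A : C) :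
    X ◁ (α_ F G A).hom ≫ bX X F (G ⊗ A) ≫ F ◁ bX X G A =
      bX X (F ⊗ G) A ≫ (α_ F G (X ⊗ A)).hom := by
  unfold bX
  rw [BraidedCategory.braiding_tensor_right_hom]
  monoidal

theorem bX_assoc_right (X F A W : C) :
    (α_ X (F ⊗ A) W).inv ≫ bX X F A ▷ W ≫ (α_ F (X ⊗ A) W).hom =
      X ◁ (α_ F A W).hom ≫ bX X F (A ⊗ W) ≫ F ◁ (α_ X A W).inv := by
  unfold bX
  monoidal

theorem bX_unit (X A : C) : bX X (𝟙_ C) A = X ◁ (λ_ A).hom ≫ (λ_ (X ⊗ A)).inv := by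
  unfold bX
  rw [braiding_tensorUnit_right]
  monoidal

/-- pairing -/
def Th {X A B E W : C} (g : A ⟶ B ⊗ W) (u : X ⊗ B ⟶ E) : X ⊗ A ⟶ E ⊗ W :=
  X ◁ g ≫ (α_ X B W).inv ≫ u ▷ W

/-- suspension of a map into `B ⊗ W` -/
def sG {A B W : C} (F : C) (g : A ⟶ B ⊗ W) : F ⊗ A ⟶ (F ⊗ B) ⊗ W :=
  F ◁ g ≫ (α_ F B W).inv

/-- suspension of a functional -/
def sU {X B E : C} (F : C) (u : X ⊗ B ⟶ E) : X ⊗ (F ⊗ B) ⟶ F ⊗ E :=
  bX X F B ≫ F ◁ u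

/-- suspension of a map `X ⊗ A ⟶ E ⊗ W` -/
def sH {X A E W : C} (F : C) (h : X ⊗ A ⟶ E ⊗ W) : X ⊗ (F ⊗ A) ⟶ (F ⊗ E) ⊗ W :=
  bX X F A ≫ F ◁ h ≫ (α_ F E W).inv

section Th

variable {X A A' B B' E E' W W' : C}

theorem Th_post (g : A ⟶ B ⊗ W) (u : X ⊗ B ⟶ E) (w : W ⟶ W') :
    Th (g ≫ B ◁ w) u = Th g u ≫ E ◁ w := by
  unfold Th
  simp only [Category.assoc, MonoidalCategory.whiskerLeft_comp]
  rw [← whisker_exchange, associator_inv_naturality_right_assoc]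

theorem Th_pre (a : A' ⟶ A) (g : A ⟶ B ⊗ W) (u : X ⊗ B ⟶ E) :
    Th (a ≫ g) u = X ◁ a ≫ Th g u := by
  unfold Th
  simp only [Category.assoc, MonoidalCategory.whiskerLeft_comp]

theorem Th_mid (g : A ⟶ B ⊗ W) (b : B ⟶ B') (u : X ⊗ B' ⟶ E) :
    Th (g ≫ b ▷ W) u = Th g (X ◁ b ≫ u) := by
  unfold Th
  simp only [Category.assoc, MonoidalCategory.whiskerLeft_comp, comp_whiskerRight]
  rw [associator_inv_naturality_middle_assoc]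

theorem Th_right (g : A ⟶ B ⊗ W) (u : X ⊗ B ⟶ E) (e : E ⟶ E') :
    Th g (u ≫ e) = Th g u ≫ e ▷ W := by
  unfold Th
  simp only [Category.assoc, comp_whiskerRight]

theorem Th_susp (F : C) (g : A ⟶ B ⊗ W) (u : X ⊗ B ⟶ E) :
    Th (sG F g) (sU F u) = sH F (Th g u) := by
  unfold Th sG sU sH
  simp only [Category.assoc, MonoidalCategory.whiskerLeft_comp, comp_whiskerRight]
  have h1 := bX_assoc_right X F B W
  have h2 := bX_natural X F g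
  have h3 : (α_ X (F ⊗ B) W).inv ≫ bX X F B ▷ W =
      X ◁ (α_ F B W).hom ≫ bX X F (B ⊗ W) ≫ F ◁ (α_ X B W).inv ≫ (α_ F (X ⊗ B) W).inv := by
    rw [← cancel_mono (α_ F (X ⊗ B) W).hom]
    simp only [Category.assoc, h1, Iso.inv_hom_id, Category.comp_id]
  have h4 : X ◁ (α_ F B W).inv ≫ X ◁ (α_ F B W).hom = 𝟙 _ := by
    rw [← MonoidalCategory.whiskerLeft_comp, Iso.inv_hom_id, MonoidalCategory.whiskerLeft_id]
  rw [reassoc_of% h3, reassoc_of% h4, reassoc_of% h2, associator_inv_naturality_middle]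

theorem sG_post (F : C) (g : A ⟶ B ⊗ W) (w : W ⟶ W') :
    sG F (g ≫ B ◁ w) = sG F g ≫ (F ⊗ B) ◁ w := by
  unfold sG
  simp only [Category.assoc, MonoidalCategory.whiskerLeft_comp]
  rw [associator_inv_naturality_right]

theorem sG_pre (F : C) (a : A' ⟶ A) (g : A ⟶ B ⊗ W) :
    sG F (a ≫ g) = F ◁ a ≫ sG F g := by
  unfold sG
  simp only [Category.assoc, MonoidalCategory.whiskerLeft_comp]

theorem sG_mid (F : C) (g : A ⟶ B ⊗ W) (b : B ⟶ B') :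
    sG F (g ≫ b ▷ W) = sG F g ≫ (F ◁ b) ▷ W := by
  unfold sG
  simp only [Category.assoc, MonoidalCategory.whiskerLeft_comp]
  rw [associator_inv_naturality_middle]

theorem sH_post (F : C) (h : X ⊗ A ⟶ E ⊗ W) (w : W ⟶ W') :
    sH F (h ≫ E ◁ w) = sH F h ≫ (F ⊗ E) ◁ w := by
  unfold sH
  simp only [Category.assoc, MonoidalCategory.whiskerLeft_comp]
  rw [associator_inv_naturality_right]

theorem sU_pre (F : C) (b : B ⟶ B') (u : X ⊗ B' ⟶ E) :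
    sU F (X ◁ b ≫ u) = X ◁ (F ◁ b) ≫ sU F u := by
  unfold sU
  rw [reassoc_of% (bX_natural X F b), MonoidalCategory.whiskerLeft_comp]

/-- two suspensions are one suspension -/
theorem sH_sH (F G : C) (h : X ⊗ A ⟶ E ⊗ W) :
    X ◁ (α_ F G A).hom ≫ sH F (sH G h) ≫ (α_ F G E).inv ▷ W = sH (F ⊗ G) h := by
  unfold sH
  simp only [Category.assoc, MonoidalCategory.whiskerLeft_comp]
  rw [reassoc_of% (bX_tensor X F G A)]
  congr 1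
  monoidal

theorem sG_sG (F G : C) (g : A ⟶ B ⊗ W) :
    (α_ F G A).hom ≫ sG F (sG G g) ≫ (α_ F G B).inv ▷ W = sG (F ⊗ G) g := by
  unfold sG
  simp only [Category.assoc, MonoidalCategory.whiskerLeft_comp]
  monoidal

theorem sU_sU (F G : C) (u : X ⊗ B ⟶ E) :
    X ◁ (α_ F G B).hom ≫ sU F (sU G u) ≫ (α_ F G E).inv = sU (F ⊗ G) u := by
  unfold sU
  simp only [Category.assoc, MonoidalCategory.whiskerLeft_comp]
  rw [reassoc_of% (bX_tensor X F G B)]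
  congr 1
  monoidal

end Th

/-! ### Additive part -/

section Add

variable [Preadditive C] [MonoidalPreadditive C]

variable {X A A' B B' E E' W W' : C}

theorem Th_add_left (g g' : A ⟶ B ⊗ W) (u : X ⊗ B ⟶ E) :
    Th (g + g') u = Th g u + Th g' u := by
  unfold Th
  simp only [MonoidalPreadditive.whiskerLeft_add, Preadditive.add_comp]

theorem Th_zero_left (u : X ⊗ B ⟶ E) : Th (0 : A ⟶ B ⊗ W) u = 0 := by
  unfold Th
  simp only [MonoidalPreadditive.whiskerLeft_zero, zero_comp]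

theorem Th_zero_right (g : A ⟶ B ⊗ W) : Th g (0 : X ⊗ B ⟶ E) = 0 := by
  unfold Th
  simp only [MonoidalPreadditive.zero_whiskerRight, comp_zero]

theorem Th_neg_left (g : A ⟶ B ⊗ W) (u : X ⊗ B ⟶ E) : Th (-g) u = - Th g u := by
  rw [eq_neg_iff_add_eq_zero, ← Th_add_left, neg_add_cancel, Th_zero_left]

theorem Th_sub_left (g g' : A ⟶ B ⊗ W) (u : X ⊗ B ⟶ E) :
    Th (g - g') u = Th g u - Th g' u := by
  rw [sub_eq_add_neg, Th_add_left, Th_neg_left, ← sub_eq_add_neg]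

theorem Th_add_right (g : A ⟶ B ⊗ W) (u u' : X ⊗ B ⟶ E) :
    Th g (u + u') = Th g u + Th g u' := by
  unfold Th
  simp only [MonoidalPreadditive.add_whiskerRight, Preadditive.comp_add]

theorem sH_zero (F : C) : sH F (0 : X ⊗ A ⟶ E ⊗ W) = 0 := by
  unfold sH
  simp only [MonoidalPreadditive.whiskerLeft_zero, zero_comp, comp_zero]

theorem sH_add (F : C) (h h' : X ⊗ A ⟶ E ⊗ W) : sH F (h + h') = sH F h + sH F h' := by
  unfold sH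
  simp only [MonoidalPreadditive.whiskerLeft_add, Preadditive.add_comp, Preadditive.comp_add]

theorem sH_neg (F : C) (h : X ⊗ A ⟶ E ⊗ W) : sH F (-h) = - sH F h := by
  rw [eq_neg_iff_add_eq_zero, ← sH_add, neg_add_cancel, sH_zero]

theorem sH_sub (F : C) (h h' : X ⊗ A ⟶ E ⊗ W) : sH F (h - h') = sH F h - sH F h' := by
  rw [sub_eq_add_neg, sH_add, sH_neg, ← sub_eq_add_neg]

theorem sG_zero (F : C) : sG F (0 : A ⟶ B ⊗ W) = 0 := by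
  unfold sG
  simp only [MonoidalPreadditive.whiskerLeft_zero, zero_comp]

theorem sG_add (F : C) (h h' : A ⟶ B ⊗ W) : sG F (h + h') = sG F h + sG F h' := by
  unfold sG
  simp only [MonoidalPreadditive.whiskerLeft_add, Preadditive.add_comp]

variable (C) in
/-- what is needed of the stable category -/
structure Data where
  /-- spheres -/
  Sph : C → Prop
  unit : Sph (𝟙_ C)
  tensor : ∀ {F G : C}, Sph F → Sph G → Sph (F ⊗ G)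
  /-- the circle -/
  R : C
  sphR : Sph R
  neg : (β_ R R).hom = - 𝟙 (R ⊗ R)
  sum : ∀ A B : C, ∃ (D : C) (i₁ : A ⟶ D) (i₂ : B ⟶ D) (p₁ : D ⟶ A) (p₂ : D ⟶ B),
    i₁ ≫ p₁ = 𝟙 A ∧ i₂ ≫ p₂ = 𝟙 B ∧ i₁ ≫ p₂ = 0 ∧ i₂ ≫ p₁ = 0
  wcok : ∀ {A B : C} (g : A ⟶ B), ∃ (F B' : C) (c : F ⊗ B ⟶ B'), Sph F ∧ F ◁ g ≫ c = 0 ∧
    ∀ {X E : C} (u : X ⊗ B ⟶ E), X ◁ g ≫ u = 0 → ∃ u' : X ⊗ B' ⟶ F ⊗ E, X ◁ c ≫ u' = sU F u

/-- every `h : X ⊗ A ⟶ E ⊗ W` is, after suspension, a pairing -/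
def Surj (D : Data C) (X W : C) : Prop :=
  ∀ (A E : C) (h : X ⊗ A ⟶ E ⊗ W), ∃ (F B : C) (g : F ⊗ A ⟶ B ⊗ W) (u : X ⊗ B ⟶ F ⊗ E),
    D.Sph F ∧ Th g u = sH F h

/-- if a pairing is zero, then there is a reason -/
def Inj (D : Data C) (X W : C) : Prop :=
  ∀ (A B E : C) (g : A ⟶ B ⊗ W) (u : X ⊗ B ⟶ E), Th g u = 0 →
    ∃ (F B' : C) (c : F ⊗ B ⟶ B') (u' : X ⊗ B' ⟶ F ⊗ E),
      D.Sph F ∧ X ◁ c ≫ u' = sU F u ∧ sG F g ≫ c ▷ W = 0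

/-- the induction statement -/
def PP (D : Data C) (X W : C) : Prop := Surj D X W ∧ Inj D X W

/-! #### The unit -/

theorem surj_unit (D : Data C) (X : C) : Surj D X (𝟙_ C) := by
  intro A E h
  refine ⟨𝟙_ C, A, (λ_ A).hom ≫ (ρ_ A).inv, h ≫ (ρ_ E).hom ≫ (λ_ E).inv, D.unit, ?_⟩
  unfold Th sH
  rw [bX_unit]
  monoidal

theorem inj_unit (D : Data C) (X : C) : Inj D X (𝟙_ C) := by
  intro A B E g u hgu
  obtain ⟨F, B', c, hF, hc, hu⟩ := D.wcok (g ≫ (ρ_ B).hom)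
  obtain ⟨u', hu'⟩ := hu u (by
    have : X ◁ (g ≫ (ρ_ B).hom) ≫ u = Th g u ≫ (ρ_ E).hom := by
      unfold Th
      monoidal
    rw [this, hgu, zero_comp])
  refine ⟨F, B', c, u', hF, hu', ?_⟩
  have : sG F g ≫ c ▷ (𝟙_ C) = (F ◁ (g ≫ (ρ_ B).hom) ≫ c) ≫ (ρ_ B').inv := by
    unfold sG
    monoidal
  rw [this, hc, zero_comp]

theorem PP_unit (D : Data C) (X : C) : PP D X (𝟙_ C) := ⟨surj_unit D X, inj_unit D X⟩

/-! #### Isomorphic targets -/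

theorem PP_iso (D : Data C) {X W W' : C} (e : W ≅ W') (h : PP D X W) : PP D X W' := by
  refine ⟨fun A E k => ?_, fun A B E g u hgu => ?_⟩
  · obtain ⟨F, B, g, u, hF, hgu⟩ := h.1 A E (k ≫ E ◁ e.inv)
    refine ⟨F, B, g ≫ B ◁ e.hom, u, hF, ?_⟩
    rw [Th_post, hgu, ← sH_post, Category.assoc, ← MonoidalCategory.whiskerLeft_comp,
      Iso.inv_hom_id, MonoidalCategory.whiskerLeft_id, Category.comp_id]
  · obtain ⟨F, B', c, u', hF, hu', hc⟩ := h.2 A B E (g ≫ B ◁ e.inv) u (by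
      rw [Th_post, hgu, zero_comp])
    refine ⟨F, B', c, u', hF, hu', ?_⟩
    have : sG F g ≫ c ▷ W' = (sG F (g ≫ B ◁ e.inv) ≫ c ▷ W) ≫ B' ◁ e.hom := by
      rw [sG_post, Category.assoc, Category.assoc, whisker_exchange_assoc,
        ← MonoidalCategory.whiskerLeft_comp, Iso.inv_hom_id, MonoidalCategory.whiskerLeft_id,
        Category.comp_id]
    rw [this, hc, zero_comp]

/-! #### Suspension of the target -/

theorem wl_neg (Z : C) {A B : C} (f : A ⟶ B) : Z ◁ (-f) = -(Z ◁ f) := by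
  rw [eq_neg_iff_add_eq_zero, ← MonoidalPreadditive.whiskerLeft_add, neg_add_cancel,
    MonoidalPreadditive.whiskerLeft_zero]

theorem wr_neg (Z : C) {A B : C} (f : A ⟶ B) : (-f) ▷ Z = -(f ▷ Z) := by
  rw [eq_neg_iff_add_eq_zero, ← MonoidalPreadditive.add_whiskerRight, neg_add_cancel,
    MonoidalPreadditive.zero_whiskerRight]

/-- the transposition of two circles is `-1` -/
theorem transpose (D : Data C) (Z : C) :
    (β_ D.R (Z ⊗ D.R)).hom ≫ (β_ Z D.R).hom ▷ D.R = - (α_ D.R Z D.R).inv := by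
  rw [BraidedCategory.braiding_tensor_right_hom, D.neg]
  simp only [wl_neg, Preadditive.neg_comp, Preadditive.comp_neg,
    Category.assoc, MonoidalCategory.whiskerLeft_id, Category.id_comp, Iso.hom_inv_id_assoc]
  rw [← comp_whiskerRight, SymmetricCategory.symmetry, MonoidalCategory.id_whiskerRight,
    Category.comp_id]

/-- double crossing -/
theorem cross (X F R A : C) :
    X ◁ ((α_ F R A).hom ≫ F ◁ (β_ R A).hom ≫ (α_ F A R).inv) ≫ (α_ X (F ⊗ A) R).inv ≫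
      bX X F A ▷ R = bX X (F ⊗ R) A ≫ (α_ F R (X ⊗ A)).hom ≫ F ◁ (β_ R (X ⊗ A)).hom ≫
        (α_ F (X ⊗ A) R).inv := by
  unfold bX
  rw [BraidedCategory.braiding_tensor_right_hom, BraidedCategory.braiding_tensor_right_hom]
  have h : (β_ X R).hom ≫ (β_ R X).hom = 𝟙 _ := SymmetricCategory.symmetry X R
  have hex := whisker_exchange (β_ X F).hom (β_ R A).hom
  trans (X ◁ (α_ F R A).hom ≫ (α_ X F (R ⊗ A)).inv) ≫
    ((β_ X F).hom ▷ (R ⊗ A) ≫ (F ⊗ X) ◁ (β_ R A).hom) ≫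
      (α_ F X (A ⊗ R)).hom ≫ F ◁ (α_ X A R).inv ≫ (α_ F (X ⊗ A) R).inv
  · rw [← hex]
    monoidal
  trans (X ◁ (α_ F R A).hom ≫ (α_ X F (R ⊗ A)).inv ≫ (β_ X F).hom ▷ (R ⊗ A) ≫
    (α_ F X (R ⊗ A)).hom ≫ F ◁ (α_ X R A).inv) ≫
      F ◁ (((β_ X R).hom ≫ (β_ R X).hom) ▷ A) ≫
      (F ◁ ((α_ X R A).hom ≫ X ◁ (β_ R A).hom ≫ (α_ X A R).inv) ≫ (α_ F (X ⊗ A) R).inv)
  · rw [h]
    monoidal
  · monoidal

/-- the suspension isomorphism of the target -/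
def tau (E W R : C) : E ⊗ (W ⊗ R) ⟶ (R ⊗ E) ⊗ W :=
  (α_ E W R).inv ≫ (β_ (E ⊗ W) R).hom ≫ (α_ R E W).inv

/-- its inverse -/
def tau' (E W R : C) : (R ⊗ E) ⊗ W ⟶ E ⊗ (W ⊗ R) :=
  (α_ R E W).hom ≫ (β_ R (E ⊗ W)).hom ≫ (α_ E W R).hom

theorem tau_tau' (E W R : C) : tau E W R ≫ tau' E W R = 𝟙 _ := by
  unfold tau tau'
  simp only [Category.assoc, Iso.inv_hom_id_assoc]
  rw [SymmetricCategory.symmetry_assoc, Iso.inv_hom_id]

/-- suspending with `R` and moving `R` back is `-1` -/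
theorem susp_tau (D : Data C) (X F A E W : C) (h : X ⊗ A ⟶ E ⊗ (W ⊗ D.R)) :
    X ◁ ((α_ F D.R A).hom ≫ F ◁ (β_ D.R A).hom ≫ (α_ F A D.R).inv) ≫ (α_ X (F ⊗ A) D.R).inv ≫
      sH F (h ≫ tau E W D.R) ▷ D.R ≫ ((α_ F D.R E).inv ▷ W) ▷ D.R ≫
        (α_ ((F ⊗ D.R) ⊗ E) W D.R).hom = - sH (F ⊗ D.R) h := by
  have hT := transpose D (E ⊗ W)
  generalize D.R = R at *
  have h1 : sH F (h ≫ tau E W R) ▷ R = bX X F A ▷ R ≫ (F ◁ (h ≫ tau E W R)) ▷ R ≫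
      (α_ F (R ⊗ E) W).inv ▷ R := by
    unfold sH
    simp only [comp_whiskerRight]
  rw [h1]
  have h2 := cross X F R A
  have h3 : F ◁ (β_ R (X ⊗ A)).hom ≫ (α_ F (X ⊗ A) R).inv ≫ (F ◁ (h ≫ tau E W R)) ▷ R =
      F ◁ (R ◁ (h ≫ (α_ E W R).inv) ≫ (β_ R ((E ⊗ W) ⊗ R)).hom ≫ (β_ (E ⊗ W) R).hom ▷ R) ≫
        F ◁ ((α_ R E W).inv ▷ R) ≫ (α_ F ((R ⊗ E) ⊗ W) R).inv := by
    rw [BraidedCategory.braiding_naturality_right_assoc]
    unfold tau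
    monoidal
  rw [hT] at h3
  simp only [Category.assoc] at h2 h3 ⊢
  rw [reassoc_of% h2, reassoc_of% h3]
  unfold sH
  rw [Preadditive.comp_neg, wl_neg]
  simp only [Preadditive.comp_neg, Preadditive.neg_comp]
  congr 1
  monoidal

theorem surj_susp (D : Data C) {X W : C} (h : Surj D X W) : Surj D X (W ⊗ D.R) := by
  intro A E k
  obtain ⟨F, B, g, u, hF, hgu⟩ := h A (D.R ⊗ E) (k ≫ tau E W D.R)
  refine ⟨F ⊗ D.R, B, -(((α_ F D.R A).hom ≫ F ◁ (β_ D.R A).hom ≫ (α_ F A D.R).inv) ≫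
    g ▷ D.R ≫ (α_ B W D.R).hom), u ≫ (α_ F D.R E).inv, D.tensor hF D.sphR, ?_⟩
  have h1 := susp_tau D X F A E W k
  rw [← hgu] at h1
  rw [Th_neg_left, neg_eq_iff_eq_neg, ← h1]
  unfold Th
  monoidal

/-- pairing and `tau` -/
theorem Th_tau {X A B E W : C} (R : C) (g : A ⟶ B ⊗ (W ⊗ R)) (u : X ⊗ B ⟶ E) :
    Th (g ≫ tau B W R) (sU R u) = Th g u ≫ tau E W R := by
  have h1 : u ▷ (W ⊗ R) ≫ (α_ E W R).inv ≫ (β_ (E ⊗ W) R).hom =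
      (α_ (X ⊗ B) W R).inv ≫ (β_ ((X ⊗ B) ⊗ W) R).hom ≫ R ◁ (u ▷ W) := by
    rw [associator_inv_naturality_left_assoc, BraidedCategory.braiding_naturality_left]
  have h2 : (β_ ((X ⊗ B) ⊗ W) R).hom = (α_ X B W).hom ▷ R ≫ (β_ (X ⊗ (B ⊗ W)) R).hom ≫
      R ◁ (α_ X B W).inv := by
    rw [← BraidedCategory.braiding_naturality_left, ← comp_whiskerRight_assoc, Iso.hom_inv_id,
      MonoidalCategory.id_whiskerRight, Category.id_comp]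
  unfold Th tau sU bX
  simp only [Category.assoc, MonoidalCategory.whiskerLeft_comp, comp_whiskerRight]
  rw [reassoc_of% h1, h2, BraidedCategory.braiding_tensor_left_hom X (B ⊗ W) R]
  monoidal

theorem susp_tau' (D : Data C) (F A B W : C) (g : A ⟶ B ⊗ (W ⊗ D.R)) :
    ((α_ F D.R A).hom ≫ F ◁ (β_ D.R A).hom ≫ (α_ F A D.R).inv) ≫
      sG F (g ≫ tau B W D.R) ▷ D.R ≫ ((α_ F D.R B).inv ▷ W) ▷ D.R ≫
        (α_ ((F ⊗ D.R) ⊗ B) W D.R).hom = - sG (F ⊗ D.R) g := by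
  have hT := transpose D (B ⊗ W)
  generalize D.R = R at *
  have h1 : sG F (g ≫ tau B W R) ▷ R = (F ◁ (g ≫ tau B W R)) ▷ R ≫
      (α_ F (R ⊗ B) W).inv ▷ R := by
    unfold sG
    simp only [comp_whiskerRight]
  rw [h1]
  have h3 : F ◁ (β_ R A).hom ≫ (α_ F A R).inv ≫ (F ◁ (g ≫ tau B W R)) ▷ R =
      F ◁ (R ◁ (g ≫ (α_ B W R).inv) ≫ (β_ R ((B ⊗ W) ⊗ R)).hom ≫ (β_ (B ⊗ W) R).hom ▷ R) ≫
        F ◁ ((α_ R B W).inv ▷ R) ≫ (α_ F ((R ⊗ B) ⊗ W) R).inv := by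
    rw [BraidedCategory.braiding_naturality_right_assoc]
    unfold tau
    monoidal
  rw [hT] at h3
  simp only [Category.assoc] at h3 ⊢
  rw [reassoc_of% h3]
  unfold sG
  rw [Preadditive.comp_neg, wl_neg]
  simp only [Preadditive.comp_neg, Preadditive.neg_comp]
  congr 1
  monoidal

theorem inj_susp (D : Data C) {X W : C} (h : Inj D X W) : Inj D X (W ⊗ D.R) := by
  intro A B E g u hgu
  obtain ⟨F, B', c, u', hF, hu', hc⟩ := h A (D.R ⊗ B) (D.R ⊗ E) (g ≫ tau B W D.R) (sU D.R u) (by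
    rw [Th_tau, hgu, zero_comp])
  refine ⟨F ⊗ D.R, B', (α_ F D.R B).hom ≫ c, u' ≫ (α_ F D.R E).inv, D.tensor hF D.sphR, ?_, ?_⟩
  · rw [← sU_sU, MonoidalCategory.whiskerLeft_comp, Category.assoc, reassoc_of% hu']
  · have h1 := susp_tau' D F A B W g
    rw [← neg_eq_zero, ← Preadditive.neg_comp, ← h1]
    have h2 : (((α_ F D.R A).hom ≫ F ◁ (β_ D.R A).hom ≫ (α_ F A D.R).inv) ≫
        sG F (g ≫ tau B W D.R) ▷ D.R ≫ ((α_ F D.R B).inv ▷ W) ▷ D.R ≫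
          (α_ ((F ⊗ D.R) ⊗ B) W D.R).hom) ≫ ((α_ F D.R B).hom ≫ c) ▷ (W ⊗ D.R) =
        ((α_ F D.R A).hom ≫ F ◁ (β_ D.R A).hom ≫ (α_ F A D.R).inv) ≫
          (sG F (g ≫ tau B W D.R) ≫ c ▷ W) ▷ D.R ≫ (α_ B' W D.R).hom := by
      monoidal
    rw [h2, hc, MonoidalPreadditive.zero_whiskerRight, zero_comp, comp_zero]

theorem PP_susp (D : Data C) {X W : C} (h : PP D X W) : PP D X (W ⊗ D.R) :=
  ⟨surj_susp D h.1, inj_susp D h.2⟩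

/-! #### Cones -/

/-- an exact triangle `P ⟶ Q ⟶ W ⟶ P ⊗ R` (only covariant exactness, tensored with `B`) -/
structure Tri (D : Data C) (P Q W : C) where
  f : P ⟶ Q
  i : Q ⟶ W
  p : W ⟶ P ⊗ D.R
  fi : f ≫ i = 0
  ip : i ≫ p = 0
  pf : p ≫ f ▷ D.R = 0
  ex1 : ∀ {A B : C} (h : A ⟶ B ⊗ Q), h ≫ B ◁ i = 0 → ∃ k : A ⟶ B ⊗ P, k ≫ B ◁ f = h
  ex2 : ∀ {A B : C} (h : A ⟶ B ⊗ W), h ≫ B ◁ p = 0 → ∃ k : A ⟶ B ⊗ Q, k ≫ B ◁ i = h
  ex3 : ∀ {A B : C} (h : A ⟶ B ⊗ (P ⊗ D.R)), h ≫ B ◁ (f ▷ D.R) = 0 →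
    ∃ k : A ⟶ B ⊗ W, k ≫ B ◁ p = h

theorem merge (F G : C) (h : X ⊗ A ⟶ E ⊗ W) (g : F ⊗ (G ⊗ A) ⟶ B ⊗ W)
    (u : X ⊗ B ⟶ F ⊗ (G ⊗ E)) (e : Th g u = sH F (sH G h)) :
    Th ((α_ F G A).hom ≫ g) (u ≫ (α_ F G E).inv) = sH (F ⊗ G) h := by
  rw [Th_pre, Th_right, e, sH_sH]

theorem merge_inj (F G : C) (g : A ⟶ B ⊗ W) (u : X ⊗ B ⟶ E) (c : F ⊗ (G ⊗ B) ⟶ B')
    (u' : X ⊗ B' ⟶ F ⊗ (G ⊗ E)) (e : X ◁ c ≫ u' = sU F (sU G u))
    (e' : sG F (sG G g) ≫ c ▷ W = 0) :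
    X ◁ ((α_ F G B).hom ≫ c) ≫ (u' ≫ (α_ F G E).inv) = sU (F ⊗ G) u ∧
      sG (F ⊗ G) g ≫ ((α_ F G B).hom ≫ c) ▷ W = 0 := by
  constructor
  · rw [← sU_sU, MonoidalCategory.whiskerLeft_comp, Category.assoc, reassoc_of% e]
  · have h2 : (α_ F G B).inv ▷ W ≫ (α_ F G B).hom ▷ W = 𝟙 _ := by
      rw [← comp_whiskerRight, Iso.inv_hom_id, MonoidalCategory.id_whiskerRight]
    rw [← sG_sG, comp_whiskerRight]
    simp only [Category.assoc]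
    rw [reassoc_of% h2, e', comp_zero]

theorem surj_cone (D : Data C) {X P Q W : C} (T : Tri D P Q W) (hP : Surj D X (P ⊗ D.R))
    (hQ' : Inj D X (Q ⊗ D.R)) (hQ : Surj D X Q) : Surj D X W := by
  intro A E h
  obtain ⟨F₁, B₁, g₁, u₁, hF₁, e₁⟩ := hP A E (h ≫ E ◁ T.p)
  have z₁ : Th (g₁ ≫ B₁ ◁ (T.f ▷ D.R)) u₁ = 0 := by
    rw [Th_post, e₁, ← sH_post, Category.assoc, ← MonoidalCategory.whiskerLeft_comp, T.pf,
      MonoidalPreadditive.whiskerLeft_zero, comp_zero, sH_zero]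
  obtain ⟨F₂, B₂, c, u₂, hF₂, hu₂, hc⟩ := hQ' _ _ _ _ u₁ z₁
  obtain ⟨g₂, hg₂⟩ := T.ex3 (sG F₂ g₁ ≫ c ▷ (P ⊗ D.R)) (by
    rw [Category.assoc, ← whisker_exchange, ← Category.assoc, ← sG_post, hc])
  have z₂ : (sH F₂ (sH F₁ h) - Th g₂ u₂) ≫ (F₂ ⊗ (F₁ ⊗ E)) ◁ T.p = 0 := by
    rw [Preadditive.sub_comp, ← sH_post, ← sH_post, ← Th_post, hg₂, Th_mid, hu₂, Th_susp, e₁,
      sub_self]
  obtain ⟨d, hd⟩ := T.ex2 _ z₂
  obtain ⟨F₃, B₃, g₃, u₃, hF₃, e₃⟩ := hQ _ _ d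
  obtain ⟨S, i₁, i₂, p₁, p₂, h11, h22, h12, h21⟩ := D.sum (F₃ ⊗ B₂) B₃
  have e : Th (sG F₃ g₂ ≫ i₁ ▷ W + (g₃ ≫ B₃ ◁ T.i) ≫ i₂ ▷ W)
      (X ◁ p₁ ≫ sU F₃ u₂ + X ◁ p₂ ≫ u₃) = sH F₃ (sH F₂ (sH F₁ h)) := by
    have a1 : X ◁ i₁ ≫ (X ◁ p₁ ≫ sU F₃ u₂ + X ◁ p₂ ≫ u₃) = sU F₃ u₂ := by
      rw [Preadditive.comp_add, ← MonoidalCategory.whiskerLeft_comp_assoc,
        ← MonoidalCategory.whiskerLeft_comp_assoc, h11, h12, MonoidalPreadditive.whiskerLeft_zero,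
        zero_comp, add_zero, MonoidalCategory.whiskerLeft_id, Category.id_comp]
    have a2 : X ◁ i₂ ≫ (X ◁ p₁ ≫ sU F₃ u₂ + X ◁ p₂ ≫ u₃) = u₃ := by
      rw [Preadditive.comp_add, ← MonoidalCategory.whiskerLeft_comp_assoc,
        ← MonoidalCategory.whiskerLeft_comp_assoc, h21, h22, MonoidalPreadditive.whiskerLeft_zero,
        zero_comp, zero_add, MonoidalCategory.whiskerLeft_id, Category.id_comp]
    rw [Th_add_left, Th_mid, Th_mid, a1, a2, Th_susp, Th_post, e₃, ← sH_post, hd, ← sH_add,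
      add_sub_cancel]
  have e' := merge F₃ F₂ (sH F₁ h) _ _ e
  have e'' := merge (F₃ ⊗ F₂) F₁ h _ _ e'
  exact ⟨(F₃ ⊗ F₂) ⊗ F₁, S, _, _, D.tensor (D.tensor hF₃ hF₂) hF₁, e''⟩

theorem inj_cone (D : Data C) {X P Q W : C} (T : Tri D P Q W) (hP' : Inj D X (P ⊗ D.R))
    (hP : Surj D X P) (hQ : Inj D X Q) : Inj D X W := by
  intro A B E g u hgu
  obtain ⟨F₁, B₁, c₁, u₁, hF₁, hu₁, hc₁⟩ := hP' A B E (g ≫ B ◁ T.p) u (by
    rw [Th_post, hgu, zero_comp])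
  obtain ⟨gq, hgq⟩ := T.ex2 (sG F₁ g ≫ c₁ ▷ W) (by
    rw [Category.assoc, ← whisker_exchange, ← Category.assoc, ← sG_post, hc₁])
  obtain ⟨w, hw⟩ := T.ex1 (Th gq u₁) (by
    rw [← Th_post, hgq, Th_mid, hu₁, Th_susp, hgu, sH_zero])
  obtain ⟨F₂, B₂, g₂, u₂, hF₂, e₂⟩ := hP _ _ w
  obtain ⟨S, i₁, i₂, p₁, p₂, h11, h22, h12, h21⟩ := D.sum (F₂ ⊗ B₁) B₂
  have a1 : X ◁ i₁ ≫ (X ◁ p₁ ≫ sU F₂ u₁ + X ◁ p₂ ≫ u₂) = sU F₂ u₁ := by
    rw [Preadditive.comp_add, ← MonoidalCategory.whiskerLeft_comp_assoc,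
      ← MonoidalCategory.whiskerLeft_comp_assoc, h11, h12, MonoidalPreadditive.whiskerLeft_zero,
      zero_comp, add_zero, MonoidalCategory.whiskerLeft_id, Category.id_comp]
  have a2 : X ◁ i₂ ≫ (X ◁ p₁ ≫ sU F₂ u₁ + X ◁ p₂ ≫ u₂) = u₂ := by
    rw [Preadditive.comp_add, ← MonoidalCategory.whiskerLeft_comp_assoc,
      ← MonoidalCategory.whiskerLeft_comp_assoc, h21, h22, MonoidalPreadditive.whiskerLeft_zero,
      zero_comp, zero_add, MonoidalCategory.whiskerLeft_id, Category.id_comp]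
  obtain ⟨F₃, B₃, c₃, u₃, hF₃, hu₃, hc₃⟩ := hQ _ _ _
    (sG F₂ gq ≫ i₁ ▷ Q - (g₂ ≫ B₂ ◁ T.f) ≫ i₂ ▷ Q) (X ◁ p₁ ≫ sU F₂ u₁ + X ◁ p₂ ≫ u₂) (by
      rw [Th_sub_left, Th_mid, Th_mid, a1, a2, Th_susp, Th_post, e₂, ← sH_post, hw, sub_self])
  have e : X ◁ (F₃ ◁ (F₂ ◁ c₁ ≫ i₁) ≫ c₃) ≫ u₃ = sU F₃ (sU F₂ (sU F₁ u)) := by
    rw [MonoidalCategory.whiskerLeft_comp, Category.assoc, hu₃, ← sU_pre,
      MonoidalCategory.whiskerLeft_comp, Category.assoc, a1, ← sU_pre, hu₁]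
  have e' : sG F₃ (sG F₂ (sG F₁ g)) ≫ (F₃ ◁ (F₂ ◁ c₁ ≫ i₁) ≫ c₃) ▷ W = 0 := by
    rw [comp_whiskerRight, ← Category.assoc, ← sG_mid, comp_whiskerRight, ← Category.assoc,
      ← sG_mid, ← hgq, sG_post, Category.assoc, whisker_exchange]
    have b1 : sG F₂ gq ≫ i₁ ▷ Q ≫ S ◁ T.i =
        (sG F₂ gq ≫ i₁ ▷ Q - (g₂ ≫ B₂ ◁ T.f) ≫ i₂ ▷ Q) ≫ S ◁ T.i := by
      have b0 : B₂ ◁ T.f ≫ i₂ ▷ Q ≫ S ◁ T.i = 0 := by
        rw [← whisker_exchange, ← MonoidalCategory.whiskerLeft_comp_assoc, T.fi,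
          MonoidalPreadditive.whiskerLeft_zero, zero_comp]
      simp only [Preadditive.sub_comp, Category.assoc, b0, comp_zero, sub_zero]
    rw [b1, sG_post, Category.assoc, whisker_exchange, ← Category.assoc, hc₃, zero_comp]
  obtain ⟨e1, e1'⟩ := merge_inj F₃ F₂ (sG F₁ g) (sU F₁ u) _ _ e e'
  obtain ⟨e2, e2'⟩ := merge_inj (F₃ ⊗ F₂) F₁ g u _ _ e1 e1'
  exact ⟨(F₃ ⊗ F₂) ⊗ F₁, B₃, _, _, D.tensor (D.tensor hF₃ hF₂) hF₁, e2, e2'⟩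

theorem PP_cone (D : Data C) {X P Q W : C} (T : Tri D P Q W) (hP : PP D X P) (hQ : PP D X Q) :
    PP D X W :=
  ⟨surj_cone D T (surj_susp D hP.1) (inj_susp D hQ.2) hQ.1,
    inj_cone D T (inj_susp D hP.2) hP.1 hQ.2⟩

/-- the dual: one triangle identity -/
theorem exists_dual (D : Data C) {X M : C} (hM : PP D X M) (r : X ⟶ M) :
    ∃ (F B : C) (g : F ⟶ B ⊗ M) (u : X ⊗ B ⟶ F), D.Sph F ∧
      X ◁ g ≫ (α_ X B M).inv ≫ u ▷ M = (β_ X F).hom ≫ F ◁ r := by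
  obtain ⟨F, B, g, u, hF, e⟩ := hM.1 (𝟙_ C) (𝟙_ C) ((ρ_ X).hom ≫ r ≫ (λ_ M).inv)
  refine ⟨F, B, (ρ_ F).inv ≫ g, u ≫ (ρ_ F).hom, hF, ?_⟩
  have h1 : X ◁ ((ρ_ F).inv ≫ g) ≫ (α_ X B M).inv ≫ (u ≫ (ρ_ F).hom) ▷ M =
      X ◁ (ρ_ F).inv ≫ Th g u ≫ (ρ_ F).hom ▷ M := by
    unfold Th
    simp only [Category.assoc, MonoidalCategory.whiskerLeft_comp, comp_whiskerRight]
  rw [h1, e]
  unfold sH bX
  monoidal

end Add

end Crest.Agent.R090.Dual698
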