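import Crest.Agent.R090.St2_528
import Crest.Agent.R090.Lin_202

/-!
# Row 90, T1: smash product of a stable map with a fixed space (owner helper202)

* rules for `HC.conj e e' a = (hh e') ∘ a ∘ (hh e.symm)`;
* `St.smR W a : St (X × W) (Y × W)` and `St.smL W a : St (W × X) (W × Y)` for `a : St X Y`:
  additive functors, `smR (ofP f) = ofP (f.smash id)`.
-/

set_option autoImplicit false
set_option linter.unusedSectionVars false
set_option linter.style.haveILetI false

open Topology Filter Set

noncomputable section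

/-! ## conjugation by homeomorphisms -/

namespace Crest.Agent.R090.Sp962

universe u v u' v'

variable {U : Type u} {V : Type v} {U' : Type u'} {V' : Type v'}
  [TopologicalSpace U] [TopologicalSpace V] [TopologicalSpace U'] [TopologicalSpace V']

/-- conjugation of a pointed map by homeomorphisms -/
def PMap.conj (e : U ≃ₜ U') (e' : V ≃ₜ V') (f : PMap U V) :
    PMap U' V' := (PMap.ofHomeo e').comp (f.comp (PMap.ofHomeo e.symm))

/-- conjugation of a class by homeomorphisms -/
def HC.conj (e : U ≃ₜ U') (e' : V ≃ₜ V') (a : HC U V) : HC U' V' :=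
  (HC.mk (PMap.ofHomeo e')).comp (a.comp (HC.mk (PMap.ofHomeo e.symm)))

end Crest.Agent.R090.Sp962

namespace Crest.Agent.R090.Sm202

open OnePoint Crest.Agent.R090.Sp962 Crest.Agent.R090.Grp528 Crest.Agent.R090.St528

universe u v w x u' v' w' x' u'' v'' a' b'

/-! ## homeomorphisms -/

section homeo

variable (A : Type u) (B : Type v) (C : Type w) [TopologicalSpace A] [TopologicalSpace B]
  [TopologicalSpace C]

/-- `(A × B) × C ≃ (A × C) × B` -/
@[simps] def swR : (A × B) × C ≃ₜ (A × C) × B where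
  toFun p := ((p.1.1, p.2), p.1.2)
  invFun p := ((p.1.1, p.2), p.1.2)
  left_inv _ := rfl
  right_inv _ := rfl
  continuous_toFun := by fun_prop
  continuous_invFun := by fun_prop

/-- `(A × B) × C ≃ A × (B × C)` -/
@[simps] def asC : (A × B) × C ≃ₜ A × (B × C) where
  toFun p := (p.1.1, (p.1.2, p.2))
  invFun p := ((p.1, p.2.1), p.2.2)
  left_inv _ := rfl
  right_inv _ := rfl
  continuous_toFun := by fun_prop
  continuous_invFun := by fun_prop

end homeo

section conj

variable {U : Type u} {V : Type v} {W : Type w} {U' : Type u'} {V' : Type v'} {W' : Type w'}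
  {U'' : Type u''} {V'' : Type v''}
  [TopologicalSpace U] [TopologicalSpace V] [TopologicalSpace W] [TopologicalSpace U']
  [TopologicalSpace V'] [TopologicalSpace W'] [TopologicalSpace U''] [TopologicalSpace V'']

@[simp] theorem conj_mk (e : U ≃ₜ U') (e' : V ≃ₜ V') (f : PMap U V) :
    (HC.mk f).conj e e' = HC.mk (f.conj e e') := rfl

theorem conj_def (e : U ≃ₜ U') (e' : V ≃ₜ V') (a : HC U V) :
    a.conj e e' = (hh e').comp (a.comp (hh e.symm)) := rfl

theorem hh_symm_congr {e f : U ≃ₜ V} (h : hh e = hh f) : hh e.symm = hh f.symm := by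
  rw [← comp_h1 (hh e.symm), ← hh_comp_symm f, ← HC.comp_assoc, ← h, hh_symm_comp, h1_comp]

theorem conj_comp_conj (e : U ≃ₜ U') (e' : V ≃ₜ V') (e'' : W ≃ₜ W') (b : HC V W) (a : HC U V) :
    (b.conj e' e'').comp (a.conj e e') = (b.comp a).conj e e'' := by
  simp only [conj_def, HC.comp_assoc, hh_symm_comp_assoc]

@[simp] theorem conj_h1 (e : U ≃ₜ U') : (h1 U).conj e e = h1 U' := by
  rw [conj_def, h1_comp, hh_comp_symm]

@[simp] theorem conj_hzero (e : U ≃ₜ U') (e' : V ≃ₜ V') :
    (hzero U V).conj e e' = hzero U' V' :=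
  congrArg HC.mk (PMap.ext fun _ => rfl)

@[simp] theorem conj_refl (a : HC U V) :
    a.conj (Homeomorph.refl U) (Homeomorph.refl V) = a := by
  change (hh (Homeomorph.refl V)).comp (a.comp (hh (Homeomorph.refl U))) = a
  rw [hh_refl, hh_refl, comp_h1, h1_comp]

theorem conj_conj (e : U ≃ₜ U') (e' : V ≃ₜ V') (f : U' ≃ₜ U'') (f' : V' ≃ₜ V'') (a : HC U V) :
    (a.conj e e').conj f f' = a.conj (e.trans f) (e'.trans f') := by
  have h : (e.trans f).symm = f.symm.trans e.symm := rfl
  rw [conj_def, conj_def, conj_def, h, hh_trans, hh_trans]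
  simp only [HC.comp_assoc]

theorem conj_symm_conj (e : U ≃ₜ U') (e' : V ≃ₜ V') (a : HC U V) :
    (a.conj e e').conj e.symm e'.symm = a := by
  rw [conj_conj, Homeomorph.self_trans_symm, Homeomorph.self_trans_symm, conj_refl]

theorem conj_injective (e : U ≃ₜ U') (e' : V ≃ₜ V') :
    Function.Injective (HC.conj e e' : HC U V → HC U' V') := fun a b h => by
  rw [← conj_symm_conj e e' a, h, conj_symm_conj]

theorem conj_congr {e f : U ≃ₜ U'} {e' f' : V ≃ₜ V'} (h : hh e = hh f) (h' : hh e' = hh f')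
    (a : HC U V) : a.conj e e' = a.conj f f' := by
  rw [conj_def, conj_def, h', hh_symm_congr h]

theorem conj_ext {e f : U ≃ₜ U'} {e' f' : V ≃ₜ V'} (h : ∀ x, e x = f x) (h' : ∀ x, e' x = f' x)
    (a : HC U V) : a.conj e e' = a.conj f f' := by
  rw [Homeomorph.ext h, Homeomorph.ext h']

theorem hh_comp_eq_conj (e : U ≃ₜ U') (e' : V ≃ₜ V') (a : HC U V) :
    (a.conj e e').comp (hh e) = (hh e').comp a := by
  rw [conj_def, HC.comp_assoc, HC.comp_assoc, hh_symm_comp, comp_h1]

section smash

variable [T2Space U] [T2Space V] [T2Space W] [T2Space U'] [T2Space V'] [T2Space W']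
  [LocallyCompactSpace U] [LocallyCompactSpace V] [LocallyCompactSpace W]
  [LocallyCompactSpace U'] [LocallyCompactSpace V'] [LocallyCompactSpace W']
  [T2Space U''] [T2Space V''] [LocallyCompactSpace U''] [LocallyCompactSpace V'']

theorem conj_smash (e : U ≃ₜ U') (e' : V ≃ₜ V') (a : HC U V) {A : Type*} {B : Type*}
    {A' : Type*} {B' : Type*} [TopologicalSpace A] [TopologicalSpace B] [TopologicalSpace A']
    [TopologicalSpace B'] [T2Space A] [T2Space B] [T2Space A'] [T2Space B']
    [LocallyCompactSpace A] [LocallyCompactSpace B] [LocallyCompactSpace A']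
    [LocallyCompactSpace B'] (f : A ≃ₜ A') (f' : B ≃ₜ B') (b : HC A B) :
    (a.conj e e').smash (b.conj f f') = (a.smash b).conj (e.prodCongr f) (e'.prodCongr f') := by
  rw [conj_def, conj_def, conj_def, ← HC.smash_comp, ← HC.smash_comp, hh_smash]
  congr 2
  exact hh_smash _ _

theorem conj_smash_h1 (e : U ≃ₜ U') (e' : V ≃ₜ V') (a : HC U V) :
    (a.conj e e').smash (h1 W) =
      (a.smash (h1 W)).conj (e.prodCongr (Homeomorph.refl W))
        (e'.prodCongr (Homeomorph.refl W)) := by
  rw [← conj_smash, conj_refl]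

theorem conj_h1_smash (e : U ≃ₜ U') (e' : V ≃ₜ V') (a : HC U V) :
    (h1 W).smash (a.conj e e') =
      ((h1 W).smash a).conj ((Homeomorph.refl W).prodCongr e)
        ((Homeomorph.refl W).prodCongr e') := by
  rw [← conj_smash, conj_refl]

theorem conj_asC (a : HC U U') (b : HC V V') (c : HC W W') :
    ((a.smash b).smash c).conj (asC U V W) (asC U' V' W') = a.smash (b.smash c) := by
  obtain ⟨a, rfl⟩ := HC.mk_surj a
  obtain ⟨b, rfl⟩ := HC.mk_surj b
  obtain ⟨c, rfl⟩ := HC.mk_surj c
  refine congrArg HC.mk (PMap.ext fun p => ?_)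
  obtain ⟨x, y, z⟩ := p
  change PMap.ofHomeo (asC U' V' W') (sm (sm (a x) (b y)) (c z)) = sm (a x) (sm (b y) (c z))
  generalize a (x : OnePoint U) = x'
  generalize b (y : OnePoint V) = y'
  generalize c (z : OnePoint W) = z'
  induction x' using OnePoint.rec with
  | infty => simp [PMap.map_inf]
  | coe x' =>
    induction y' using OnePoint.rec with
    | infty => simp [PMap.map_inf]
    | coe y' =>
      induction z' using OnePoint.rec with
      | infty => simp [PMap.map_inf]
      | coe z' => simp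

theorem conj_swR (a : HC U U') (b : HC V V') (c : HC W W') :
    ((a.smash b).smash c).conj (swR U V W) (swR U' V' W') = (a.smash c).smash b := by
  obtain ⟨a, rfl⟩ := HC.mk_surj a
  obtain ⟨b, rfl⟩ := HC.mk_surj b
  obtain ⟨c, rfl⟩ := HC.mk_surj c
  refine congrArg HC.mk (PMap.ext fun p => ?_)
  obtain ⟨⟨x, z⟩, y⟩ := p
  change PMap.ofHomeo (swR U' V' W') (sm (sm (a x) (b y)) (c z)) = sm (sm (a x) (c z)) (b y)
  generalize a (x : OnePoint U) = x'
  generalize b (y : OnePoint V) = y'
  generalize c (z : OnePoint W) = z'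
  induction x' using OnePoint.rec with
  | infty => simp [PMap.map_inf]
  | coe x' =>
    induction y' using OnePoint.rec with
    | infty => simp [PMap.map_inf]
    | coe y' =>
      induction z' using OnePoint.rec with
      | infty => simp [PMap.map_inf]
      | coe z' => simp

theorem conj_prodComm (a : HC U U') (b : HC V V') :
    (a.smash b).conj (Homeomorph.prodComm U V) (Homeomorph.prodComm U' V') = b.smash a := by
  obtain ⟨a, rfl⟩ := HC.mk_surj a
  obtain ⟨b, rfl⟩ := HC.mk_surj b
  refine congrArg HC.mk (PMap.ext fun p => ?_)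
  obtain ⟨y, x⟩ := p
  change PMap.ofHomeo (Homeomorph.prodComm U' V') (sm (a x) (b y)) = sm (b y) (a x)
  generalize a (x : OnePoint U) = x'
  generalize b (y : OnePoint V) = y'
  induction x' using OnePoint.rec with
  | infty => simp [PMap.map_inf]
  | coe x' =>
    induction y' using OnePoint.rec with
    | infty => simp [PMap.map_inf]
    | coe y' => simp

end smash

theorem hh_lin_right {X : Type u} [TopologicalSpace X] [T2Space X] [LocallyCompactSpace X]
    {E : Type v} {F : Type w} [NormedAddCommGroup E] [NormedSpace ℂ E] [FiniteDimensional ℂ E]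
    [NormedAddCommGroup F] [NormedSpace ℂ F] (A B : E ≃L[ℂ] F) :
    hh ((Homeomorph.refl X).prodCongr A.toHomeomorph) =
      hh ((Homeomorph.refl X).prodCongr B.toHomeomorph) := by
  haveI : FiniteDimensional ℂ F := A.toLinearEquiv.finiteDimensional
  exact HC.sound (Lin202.homotopic_smash_left A B)

end conj

variable {X : Type u} {Y : Type v} {Z : Type w} {W : Type x}
variable [TopologicalSpace X] [TopologicalSpace Y] [TopologicalSpace Z] [TopologicalSpace W]
variable [T2Space X] [T2Space Y] [T2Space Z] [T2Space W]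
variable [LocallyCompactSpace X] [LocallyCompactSpace Y] [LocallyCompactSpace Z]
variable [LocallyCompactSpace W]

/-! ## levelwise smash -/

/-- level `n` part of the smash product with `W` on the right -/
def levR (W : Type x) [TopologicalSpace W] [T2Space W] [LocallyCompactSpace W] {n : ℕ}
    (a : HC (S X n) (S Y n)) : HC (S (X × W) n) (S (Y × W) n) :=
  (a.smash (h1 W)).conj (swR X (Fin n → ℂ) W) (swR Y (Fin n → ℂ) W)

/-- level `n` part of the smash product with `W` on the left -/
def levL (W : Type x) [TopologicalSpace W] [T2Space W] [LocallyCompactSpace W] {n : ℕ}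
    (a : HC (S X n) (S Y n)) : HC (S (W × X) n) (S (W × Y) n) :=
  ((h1 W).smash a).conj (asC W X (Fin n → ℂ)).symm (asC W Y (Fin n → ℂ)).symm

theorem levR_comp {n : ℕ} (b : HC (S Y n) (S Z n)) (a : HC (S X n) (S Y n)) :
    levR W (b.comp a) = (levR W b).comp (levR W a) := by
  rw [levR, levR, levR, conj_comp_conj, HC.smash_comp, comp_h1]

theorem levL_comp {n : ℕ} (b : HC (S Y n) (S Z n)) (a : HC (S X n) (S Y n)) :
    levL W (b.comp a) = (levL W b).comp (levL W a) := by
  rw [levL, levL, levL, conj_comp_conj, HC.smash_comp, comp_h1]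

theorem levR_h1 {n : ℕ} : levR W (h1 (S X n)) = h1 (S (X × W) n) := by
  rw [levR, h1_smash_h1, conj_h1]

theorem levL_h1 {n : ℕ} : levL W (h1 (S X n)) = h1 (S (W × X) n) := by
  rw [levL, h1_smash_h1, conj_h1]

theorem st_conj {n : ℕ} (a : HC (S X n) (S Y n)) :
    st a = (a.smash (h1 ℂ)).conj (eS X n).symm (eS Y n).symm := rfl

theorem levR_st {n : ℕ} (a : HC (S X n) (S Y n)) : levR W (st a) = st (levR W a) := by
  rw [levR, st_conj, st_conj, levR, conj_smash_h1, conj_smash_h1, ← conj_swR a (h1 W) (h1 ℂ),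
    conj_conj, conj_conj, conj_conj]
  exact conj_ext (fun _ => rfl) (fun _ => rfl) _

theorem levL_eq_levR {n : ℕ} (a : HC (S X n) (S Y n)) :
    levL W a = (levR W a).conj ((Homeomorph.prodComm X W).prodCongr (Homeomorph.refl _))
      ((Homeomorph.prodComm Y W).prodCongr (Homeomorph.refl _)) := by
  rw [levL, levR, ← conj_prodComm a (h1 W), conj_conj, conj_conj]
  exact conj_ext (fun _ => rfl) (fun _ => rfl) _

theorem hh_prodCongr_smash (e : X ≃ₜ Y) (n : ℕ) :
    hh (e.prodCongr (Homeomorph.refl (Fin n → ℂ))) = (hh e).smash (h1 (Fin n → ℂ)) :=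
  (hh_smash_h1 e).symm

theorem levL_eq {n : ℕ} (a : HC (S X n) (S Y n)) :
    levL W a = ((hh (Homeomorph.prodComm Y W)).smash (h1 (Fin n → ℂ))).comp
      ((levR W a).comp ((hh (Homeomorph.prodComm X W).symm).smash (h1 (Fin n → ℂ)))) := by
  rw [levL_eq_levR, conj_def, hh_smash_h1, hh_smash_h1]
  rfl

theorem levL_st {n : ℕ} (a : HC (S X n) (S Y n)) : levL W (st a) = st (levL W a) := by
  rw [levL_eq, levL_eq, st_comp, st_comp, smash_level, smash_level, levR_st]

/-- rearrangement used for the sum -/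
def baseR (X : Type u) (V : Type v) (W : Type w) [TopologicalSpace X] [TopologicalSpace V]
    [TopologicalSpace W] : ((X × V) × Io) × W ≃ₜ ((X × W) × V) × Io where
  toFun p := (((p.1.1.1, p.2), p.1.1.2), p.1.2)
  invFun p := (((p.1.1.1, p.1.2), p.2), p.1.1.2)
  left_inv _ := rfl
  right_inv _ := rfl
  continuous_toFun := by fun_prop
  continuous_invFun := by fun_prop

theorem levR_sadd {n : ℕ} (a b : HC (S X (n + 1)) (S Y (n + 1))) :
    levR W (sadd a b) = sadd (levR W a) (levR W b) := by
  rw [levR, levR, levR, sadd, gadd_smash, conj_def, gadd_hh, comp_gadd]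
  exact (gadd_base' ((swR X (Fin (n + 1) → ℂ) W).symm.trans (e3 (lev X n) W))
    (baseR X (Fin n → ℂ) W) (lev (X × W) n) (fun _ => rfl) _ _).symm

theorem levL_sadd {n : ℕ} (a b : HC (S X (n + 1)) (S Y (n + 1))) :
    levL W (sadd a b) = sadd (levL W a) (levL W b) := by
  rw [levL_eq, levL_eq, levL_eq, levR_sadd, ← smash_level (hh (Homeomorph.prodComm X W).symm) n,
    sadd_st, sadd, sadd, comp_gadd]

theorem levR_hzero {n : ℕ} : levR W (hzero (S X n) (S Y n)) = hzero _ _ := by
  rw [levR, hzero_smash, conj_hzero]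

theorem levL_hzero {n : ℕ} : levL W (hzero (S X n) (S Y n)) = hzero _ _ := by
  rw [levL, smash_hzero, conj_hzero]

theorem levR_smash (a : HC X Y) (n : ℕ) :
    levR W (a.smash (h1 (Fin n → ℂ))) = (a.smash (h1 W)).smash (h1 (Fin n → ℂ)) := by
  rw [levR, conj_swR]

theorem levL_smash (a : HC X Y) (n : ℕ) :
    levL W (a.smash (h1 (Fin n → ℂ))) = ((h1 W).smash a).smash (h1 (Fin n → ℂ)) := by
  rw [levL, ← conj_asC (h1 W) a (h1 (Fin n → ℂ)), conj_symm_conj]

/-! ## smash with a fixed space on stable maps -/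

/-- smash product of a stable map with `W` on the right -/
def _root_.Crest.Agent.R090.St528.St.smR (W : Type x) [TopologicalSpace W] [T2Space W]
    [LocallyCompactSpace W] (a : St X Y) : St (X × W) (Y × W) :=
  Quotient.map (fun p : Pre X Y => (⟨fun n => levR W (p.seq n), by
      obtain ⟨N, h⟩ := p.ev
      exact ⟨N, fun n hn => by rw [h n hn, levR_st]⟩⟩ : Pre (X × W) (Y × W)))
    (by
      rintro p q ⟨N, h⟩
      exact ⟨N, fun n hn => congrArg (levR W) (h n hn)⟩) a

/-- smash product of a stable map with `W` on the left -/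
def _root_.Crest.Agent.R090.St528.St.smL (W : Type x) [TopologicalSpace W] [T2Space W]
    [LocallyCompactSpace W] (a : St X Y) : St (W × X) (W × Y) :=
  Quotient.map (fun p : Pre X Y => (⟨fun n => levL W (p.seq n), by
      obtain ⟨N, h⟩ := p.ev
      exact ⟨N, fun n hn => by rw [h n hn, levL_st]⟩⟩ : Pre (W × X) (W × Y)))
    (by
      rintro p q ⟨N, h⟩
      exact ⟨N, fun n hn => congrArg (levL W) (h n hn)⟩) a

theorem stN_levR {n : ℕ} (a : HC (S X n) (S Y n)) (k : ℕ) :
    stN (levR W a) k = levR W (stN a k) := by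
  induction k with
  | zero => rfl
  | succ k ih => rw [stN_succ, ih, stN_succ, levR_st]

theorem stN_levL {n : ℕ} (a : HC (S X n) (S Y n)) (k : ℕ) :
    stN (levL W a) k = levL W (stN a k) := by
  induction k with
  | zero => rfl
  | succ k ih => rw [stN_succ, ih, stN_succ, levL_st]

theorem smR_of (n : ℕ) (a : HC (S X n) (S Y n)) :
    (St.of n a).smR W = St.of n (levR W a) := by
  refine Quotient.sound ⟨n, fun m hm => ?_⟩
  obtain ⟨k, rfl⟩ := Nat.exists_eq_add_of_le hm
  change levR W (gen n a (n + k)) = gen n (levR W a) (n + k)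
  rw [gen_add, gen_add, stN_levR]

theorem smL_of (n : ℕ) (a : HC (S X n) (S Y n)) :
    (St.of n a).smL W = St.of n (levL W a) := by
  refine Quotient.sound ⟨n, fun m hm => ?_⟩
  obtain ⟨k, rfl⟩ := Nat.exists_eq_add_of_le hm
  change levL W (gen n a (n + k)) = gen n (levL W a) (n + k)
  rw [gen_add, gen_add, stN_levL]

theorem smR_comp (b : St Y Z) (a : St X Y) : (b.comp a).smR W = (b.smR W).comp (a.smR W) := by
  obtain ⟨a, rfl⟩ := Quotient.exists_rep a
  obtain ⟨b, rfl⟩ := Quotient.exists_rep b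
  exact Quotient.sound ⟨0, fun n _ => levR_comp _ _⟩

theorem smL_comp (b : St Y Z) (a : St X Y) : (b.comp a).smL W = (b.smL W).comp (a.smL W) := by
  obtain ⟨a, rfl⟩ := Quotient.exists_rep a
  obtain ⟨b, rfl⟩ := Quotient.exists_rep b
  exact Quotient.sound ⟨0, fun n _ => levL_comp _ _⟩

theorem smR_map (a : HC X Y) : (St.map a).smR W = St.map (a.smash (h1 W)) := by
  rw [St.map_eq_of a 0, smR_of, levR_smash, ← St.map_eq_of]

theorem smL_map (a : HC X Y) : (St.map a).smL W = St.map ((h1 W).smash a) := by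
  rw [St.map_eq_of a 0, smL_of, levL_smash, ← St.map_eq_of]

theorem smR_ofP (f : PMap X Y) : (St.ofP f).smR W = St.ofP (f.smash (PMap.id W)) := smR_map _

theorem smL_ofP (f : PMap X Y) : (St.ofP f).smL W = St.ofP ((PMap.id W).smash f) := smL_map _

@[simp] theorem smR_id : (St.id X).smR W = St.id (X × W) := by
  rw [← St.map_id, smR_map, h1_smash_h1, St.map_id]

@[simp] theorem smL_id : (St.id X).smL W = St.id (W × X) := by
  rw [← St.map_id, smL_map, h1_smash_h1, St.map_id]

theorem smR_add (a b : St X Y) : (a + b).smR W = a.smR W + b.smR W := by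
  obtain ⟨a, rfl⟩ := Quotient.exists_rep a
  obtain ⟨b, rfl⟩ := Quotient.exists_rep b
  exact St.ext_succ fun n => levR_sadd _ _

theorem smL_add (a b : St X Y) : (a + b).smL W = a.smL W + b.smL W := by
  obtain ⟨a, rfl⟩ := Quotient.exists_rep a
  obtain ⟨b, rfl⟩ := Quotient.exists_rep b
  exact St.ext_succ fun n => levL_sadd _ _

/-- smash with `W` on the right as a homomorphism -/
def smRHom (X : Type u) (Y : Type v) (W : Type x) [TopologicalSpace X] [TopologicalSpace Y]
    [TopologicalSpace W] [T2Space X] [T2Space Y] [T2Space W] [LocallyCompactSpace X]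
    [LocallyCompactSpace Y] [LocallyCompactSpace W] : St X Y →+ St (X × W) (Y × W) :=
  AddMonoidHom.mk' (St.smR W) smR_add

/-- smash with `W` on the left as a homomorphism -/
def smLHom (X : Type u) (Y : Type v) (W : Type x) [TopologicalSpace X] [TopologicalSpace Y]
    [TopologicalSpace W] [T2Space X] [T2Space Y] [T2Space W] [LocallyCompactSpace X]
    [LocallyCompactSpace Y] [LocallyCompactSpace W] : St X Y →+ St (W × X) (W × Y) :=
  AddMonoidHom.mk' (St.smL W) smL_add

@[simp] theorem smR_zero : (0 : St X Y).smR W = 0 := (smRHom X Y W).map_zero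
@[simp] theorem smL_zero : (0 : St X Y).smL W = 0 := (smLHom X Y W).map_zero
theorem smR_neg (a : St X Y) : (-a).smR W = -a.smR W := (smRHom X Y W).map_neg a
theorem smL_neg (a : St X Y) : (-a).smL W = -a.smL W := (smLHom X Y W).map_neg a
theorem smR_sub (a b : St X Y) : (a - b).smR W = a.smR W - b.smR W := (smRHom X Y W).map_sub a b
theorem smL_sub (a b : St X Y) : (a - b).smL W = a.smL W - b.smL W := (smLHom X Y W).map_sub a b
theorem smR_nsmul (n : ℕ) (a : St X Y) : (n • a).smR W = n • a.smR W := (smRHom X Y W).map_nsmul n a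
theorem smL_nsmul (n : ℕ) (a : St X Y) : (n • a).smL W = n • a.smL W := (smLHom X Y W).map_nsmul n a
theorem smR_zsmul (n : ℤ) (a : St X Y) : (n • a).smR W = n • a.smR W := (smRHom X Y W).map_zsmul n a
theorem smL_zsmul (n : ℤ) (a : St X Y) : (n • a).smL W = n • a.smL W := (smLHom X Y W).map_zsmul n a
theorem smR_sum {ι : Type*} (J : Finset ι) (s : ι → St X Y) :
    (∑ i ∈ J, s i).smR W = ∑ i ∈ J, (s i).smR W := map_sum (smRHom X Y W) s J
theorem smL_sum {ι : Type*} (J : Finset ι) (s : ι → St X Y) :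
    (∑ i ∈ J, s i).smL W = ∑ i ∈ J, (s i).smL W := map_sum (smLHom X Y W) s J

/-! ## stable class of a homeomorphism -/

/-- the stable class of a homeomorphism -/
def sh (e : X ≃ₜ Y) : St X Y := St.ofP (PMap.ofHomeo e)

theorem sh_eq (e : X ≃ₜ Y) : sh e = St.map (hh e) := rfl

@[simp] theorem sh_refl : sh (Homeomorph.refl X) = St.id X := by
  rw [sh_eq, hh_refl, St.map_id]

theorem sh_trans (e : X ≃ₜ Y) (e' : Y ≃ₜ Z) : sh (e.trans e') = (sh e').comp (sh e) := by
  rw [sh_eq, hh_trans, St.map_comp]; rfl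

@[simp] theorem sh_symm_comp (e : X ≃ₜ Y) : (sh e.symm).comp (sh e) = St.id X :=
  St.ofP_homeo_symm_comp e

@[simp] theorem sh_comp_symm (e : X ≃ₜ Y) : (sh e).comp (sh e.symm) = St.id Y :=
  St.ofP_homeo_comp_symm e

@[simp] theorem sh_symm_comp_assoc (e : X ≃ₜ Y) (a : St Z X) :
    (sh e.symm).comp ((sh e).comp a) = a := by
  rw [← St.comp_assoc, sh_symm_comp, St.id_comp]

@[simp] theorem sh_comp_symm_assoc (e : X ≃ₜ Y) (a : St Z Y) :
    (sh e).comp ((sh e.symm).comp a) = a := by
  rw [← St.comp_assoc, sh_comp_symm, St.id_comp]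

theorem sh_ext {e e' : X ≃ₜ Y} (h : ∀ x, e x = e' x) : sh e = sh e' := by
  rw [Homeomorph.ext h]

theorem sh_congr {e e' : X ≃ₜ Y} (h : hh e = hh e') : sh e = sh e' := by
  rw [sh_eq, sh_eq, h]

theorem smR_sh (e : X ≃ₜ Y) : (sh e).smR W = sh (e.prodCongr (Homeomorph.refl W)) := by
  rw [sh_eq, smR_map, hh_smash_h1]; rfl

theorem smL_sh (e : X ≃ₜ Y) : (sh e).smL W = sh ((Homeomorph.refl W).prodCongr e) := by
  rw [sh_eq, smL_map, ← hh_refl, hh_smash]; rfl

/-- left and right smash product -/
theorem smL_eq_smR (a : St X Y) :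
    a.smL W = (sh (Homeomorph.prodComm Y W)).comp
      ((a.smR W).comp (sh (Homeomorph.prodComm X W).symm)) := by
  obtain ⟨n, -, a, rfl⟩ := a.exists_of_ge 0
  rw [smL_of, smR_of, sh_eq, sh_eq, St.map_eq_of _ n, St.map_eq_of _ n, St.of_comp_of,
    St.of_comp_of, levL_eq]

theorem smR_eq_smL (a : St X Y) :
    a.smR W = (sh (Homeomorph.prodComm Y W).symm).comp
      ((a.smL W).comp (sh (Homeomorph.prodComm X W))) := by
  rw [smL_eq_smR]
  simp only [St.comp_assoc, sh_symm_comp_assoc, sh_symm_comp, St.comp_id]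

end Crest.Agent.R090.Sm202
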