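import Crest.Agent.R090.St2_528
import Crest.Agent.R090.Puppe_962

/-!
# Row 90, T1-ADD (2c): flips are `-1`, vanishing at levels (owner helper528)
-/

set_option autoImplicit false
set_option linter.unusedSectionVars false
set_option linter.unusedVariables false

open Topology Filter Set

namespace Crest.Agent.R090.St528

open OnePoint Crest.Agent.R090.Sp962 Crest.Agent.R090.Grp528
open scoped unitInterval

universe u v w x a' b' b''

variable {X : Type u} {Y : Type v} {Z : Type w} {Z' : Type x}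
variable [TopologicalSpace X] [TopologicalSpace Y] [TopologicalSpace Z] [TopologicalSpace Z']
variable [T2Space X] [LocallyCompactSpace X] [T2Space Y] [LocallyCompactSpace Y]
  [T2Space Z] [LocallyCompactSpace Z] [T2Space Z'] [LocallyCompactSpace Z']

/-- the stable class of a pointed map (synonym of `St.ofP`) -/
noncomputable abbrev St.ofMap (f : PMap X Y) : St X Y := St.map (HC.mk f)

/-! ## flips -/

/-- the flip of the suspension coordinate -/
def fl (X : Type u) [TopologicalSpace X] : X × Io ≃ₜ X × Io :=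
  (Homeomorph.refl X).prodCongr MC.flipIo

theorem pneg_eq (f : PMap (X × Io) Y) : pneg f = f.comp (PMap.ofHomeo (fl X)) := by
  refine PMap.ext fun p => ?_
  obtain ⟨x, t⟩ := p
  have e1 : (((x, t) : X × Io) : OnePoint (X × Io)) = sm (x : OnePoint X) (qI (t : ℝ)) := by
    rw [qI_coe]; rfl
  rw [e1, pneg_sm, PMap.comp_apply, ← e1]
  congr 1
  have h : (1 - (t : ℝ)) ∈ Ioo (0 : ℝ) 1 := ⟨by linarith [t.2.2], by linarith [t.2.1]⟩
  rw [qI_of_mem h]
  rfl

theorem hneg_eq (a : HC (X × Io) Y) : hneg a = a.comp (hh (fl X)) := by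
  obtain ⟨f, rfl⟩ := HC.mk_surj a
  exact congrArg HC.mk (pneg_eq f)

/-- the flip of a suspension coordinate is `-1` -/
theorem St.ofMap_fl : St.ofMap (PMap.ofHomeo (fl X)) = -St.id (X × Io) := by
  have h : hneg (h1 (X × Io)) = HC.mk (PMap.ofHomeo (fl X)) := by
    rw [hneg_eq, h1_comp]; rfl
  rw [St.ofMap, ← h, St.map_hneg, St.map_id]

/-- the flip along any suspension coordinate is `-1` -/
theorem St.ofMap_flip (e : X ≃ₜ Y × Io) :
    St.ofMap (PMap.ofHomeo ((e.trans (fl Y)).trans e.symm)) = -St.id X := by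
  have h : PMap.ofHomeo ((e.trans (fl Y)).trans e.symm) =
      (PMap.ofHomeo e.symm).comp ((PMap.ofHomeo (fl Y)).comp (PMap.ofHomeo e)) :=
    PMap.ext fun _ => rfl
  rw [h]
  have h2 : St.ofMap ((PMap.ofHomeo e.symm).comp ((PMap.ofHomeo (fl Y)).comp (PMap.ofHomeo e))) =
      (St.ofMap (PMap.ofHomeo e.symm)).comp ((St.ofMap (PMap.ofHomeo (fl Y))).comp
        (St.ofMap (PMap.ofHomeo e))) := by
    rw [← St.ofP_comp, ← St.ofP_comp]
  rw [h2, St.ofMap_fl, St.neg_comp, St.id_comp, St.comp_neg, St.ofP_homeo_symm_comp]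

/-! ## vanishing and equality at levels -/

theorem stN_hzero {n : ℕ} (k : ℕ) : stN (hzero (S X n) (S Y n)) k = hzero _ _ := by
  induction k with
  | zero => rfl
  | succ k ih =>
    rw [stN_succ, ih, st_hzero]
    rfl

theorem St.of_eq_zero_iff {n : ℕ} {a : HC (S X n) (S Y n)} :
    St.of n a = 0 ↔ ∃ k, stN a k = hzero _ _ := by
  rw [← St.of_zero n, St.of_eq_iff]
  simp only [stN_hzero]

theorem St.mk_surj (s : St X Y) : ∃ n, ∃ f : PMap (S X n) (S Y n), s = St.mk n f := by
  obtain ⟨n, -, a, rfl⟩ := s.exists_of_ge 0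
  obtain ⟨f, rfl⟩ := HC.mk_surj a
  exact ⟨n, f, rfl⟩

theorem St.mk_surj_ge (s : St X Y) (M : ℕ) :
    ∃ n, M ≤ n ∧ ∃ f : PMap (S X n) (S Y n), s = St.mk n f := by
  obtain ⟨n, hn, a, rfl⟩ := s.exists_of_ge M
  obtain ⟨f, rfl⟩ := HC.mk_surj a
  exact ⟨n, hn, f, rfl⟩

theorem St.comp_mk {n : ℕ} (g : PMap (S Y n) (S Z n)) (f : PMap (S X n) (S Y n)) :
    (St.mk n g).comp (St.mk n f) = St.mk n (g.comp f) := St.of_comp_of _ _

end Crest.Agent.R090.St528
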