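import Crest.Agent.R090.CovSt_128
import Crest.Agent.R090.MCSm_962
import Crest.Agent.R090.St3_528
import Crest.Agent.R090.Lin_202
import Crest.Agent.R090.Sm_202

/-!
# Row 90, DUAL: weak cokernels in the stable category (owner helper314), level of `St528`

* `contra1` : contravariant exactness of `U → V → MC f`;
* `contra1L` : the same smashed with a fixed object on the left;
* `lev_swap` : `1_F ∧ a` is the stabilisation of an unstable class, for `a` of level `n`,
  `F = ℂ^n`.
-/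

set_option autoImplicit false
set_option linter.unusedSectionVars false

open Topology Filter Set

namespace Crest.Agent.R090.Wcok314

open OnePoint Crest.Agent.R090.Sp962 Crest.Agent.R090.Grp528 Crest.Agent.R090.St528
open scoped unitInterval

universe u v w x y

section contra

variable {U : Type u} {V : Type v} {W : Type w} {D : Type y}
variable [TopologicalSpace U] [TopologicalSpace V] [TopologicalSpace W] [TopologicalSpace D]
variable [T2Space U] [LocallyCompactSpace U] [T2Space V] [LocallyCompactSpace V]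
  [T2Space W] [LocallyCompactSpace W] [T2Space D] [LocallyCompactSpace D]

/-- contravariant exactness at `V` -/
theorem contra1 (f : PMap U V) (h : St V W) (hf : h.comp (St.ofP f) = 0) :
    ∃ h' : St (MC f) W, h'.comp (St.ofP (MC.i f)) = h := by
  obtain ⟨n, -, a, rfl⟩ := h.exists_of_ge 0
  rw [St.ofP, St.map_eq_of _ n, St.of_comp_of, St.of_eq_zero_iff] at hf
  obtain ⟨k, hk⟩ := hf
  rw [stN_comp, stN_smash, h1, HC.smash_mk] at hk
  obtain ⟨b, hb⟩ := HC.mk_surj (stN a k)
  rw [← St.of_stN a k, ← hb]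
  rw [← hb] at hk
  have hn : (b.comp (f.smash (PMap.id (Fin (n + k) → ℂ)))).Null := HC.mk_eq.1 hk
  obtain ⟨g, hg⟩ := MC.exists_desc (f.smash (PMap.id (Fin (n + k) → ℂ))) b hn
  refine ⟨St.mk (n + k) (g.comp (PMap.ofHomeo (MC.smR f (Fin (n + k) → ℂ)).symm)), ?_⟩
  rw [St.mk, St.ofP, St.map_eq_of _ (n + k), St.of_comp_of, h1, HC.smash_mk, HC.comp_mk]
  rw [← MC.smR_i, ← PMap.comp_assoc, PMap.comp_assoc g, PMap.ofHomeo_symm_comp, PMap.comp_id, hg]

/-- the same, smashed with `D` on the left -/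
theorem contra1L (f : PMap U V) (h : St (D × V) W)
    (hf : h.comp (St.ofP ((PMap.id D).smash f)) = 0) :
    ∃ h' : St (D × MC f) W, h'.comp (St.ofP ((PMap.id D).smash (MC.i f))) = h := by
  obtain ⟨k, hk⟩ := contra1 ((PMap.id D).smash f) h hf
  refine ⟨k.comp (St.ofP (PMap.ofHomeo (MC.smL f D).symm)), ?_⟩
  rw [St.comp_assoc, ← St.ofP_comp, ← MC.smL_i, ← PMap.comp_assoc, PMap.ofHomeo_symm_comp,
    PMap.id_comp, hk]

end contra

section level

variable {X : Type u} {Y : Type v} [TopologicalSpace X] [TopologicalSpace Y]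
variable [T2Space X] [LocallyCompactSpace X] [T2Space Y] [LocallyCompactSpace Y]

/-- exchange of the two copies of `F` in `(F × X) × F` -/
def exch (F : Type w) (X : Type u) [TopologicalSpace F] [TopologicalSpace X] :
    (F × X) × F ≃ₜ (F × X) × F where
  toFun p := ((p.2, p.1.2), p.1.1)
  invFun p := ((p.2, p.1.2), p.1.1)
  left_inv _ := rfl
  right_inv _ := rfl
  continuous_toFun := by fun_prop
  continuous_invFun := by fun_prop

/-- `(F × X) × F ≃ (F × F) × X` -/
def eFF (F : Type w) (X : Type u) [TopologicalSpace F] [TopologicalSpace X] :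
    (F × X) × F ≃ₜ (F × F) × X where
  toFun p := ((p.1.1, p.2), p.1.2)
  invFun p := ((p.1.1, p.2), p.1.2)
  left_inv _ := rfl
  right_inv _ := rfl
  continuous_toFun := by fun_prop
  continuous_invFun := by fun_prop

theorem hh_exch (n : ℕ) : hh (exch (Fin n → ℂ) X) = h1 (((Fin n → ℂ) × X) × (Fin n → ℂ)) := by
  have e : hh (exch (Fin n → ℂ) X) = (hh (eFF (Fin n → ℂ) X).symm).comp
      (((hh (Homeomorph.prodComm (Fin n → ℂ) (Fin n → ℂ))).smash (h1 X)).comp
        (hh (eFF (Fin n → ℂ) X))) := by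
    rw [hh_smash_h1, ← hh_trans, ← hh_trans]
    exact hh_ext fun _ => rfl
  have e2 : hh (Homeomorph.prodComm (Fin n → ℂ) (Fin n → ℂ)) = h1 _ :=
    HC.sound (Lin202.homotopic_swap' (Fin n → ℂ))
  rw [e, e2, h1_smash_h1, h1_comp, hh_symm_comp]

/-- `1_F ∧ a` is the stabilisation of an unstable class -/
theorem lev_swap {n : ℕ} (a : HC (S X n) (S Y n)) :
    (hh (Homeomorph.prodAssoc (Fin n → ℂ) Y (Fin n → ℂ)).symm).comp
      (((h1 (Fin n → ℂ)).smash a).comp (hh (Homeomorph.prodAssoc (Fin n → ℂ) X (Fin n → ℂ)))) =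
    ((hh (Homeomorph.prodComm Y (Fin n → ℂ))).comp
      (a.comp (hh (Homeomorph.prodComm (Fin n → ℂ) X)))).smash (h1 (Fin n → ℂ)) := by
  have key : ((hh (Homeomorph.prodComm Y (Fin n → ℂ))).comp
      (a.comp (hh (Homeomorph.prodComm (Fin n → ℂ) X)))).smash (h1 (Fin n → ℂ)) =
      (hh (exch (Fin n → ℂ) Y)).comp (((hh (Homeomorph.prodAssoc (Fin n → ℂ) Y (Fin n → ℂ)).symm).comp
      (((h1 (Fin n → ℂ)).smash a).comp
        (hh (Homeomorph.prodAssoc (Fin n → ℂ) X (Fin n → ℂ))))).comp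
          (hh (exch (Fin n → ℂ) X).symm)) := by
    obtain ⟨f, rfl⟩ := HC.mk_surj a
    refine congrArg HC.mk (PMap.ext fun p => ?_)
    obtain ⟨⟨v, x⟩, c⟩ := p
    change sm (PMap.ofHomeo (Homeomorph.prodComm Y (Fin n → ℂ)) (f ((x, v) : X × (Fin n → ℂ))))
      (c : OnePoint (Fin n → ℂ)) =
      PMap.ofHomeo (exch (Fin n → ℂ) Y) (PMap.ofHomeo
        (Homeomorph.prodAssoc (Fin n → ℂ) Y (Fin n → ℂ)).symm
        (sm (c : OnePoint (Fin n → ℂ)) (f ((x, v) : X × (Fin n → ℂ)))))
    generalize f ((x, v) : X × (Fin n → ℂ)) = z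
    induction z using OnePoint.rec with
    | infty => simp
    | coe z => rfl
  rw [key, hh_exch, h1_comp]
  have e3 : hh (exch (Fin n → ℂ) X).symm = h1 _ := by
    have : (exch (Fin n → ℂ) X).symm = exch (Fin n → ℂ) X := Homeomorph.ext fun _ => rfl
    rw [this, hh_exch]
  rw [e3, comp_h1]

end level

section wcok

open Crest.Agent.R090.Sm202

variable {A : Type u} {B : Type v} {X : Type w} {E : Type x} {F : Type y}
variable [TopologicalSpace A] [TopologicalSpace B] [TopologicalSpace X] [TopologicalSpace E]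
  [TopologicalSpace F]
variable [T2Space A] [LocallyCompactSpace A] [T2Space B] [LocallyCompactSpace B]
  [T2Space X] [LocallyCompactSpace X] [T2Space E] [LocallyCompactSpace E]
  [T2Space F] [LocallyCompactSpace F]

/-- `X × (F × B) ≃ F × (X × B)` -/
def sig (X : Type w) (F : Type y) (B : Type v) [TopologicalSpace X] [TopologicalSpace F]
    [TopologicalSpace B] : X × (F × B) ≃ₜ F × (X × B) where
  toFun p := (p.2.1, (p.1, p.2.2))
  invFun p := (p.2.1, (p.1, p.2.2))
  left_inv _ := rfl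
  right_inv _ := rfl
  continuous_toFun := by fun_prop
  continuous_invFun := by fun_prop

/-- naturality of `sig` -/
theorem sig_nat (X : Type w) (F : Type y) [TopologicalSpace X] [TopologicalSpace F] [T2Space X]
    [LocallyCompactSpace X] [T2Space F] [LocallyCompactSpace F] (g : St A B) :
    (sh (sig X F B)).comp ((g.smL F).smL X) = ((g.smL X).smL F).comp (sh (sig X F A)) := by
  obtain ⟨n, -, a, rfl⟩ := g.exists_of_ge 0
  rw [smL_of, smL_of, smL_of, smL_of, sh_eq, sh_eq, St.map_eq_of _ n, St.map_eq_of _ n,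
    St.of_comp_of, St.of_comp_of]
  congr 1
  obtain ⟨a, rfl⟩ := HC.mk_surj a
  refine congrArg HC.mk (PMap.ext fun p => ?_)
  obtain ⟨⟨x, f, b⟩, v⟩ := p
  change ((PMap.ofHomeo (sig X F B)).smash (PMap.id (Fin n → ℂ)))
      (PMap.ofHomeo (asC X (F × B) (Fin n → ℂ)).symm (sm (x : OnePoint X)
        (PMap.ofHomeo (asC F B (Fin n → ℂ)).symm (sm (f : OnePoint F)
          (a ((b, v) : A × (Fin n → ℂ))))))) =
    PMap.ofHomeo (asC F (X × B) (Fin n → ℂ)).symm (sm (f : OnePoint F)
        (PMap.ofHomeo (asC X B (Fin n → ℂ)).symm (sm (x : OnePoint X)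
          (a ((b, v) : A × (Fin n → ℂ))))))
  generalize a ((b, v) : A × (Fin n → ℂ)) = z
  induction z using OnePoint.rec with
  | infty => simp
  | coe z => rfl

/-- a stable map becomes unstable after suspension with `ℂ^n` -/
theorem exists_smL_eq (g : St A B) : ∃ (n : ℕ) (g0 : PMap ((Fin n → ℂ) × A) ((Fin n → ℂ) × B)),
    g.smL (Fin n → ℂ) = St.ofP g0 := by
  obtain ⟨n, -, a, rfl⟩ := g.exists_of_ge 0
  obtain ⟨g0, hg0⟩ := HC.mk_surj ((hh (Homeomorph.prodComm B (Fin n → ℂ))).comp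
      (a.comp (hh (Homeomorph.prodComm (Fin n → ℂ) A))))
  refine ⟨n, g0, ?_⟩
  rw [smL_of, St.ofP, hg0, St.map_eq_of _ n, ← lev_swap]
  rfl

/-- **weak cokernels**, with suspension coordinate `F = ℂ^n` on the left -/
theorem wcok (g : St A B) : ∃ (n : ℕ) (g0 : PMap ((Fin n → ℂ) × A) ((Fin n → ℂ) × B)),
    g.smL (Fin n → ℂ) = St.ofP g0 ∧
    (St.ofP (MC.i g0)).comp (g.smL (Fin n → ℂ)) = 0 ∧
    ∀ {X : Type w} {E : Type x} [TopologicalSpace X] [TopologicalSpace E] [T2Space X]
      [LocallyCompactSpace X] [T2Space E] [LocallyCompactSpace E] (u : St (X × B) E),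
      u.comp (g.smL X) = 0 → ∃ u' : St (X × MC g0) ((Fin n → ℂ) × E),
        u'.comp ((St.ofP (MC.i g0)).smL X) =
          (u.smL (Fin n → ℂ)).comp (sh (sig X (Fin n → ℂ) B)) := by
  obtain ⟨n, g0, hg⟩ := exists_smL_eq g
  refine ⟨n, g0, hg, ?_, ?_⟩
  · rw [hg, ← St.ofP_comp, St.ofP_null (MC.i_comp_null g0)]
  · intro X E _ _ _ _ _ _ u hu
    obtain ⟨u', hu'⟩ := contra1L (D := X) g0
      ((u.smL (Fin n → ℂ)).comp (sh (sig X (Fin n → ℂ) B))) (by
        rw [← smL_ofP, ← hg, St.comp_assoc, sig_nat, ← St.comp_assoc, ← smL_comp, hu, smL_zero,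
          St.zero_comp])
    exact ⟨u', by rw [smL_ofP, hu']⟩

end wcok

end Crest.Agent.R090.Wcok314
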