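import Crest.Agent.R090.StCat_865
import Crest.Agent.R090.WcokSt_314
import Crest.Agent.R090.Dual_698

/-!
# Row 90, DUAL: weak cokernels in the category `LC` (owner helper314)

The field `wcok` of `Dual698.Data LC`, with `Sph F := ∃ k, Nonempty (F ≃ₜ (Fin k → ℝ))`, and the
fields `unit`, `tensor`, `sphR`.
-/

set_option autoImplicit false
set_option linter.unusedSectionVars false

open Topology Filter Set CategoryTheory MonoidalCategory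

noncomputable section

namespace Crest.Agent.R090.CatWcok314

open OnePoint Crest.Agent.R090.Sp962 Crest.Agent.R090.Grp528 Crest.Agent.R090.St528
  Crest.Agent.R090.Sm202 Crest.Agent.R090.StCat865 Crest.Agent.R090.Wcok314

/-- spheres: objects homeomorphic to `ℝ^k` -/
def Sph (F : LC) : Prop := ∃ k : ℕ, Nonempty (F ≃ₜ (Fin k → ℝ))

theorem sph_of_homeo {F G : LC} (e : F ≃ₜ G) (h : Sph G) : Sph F := by
  obtain ⟨k, ⟨f⟩⟩ := h
  exact ⟨k, ⟨e.trans f⟩⟩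

theorem sph_pi (k : ℕ) : Sph (LC.of (Fin k → ℝ)) := ⟨k, ⟨Homeomorph.refl _⟩⟩

theorem sph_unit : Sph (𝟙_ LC) :=
  ⟨0, ⟨(Homeomorph.homeomorphOfUnique Unit (Fin 0 → ℝ) : Unit ≃ₜ (Fin 0 → ℝ))⟩⟩

theorem sph_tensor {F G : LC} (hF : Sph F) (hG : Sph G) : Sph (F ⊗ G) := by
  obtain ⟨k, ⟨f⟩⟩ := hF
  obtain ⟨l, ⟨g⟩⟩ := hG
  exact ⟨k + l, ⟨(f.prodCongr g).trans (Fin.appendHomeomorph k l)⟩⟩

theorem sph_real : Sph (LC.of ℝ) := ⟨1, ⟨(Homeomorph.funUnique (Fin 1) ℝ).symm⟩⟩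

theorem sph_cpi (n : ℕ) : Sph (LC.of (Fin n → ℂ)) :=
  ⟨Module.finrank ℝ (Fin n → ℂ), ⟨(ContinuousLinearEquiv.ofFinrankEq (𝕜 := ℝ) (by simp) :
    (Fin n → ℂ) ≃L[ℝ] (Fin (Module.finrank ℝ (Fin n → ℂ)) → ℝ)).toHomeomorph⟩⟩

theorem bX_eq (X F A : LC) : Dual698.bX X F A = sh (sig X F A) := by
  change ((sh (asC F X A)).comp ((sh (Homeomorph.prodComm X F)).smR A)).comp
    (sh (asC X F A).symm) = _
  rw [smR_sh, ← sh_trans, ← sh_trans]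
  exact sh_ext fun _ => rfl

theorem sU_eq (F : LC) {X B E : LC} (u : X ⊗ B ⟶ E) :
    Dual698.sU F u = St.comp (St.smL F u) (sh (sig X F B)) := by
  unfold Dual698.sU
  rw [bX_eq]
  rfl

/-- weak cokernels -/
theorem wcok {A B : LC} (g : A ⟶ B) : ∃ (F B' : LC) (c : F ⊗ B ⟶ B'), Sph F ∧ F ◁ g ≫ c = 0 ∧
    ∀ {X E : LC} (u : X ⊗ B ⟶ E), X ◁ g ≫ u = 0 →
      ∃ u' : X ⊗ B' ⟶ F ⊗ E, X ◁ c ≫ u' = Dual698.sU F u := by
  obtain ⟨n, g0, hg, h0, hu⟩ := Wcok314.wcok (A := A) (B := B) g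
  refine ⟨LC.of (Fin n → ℂ), LC.of (MC g0), St.ofP (MC.i g0), sph_cpi n, h0, ?_⟩
  intro X E u h
  obtain ⟨u', hu'⟩ := hu (X := X) (E := E) u h
  exact ⟨u', hu'.trans (sU_eq (LC.of (Fin n → ℂ)) u).symm⟩

end Crest.Agent.R090.CatWcok314
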