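import Crest.Agent.R090.St_528

/-!
# Row 90, T1-ADD (2b): the functor `HC → St`, wedges (owner helper528)
-/

set_option autoImplicit false
set_option linter.unusedSectionVars false
set_option linter.unusedVariables false

open Topology Filter Set

namespace Crest.Agent.R090.St528

open OnePoint Crest.Agent.R090.Sp962 Crest.Agent.R090.Grp528
open scoped unitInterval

universe u v w x a' b' b''

/-! ## independence of the coordinate -/

section indep

variable {A : Type a'} [TopologicalSpace A] [T2Space A] [LocallyCompactSpace A]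
variable {W : Type w} [TopologicalSpace W]
variable {B : Type b'} [TopologicalSpace B] [T2Space B] [LocallyCompactSpace B]
variable {B₁ : Type u} [TopologicalSpace B₁] [T2Space B₁] [LocallyCompactSpace B₁]
variable {B₂ : Type v} [TopologicalSpace B₂] [T2Space B₂] [LocallyCompactSpace B₂]

/-- two different suspension coordinates give the same sum -/
theorem gadd_indep (e₁ : A ≃ₜ B₁ × Io) (e₂ : A ≃ₜ B₂ × Io) (E : A ≃ₜ (B × Io) × Io)
    (g₁ : B₁ ≃ₜ B × Io) (g₂ : B₂ ≃ₜ B × Io) (h₁ : ∀ x, E x = (g₁ (e₁ x).1, (e₁ x).2))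
    (h₂ : ∀ x, sw B (E x) = (g₂ (e₂ x).1, (e₂ x).2)) (a b : HC A W) :
    gadd e₁ a b = gadd e₂ a b := by
  rw [← gadd_base' e₁ g₁ E h₁, ← gadd_base' e₂ g₂ (E.trans (sw B)) h₂, gadd_eh]

end indep

variable {X : Type u} {Y : Type v} {Z : Type w} {Z' : Type x}
variable [TopologicalSpace X] [TopologicalSpace Y] [TopologicalSpace Z] [TopologicalSpace Z']
variable [T2Space X] [LocallyCompactSpace X] [T2Space Y] [LocallyCompactSpace Y]
  [T2Space Z] [LocallyCompactSpace Z] [T2Space Z'] [LocallyCompactSpace Z']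

/-! ## additive lemmas for composition -/

/-- composition with a fixed map on the left, as a hom -/
noncomputable def St.compHom (t : St Y Z) : St X Y →+ St X Z := AddMonoidHom.mk' (t.comp ·) (St.comp_add t)

/-- composition with a fixed map on the right, as a hom -/
noncomputable def St.homComp (s : St X Y) : St Y Z →+ St X Z :=
  AddMonoidHom.mk' (·.comp s) (fun a b => St.add_comp a b s)

@[simp] theorem St.comp_zero (t : St Y Z) : t.comp (0 : St X Y) = 0 := (St.compHom t).map_zero
@[simp] theorem St.zero_comp (s : St X Y) : (0 : St Y Z).comp s = 0 := (St.homComp s).map_zero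
@[simp] theorem St.comp_neg (t : St Y Z) (s : St X Y) : t.comp (-s) = -t.comp s :=
  (St.compHom t).map_neg s
@[simp] theorem St.neg_comp (t : St Y Z) (s : St X Y) : (-t).comp s = -t.comp s :=
  (St.homComp s).map_neg t
theorem St.comp_sub (t : St Y Z) (a b : St X Y) : t.comp (a - b) = t.comp a - t.comp b :=
  (St.compHom t).map_sub a b
theorem St.sub_comp (a b : St Y Z) (s : St X Y) : (a - b).comp s = a.comp s - b.comp s :=
  (St.homComp s).map_sub a b
theorem St.comp_nsmul (n : ℕ) (t : St Y Z) (s : St X Y) : t.comp (n • s) = n • t.comp s :=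
  (St.compHom t).map_nsmul n s
theorem St.nsmul_comp (n : ℕ) (t : St Y Z) (s : St X Y) : (n • t).comp s = n • t.comp s :=
  (St.homComp s).map_nsmul n t
theorem St.comp_zsmul (n : ℤ) (t : St Y Z) (s : St X Y) : t.comp (n • s) = n • t.comp s :=
  (St.compHom t).map_zsmul n s
theorem St.zsmul_comp (n : ℤ) (t : St Y Z) (s : St X Y) : (n • t).comp s = n • t.comp s :=
  (St.homComp s).map_zsmul n t
theorem St.comp_sum {ι : Type*} (J : Finset ι) (t : St Y Z) (s : ι → St X Y) :
    t.comp (∑ i ∈ J, s i) = ∑ i ∈ J, t.comp (s i) := map_sum (St.compHom t) s J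
theorem St.sum_comp {ι : Type*} (J : Finset ι) (t : ι → St Y Z) (s : St X Y) :
    (∑ i ∈ J, t i).comp s = ∑ i ∈ J, (t i).comp s := map_sum (St.homComp s) t J

/-! ## the functor from homotopy classes -/

theorem smash_level (a : HC X Y) (n : ℕ) :
    st (a.smash (h1 (Fin n → ℂ))) = a.smash (h1 (Fin (n + 1) → ℂ)) := by
  obtain ⟨f, rfl⟩ := HC.mk_surj a
  refine congrArg HC.mk (PMap.ext fun p => ?_)
  obtain ⟨x, v⟩ := p
  change (PMap.ofHomeo (eS Y n).symm) (sm (sm (f x) ((fun i => v (Fin.castSucc i) : Fin n → ℂ) : OnePoint _))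
    ((v (Fin.last n) : ℂ) : OnePoint ℂ)) = sm (f x) (v : OnePoint (Fin (n + 1) → ℂ))
  generalize f x = y
  induction y using OnePoint.rec with
  | infty => simp
  | coe y =>
    change (((eS Y n).symm ((y, fun i => v (Fin.castSucc i)), v (Fin.last n)) : S Y (n + 1)) :
      OnePoint (S Y (n + 1))) = ((y, v) : S Y (n + 1))
    congr 1
    exact (eS Y n).symm_apply_apply (y, v)

/-- the stable class of an unstable class -/
noncomputable def St.map (a : HC X Y) : St X Y :=
  Quotient.mk _ ⟨fun n => a.smash (h1 (Fin n → ℂ)), 0, fun n _ => (smash_level a n).symm⟩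

/-- the stable class of a pointed map -/
noncomputable abbrev St.ofP (f : PMap X Y) : St X Y := St.map (HC.mk f)

theorem St.map_eq_of (a : HC X Y) (n : ℕ) : St.map a = St.of n (a.smash (h1 (Fin n → ℂ))) :=
  Pre.mk_eq_of (⟨fun n => a.smash (h1 (Fin n → ℂ)), 0, fun n _ => (smash_level a n).symm⟩ : Pre X Y)
    (fun n _ => (smash_level a n).symm) (Nat.zero_le n)

@[simp] theorem St.map_id : St.map (h1 X) = St.id X := by
  rw [St.map_eq_of _ 0, h1_smash_h1, St.of_h1]

@[simp] theorem St.ofP_id : St.ofP (PMap.id X) = St.id X := St.map_id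

theorem St.map_comp (b : HC Y Z) (a : HC X Y) : St.map (b.comp a) = (St.map b).comp (St.map a) := by
  rw [St.map_eq_of _ 0, St.map_eq_of b 0, St.map_eq_of a 0, St.of_comp_of, HC.smash_comp, comp_h1]

theorem St.ofP_comp (g : PMap Y Z) (f : PMap X Y) :
    St.ofP (g.comp f) = (St.ofP g).comp (St.ofP f) := St.map_comp (HC.mk g) (HC.mk f)

@[simp] theorem St.map_hzero : St.map (hzero X Y) = 0 := by
  rw [St.map_eq_of _ 0, hzero_smash, St.of_zero]

@[simp] theorem St.ofP_zero : St.ofP (PMap.zero X Y) = 0 := St.map_hzero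

theorem St.ofP_congr {f g : PMap X Y} (h : f.Homotopic g) : St.ofP f = St.ofP g :=
  congrArg St.map (HC.sound h)

theorem St.ofP_null {f : PMap X Y} (h : f.Null) : St.ofP f = 0 :=
  (St.ofP_congr h).trans St.ofP_zero

theorem St.ofP_homeo_symm_comp (e : X ≃ₜ Y) :
    (St.ofP (PMap.ofHomeo e.symm)).comp (St.ofP (PMap.ofHomeo e)) = St.id X := by
  rw [← St.ofP_comp, PMap.ofHomeo_symm_comp, St.ofP_id]

theorem St.ofP_homeo_comp_symm (e : X ≃ₜ Y) :
    (St.ofP (PMap.ofHomeo e)).comp (St.ofP (PMap.ofHomeo e.symm)) = St.id Y := by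
  rw [← St.ofP_comp, PMap.ofHomeo_comp_symm, St.ofP_id]

/-- the functor is additive along a suspension coordinate -/
theorem St.map_hadd (a b : HC (X × Io) Y) : St.map (hadd a b) = St.map a + St.map b := by
  rw [St.map_eq_of _ 1, St.map_eq_of a 1, St.map_eq_of b 1, St.of_add_of, hadd_smash]
  congr 1
  exact gadd_indep (B := (X × (Fin 0 → ℂ)) × Io) (e3 (Homeomorph.refl (X × Io)) (Fin 1 → ℂ))
    (lev (X × Io) 0)
    ((lev (X × Io) 0).trans
      { toFun := fun p => ((((p.1.1.1.1, p.1.1.2), p.1.2), p.2), p.1.1.1.2)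
        invFun := fun q => ((((q.1.1.1.1, q.2), q.1.1.1.2), q.1.1.2), q.1.2)
        left_inv := fun p => rfl
        right_inv := fun q => rfl
        continuous_toFun := by fun_prop
        continuous_invFun := by fun_prop }) (lev X 0)
    { toFun := fun p => (((p.1.1.1, p.1.2), p.2), p.1.1.2)
      invFun := fun q => (((q.1.1.1, q.2), q.1.1.2), q.1.2)
      left_inv := fun p => rfl
      right_inv := fun q => rfl
      continuous_toFun := by fun_prop
      continuous_invFun := by fun_prop } (fun _ => rfl) (fun _ => rfl) _ _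

theorem St.map_hneg (a : HC (X × Io) Y) : St.map (hneg a) = -St.map a := by
  have h : St.map (hneg a) + St.map a = 0 := by
    rw [← St.map_hadd, hneg_hadd, St.map_hzero]
  exact eq_neg_of_add_eq_zero_left h

/-! ## finite wedges -/

section wedge

variable {W' : Type b''} [TopologicalSpace W']
variable {ι : Type a'} [Finite ι] {T : ι → Type b'} [∀ i, TopologicalSpace (T i)]
  [∀ i, T2Space (T i)] [∀ i, LocallyCompactSpace (T i)]

instance : LocallyCompactSpace (Σ i, T i) := by
  constructor
  rintro ⟨i, x⟩ n hn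
  have h1 : Sigma.mk i ⁻¹' n ∈ 𝓝 x := IsOpenEmbedding.sigmaMk.continuous.continuousAt hn
  obtain ⟨s, hs, hsn, hc⟩ := local_compact_nhds h1
  refine ⟨Sigma.mk i '' s, ?_, by rintro _ ⟨y, hy, rfl⟩; exact hsn hy,
    hc.image IsOpenEmbedding.sigmaMk.continuous⟩
  exact IsOpenEmbedding.sigmaMk.image_mem_nhds.2 hs

/-- inclusion of a wedge summand -/
def incP (i : ι) : PMap (T i) (Σ i, T i) := PMap.ofClosed (Sigma.mk i) IsClosedEmbedding.sigmaMk

/-- projection to a wedge summand -/
noncomputable def prP (i : ι) : PMap (Σ i, T i) (T i) :=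
  PMap.ofOpen (Sigma.mk i) IsOpenEmbedding.sigmaMk

theorem prP_incP (i : ι) : (prP i).comp (incP i) = PMap.id (T i) :=
  PMap.ext fun x => PMap.ofOpen_coe _ IsOpenEmbedding.sigmaMk x

theorem prP_incP_ne {i j : ι} (h : i ≠ j) : (prP i).comp (incP j) = PMap.zero (T j) (T i) :=
  PMap.ext fun x => PMap.ofOpen_of_notMem _ IsOpenEmbedding.sigmaMk (by
    rintro ⟨y, hy⟩
    exact h (congrArg Sigma.fst hy))

/-- covering map of a finite wedge -/
def qW (p : Unit ⊕ (Σ i, OnePoint (T i))) : OnePoint (Σ i, T i) :=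
  Sum.elim (fun _ => ∞) (fun p => incP p.1 p.2) p

theorem continuous_qW : Continuous (qW (T := T)) := by
  refine Continuous.sumElim continuous_const ?_
  exact continuous_sigma fun i => (incP i).cont

theorem qW_surjective : Function.Surjective (qW (T := T)) := by
  intro z
  induction z using OnePoint.rec with
  | infty => exact ⟨Sum.inl (), rfl⟩
  | coe z => exact ⟨Sum.inr ⟨z.1, z.2⟩, rfl⟩

/-- continuity of maps out of `K × (Σ i, T i)⁺` -/
theorem continuous_of_wedge {K : Type*} [TopologicalSpace K] [CompactSpace K] [T2Space K]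
    {P : Type*} [TopologicalSpace P] {g : K × OnePoint (Σ i, T i) → P}
    (h0 : Continuous fun k => g (k, ∞))
    (h : ∀ i, Continuous (fun p : K × OnePoint (T i) => g (p.1, incP i p.2))) :
    Continuous g := by
  have hc : Continuous (fun p : K × (Unit ⊕ (Σ i, OnePoint (T i))) => (p.1, qW p.2)) :=
    continuous_fst.prodMk (continuous_qW.comp continuous_snd)
  have hs : Function.Surjective
      (fun p : K × (Unit ⊕ (Σ i, OnePoint (T i))) => (p.1, qW p.2)) := by
    rintro ⟨k, z⟩
    obtain ⟨p, hp⟩ := qW_surjective z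
    exact ⟨(k, p), by simpa using hp⟩
  refine (hc.isClosedMap.isQuotientMap hc hs).continuous_iff.2 ?_
  have e1 : Continuous ((g ∘ fun p : K × (Unit ⊕ (Σ i, OnePoint (T i))) => (p.1, qW p.2)) ∘
      (Homeomorph.prodSumDistrib (X := K) (Y := Unit) (Z := Σ i, OnePoint (T i))).symm) := by
    refine continuous_sum_dom.2 ⟨?_, ?_⟩
    · exact h0.comp continuous_fst
    · have e2 : Continuous ((fun p : K × (Σ i, OnePoint (T i)) => g (p.1, qW (Sum.inr p.2))) ∘
          (Homeomorph.prodComm (Σ i, OnePoint (T i)) K) ∘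
          (Homeomorph.sigmaProdDistrib (X := fun i => OnePoint (T i)) (Y := K)).symm) := by
        refine continuous_sigma fun i => ?_
        exact (h i).comp (Homeomorph.prodComm _ _).continuous
      have e3 : (fun p : K × (Σ i, OnePoint (T i)) => g (p.1, qW (Sum.inr p.2))) =
          ((fun p : K × (Σ i, OnePoint (T i)) => g (p.1, qW (Sum.inr p.2))) ∘
          (Homeomorph.prodComm (Σ i, OnePoint (T i)) K) ∘
          (Homeomorph.sigmaProdDistrib (X := fun i => OnePoint (T i)) (Y := K)).symm) ∘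
          (Homeomorph.sigmaProdDistrib (X := fun i => OnePoint (T i)) (Y := K)) ∘
          (Homeomorph.prodComm K (Σ i, OnePoint (T i))) := by
        funext p
        simp
      have e4 := e2.comp ((Homeomorph.sigmaProdDistrib (X := fun i => OnePoint (T i))
        (Y := K)).continuous.comp (Homeomorph.prodComm K (Σ i, OnePoint (T i))).continuous)
      rw [← e3] at e4
      exact e4
  have e5 := e1.comp (Homeomorph.prodSumDistrib (X := K) (Y := Unit)
    (Z := Σ i, OnePoint (T i))).continuous
  have e6 : ((g ∘ fun p : K × (Unit ⊕ (Σ i, OnePoint (T i))) => (p.1, qW p.2)) ∘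
      (Homeomorph.prodSumDistrib (X := K) (Y := Unit) (Z := Σ i, OnePoint (T i))).symm) ∘
      (Homeomorph.prodSumDistrib (X := K) (Y := Unit) (Z := Σ i, OnePoint (T i))) =
      (g ∘ fun p : K × (Unit ⊕ (Σ i, OnePoint (T i))) => (p.1, qW p.2)) := by
    funext p; simp
  rwa [e6] at e5

/-- homotopy classes out of a finite wedge are determined by their restrictions -/
theorem HC.ext_wedge {a b : HC (Σ i, T i) W'} (h : ∀ i, a.comp (HC.mk (incP i)) = b.comp (HC.mk (incP i))) :
    a = b := by
  obtain ⟨f, rfl⟩ := HC.mk_surj a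
  obtain ⟨g, rfl⟩ := HC.mk_surj b
  have h' : ∀ i, (f.comp (incP i)).Homotopic (g.comp (incP i)) := fun i => HC.mk_eq.1 (h i)
  choose H hH H0 H1 Hi using fun i => (h' i).exists
  refine HC.sound (PMap.Homotopic.of (fun p => p.2.elim ∞ fun z => H z.1 (p.1, z.2)) ?_ ?_ ?_ ?_)
  · refine continuous_of_wedge ?_ fun i => ?_
    · exact continuous_const
    · refine (hH i).congr ?_
      rintro ⟨t, x⟩
      induction x using OnePoint.rec with
      | infty => exact Hi i t
      | coe x => rfl
  · rintro ⟨i, x⟩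
    exact H0 i x
  · rintro ⟨i, x⟩
    exact H1 i x
  · intro t; rfl

/-- smashed form -/
theorem HC.ext_wedge_smash {C : Type x} [TopologicalSpace C] [T2Space C] [LocallyCompactSpace C]
    {a b : HC ((Σ i, T i) × C) W'}
    (h : ∀ i, a.comp ((HC.mk (incP i)).smash (h1 C)) = b.comp ((HC.mk (incP i)).smash (h1 C))) :
    a = b := by
  have h3 : ∀ i, (hh (Homeomorph.sigmaProdDistrib (X := T) (Y := C)).symm).comp
      (HC.mk (incP (T := fun i => T i × C) i)) = (HC.mk (incP i)).smash (h1 C) := by
    intro i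
    exact congrArg HC.mk (PMap.ext fun p => rfl)
  have h2 : a.comp (hh (Homeomorph.sigmaProdDistrib (X := T) (Y := C)).symm) =
      b.comp (hh (Homeomorph.sigmaProdDistrib (X := T) (Y := C)).symm) := by
    refine HC.ext_wedge fun i => ?_
    rw [HC.comp_assoc, HC.comp_assoc, h3, h]
  have h4 := congrArg (fun c => c.comp (hh (Homeomorph.sigmaProdDistrib (X := T) (Y := C)))) h2
  simpa only [HC.comp_assoc, hh_symm_comp, comp_h1] using h4

theorem stN_smash (a : HC X Y) (n k : ℕ) :
    stN (a.smash (h1 (Fin n → ℂ))) k = a.smash (h1 (Fin (n + k) → ℂ)) := by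
  induction k with
  | zero => rfl
  | succ k ih => rw [stN_succ, ih, smash_level]; rfl

theorem stN_add {n : ℕ} {a b : HC (S X n) (S Y n)} {k : ℕ} (h : stN a k = stN b k) (j : ℕ) :
    stN a (k + j) = stN b (k + j) := by
  induction j with
  | zero => exact h
  | succ j ih =>
    change st (stN a (k + j)) = st (stN b (k + j))
    rw [ih]

/-- stable maps out of a finite wedge are determined by their restrictions -/
theorem St.ext_wedge {s t : St (Σ i, T i) Y} (h : ∀ i, s.comp (St.ofP (incP i)) = t.comp (St.ofP (incP i))) :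
    s = t := by
  obtain ⟨n, -, ⟨a, rfl⟩, ⟨b, rfl⟩⟩ := s.exists_of₂ t 0
  have h2 : ∀ i, ∃ k, stN (a.comp ((HC.mk (incP i)).smash (h1 _))) k =
      stN (b.comp ((HC.mk (incP i)).smash (h1 _))) k := by
    intro i
    have := h i
    rw [St.ofP, St.map_eq_of _ n, St.of_comp_of, St.of_comp_of] at this
    exact St.of_eq_iff.1 this
  choose k hk using h2
  obtain ⟨K, hK⟩ : ∃ K, ∀ i, k i ≤ K := by
    obtain ⟨K, hK⟩ := (Set.finite_range k).bddAbove
    exact ⟨K, fun i => hK ⟨i, rfl⟩⟩
  refine St.of_eq_iff.2 ⟨K, HC.ext_wedge_smash fun i => ?_⟩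
  obtain ⟨j, hj⟩ := Nat.exists_eq_add_of_le (hK i)
  have h3 := stN_add (hk i) j
  rw [← hj, stN_comp, stN_comp, stN_smash] at h3
  exact h3

theorem St.pr_inc (i : ι) : (St.ofP (prP (T := T) i)).comp (St.ofP (incP i)) = St.id (T i) := by
  rw [← St.ofP_comp, prP_incP, St.ofP_id]

theorem St.pr_inc_ne {i j : ι} (h : i ≠ j) :
    (St.ofP (prP (T := T) i)).comp (St.ofP (incP j)) = 0 := by
  rw [← St.ofP_comp, prP_incP_ne h, St.ofP_zero]

/-- a finite wedge is a biproduct in the stable category -/
theorem St.sum_inc_pr [Fintype ι] :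
    ∑ i, (St.ofP (incP (T := T) i)).comp (St.ofP (prP i)) = St.id (Σ i, T i) := by
  classical
  refine St.ext_wedge fun j => ?_
  rw [St.sum_comp, St.id_comp, Finset.sum_eq_single j]
  · rw [St.comp_assoc, St.pr_inc, St.comp_id]
  · intro i _ hij
    rw [St.comp_assoc, St.pr_inc_ne hij, St.comp_zero]
  · intro h; exact absurd (Finset.mem_univ j) h

end wedge

end Crest.Agent.R090.St528
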