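import Crest.Agent.R090.Cov_128
import Crest.Agent.R090.Puppe_962
import Crest.Agent.R090.St2_528

/-!
# Row 90, T1: covariant exactness in the stable category (owner helper128)

For `f : PMap U V` and an arbitrary fixed `D`:
* `cov1` : `h : St W (V × D)`, `(i ∧ 1) ∘ h = 0` ⟹ `h = (f ∧ 1) ∘ k`;
* `cov2` : `h : St W (MC f × D)`, `(p ∧ 1) ∘ h = 0` ⟹ `h = (i ∧ 1) ∘ k`;
* `cov3` : `h : St W ((U × Io) × D)`, `((f ∧ 1) ∧ 1) ∘ h = 0` ⟹ `h = (p ∧ 1) ∘ k`.
The same without `D` (`cov1'`, `cov2'`, `cov3'`) and with `D` on the left (`cov1L`, …).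
-/

set_option autoImplicit false
set_option linter.unusedSectionVars false

open Topology Filter Set

namespace Crest.Agent.R090.CovSt128

open OnePoint Crest.Agent.R090.Sp962 Crest.Agent.R090.Grp528 Crest.Agent.R090.St528
open scoped unitInterval

universe u v w x y

section

variable {A : Type u} {B : Type v} {C : Type x} {W : Type w} {D : Type y}
variable [TopologicalSpace A] [TopologicalSpace B] [TopologicalSpace C] [TopologicalSpace W]
  [TopologicalSpace D]
variable [T2Space A] [LocallyCompactSpace A] [T2Space B] [LocallyCompactSpace B]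
  [T2Space C] [LocallyCompactSpace C] [T2Space W] [LocallyCompactSpace W]
  [T2Space D] [LocallyCompactSpace D]

/-- the level `n` representative of a class of maps -/
noncomputable abbrev lv (n : ℕ) (a : HC A B) : HC (S A n) (S B n) := a.smash (h1 (Fin n → ℂ))

theorem st_lv (n : ℕ) (a : HC A B) : st (lv n a) = lv (n + 1) a := by
  obtain ⟨f, rfl⟩ := HC.mk_surj a
  refine congrArg HC.mk (PMap.ext fun p => ?_)
  obtain ⟨x, v⟩ := p
  change PMap.ofHomeo (eS B n).symm (sm (sm (f x) ((fun i : Fin n => v i.castSucc : Fin n → ℂ) :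
    OnePoint (Fin n → ℂ))) ((v (Fin.last n) : ℂ) : OnePoint ℂ)) = sm (f x) (v : OnePoint _)
  generalize f x = y
  induction y using OnePoint.rec with
  | infty => simp
  | coe y =>
    change (((eS B n).symm ((y, fun i : Fin n => v i.castSucc), v (Fin.last n)) : S B (n + 1)) :
      OnePoint (S B (n + 1))) = ((y, v) : B × (Fin (n + 1) → ℂ))
    congr 1
    exact (eS B n).symm_apply_apply (y, v)

theorem stN_lv (n k : ℕ) (a : HC A B) : stN (lv n a) k = lv (n + k) a := by
  induction k with
  | zero => rfl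
  | succ k ih => rw [stN_succ, ih, st_lv]; rfl

theorem map_comp_assoc (b : HC B C) (a : HC A B) (h : St W A) :
    (St.map b).comp ((St.map a).comp h) = (St.map (b.comp a)).comp h := by
  rw [St.map_comp, St.comp_assoc]

/-- a stable map killed by an unstable one, at a finite level -/
theorem exists_level (i : PMap B C) (h : St W B) (hi : (St.ofP i).comp h = 0) :
    ∃ (n : ℕ) (h0 : PMap (S W n) (S B n)), h = St.of n (HC.mk h0) ∧
      ((i.smash (PMap.id (Fin n → ℂ))).comp h0).Null := by
  obtain ⟨n, _, a, rfl⟩ := h.exists_of_ge 0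
  rw [St.ofP, St.map_eq_of _ n, St.of_comp_of, ← St.of_zero n, St.of_eq_iff] at hi
  obtain ⟨k, hk⟩ := hi
  have hz : stN (hzero (S W n) (S C n)) k = hzero _ _ := by
    clear hk
    induction k with
    | zero => rfl
    | succ k ih => rw [stN_succ, ih, st_hzero]; rfl
  rw [stN_comp, stN_lv, hz] at hk
  obtain ⟨h0, hh0⟩ := HC.mk_surj (stN a k)
  refine ⟨n + k, h0, ?_, ?_⟩
  · rw [hh0, St.of_stN]
  · rw [← hh0] at hk
    exact HC.mk_eq.1 hk

/-- **covariant exactness, stable form** -/
theorem Lad.exact {F : PMap A B} {i : PMap B C} (L : Lad F i) (h : St W B)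
    (hi : (St.ofP i).comp h = 0) : ∃ k : St W A, (St.ofP F).comp k = h := by
  obtain ⟨n, h0, rfl, hn⟩ := exists_level i h hi
  obtain ⟨k0, hk0⟩ := (L.smR (Fin n → ℂ)).exists_ladder h0 hn
  refine ⟨St.of (n + 1) ((hh (lev A n).symm).comp
    (((HC.mk k0).smash (h1 Io)).comp (hh (lev W n)))), ?_⟩
  rw [St.ofP, St.map_eq_of _ (n + 1), St.of_comp_of, ← St.of_st (HC.mk h0), st_eq_lev]
  change St.of (n + 1) ((lv (n + 1) (HC.mk F)).comp _) = _
  rw [← st_lv, st_eq_lev]
  congr 1
  simp only [HC.comp_assoc, hh_comp_symm_assoc]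
  have hk : ((lv n (HC.mk F)).smash (h1 Io)).comp (HC.mk k0) = (HC.mk h0).smash (h1 Io) :=
    HC.sound hk0
  rw [← HC.comp_assoc (((lv n (HC.mk F)).smash (h1 Io)).smash (h1 Io)), HC.smash_comp, hk, comp_h1]

end

/-! ## the covariant exact sequences of a mapping cone, smashed with `D` -/

section cone

variable {U : Type u} {V : Type v} {W : Type w} {D : Type y}
variable [TopologicalSpace U] [TopologicalSpace V] [TopologicalSpace W] [TopologicalSpace D]
variable [T2Space U] [LocallyCompactSpace U] [T2Space V] [LocallyCompactSpace V]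
  [T2Space W] [LocallyCompactSpace W] [T2Space D] [LocallyCompactSpace D]

/-- exactness at `V` -/
theorem cov1 (f : PMap U V) (h : St W (V × D))
    (hi : (St.ofP ((MC.i f).smash (PMap.id D))).comp h = 0) :
    ∃ k : St W (U × D), (St.ofP (f.smash (PMap.id D))).comp k = h :=
  Lad.exact ((ladMC f).smR D) h hi

/-- exactness at `MC f` -/
theorem cov2 (f : PMap U V) (h : St W (MC f × D))
    (hp : (St.ofP ((MC.p f).smash (PMap.id D))).comp h = 0) :
    ∃ k : St W (V × D), (St.ofP ((MC.i f).smash (PMap.id D))).comp k = h := by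
  obtain ⟨r, hr⟩ := MC.exists_p f (MC.i (MC.i f)) (MC.i_comp_null (MC.i f))
  refine cov1 (MC.i f) h ?_
  have e : HC.mk ((MC.i (MC.i f)).smash (PMap.id D)) =
      (HC.mk (r.smash (PMap.id D))).comp (HC.mk ((MC.p f).smash (PMap.id D))) := by
    rw [HC.comp_mk, PMap.smash_comp]
    exact HC.sound (hr.smash (PMap.Homotopic.refl _))
  rw [St.ofP, e, ← map_comp_assoc, hp, St.comp_zero]

/-- exactness at `U × Io` -/
theorem cov3 (f : PMap U V) (h : St W ((U × Io) × D))
    (hp : (St.ofP ((f.smash (PMap.id Io)).smash (PMap.id D))).comp h = 0) :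
    ∃ k : St W (MC f × D), (St.ofP ((MC.p f).smash (PMap.id D))).comp k = h := by
  obtain ⟨r, hr⟩ := MC.exists_susp f (MC.i (MC.p f)) (MC.i_comp_null (MC.p f))
  refine cov1 (MC.p f) h ?_
  have e : HC.mk ((MC.i (MC.p f)).smash (PMap.id D)) =
      (HC.mk (r.smash (PMap.id D))).comp (HC.mk ((f.smash (PMap.id Io)).smash (PMap.id D))) := by
    rw [HC.comp_mk, PMap.smash_comp]
    exact HC.sound (hr.smash (PMap.Homotopic.refl _))
  rw [St.ofP, e, ← map_comp_assoc, hp, St.comp_zero]

/-! ### without `D` -/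

/-- exactness at `V` -/
theorem cov1' (f : PMap U V) (h : St W V) (hi : (St.ofP (MC.i f)).comp h = 0) :
    ∃ k : St W U, (St.ofP f).comp k = h :=
  Lad.exact (ladMC f) h hi

/-- exactness at `MC f` -/
theorem cov2' (f : PMap U V) (h : St W (MC f)) (hp : (St.ofP (MC.p f)).comp h = 0) :
    ∃ k : St W V, (St.ofP (MC.i f)).comp k = h := by
  obtain ⟨r, hr⟩ := MC.exists_p f (MC.i (MC.i f)) (MC.i_comp_null (MC.i f))
  refine cov1' (MC.i f) h ?_
  rw [St.ofP, HC.sound hr, ← HC.comp_mk, ← map_comp_assoc, hp, St.comp_zero]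

/-- exactness at `U × Io` -/
theorem cov3' (f : PMap U V) (h : St W (U × Io))
    (hp : (St.ofP (f.smash (PMap.id Io))).comp h = 0) :
    ∃ k : St W (MC f), (St.ofP (MC.p f)).comp k = h := by
  obtain ⟨r, hr⟩ := MC.exists_susp f (MC.i (MC.p f)) (MC.i_comp_null (MC.p f))
  refine cov1' (MC.p f) h ?_
  rw [St.ofP, HC.sound hr, ← HC.comp_mk, ← map_comp_assoc, hp, St.comp_zero]

/-! ### `D` on the left -/

theorem swap_smash {U' : Type*} {V' : Type*} [TopologicalSpace U'] [TopologicalSpace V']
    [T2Space U'] [LocallyCompactSpace U'] [T2Space V'] [LocallyCompactSpace V']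
    (f : PMap U V) (g : PMap U' V') :
    (PMap.ofHomeo (Homeomorph.prodComm V V')).comp (f.smash g) =
      (g.smash f).comp (PMap.ofHomeo (Homeomorph.prodComm U U')) := by
  refine PMap.ext fun p => ?_
  obtain ⟨a, b⟩ := p
  change PMap.ofHomeo (Homeomorph.prodComm V V') (sm (f a) (g b)) = sm (g b) (f a)
  generalize f a = a'
  generalize g b = b'
  induction a' using OnePoint.rec with
  | infty => simp
  | coe a' =>
    induction b' using OnePoint.rec with
    | infty => simp
    | coe b' => rfl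

theorem ofP_swap {U' : Type*} {V' : Type*} [TopologicalSpace U'] [TopologicalSpace V']
    [T2Space U'] [LocallyCompactSpace U'] [T2Space V'] [LocallyCompactSpace V']
    (f : PMap U V) (g : PMap U' V') (h : St W (U × U')) :
    (St.ofP (PMap.ofHomeo (Homeomorph.prodComm V V'))).comp ((St.ofP (f.smash g)).comp h) =
      (St.ofP (g.smash f)).comp ((St.ofP (PMap.ofHomeo (Homeomorph.prodComm U U'))).comp h) := by
  rw [St.ofP, St.ofP, St.ofP, St.ofP, map_comp_assoc, map_comp_assoc, HC.comp_mk, HC.comp_mk,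
    swap_smash]

theorem ofP_homeo_inj (e : U ≃ₜ V) {h h' : St W U}
    (hh : (St.ofP (PMap.ofHomeo e)).comp h = (St.ofP (PMap.ofHomeo e)).comp h') : h = h' := by
  have := congrArg (fun k => (St.ofP (PMap.ofHomeo e.symm)).comp k) hh
  simp only [← St.comp_assoc, St.ofP_homeo_symm_comp, St.id_comp] at this
  exact this

theorem exact_left {X : Type x} [TopologicalSpace X] [T2Space X] [LocallyCompactSpace X]
    (f : PMap U V) (g : PMap V X)
    (H : ∀ h : St W (V × D), (St.ofP (g.smash (PMap.id D))).comp h = 0 →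
      ∃ k : St W (U × D), (St.ofP (f.smash (PMap.id D))).comp k = h)
    (h : St W (D × V)) (hg : (St.ofP ((PMap.id D).smash g)).comp h = 0) :
    ∃ k : St W (D × U), (St.ofP ((PMap.id D).smash f)).comp k = h := by
  obtain ⟨k, hk⟩ := H ((St.ofP (PMap.ofHomeo (Homeomorph.prodComm D V))).comp h) (by
    rw [← ofP_swap, hg, St.comp_zero])
  refine ⟨(St.ofP (PMap.ofHomeo (Homeomorph.prodComm U D))).comp k, ?_⟩
  rw [← ofP_swap, hk, ← St.comp_assoc]
  have := St.ofP_homeo_symm_comp (Homeomorph.prodComm D V)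
  rw [Homeomorph.prodComm_symm] at this
  rw [this, St.id_comp]

/-- exactness at `V` -/
theorem cov1L (f : PMap U V) (h : St W (D × V))
    (hi : (St.ofP ((PMap.id D).smash (MC.i f))).comp h = 0) :
    ∃ k : St W (D × U), (St.ofP ((PMap.id D).smash f)).comp k = h :=
  exact_left f (MC.i f) (cov1 f) h hi

/-- exactness at `MC f` -/
theorem cov2L (f : PMap U V) (h : St W (D × MC f))
    (hp : (St.ofP ((PMap.id D).smash (MC.p f))).comp h = 0) :
    ∃ k : St W (D × V), (St.ofP ((PMap.id D).smash (MC.i f))).comp k = h :=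
  exact_left (MC.i f) (MC.p f) (cov2 f) h hp

/-- exactness at `U × Io` -/
theorem cov3L (f : PMap U V) (h : St W (D × (U × Io)))
    (hp : (St.ofP ((PMap.id D).smash (f.smash (PMap.id Io)))).comp h = 0) :
    ∃ k : St W (D × MC f), (St.ofP ((PMap.id D).smash (MC.p f))).comp k = h :=
  exact_left (MC.p f) (f.smash (PMap.id Io)) (cov3 f) h hp

end cone

end Crest.Agent.R090.CovSt128
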