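import Crest.Agent.R090.FMProd_305
import Crest.Agent.R090.CovSt_128

/-!
# Row 90, leaf FM2 (owner helper305, second of helper554): sphere-built targets

If precomposition with a stable map `r` is bijective on stable maps into all spheres `Fin n → ℝ`,
then it is bijective on stable maps into every sphere-built space (`SIso.bij`).  Input: the
covariant exact sequence of a mapping cone (`CovSt_128`).
-/

set_option autoImplicit false
set_option linter.unusedSectionVars false

open Topology Filter Set unitInterval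

namespace Crest.Agent.R090.FM554

open OnePoint Crest.Agent.R090.Sp962 Crest.Agent.R090.St528

universe u v w x

section bij

variable {X : Type u} {M : Type v} [TopologicalSpace X] [T2Space X] [LocallyCompactSpace X]
variable [TopologicalSpace M] [T2Space M] [LocallyCompactSpace M]

/-- precomposition with `r` is bijective on stable maps into `T` -/
def Bij (r : St X M) (T : Type w) [TopologicalSpace T] [T2Space T] [LocallyCompactSpace T] :
    Prop := Function.Bijective (fun x : St M T => x.comp r)

/-- precomposition with `r` is bijective on stable maps into spheres -/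
def SIso (r : St X M) : Prop := ∀ n : ℕ, Bij r (Fin n → ℝ)

variable {T : Type w} [TopologicalSpace T] [T2Space T] [LocallyCompactSpace T]
variable {T' : Type x} [TopologicalSpace T'] [T2Space T'] [LocallyCompactSpace T']

theorem Bij.inj {r : St X M} (h : Bij r T) {x y : St M T} (e : x.comp r = y.comp r) : x = y :=
  h.1 e

theorem Bij.surj {r : St X M} (h : Bij r T) (y : St X T) : ∃ x : St M T, x.comp r = y := h.2 y

/-- transport along a stable equivalence of the target -/
theorem Bij.of_equiv {r : St X M} (h : Bij r T) (a : St T T') (b : St T' T)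
    (hab : a.comp b = St.id T') : Bij r T' := by
  constructor
  · intro x y e
    have e' : (b.comp x).comp r = (b.comp y).comp r := by
      rw [St.comp_assoc, St.comp_assoc]
      exact congrArg _ e
    have := h.inj e'
    calc x = (a.comp b).comp x := by rw [hab, St.id_comp]
      _ = (a.comp b).comp y := by rw [St.comp_assoc, this, St.comp_assoc]
      _ = y := by rw [hab, St.id_comp]
  · intro y
    obtain ⟨x, hx⟩ := h.surj (b.comp y)
    refine ⟨a.comp x, ?_⟩
    change (a.comp x).comp r = y
    rw [St.comp_assoc, hx, ← St.comp_assoc, hab, St.id_comp]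

theorem Bij.heqv {r : St X M} (h : Bij r T) (e : HEqv T T') : Bij r T' := by
  obtain ⟨f, g, -, h2⟩ := e
  refine h.of_equiv (St.ofP f) (St.ofP g) ?_
  rw [← St.ofP_comp, St.ofP_congr h2, St.ofP_id]

theorem Bij.homeo {r : St X M} (h : Bij r T) (e : T ≃ₜ T') : Bij r T' :=
  h.heqv (HEqv.of_homeo e)

end bij

section cone

variable {U : Type u} {V : Type v} [TopologicalSpace U] [TopologicalSpace V]
  [T2Space U] [LocallyCompactSpace U] [T2Space V] [LocallyCompactSpace V]

/-- `(f ∧ 1) ∘ p` is null -/
theorem smash_comp_p_null (f : PMap U V) :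
    ((f.smash (PMap.id Io)).comp (MC.p f)).Null := by
  refine PMap.Homotopic.of (fun q => Sp962.gh f (q.1 : ℝ) q.2) ?_ ?_ ?_ ?_
  · exact Sp962.continuous_gh f
  · intro z
    exact Sp962.gh_zero f z
  · intro z
    exact Sp962.gh_one f z
  · intro t
    exact Sp962.gh_inf f _

theorem ofP_smash_comp_p (f : PMap U V) :
    (St.ofP (f.smash (PMap.id Io))).comp (St.ofP (MC.p f)) = 0 := by
  rw [← St.ofP_comp]
  exact St.ofP_null (smash_comp_p_null f)

theorem ofP_i_comp (f : PMap U V) : (St.ofP (MC.i f)).comp (St.ofP f) = 0 := by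
  rw [← St.ofP_comp]
  exact St.ofP_null (MC.i_comp_null f)

theorem ofP_p_comp_i (f : PMap U V) : (St.ofP (MC.p f)).comp (St.ofP (MC.i f)) = 0 := by
  rw [← St.ofP_comp, MC.p_comp_i, St.ofP_zero]

variable {X : Type w} {M : Type x} [TopologicalSpace X] [T2Space X] [LocallyCompactSpace X]
variable [TopologicalSpace M] [T2Space M] [LocallyCompactSpace M]

/-- five lemma in the target -/
theorem Bij.cone {r : St X M} (f : PMap U V) (hU : Bij r U) (hV : Bij r V) (hU' : Bij r (U × Io)) (hV' : Bij r (V × Io)) :
    Bij r (MC f) := by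
  constructor
  · -- injectivity
    intro x y e
    have e0 : (x - y).comp r = 0 := by
      rw [St.sub_comp]; exact sub_eq_zero.2 e
    refine sub_eq_zero.1 ?_
    generalize x - y = z at e0
    -- `p z = 0`
    have h1 : (St.ofP (MC.p f)).comp z = 0 := by
      refine hU'.inj ?_
      rw [St.comp_assoc, e0, St.comp_zero, St.zero_comp]
    obtain ⟨k, rfl⟩ := CovSt128.cov2' f z h1
    rw [St.comp_assoc] at e0
    obtain ⟨a', ha'⟩ := CovSt128.cov1' f _ e0
    obtain ⟨a, ha⟩ := hU.surj a'
    have h2 : k = (St.ofP f).comp a := by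
      refine hV.inj ?_
      rw [← ha', St.comp_assoc, ha]
    rw [h2, ← St.comp_assoc, ofP_i_comp, St.zero_comp]
  · -- surjectivity
    intro x'
    obtain ⟨z, hz⟩ := hU'.surj ((St.ofP (MC.p f)).comp x')
    have h1 : (St.ofP (f.smash (PMap.id Io))).comp z = 0 := by
      refine hV'.inj ?_
      rw [St.comp_assoc, hz, ← St.comp_assoc, ofP_smash_comp_p, St.zero_comp, St.zero_comp]
    obtain ⟨x, rfl⟩ := CovSt128.cov3' f z h1
    have h2 : (St.ofP (MC.p f)).comp (x' - x.comp r) = 0 := by
      rw [St.comp_sub, ← St.comp_assoc, hz, sub_self]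
    obtain ⟨y', hy'⟩ := CovSt128.cov2' f _ h2
    obtain ⟨y, hy⟩ := hV.surj y'
    refine ⟨x + (St.ofP (MC.i f)).comp y, ?_⟩
    change (x + (St.ofP (MC.i f)).comp y).comp r = x'
    rw [St.add_comp, St.comp_assoc, hy, hy', add_sub_cancel]

end cone

section main

variable {X : Type u} {M : Type v} [TopologicalSpace X] [T2Space X] [LocallyCompactSpace X]
variable [TopologicalSpace M] [T2Space M] [LocallyCompactSpace M]

/-- `(T × ℝⁿ) × Io ≃ₜ T × ℝⁿ⁺¹` -/
noncomputable def prodIo (T : Type) [TopologicalSpace T] (n : ℕ) :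
    T × (Fin (n + 1) → ℝ) ≃ₜ (T × (Fin n → ℝ)) × Io :=
  ((Homeomorph.refl T).prodCongr ((Fin.appendHomeomorph n 1).symm.trans
    ((Homeomorph.refl _).prodCongr ((Homeomorph.funUnique (Fin 1) ℝ).trans ioHomeo)))).trans
    (Homeomorph.prodAssoc T (Fin n → ℝ) Io).symm

theorem SIso.bij_susp {r : St X M} (h : SIso r)
    {T : Type} [TopologicalSpace T] [T2Space T] [LocallyCompactSpace T] (hT : SB T) :
    ∀ n : ℕ, Bij r (T × (Fin n → ℝ)) := by
  refine SB.induction (P := fun T _ _ _ => ∀ n : ℕ, Bij r (T × (Fin n → ℝ))) ?_ ?_ ?_ hT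
  · intro m n
    exact (h (m + n)).homeo (Fin.appendHomeomorph m n).symm
  · intro U V _ _ _ _ _ _ f hU hV n
    refine Bij.homeo ?_ (MC.smR f (Fin n → ℝ))
    exact Bij.cone (f.smash (PMap.id (Fin n → ℝ))) (hU n) (hV n)
      ((hU (n + 1)).homeo (prodIo U n)) ((hV (n + 1)).homeo (prodIo V n))
  · intro U V _ _ _ _ _ _ e hU n
    exact (hU n).heqv (e.smashR _)

/-- **target lemma** -/
theorem SIso.bij {r : St X M} (h : SIso r)
    {T : Type} [TopologicalSpace T] [T2Space T] [LocallyCompactSpace T] (hT : SB T) :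
    Bij r T := by
  refine Bij.homeo (h.bij_susp hT 0) ?_
  exact Homeomorph.prodUnique T (Fin 0 → ℝ)

end main

end Crest.Agent.R090.FM554
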