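import Crest.Agent.R090.StCat2_865
import Crest.Agent.R090.CatWcok_314
import Crest.Agent.R090.CovSt_128
import Crest.Agent.R090.FMTgt_305

/-!
# Row 90, DUAL: sphere-built spaces have duals (owner helper698)

`D0 : Dual698.Data LC`, `triMC`, `pp_of_SB : SB M → PP D0 X M`, and the dual translated to
`St528.St`.
-/

set_option autoImplicit false
set_option linter.unusedSectionVars false

open Topology Filter Set CategoryTheory MonoidalCategory

noncomputable section

namespace Crest.Agent.R090.DualSB698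

open OnePoint Crest.Agent.R090.Sp962 Crest.Agent.R090.Grp528 Crest.Agent.R090.St528
  Crest.Agent.R090.Sm202 Crest.Agent.R090.StCat865 Crest.Agent.R090.FM554

/-- the data for the stable category -/
def D0 : Dual698.Data LC where
  Sph := CatWcok314.Sph
  unit := CatWcok314.sph_unit
  tensor := CatWcok314.sph_tensor
  R := LC.of Io
  sphR := CatWcok314.sph_of_homeo (F := LC.of Io) (G := LC.of ℝ) ioHomeo.symm
    CatWcok314.sph_real
  neg := neg_io
  sum := StCat865.sum
  wcok := CatWcok314.wcok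

section tri

variable {U V : Type} [TopologicalSpace U] [T2Space U] [LocallyCompactSpace U]
variable [TopologicalSpace V] [T2Space V] [LocallyCompactSpace V]

/-- the triangle of a mapping cone -/
def triMC (f : PMap U V) : Dual698.Tri D0 (LC.of U) (LC.of V) (LC.of (MC f)) where
  f := St.ofP f
  i := St.ofP (MC.i f)
  p := St.ofP (MC.p f)
  fi := ofP_i_comp f
  ip := ofP_p_comp_i f
  pf := by
    change ((St.ofP f).smR Io).comp (St.ofP (MC.p f)) = 0
    rw [smR_ofP, ofP_smash_comp_p]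
  ex1 {A B} h hh := by
    change St A (B × V) at h
    change ((St.ofP (MC.i f)).smL B).comp h = 0 at hh
    rw [smL_ofP] at hh
    obtain ⟨k, hk⟩ := CovSt128.cov1L f h hh
    refine ⟨k, ?_⟩
    change ((St.ofP f).smL B).comp k = h
    rw [smL_ofP, hk]
  ex2 {A B} h hh := by
    change St A (B × MC f) at h
    change ((St.ofP (MC.p f)).smL B).comp h = 0 at hh
    rw [smL_ofP] at hh
    obtain ⟨k, hk⟩ := CovSt128.cov2L f h hh
    refine ⟨k, ?_⟩
    change ((St.ofP (MC.i f)).smL B).comp k = h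
    rw [smL_ofP, hk]
  ex3 {A B} h hh := by
    change St A (B × (U × Io)) at h
    change (((St.ofP f).smR Io).smL B).comp h = 0 at hh
    rw [smR_ofP, smL_ofP] at hh
    obtain ⟨k, hk⟩ := CovSt128.cov3L f h hh
    refine ⟨k, ?_⟩
    change ((St.ofP (MC.p f)).smL B).comp k = h
    rw [smL_ofP, hk]

/-- homotopy equivalent spaces are isomorphic objects -/
theorem iso_of_heqv (e : HEqv U V) : Nonempty (LC.of U ≅ LC.of V) := by
  obtain ⟨f, g, h1, h2⟩ := e
  refine ⟨⟨St.ofP f, St.ofP g, ?_, ?_⟩⟩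
  · change (St.ofP g).comp (St.ofP f) = St.id U
    rw [← St.ofP_comp, St.ofP_congr h1, St.ofP_id]
  · change (St.ofP f).comp (St.ofP g) = St.id V
    rw [← St.ofP_comp, St.ofP_congr h2, St.ofP_id]

end tri

theorem pp_sphere (X : LC) (n : ℕ) : Dual698.PP D0 X (LC.of (Fin n → ℝ)) := by
  induction n with
  | zero =>
    refine Dual698.PP_iso D0 (W := 𝟙_ LC) ?_ (Dual698.PP_unit D0 X)
    exact isoSh (X := ⟨Unit⟩) (Y := LC.of (Fin 0 → ℝ))
      (Homeomorph.homeomorphOfUnique Unit (Fin 0 → ℝ))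
  | succ n ih =>
    refine Dual698.PP_iso D0 (W := LC.of (Fin n → ℝ) ⊗ D0.R) ?_ (Dual698.PP_susp D0 ih)
    refine isoSh (X := ⟨(Fin n → ℝ) × Io⟩) (Y := LC.of (Fin (n + 1) → ℝ)) ?_
    exact ((Homeomorph.refl (Fin n → ℝ)).prodCongr
      (ioHomeo.symm.trans (Homeomorph.funUnique (Fin 1) ℝ).symm)).trans (Fin.appendHomeomorph n 1)

/-- **sphere-built spaces satisfy the induction statement** -/
theorem pp_of_SB (X : LC) {M : Type} [TopologicalSpace M] [T2Space M] [LocallyCompactSpace M]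
    (h : SB M) : Dual698.PP D0 X (LC.of M) := by
  refine SB.induction (P := fun M _ _ _ => Dual698.PP D0 X (LC.of M)) ?_ ?_ ?_ h
  · exact fun n => pp_sphere X n
  · intro U V _ _ _ _ _ _ f hU hV
    exact Dual698.PP_cone D0 (triMC f) hU hV
  · intro U V _ _ _ _ _ _ e hU
    obtain ⟨e⟩ := iso_of_heqv e
    exact Dual698.PP_iso D0 e hU

/-- **the dual of a sphere-built space**, with target an arbitrary sphere `ℝ^k` -/
theorem exists_dual {X M : Type} [TopologicalSpace X] [T2Space X] [LocallyCompactSpace X]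
    [TopologicalSpace M] [T2Space M] [LocallyCompactSpace M] (hM : SB M) (r : St X M) :
    ∃ (k : ℕ) (B : Type) (_ : TopologicalSpace B) (_ : T2Space B) (_ : LocallyCompactSpace B)
      (g : St (Fin k → ℝ) (B × M)) (u : St (X × B) (Fin k → ℝ)),
      (u.smR M).comp ((sh (Homeomorph.prodAssoc X B M).symm).comp (g.smL X)) =
        (r.smL (Fin k → ℝ)).comp (sh (Homeomorph.prodComm X (Fin k → ℝ))) := by
  obtain ⟨F, B, g, u, ⟨k, ⟨e⟩⟩, h⟩ := Dual698.exists_dual D0 (pp_of_SB (LC.of X) hM) r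
  let E : F ≅ LC.of (Fin k → ℝ) := isoSh (Y := LC.of (Fin k → ℝ)) e
  have h' : LC.of X ◁ (E.inv ≫ g) ≫ (α_ (LC.of X) B (LC.of M)).inv ≫ (u ≫ E.hom) ▷ LC.of M =
      (β_ (LC.of X) (LC.of (Fin k → ℝ))).hom ≫ LC.of (Fin k → ℝ) ◁
        (r : LC.of X ⟶ LC.of M) := by
    simp only [MonoidalCategory.whiskerLeft_comp, MonoidalCategory.comp_whiskerRight,
      Category.assoc]
    rw [reassoc_of% h, BraidedCategory.braiding_naturality_right_assoc, whisker_exchange,
      ← comp_whiskerRight_assoc, Iso.inv_hom_id, MonoidalCategory.id_whiskerRight,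
      Category.id_comp]
  refine ⟨k, B, B.top, B.t2, B.lc, E.inv ≫ g, u ≫ E.hom, ?_⟩
  have has : sh (Homeomorph.prodAssoc X B M).symm = sh (asC X B M).symm := sh_ext fun _ => rfl
  rw [has, ← St.comp_assoc]
  exact h'

/-- the case `X = M`, `r = 1` -/
theorem exists_dual_id {M : Type} [TopologicalSpace M] [T2Space M] [LocallyCompactSpace M]
    (hM : SB M) :
    ∃ (k : ℕ) (B : Type) (_ : TopologicalSpace B) (_ : T2Space B) (_ : LocallyCompactSpace B)
      (g : St (Fin k → ℝ) (B × M)) (u : St (M × B) (Fin k → ℝ)),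
      (u.smR M).comp ((sh (Homeomorph.prodAssoc M B M).symm).comp (g.smL M)) =
        sh (Homeomorph.prodComm M (Fin k → ℝ)) := by
  obtain ⟨k, B, h1, h2, h3, g, u, h⟩ := exists_dual hM (St.id M)
  refine ⟨k, B, h1, h2, h3, g, u, ?_⟩
  rw [h, smL_id, St.id_comp]

end Crest.Agent.R090.DualSB698
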