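import Crest.Agent.R090.Susp_528

/-!
# Row 90, T1-ADD: smash with `ℂ` is the complex suspension isomorphism, levelwise
(owner helper528)
-/

set_option autoImplicit false
set_option linter.unusedSectionVars false
set_option linter.unusedVariables false

open Topology Filter Set

namespace Crest.Agent.R090.St528

open OnePoint Crest.Agent.R090.Sp962 Crest.Agent.R090.Grp528
open scoped unitInterval

universe u v w x

theorem hh_symm_congr' {U : Type u} {V : Type v} [TopologicalSpace U] [TopologicalSpace V]
    {e e' : U ≃ₜ V} (h : hh e = hh e') : hh e.symm = hh e'.symm := by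
  calc hh e.symm = (hh e.symm).comp ((hh e').comp (hh e'.symm)) := by
        rw [hh_comp_symm, comp_h1]
    _ = hh e'.symm := by rw [← h, hh_symm_comp_assoc]

/-- two `ℂ`-linear isomorphisms, with a parameter space on the left -/
theorem hh_linear_left (U : Type u) [TopologicalSpace U] [T2Space U] [LocallyCompactSpace U]
    {E : Type v} {F : Type w} [NormedAddCommGroup E] [NormedSpace ℂ E] [FiniteDimensional ℂ E]
    [NormedAddCommGroup F] [NormedSpace ℂ F] [FiniteDimensional ℂ F] (A B : E ≃L[ℂ] F) :
    hh ((Homeomorph.refl U).prodCongr A.toHomeomorph) =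
      hh ((Homeomorph.refl U).prodCongr B.toHomeomorph) :=
  HC.sound (Lin202.homotopic_smash_left A B)

/-- swap of `ℂ` and `ℂ^n` -/
noncomputable def linSw (n : ℕ) : (ℂ × (Fin n → ℂ)) ≃L[ℂ] ((Fin n → ℂ) × ℂ) :=
  ContinuousLinearEquiv.prodComm ℂ ℂ (Fin n → ℂ)

/-- `(c, (v, a)) ↦ ((c, v), a)` -/
noncomputable def linCy (n : ℕ) : (ℂ × (Fin (n + 1) → ℂ)) ≃L[ℂ] ((Fin (n + 1) → ℂ) × ℂ) :=
  LinearEquiv.toContinuousLinearEquiv
    { toFun := fun p => (Fin.cons (α := fun _ => ℂ) p.1 (fun i : Fin n => p.2 i.castSucc),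
        p.2 (Fin.last n))
      invFun := fun q => (q.1 0, Fin.snoc (α := fun _ => ℂ) (fun i : Fin n => q.1 i.succ) q.2)
      map_add' := fun p q => by
        refine Prod.ext (funext fun i => ?_) rfl
        refine Fin.cases ?_ (fun j => ?_) i <;> rfl
      map_smul' := fun c p => by
        refine Prod.ext (funext fun i => ?_) rfl
        refine Fin.cases ?_ (fun j => ?_) i <;> rfl
      left_inv := fun p => by
        refine Prod.ext rfl (funext fun i => ?_)
        refine Fin.lastCases ?_ (fun j => ?_) i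
        · simp
        · simp
      right_inv := fun q => by
        refine Prod.ext (funext fun i => ?_) ?_
        · refine Fin.cases ?_ (fun j => ?_) i
          · rfl
          · simp
        · simp }

variable {X : Type u} {Y : Type v} {Z : Type w}
variable [TopologicalSpace X] [TopologicalSpace Y] [TopologicalSpace Z]
variable [T2Space X] [LocallyCompactSpace X] [T2Space Y] [LocallyCompactSpace Y]
  [T2Space Z] [LocallyCompactSpace Z]

theorem hh_swS_eq (X : Type u) [TopologicalSpace X] [T2Space X] [LocallyCompactSpace X] (n : ℕ) :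
    hh (swS X ℂ (n + 1)) = hh ((phC X (n + 1)).trans (eS X (n + 1))) := by
  have e1 : hh (swS X ℂ (n + 1)) = (hh (Homeomorph.prodAssoc X (Fin (n + 1) → ℂ) ℂ).symm).comp
      ((hh ((Homeomorph.refl X).prodCongr (linSw (n + 1)).toHomeomorph)).comp
        (hh (Homeomorph.prodAssoc X ℂ (Fin (n + 1) → ℂ)))) := by
    rw [← hh_trans, ← hh_trans]
    exact hh_ext fun _ => rfl
  have e2 : hh ((phC X (n + 1)).trans (eS X (n + 1))) =
      (hh (Homeomorph.prodAssoc X (Fin (n + 1) → ℂ) ℂ).symm).comp
      ((hh ((Homeomorph.refl X).prodCongr (linCy n).toHomeomorph)).comp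
        (hh (Homeomorph.prodAssoc X ℂ (Fin (n + 1) → ℂ)))) := by
    rw [← hh_trans, ← hh_trans]
    exact hh_ext fun p => phC_eS X n p
  rw [e1, e2, hh_linear_left X (linSw (n + 1)) (linCy n)]

/-- levelwise smash product with `W` on the right -/
noncomputable def lvR (W : Type x) [TopologicalSpace W] [T2Space W] [LocallyCompactSpace W] {n : ℕ}
    (a : HC (S X n) (S Y n)) : HC (S (X × W) n) (S (Y × W) n) :=
  (hh (swS Y W n).symm).comp ((a.smash (h1 W)).comp (hh (swS X W n)))

/-- **smash with `ℂ` is the shift** -/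
theorem lvR_C {n : ℕ} (a : HC (S X (n + 1)) (S Y (n + 1))) : lvR ℂ a = shH (st a) := by
  rw [lvR, hh_swS_eq, hh_symm_congr' (hh_swS_eq Y n), shH, st, hh_trans]
  have h3 : hh ((phC Y (n + 1)).trans (eS Y (n + 1))).symm =
      (hh (phC Y (n + 1)).symm).comp (hh (eS Y (n + 1)).symm) := by
    rw [← hh_trans]; rfl
  rw [h3]
  simp only [HC.comp_assoc]

end Crest.Agent.R090.St528
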