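import Crest.Agent.R090.Sm_202
import Crest.Agent.R090.Susp2_528

/-!
# Row 90, T1-ADD: suspension isomorphisms of the stable category (owner helper528)

* `smR_C : a.smR ℂ = St.shC a`; `smR_smR`, `smR_homeo`, `smR_unique`;
* class `Sus W` : `smR W : St X Y → St (X × W) (Y × W)` is bijective for all `X Y`; instances for
  `ℂ`, `Io`, `ℝ`, `Fin n → ℂ`, `Fin n → ℝ`, products, points;
* `of_smR_level : (St.of n a).smR (Fin n → ℂ) = St.map a`.
-/

set_option autoImplicit false
set_option linter.unusedSectionVars false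
set_option linter.unusedVariables false
set_option linter.style.haveILetI false

open Topology Filter Set

noncomputable section

namespace Crest.Agent.R090.SmIso528

open OnePoint Crest.Agent.R090.Sp962 Crest.Agent.R090.Grp528 Crest.Agent.R090.St528
  Crest.Agent.R090.Sm202

universe u v w x y

variable {X : Type u} {Y : Type v} {Z : Type w} {W : Type x} {W' : Type y}
variable [TopologicalSpace X] [TopologicalSpace Y] [TopologicalSpace Z] [TopologicalSpace W]
  [TopologicalSpace W']
variable [T2Space X] [T2Space Y] [T2Space Z] [T2Space W] [T2Space W']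
variable [LocallyCompactSpace X] [LocallyCompactSpace Y] [LocallyCompactSpace Z]
variable [LocallyCompactSpace W] [LocallyCompactSpace W']

/-! ## conjugation on stable maps -/

/-- conjugation of a stable map by homeomorphisms -/
def cj {X' : Type*} {Y' : Type*} [TopologicalSpace X'] [TopologicalSpace Y'] [T2Space X']
    [T2Space Y'] [LocallyCompactSpace X'] [LocallyCompactSpace Y'] (e : X ≃ₜ X') (e' : Y ≃ₜ Y')
    (a : St X Y) : St X' Y' := (sh e').comp (a.comp (sh e.symm))

section cj

variable {X' : Type*} {Y' : Type*} [TopologicalSpace X'] [TopologicalSpace Y'] [T2Space X']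
    [T2Space Y'] [LocallyCompactSpace X'] [LocallyCompactSpace Y']

theorem cj_symm_cj (e : X ≃ₜ X') (e' : Y ≃ₜ Y') (a : St X Y) : cj e.symm e'.symm (cj e e' a) = a := by
  have h : e.symm.symm = e := rfl
  rw [cj, cj, h]
  simp only [St.comp_assoc, sh_symm_comp_assoc, sh_symm_comp, St.comp_id]

theorem cj_cj_symm (e : X ≃ₜ X') (e' : Y ≃ₜ Y') (a : St X' Y') :
    cj e e' (cj e.symm e'.symm a) = a := by
  have h : e.symm.symm = e := rfl
  rw [cj, cj, h]
  simp only [St.comp_assoc, sh_comp_symm_assoc, sh_comp_symm, St.comp_id]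

theorem cj_bijective (e : X ≃ₜ X') (e' : Y ≃ₜ Y') : Function.Bijective (cj e e') :=
  Function.bijective_iff_has_inverse.2 ⟨cj e.symm e'.symm, cj_symm_cj e e', cj_cj_symm e e'⟩

theorem cj_of (e : X ≃ₜ X') (e' : Y ≃ₜ Y') (n : ℕ) (a : HC (S X n) (S Y n)) :
    cj e e' (St.of n a) = St.of n (a.conj (e.prodCongr (Homeomorph.refl _))
      (e'.prodCongr (Homeomorph.refl _))) := by
  rw [cj, sh_eq, sh_eq, St.map_eq_of _ n, St.map_eq_of _ n, St.of_comp_of, St.of_comp_of,
    conj_def, hh_smash_h1, hh_smash_h1]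
  rfl

end cj

/-! ## smash with `ℂ` -/

theorem levR_eq_lvR {n : ℕ} (a : HC (S X n) (S Y n)) : levR W a = lvR W a := rfl

theorem smR_C (a : St X Y) : a.smR ℂ = St.shC a := by
  obtain ⟨s, rfl⟩ := Quotient.exists_rep a
  obtain ⟨N, h⟩ := s.ev
  refine Quotient.sound ⟨N + 1, fun n hn => ?_⟩
  obtain ⟨m, rfl⟩ := Nat.exists_eq_add_of_le' (show 1 ≤ n by omega)
  change levR ℂ (s.seq (m + 1)) = shH (s.seq (m + 2))
  rw [levR_eq_lvR, lvR_C, ← h (m + 1) (by omega)]

/-! ## functoriality in the fixed space -/

theorem levR_levR {n : ℕ} (a : HC (S X n) (S Y n)) :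
    levR (W × W') a = (levR W' (levR W a)).conj ((asC X W W').prodCongr (Homeomorph.refl _))
      ((asC Y W W').prodCongr (Homeomorph.refl _)) := by
  rw [levR, levR, levR, conj_smash_h1, conj_conj, conj_conj, ← h1_smash_h1, ← conj_asC, conj_conj]
  exact conj_ext (fun _ => rfl) (fun _ => rfl) _

theorem smR_smR (a : St X Y) :
    a.smR (W × W') = cj (asC X W W') (asC Y W W') ((a.smR W).smR W') := by
  obtain ⟨n, -, a, rfl⟩ := a.exists_of_ge 0
  rw [smR_of, smR_of, smR_of, cj_of, levR_levR]

theorem levR_homeo (e : W ≃ₜ W') {n : ℕ} (a : HC (S X n) (S Y n)) :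
    levR W' a = (levR W a).conj (((Homeomorph.refl X).prodCongr e).prodCongr (Homeomorph.refl _))
      (((Homeomorph.refl Y).prodCongr e).prodCongr (Homeomorph.refl _)) := by
  have h : a.smash (h1 W') = (a.smash (h1 W)).conj ((Homeomorph.refl _).prodCongr e)
      ((Homeomorph.refl _).prodCongr e) := by
    rw [← conj_smash, conj_refl, conj_h1]
  rw [levR, levR, h, conj_conj, conj_conj]
  exact conj_ext (fun _ => rfl) (fun _ => rfl) _

theorem smR_homeo (e : W ≃ₜ W') (a : St X Y) :
    a.smR W' = cj ((Homeomorph.refl X).prodCongr e) ((Homeomorph.refl Y).prodCongr e) (a.smR W) := by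
  obtain ⟨n, -, a, rfl⟩ := a.exists_of_ge 0
  rw [smR_of, smR_of, cj_of, levR_homeo e]

/-- `X ≃ₜ X × W` for a one-point space `W` -/
def pu (X : Type u) (W : Type x) [TopologicalSpace X] [TopologicalSpace W] [Unique W] :
    X ≃ₜ X × W where
  toFun x := (x, default)
  invFun p := p.1
  left_inv _ := rfl
  right_inv p := Prod.ext rfl (Subsingleton.elim _ _)
  continuous_toFun := by fun_prop
  continuous_invFun := by fun_prop

theorem smash_unique [Unique W] (a : HC X Y) :
    a.smash (h1 W) = a.conj (pu X W) (pu Y W) := by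
  obtain ⟨f, rfl⟩ := HC.mk_surj a
  refine congrArg HC.mk (PMap.ext fun p => ?_)
  obtain ⟨x, w⟩ := p
  change sm (f x) (w : OnePoint W) = PMap.ofHomeo (pu Y W) (f x)
  generalize f x = z
  induction z using OnePoint.rec with
  | infty => simp [PMap.map_inf]
  | coe z => rw [Unique.eq_default w]; rfl

theorem levR_unique [Unique W] {n : ℕ} (a : HC (S X n) (S Y n)) :
    levR W a = a.conj ((pu X W).prodCongr (Homeomorph.refl _))
      ((pu Y W).prodCongr (Homeomorph.refl _)) := by
  rw [levR, smash_unique, conj_conj]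
  exact conj_ext (fun _ => rfl) (fun _ => rfl) _

theorem smR_unique [Unique W] (a : St X Y) : a.smR W = cj (pu X W) (pu Y W) a := by
  obtain ⟨n, -, a, rfl⟩ := a.exists_of_ge 0
  rw [smR_of, cj_of, levR_unique]

/-! ## the class of suspension spaces -/

/-- `smR W` is bijective -/
class Sus (W : Type) [TopologicalSpace W] [T2Space W] [LocallyCompactSpace W] : Prop where
  bij : ∀ (X : Type u) (Y : Type u) [TopologicalSpace X] [TopologicalSpace Y] [T2Space X]
    [T2Space Y] [LocallyCompactSpace X] [LocallyCompactSpace Y],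
    Function.Bijective (St.smR W : St X Y → St (X × W) (Y × W))

section sus

variable {V V' : Type} [TopologicalSpace V] [TopologicalSpace V'] [T2Space V] [T2Space V']
  [LocallyCompactSpace V] [LocallyCompactSpace V']

instance sus_C : Sus.{u} ℂ where
  bij X Y _ _ _ _ _ _ := by
    have h : (St.smR ℂ : St X Y → St (X × ℂ) (Y × ℂ)) = St.shC := funext smR_C
    rw [h]
    exact (St.shC (X := X) (Y := Y)).bijective

instance sus_unique [Unique V] : Sus.{u} V where
  bij X Y _ _ _ _ _ _ := by
    have h : (St.smR V : St X Y → St (X × V) (Y × V)) = cj (pu X V) (pu Y V) := funext smR_unique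
    rw [h]
    exact cj_bijective _ _

theorem sus_homeo (e : V ≃ₜ V') [Sus.{u} V] : Sus.{u} V' where
  bij X Y _ _ _ _ _ _ := by
    have h : (St.smR V' : St X Y → St (X × V') (Y × V')) =
        cj ((Homeomorph.refl X).prodCongr e) ((Homeomorph.refl Y).prodCongr e) ∘ St.smR V :=
      funext (smR_homeo e)
    rw [h]
    exact (cj_bijective _ _).comp (Sus.bij X Y)

instance sus_prod [Sus.{u} V] [Sus.{u} V'] : Sus.{u} (V × V') where
  bij X Y _ _ _ _ _ _ := by
    have h : (St.smR (V × V') : St X Y → St (X × (V × V')) (Y × (V × V'))) =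
        cj (asC X V V') (asC Y V V') ∘ St.smR V' ∘ St.smR V := funext smR_smR
    rw [h]
    exact (cj_bijective _ _).comp ((Sus.bij (X × V) (Y × V)).comp (Sus.bij X Y))

/-- if `V × V` is a suspension space, so is `V` -/
theorem sus_of_sq (h : Sus.{u} (V × V)) : Sus.{u} V := by
  have key : ∀ (X : Type u) (Y : Type u) [TopologicalSpace X] [TopologicalSpace Y] [T2Space X]
      [T2Space Y] [LocallyCompactSpace X] [LocallyCompactSpace Y],
      Function.Bijective (fun a : St X Y => (a.smR V).smR V) := by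
    intro X Y _ _ _ _ _ _
    have h2 : (St.smR (V × V) : St X Y → St (X × (V × V)) (Y × (V × V))) =
        cj (asC X V V) (asC Y V V) ∘ fun a : St X Y => (a.smR V).smR V := funext smR_smR
    have h3 := h.bij X Y
    rw [h2] at h3
    exact (Function.Bijective.of_comp_iff' (cj_bijective (asC X V V) (asC Y V V)) _).1 h3
  have inj : ∀ (X : Type u) (Y : Type u) [TopologicalSpace X] [TopologicalSpace Y] [T2Space X]
      [T2Space Y] [LocallyCompactSpace X] [LocallyCompactSpace Y],
      Function.Injective (St.smR V : St X Y → St (X × V) (Y × V)) := by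
    intro X Y _ _ _ _ _ _ a b hab
    exact (key X Y).1 (by simp only [hab])
  refine ⟨fun X Y _ _ _ _ _ _ => ⟨inj X Y, fun b => ?_⟩⟩
  obtain ⟨a, ha⟩ := (key X Y).2 (b.smR V)
  exact ⟨a, inj _ _ ha⟩

instance sus_Io : Sus.{u} Io := by
  haveI : Sus.{u} (Io × Io) := sus_homeo cIo
  exact sus_of_sq inferInstance

instance sus_R : Sus.{u} ℝ := sus_homeo ioHomeo.symm

/-- `(Fin (n+1) → V) ≃ₜ V × (Fin n → V)` -/
def consH (V : Type) [TopologicalSpace V] (n : ℕ) : V × (Fin n → V) ≃ₜ (Fin (n + 1) → V) where
  toFun p := Fin.cons (α := fun _ => V) p.1 p.2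
  invFun q := (q 0, fun i => q i.succ)
  left_inv p := rfl
  right_inv q := Fin.cons_self_tail q
  continuous_toFun := by
    refine continuous_pi fun i => ?_
    refine Fin.cases ?_ (fun j => ?_) i
    · exact continuous_fst
    · exact (continuous_apply j).comp continuous_snd
  continuous_invFun := by
    refine (continuous_apply _).prodMk ?_
    exact continuous_pi fun i => continuous_apply _

instance sus_pow [Sus.{u} V] (n : ℕ) : Sus.{u} (Fin n → V) := by
  induction n with
  | zero => exact sus_unique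
  | succ n ih => exact sus_homeo (consH V n)

theorem sus_pi {ι : Type} [Finite ι] [Sus.{u} V] : Sus.{u} (ι → V) := by
  obtain ⟨n, ⟨e⟩⟩ := Finite.exists_equiv_fin ι
  exact sus_homeo (Homeomorph.piCongrLeft (Y := fun _ => V) e.symm)

/-- every finite dimensional real vector space is a suspension space -/
theorem sus_real (E : Type) [NormedAddCommGroup E] [NormedSpace ℝ E] [FiniteDimensional ℝ E] :
    haveI := FiniteDimensional.proper ℝ E
    Sus.{u} E := by
  haveI := FiniteDimensional.proper ℝ E
  have e : E ≃L[ℝ] (Fin (Module.finrank ℝ E) → ℝ) :=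
    ContinuousLinearEquiv.ofFinrankEq (by simp)
  exact sus_homeo e.symm.toHomeomorph

end sus

/-! ## levels -/

theorem hh_swR_self (X : Type u) [TopologicalSpace X] [T2Space X] [LocallyCompactSpace X]
    (E : Type w) [NormedAddCommGroup E] [NormedSpace ℂ E] [FiniteDimensional ℂ E]
    [LocallyCompactSpace E] :
    hh (swR X E E) = h1 ((X × E) × E) := by
  have e1 : hh (swR X E E) = (hh (Homeomorph.prodAssoc X E E).symm).comp
      ((hh ((Homeomorph.refl X).prodCongr
        (ContinuousLinearEquiv.prodComm ℂ E E).toHomeomorph)).comp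
        (hh (Homeomorph.prodAssoc X E E))) := by
    rw [← hh_trans, ← hh_trans]
    exact hh_ext fun _ => rfl
  rw [e1, hh_linear_left X (ContinuousLinearEquiv.prodComm ℂ E E)
    (ContinuousLinearEquiv.refl ℂ (E × E))]
  rw [← hh_trans, ← hh_trans, ← hh_refl]
  exact hh_ext fun _ => rfl

/-- a class at level `n`, suspended by `ℂ^n`, is the class of the unstable map -/
theorem of_smR_level (n : ℕ) (a : HC (S X n) (S Y n)) :
    (St.of n a).smR (Fin n → ℂ) = St.map a := by
  rw [smR_of, St.map_eq_of a n]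
  congr 1
  have h : ∀ (Z : Type _) [TopologicalSpace Z] [T2Space Z] [LocallyCompactSpace Z],
      hh (swR Z (Fin n → ℂ) (Fin n → ℂ)) = hh (Homeomorph.refl _) := fun Z _ _ _ => by
    rw [hh_swR_self, hh_refl]
  rw [levR, conj_congr (h X) (hh_swR_self Y (Fin n → ℂ) |>.trans hh_refl.symm), conj_refl]

theorem mk_smR_level (n : ℕ) (f : PMap (S X n) (S Y n)) :
    (St.mk n f).smR (Fin n → ℂ) = St.ofP f := of_smR_level n (HC.mk f)

/-! ## desuspension -/

section des

variable {X Y Z : Type u}
variable [TopologicalSpace X] [TopologicalSpace Y] [TopologicalSpace Z]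
variable [T2Space X] [T2Space Y] [T2Space Z]
variable [LocallyCompactSpace X] [LocallyCompactSpace Y] [LocallyCompactSpace Z]

variable {V : Type} [TopologicalSpace V] [T2Space V] [LocallyCompactSpace V]

/-- smash with a suspension space is an isomorphism -/
def smE (X : Type u) (Y : Type u) (V : Type) [TopologicalSpace X] [TopologicalSpace Y]
    [TopologicalSpace V] [T2Space X] [T2Space Y] [T2Space V] [LocallyCompactSpace X]
    [LocallyCompactSpace Y] [LocallyCompactSpace V] [Sus.{u} V] :
    St X Y ≃+ St (X × V) (Y × V) :=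
  AddEquiv.ofBijective (smRHom X Y V) (Sus.bij X Y)

theorem smE_apply [Sus.{u} V] (a : St X Y) : smE X Y V a = a.smR V := rfl

theorem smR_inj [Sus.{u} V] {a b : St X Y} : a.smR V = b.smR V ↔ a = b :=
  ⟨fun h => (Sus.bij X Y).1 h, fun h => h ▸ rfl⟩

theorem smR_eq_zero [Sus.{u} V] {a : St X Y} : a.smR V = 0 ↔ a = 0 := by
  rw [← smR_zero, smR_inj]

/-- desuspension -/
def des (V : Type) [TopologicalSpace V] [T2Space V] [LocallyCompactSpace V] [Sus.{u} V]
    (b : St (X × V) (Y × V)) : St X Y := (smE X Y V).symm b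

@[simp] theorem des_smR [Sus.{u} V] (a : St X Y) : des V (a.smR V) = a :=
  (smE X Y V).symm_apply_apply a

@[simp] theorem smR_des [Sus.{u} V] (b : St (X × V) (Y × V)) : (des V b).smR V = b :=
  (smE X Y V).apply_symm_apply b

theorem des_add [Sus.{u} V] (a b : St (X × V) (Y × V)) : des V (a + b) = des V a + des V b :=
  map_add (smE X Y V).symm a b

@[simp] theorem des_zero [Sus.{u} V] : des V (0 : St (X × V) (Y × V)) = 0 :=
  map_zero (smE X Y V).symm

theorem des_comp [Sus.{u} V] (b : St (Y × V) (Z × V))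
    (a : St (X × V) (Y × V)) : des V (b.comp a) = (des V b).comp (des V a) := by
  refine (smR_inj (V := V)).1 ?_
  rw [smR_des, smR_comp, smR_des, smR_des]

/-- a stable map from a map after smash product with any suspension space -/
def lev (V : Type) [TopologicalSpace V] [T2Space V] [LocallyCompactSpace V] [Sus.{u} V]
    (f : PMap (X × V) (Y × V)) : St X Y := des V (St.ofP f)

theorem lev_smR [Sus.{u} V] (f : PMap (X × V) (Y × V)) : (lev V f).smR V = St.ofP f :=
  smR_des _

theorem mk_eq_lev (n : ℕ) (f : PMap (S X n) (S Y n)) : St.mk n f = lev (Fin n → ℂ) f := by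
  rw [← smR_inj (V := Fin n → ℂ), mk_smR_level, lev_smR]

theorem lev_comp [Sus.{u} V] (g : PMap (Y × V) (Z × V))
    (f : PMap (X × V) (Y × V)) : lev V (g.comp f) = (lev V g).comp (lev V f) := by
  refine (smR_inj (V := V)).1 ?_
  rw [lev_smR, smR_comp, lev_smR, lev_smR, St.ofP_comp]

theorem lev_eq_zero [Sus.{u} V] {f : PMap (X × V) (Y × V)} : lev V f = 0 ↔ St.ofP f = 0 := by
  rw [← smR_eq_zero (V := V), lev_smR]

/-- every stable map is `lev (Fin n → ℂ) f` for all large `n` -/
theorem exists_lev (a : St X Y) : ∃ (n : ℕ) (f : PMap (X × (Fin n → ℂ)) (Y × (Fin n → ℂ))),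
    a = lev (Fin n → ℂ) f := by
  obtain ⟨n, f, rfl⟩ := a.mk_surj
  exact ⟨n, f, mk_eq_lev n f⟩

/-- smash on the left with a suspension space is bijective -/
theorem smL_bijective [Sus.{u} V] :
    Function.Bijective (St.smL V : St X Y → St (V × X) (V × Y)) := by
  have h : (St.smL V : St X Y → St (V × X) (V × Y)) =
      cj (Homeomorph.prodComm X V) (Homeomorph.prodComm Y V) ∘ St.smR V := funext smL_eq_smR
  rw [h]
  exact (cj_bijective _ _).comp (Sus.bij X Y)

theorem smL_inj [Sus.{u} V] {a b : St X Y} : a.smL V = b.smL V ↔ a = b :=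
  ⟨fun h => smL_bijective.1 h, fun h => h ▸ rfl⟩

end des

end Crest.Agent.R090.SmIso528
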