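import Crest.Agent.R090.IdQ_669
import Crest.Agent.R090.SmIso_528

/-!
# Row 90, EXTRACT: desuspension of the ideal (helper285)

`desusp` : `IdQ q Z (z • 1_{ℝ^k}) → IdQ q Z (z • 1_{S⁰})`.
-/

set_option autoImplicit false
set_option linter.unusedSectionVars false

open Topology Filter Set

noncomputable section

namespace Crest.Agent.R090.Extr285

open OnePoint Crest.Agent.R090.Sp962 Crest.Agent.R090.Grp528 Crest.Agent.R090.St528
  Crest.Agent.R090.Sm202 Crest.Agent.R090.Spine Crest.Agent.R090.IdS669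
open Crest.Agent.R090.SmIso528 (Sus smR_inj smR_eq_zero)

/-- `(X × W) × S ≃ (X × S) × W` -/
def swp (X W S : Type) [TopologicalSpace X] [TopologicalSpace W] [TopologicalSpace S] :
    (X × W) × S ≃ₜ (X × S) × W :=
  (Homeomorph.prodAssoc X W S).trans (((Homeomorph.refl X).prodCongr
    (Homeomorph.prodComm W S)).trans (Homeomorph.prodAssoc X S W).symm)

section

variable {X Y W T : Type} [TopologicalSpace X] [TopologicalSpace Y] [TopologicalSpace W]
  [TopologicalSpace T] [T2Space X] [T2Space Y] [T2Space W] [T2Space T]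
  [LocallyCompactSpace X] [LocallyCompactSpace Y] [LocallyCompactSpace W]
  [LocallyCompactSpace T]

theorem smR_swap (a : St X Y) :
    (sh (swp Y W T)).comp ((a.smR W).smR T) = ((a.smR T).smR W).comp (sh (swp X W T)) := by
  have h1 := SmX669.smR_smR a W T
  have h2 := IdS669.smR_homeo (Homeomorph.prodComm W T) a
  have h3 := SmX669.smR_smR a T W
  have h4 : (sh (Homeomorph.prodAssoc X T W)).comp (sh (swp X W T)) =
      (sh ((Homeomorph.refl X).prodCongr (Homeomorph.prodComm W T))).comp
        (sh (Homeomorph.prodAssoc X W T)) := by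
    rw [← sh_trans, ← sh_trans]
    exact sh_ext fun _ => rfl
  have h5 : (sh (Homeomorph.prodAssoc Y T W)).comp (sh (swp Y W T)) =
      (sh ((Homeomorph.refl Y).prodCongr (Homeomorph.prodComm W T))).comp
        (sh (Homeomorph.prodAssoc Y W T)) := by
    rw [← sh_trans, ← sh_trans]
    exact sh_ext fun _ => rfl
  have h6 : (sh (Homeomorph.prodAssoc Y T W)).comp
      ((sh (swp Y W T)).comp ((a.smR W).smR T)) =
      (sh (Homeomorph.prodAssoc Y T W)).comp (((a.smR T).smR W).comp (sh (swp X W T))) := by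
    rw [← St.comp_assoc, h5, St.comp_assoc, h1, ← St.comp_assoc, ← h2, ← St.comp_assoc, h3,
      St.comp_assoc, St.comp_assoc, h4]
  have h7 := congrArg (fun z => (sh (Homeomorph.prodAssoc Y T W).symm).comp z) h6
  simpa only [← St.comp_assoc, sh_symm_comp, St.id_comp] using h7

end

section kill

variable {X X' : Type} [TopologicalSpace X] [TopologicalSpace X'] [T2Space X] [T2Space X']
  [LocallyCompactSpace X] [LocallyCompactSpace X']
variable {P P' : Type} [TopologicalSpace P] [TopologicalSpace P'] [T2Space P] [T2Space P']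
  [LocallyCompactSpace P] [LocallyCompactSpace P']

theorem io_smR (k : PMap P P') (Y T : Type) [TopologicalSpace Y] [T2Space Y]
    [LocallyCompactSpace Y] [TopologicalSpace T] [T2Space T] [LocallyCompactSpace T] :
    (sh (swp X (P' × Y) T)).comp ((io X k Y).smR T) =
      (io (X × T) k Y).comp (sh (swp X (P × Y) T)) := by
  rw [io, io, smR_ofP, sh, sh, ← St.ofP_comp, ← St.ofP_comp]
  congr 1
  refine PMap.ext fun x => ?_
  obtain ⟨⟨x, ⟨p, y⟩⟩, t⟩ := x
  change PMap.ofHomeo (swp X (P' × Y) T) (sm (sm (x : OnePoint X) (sm (k (p : OnePoint P))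
    (y : OnePoint Y))) (t : OnePoint T)) =
    sm (((x, t) : X × T) : OnePoint (X × T)) (sm (k (p : OnePoint P)) (y : OnePoint Y))
  generalize k (p : OnePoint P) = q
  induction q using OnePoint.rec with
  | infty => simp [PMap.map_inf]
  | coe q => rfl

theorem kill_desusp {n : ℕ} {k : PMap P P'} {g : St X X'} {m : ℕ}
    (h : Kill n k (g.smR (Fin m → ℝ))) : Kill n k g := by
  intro Y _ _ _ N y
  refine (smR_inj (V := (Fin m → ℝ))).1 ?_
  have e1 : (n • ((y.comp (St.smR (P' × Y) g)).comp (io X k Y))).smR (Fin m → ℝ) =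
      (sh (Fin.appendHomeomorph N m).symm).comp
      ((n • ((((sh (Fin.appendHomeomorph N m)).comp ((y.smR (Fin m → ℝ)).comp
        (sh (swp X' (P' × Y) (Fin m → ℝ)).symm))).comp
        (St.smR (P' × Y) (g.smR (Fin m → ℝ)))).comp (io (X × (Fin m → ℝ)) k Y))).comp
        (sh (swp X (P × Y) (Fin m → ℝ)))) := by
    rw [smR_nsmul, smR_comp, smR_comp, St.nsmul_comp, St.comp_nsmul]
    congr 1
    have h2 := smR_swap (W := P' × Y) (T := Fin m → ℝ) g
    have h3 := io_smR (X := X) k Y (Fin m → ℝ)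
    simp only [St.comp_assoc]
    rw [← h3, ← St.comp_assoc (St.smR (P' × Y) (g.smR (Fin m → ℝ))), ← h2,
      St.comp_assoc (sh (swp X' (P' × Y) (Fin m → ℝ))),
      ← St.comp_assoc (sh (swp X' (P' × Y) (Fin m → ℝ)).symm), sh_symm_comp, St.id_comp,
      ← St.comp_assoc (sh (Fin.appendHomeomorph N m).symm), sh_symm_comp, St.id_comp]
  rw [e1, h Y (N + m), St.zero_comp, St.comp_zero, smR_zero]

end kill

section

variable {M : Type} [TopologicalSpace M] [T2Space M] [LocallyCompactSpace M]
variable {q : ℕ} {Z : Set M} [hZ : Fact (IsClosed Z)]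
variable {X X' : Type} [TopologicalSpace X] [TopologicalSpace X'] [T2Space X] [T2Space X']
  [LocallyCompactSpace X] [LocallyCompactSpace X']

/-- desuspension of the ideal -/
theorem idQ_desusp {g : St X X'} {m : ℕ} (h : IdQ q Z (g.smR (Fin m → ℝ))) : IdQ q Z g := by
  obtain ⟨l, hl⟩ := idQ_iff.1 h
  refine idQ_iff.2 ⟨l, fun K s s' h => ?_⟩
  obtain ⟨n, hn, H⟩ := hl K s s' h
  exact ⟨n, hn, kill_desusp H⟩

/-- `Unit × T ≃ T` -/
def uT (T : Type) [TopologicalSpace T] : Unit × T ≃ₜ T where
  toFun p := p.2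
  invFun x := ((), x)
  left_inv _ := rfl
  right_inv _ := rfl
  continuous_toFun := by fun_prop
  continuous_invFun := by fun_prop

theorem desusp (k : ℕ) (z : ℤ) (h : IdQ q Z (z • St.id (Fin k → ℝ))) :
    IdQ q Z (z • St.id Unit) := by
  refine idQ_desusp (m := k) ?_
  have e : (z • St.id Unit).smR (Fin k → ℝ) =
      (sh (uT (Fin k → ℝ)).symm).comp ((z • St.id (Fin k → ℝ)).comp (sh (uT (Fin k → ℝ)))) := by
    rw [smR_zsmul, smR_id, St.zsmul_comp, St.id_comp, St.comp_zsmul, sh_symm_comp]
  rw [e]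
  exact (h.comp_right _).comp_left _

end

end Crest.Agent.R090.Extr285
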