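import Mathlib

/-!
# Row 90, leaf AS6 (helper285): `deg θ = L(φ)`, linear algebra part

Everything here is Mathlib only.  `HX, HB, HS, ...` are the (total, `ℤ/2`-graded by an involution)
cohomologies of the spaces `X, B, S, ...`; the hypotheses are the naturality, associativity and
commutativity of the cross product and one triangle identity.
-/

set_option autoImplicit false
set_option linter.style.haveILetI false

namespace Crest.Agent.R090.AS6285

section basic

variable {k V : Type*} [Field k] [AddCommGroup V] [Module k V]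

/-- a vector space with a finite "dual family" is finite dimensional -/
theorem finite_of_dual {ι : Type*} [Fintype ι] (a : ι → V) (c : ι → V →ₗ[k] k)
    (h : ∀ x, x = ∑ i, c i x • a i) : Module.Finite k V := by
  refine ⟨⟨(Set.finite_range a).toFinset, ?_⟩⟩
  rw [eq_top_iff]
  rintro x -
  rw [h x]
  refine Submodule.sum_mem _ fun i _ => Submodule.smul_mem _ _ (Submodule.subset_span ?_)
  simp

/-- trace by a dual family: if `x = Σ c_i(x) a_i` then `tr T = Σ c_i (T a_i)` -/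
theorem trace_of_dual {ι : Type*} [Fintype ι] (a : ι → V) (c : ι → V →ₗ[k] k)
    (h : ∀ x, x = ∑ i, c i x • a i) (T : V →ₗ[k] V) :
    LinearMap.trace k V T = ∑ i, c i (T (a i)) := by
  haveI : Module.Finite k V := finite_of_dual a c h
  have hT : T = ∑ i, ((c i).comp T).smulRight (a i) := by
    ext x
    rw [LinearMap.sum_apply]
    simpa using h (T x)
  conv_lhs => rw [hT]
  rw [map_sum]
  refine Finset.sum_congr rfl fun i _ => ?_
  rw [LinearMap.trace_smulRight]
  rfl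

/-- a coordinate functional on a line -/
theorem exists_coord {σ : V} (h0 : σ ≠ 0) (h : ∀ s : V, ∃ c : k, s = c • σ) :
    ∃ lam : V →ₗ[k] k, (∀ s, s = lam s • σ) ∧ lam σ = 1 := by
  obtain ⟨f, hf⟩ := Module.Projective.exists_dual_ne_zero k h0
  refine ⟨(f σ)⁻¹ • f, ?_, ?_⟩
  · intro s
    obtain ⟨c, rfl⟩ := h s
    simp only [map_smul, LinearMap.smul_apply, smul_eq_mul]
    congr 1
    field_simp
  · simp [inv_mul_cancel₀ hf]

end basic

section main

variable {k : Type*} [Field k]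
variable {HX HB HS HXB HBX H1 H2 HSX HXS : Type*}
  [AddCommGroup HX] [Module k HX] [AddCommGroup HB] [Module k HB] [AddCommGroup HS] [Module k HS]
  [AddCommGroup HXB] [Module k HXB] [AddCommGroup HBX] [Module k HBX]
  [AddCommGroup H1] [Module k H1] [AddCommGroup H2] [Module k H2]
  [AddCommGroup HSX] [Module k HSX] [AddCommGroup HXS] [Module k HXS]

/-- **duality computes the trace**: `θ^* σ = L(φ) σ`, `θ = u ∘ swap ∘ (φ ∧ 1) ∘ g`. -/
theorem degree_eq_trace (h2 : (2 : k) ≠ 0)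
    (eX : HX →ₗ[k] HX) (eB : HB →ₗ[k] HB) (heX : ∀ x, eX (eX x) = x)
    -- cross products
    (crXB : HX →ₗ[k] HB →ₗ[k] HXB) (crBX : HB →ₗ[k] HX →ₗ[k] HBX)
    (cr1 : HX →ₗ[k] HBX →ₗ[k] H1) (cr2 : HXB →ₗ[k] HX →ₗ[k] H2)
    (crSX : HS →ₗ[k] HX →ₗ[k] HSX) (crXS : HX →ₗ[k] HS →ₗ[k] HXS)
    -- associativity `X × (B × X)` versus `(X × B) × X`
    (as : H1 →ₗ[k] H2) (has : ∀ x b y, as (cr1 x (crBX b y)) = cr2 (crXB x b) y)
    -- the sphere class
    (σ : HS) (lam : HS →ₗ[k] k) (hlam : ∀ s, s = lam s • σ) (hinj : ∀ x, crSX σ x = 0 → x = 0)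
    -- `sw : S × X → X × S` (even sphere)
    (sw : HXS →ₗ[k] HSX) (hsw : ∀ x, sw (crXS x σ) = crSX σ x)
    -- `g : S → X × B` and `g ∧ 1`
    (g : HXB →ₗ[k] HS) (g1 : H2 →ₗ[k] HSX) (hg1 : ∀ w y, g1 (cr2 w y) = crSX (g w) y)
    -- `u : B × X → S` and `1 ∧ u`
    (u : HS →ₗ[k] HBX) (u1 : HXS →ₗ[k] H1) (hu1 : ∀ x s, u1 (crXS x s) = cr1 x (u s))
    -- the triangle identity `(1 ∧ u)(g ∧ 1) = sw`
    (tri : ∀ z, g1 (as (u1 z)) = sw z)
    -- Künneth for the one class `u^* σ`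
    {ι : Type*} [Fintype ι] (b : ι → HB) (a : ι → HX) (hK : u σ = ∑ i, crBX (b i) (a i))
    -- `sw' : X × B → B × X` (Koszul)
    (sw' : HBX →ₗ[k] HXB) (hsw0 : ∀ b a, eX a = a → sw' (crBX b a) = crXB a b)
    (hsw1 : ∀ b a, eX a = -a → sw' (crBX b a) = crXB a (eB b))
    -- parity of `g`
    (hgp : ∀ x b, g (crXB (eX x) (eB b)) = g (crXB x b))
    -- the endomorphism
    (φ : HX →ₗ[k] HX) (φ1 : HXB →ₗ[k] HXB) (hφ1 : ∀ x b, φ1 (crXB x b) = crXB (φ x) b)
    (hφ : ∀ x, φ (eX x) = eX (φ x)) :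
    g (φ1 (sw' (u σ))) = LinearMap.trace k HX (eX ∘ₗ φ) • σ := by
  -- the dual family
  set c : ι → HX →ₗ[k] k := fun i => lam ∘ₗ g ∘ₗ (LinearMap.flip crXB (b i)) with hc
  have hdual : ∀ x, x = ∑ i, c i x • a i := by
    intro x
    have h1 : g1 (as (u1 (crXS x σ))) = crSX σ (∑ i, c i x • a i) := by
      rw [hu1, hK]
      simp only [map_sum, has, hg1, map_smul]
      refine Finset.sum_congr rfl fun i _ => ?_
      conv_lhs => rw [hlam (g (crXB x (b i)))]
      rw [map_smul, LinearMap.smul_apply]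
      rfl
    rw [tri, hsw] at h1
    have h3 : crSX σ (x - ∑ i, c i x • a i) = 0 := by rw [map_sub, h1, sub_self]
    exact sub_eq_zero.1 (hinj _ h3)
  rw [trace_of_dual a c hdual, hK]
  -- the one term identity
  have hterm : ∀ (bb : HB) (aa : HX), g (φ1 (sw' (crBX bb aa))) = g (crXB (eX (φ aa)) bb) := by
    intro bb aa
    have h0 : ∀ y, eX y = y → g (φ1 (sw' (crBX bb y))) = g (crXB (eX (φ y)) bb) := by
      intro y hy
      rw [hsw0 bb y hy, hφ1, ← hφ, hy]
    have h1 : ∀ y, eX y = -y → g (φ1 (sw' (crBX bb y))) = g (crXB (eX (φ y)) bb) := by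
      intro y hy
      rw [hsw1 bb y hy, hφ1]
      have : g (crXB (φ y) (eB bb)) = g (crXB (eX (eX (φ y))) (eB bb)) := by rw [heX]
      rw [this, hgp]
    have e : aa = (2 : k)⁻¹ • (aa + eX aa) + (2 : k)⁻¹ • (aa - eX aa) := by
      rw [← smul_add, add_add_sub_cancel, ← two_smul k aa, smul_smul, inv_mul_cancel₀ h2, one_smul]
    have e0 := h0 (aa + eX aa) (by rw [map_add, heX, add_comm])
    have e1 := h1 (aa - eX aa) (by rw [map_sub, heX, neg_sub])
    rw [e]
    simp only [map_add, map_smul, LinearMap.add_apply, LinearMap.smul_apply, map_sub,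
      LinearMap.sub_apply] at e0 e1 ⊢
    rw [e0, e1]
  simp only [map_sum, hterm]
  rw [Finset.sum_smul]
  refine Finset.sum_congr rfl fun i _ => ?_
  rw [hlam (g (crXB (eX (φ (a i))) (b i)))]
  rfl

/-- reading of the integer: if `θ^* σ = N σ` and `σ ≠ 0` then `L(φ) = N` -/
theorem trace_eq_of_degree {V : Type*} [AddCommGroup V] [Module k V] {σ θσ : V} (h0 : σ ≠ 0)
    {t : k} (ht : θσ = t • σ) {N : ℤ} (hN : θσ = N • σ) : t = (N : k) := by
  rw [ht, ← Int.cast_smul_eq_zsmul k N σ] at hN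
  exact smul_left_injective k h0 hN

end main

end Crest.Agent.R090.AS6285
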