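import Crest.Agent.R090.CohT_253
import Crest.Agent.R090.St2_528
import Crest.Agent.R090.AS6_285

/-!
# Row 90, leaf AS6 (helper285): cohomology on the stable category

`CohX F` = helper253's `Coh` + homotopy invariance + cross product + even suspension class.
`CohX.hst : St X Y → (h Y →ₗ[F] h X)`.
-/

set_option autoImplicit false
set_option linter.unusedSectionVars false
set_option linter.style.haveILetI false

namespace Crest.Agent.R090.HSt285

open Topology Set Crest.Agent.R090.Sp962 Crest.Agent.R090.Grp528 Crest.Agent.R090.St528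
open Crest.Agent.R090.CohT253

/-- a cohomology theory with compact supports, cross product and even suspension -/
structure CohX (F : Type) [Field F] extends Coh.{0, 0, 0} F where
  /-- homotopy invariance -/
  hmap : ∀ {U V : Type} [TopologicalSpace U] [TopologicalSpace V] [T2Space U]
    [LocallyCompactSpace U] [T2Space V] [LocallyCompactSpace V] {f g : PMap U V},
    f.Homotopic g → ∀ x, map f x = map g x
  /-- cross product -/
  cr : ∀ (U V : Type) [TopologicalSpace U] [TopologicalSpace V] [T2Space U]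
    [LocallyCompactSpace U] [T2Space V] [LocallyCompactSpace V], h U →ₗ[F] h V →ₗ[F] h (U × V)
  cr_map : ∀ {U V U' V' : Type} [TopologicalSpace U] [TopologicalSpace V] [TopologicalSpace U']
    [TopologicalSpace V'] [T2Space U] [LocallyCompactSpace U] [T2Space V] [LocallyCompactSpace V]
    [T2Space U'] [LocallyCompactSpace U'] [T2Space V'] [LocallyCompactSpace V']
    (f : PMap U V) (g : PMap U' V') (x : h V) (y : h V'),
    map (f.smash g) (cr V V' x y) = cr U U' (map f x) (map g y)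
  cr_assoc : ∀ {U V W : Type} [TopologicalSpace U] [TopologicalSpace V] [TopologicalSpace W]
    [T2Space U] [LocallyCompactSpace U] [T2Space V] [LocallyCompactSpace V]
    [T2Space W] [LocallyCompactSpace W] (x : h U) (y : h V) (z : h W),
    map (PMap.ofHomeo (Homeomorph.prodAssoc U V W)) (cr U (V × W) x (cr V W y z)) =
      cr (U × V) W (cr U V x y) z
  cr_comm_even : ∀ {U V : Type} [TopologicalSpace U] [TopologicalSpace V] [T2Space U]
    [LocallyCompactSpace U] [T2Space V] [LocallyCompactSpace V] (x : h U) (y : h V),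
    eps U x = x → map (PMap.ofHomeo (Homeomorph.prodComm V U)) (cr U V x y) = cr V U y x
  cr_comm_odd : ∀ {U V : Type} [TopologicalSpace U] [TopologicalSpace V] [T2Space U]
    [LocallyCompactSpace U] [T2Space V] [LocallyCompactSpace V] (x : h U) (y : h V),
    eps U x = -x → map (PMap.ofHomeo (Homeomorph.prodComm V U)) (cr U V x y) = cr V U (eps V y) x
  eps_cr : ∀ {U V : Type} [TopologicalSpace U] [TopologicalSpace V] [T2Space U]
    [LocallyCompactSpace U] [T2Space V] [LocallyCompactSpace V] (x : h U) (y : h V),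
    eps (U × V) (cr U V x y) = cr U V (eps U x) (eps V y)
  /-- the even suspension class -/
  sg : h ℂ
  eps_sg : eps ℂ sg = sg
  susp : ∀ (U : Type) [TopologicalSpace U] [T2Space U] [LocallyCompactSpace U],
    Function.Bijective (fun x : h U => cr U ℂ x sg)

namespace CohX

variable {F : Type} [Field F] (H : CohX F)

variable {X Y Z W : Type} [TopologicalSpace X] [TopologicalSpace Y] [TopologicalSpace Z]
  [TopologicalSpace W] [T2Space X] [LocallyCompactSpace X] [T2Space Y] [LocallyCompactSpace Y]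
  [T2Space Z] [LocallyCompactSpace Z] [T2Space W] [LocallyCompactSpace W]

/-! ## homotopy classes -/

/-- the map of a homotopy class -/
def hc (a : HC X Y) : H.h Y →ₗ[F] H.h X :=
  Quot.lift (fun f : PMap X Y => H.map f) (fun _ _ h => LinearMap.ext (H.hmap h)) a

@[simp] theorem hc_mk (f : PMap X Y) : H.hc (HC.mk f) = H.map f := rfl

theorem hc_comp (b : HC Y Z) (a : HC X Y) (z : H.h Z) :
    H.hc (b.comp a) z = H.hc a (H.hc b z) := by
  obtain ⟨f, rfl⟩ := HC.mk_surj a
  obtain ⟨g, rfl⟩ := HC.mk_surj b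
  exact H.map_comp g f z

@[simp] theorem hc_h1 (x : H.h X) : H.hc (h1 X) x = x := H.map_id X x

@[simp] theorem hc_hzero (y : H.h Y) : H.hc (hzero X Y) y = 0 := H.map_zero' y

theorem eps_hc (a : HC X Y) (y : H.h Y) : H.eps X (H.hc a y) = H.hc a (H.eps Y y) := by
  obtain ⟨f, rfl⟩ := HC.mk_surj a
  exact H.eps_map f y

@[simp] theorem hc_hh_symm (e : X ≃ₜ Y) (y : H.h X) : H.hc (hh e) (H.hc (hh e.symm) y) = y := by
  rw [← hc_comp, hh_symm_comp, hc_h1]

@[simp] theorem hc_symm_hh (e : X ≃ₜ Y) (y : H.h Y) : H.hc (hh e.symm) (H.hc (hh e) y) = y := by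
  rw [← hc_comp, hh_comp_symm, hc_h1]

theorem hc_smash (a : HC X Y) (b : HC Z W) (y : H.h Y) (w : H.h W) :
    H.hc (a.smash b) (H.cr Y W y w) = H.cr X Z (H.hc a y) (H.hc b w) := by
  obtain ⟨f, rfl⟩ := HC.mk_surj a
  obtain ⟨g, rfl⟩ := HC.mk_surj b
  exact H.cr_map f g y w

/-! ## iterated suspension -/

/-- `X × ℂ^0 = X` -/
def e0 (X : Type) [TopologicalSpace X] : S X 0 ≃ₜ X where
  toFun p := p.1
  invFun x := (x, fun i => i.elim0)
  left_inv p := Prod.ext rfl (Subsingleton.elim _ _)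
  right_inv _ := rfl
  continuous_toFun := continuous_fst
  continuous_invFun := by fun_prop

/-- suspension isomorphism to level `n` -/
noncomputable def sus (X : Type) [TopologicalSpace X] [T2Space X] [LocallyCompactSpace X] :
    ∀ n : ℕ, H.h X →ₗ[F] H.h (S X n)
  | 0 => H.hc (hh (e0 X))
  | n + 1 => H.hc (hh (eS X n)) ∘ₗ (LinearMap.flip (H.cr (S X n) ℂ) H.sg) ∘ₗ sus X n

theorem sus_zero (x : H.h X) : H.sus X 0 x = H.hc (hh (e0 X)) x := rfl

theorem sus_succ (n : ℕ) (x : H.h X) :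
    H.sus X (n + 1) x = H.hc (hh (eS X n)) (H.cr (S X n) ℂ (H.sus X n x) H.sg) := rfl

theorem hc_hh_bijective (e : X ≃ₜ Y) : Function.Bijective (H.hc (hh e)) := by
  refine Function.bijective_iff_has_inverse.2 ⟨H.hc (hh e.symm), ?_, ?_⟩
  · intro y; exact H.hc_symm_hh e y
  · intro y; exact H.hc_hh_symm e y

theorem sus_bijective (n : ℕ) : Function.Bijective (H.sus X n) := by
  induction n with
  | zero => exact H.hc_hh_bijective _
  | succ n ih => exact (H.hc_hh_bijective (eS X n)).comp ((H.susp (S X n)).comp ih)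

theorem eps_sus (n : ℕ) (x : H.h X) : H.eps _ (H.sus X n x) = H.sus X n (H.eps X x) := by
  induction n with
  | zero => exact H.eps_hc _ _
  | succ n ih => rw [sus_succ, eps_hc, eps_cr, ih, H.eps_sg, sus_succ]

/-- suspension isomorphism -/
noncomputable def susE (X : Type) [TopologicalSpace X] [T2Space X] [LocallyCompactSpace X]
    (n : ℕ) : H.h X ≃ₗ[F] H.h (S X n) :=
  LinearEquiv.ofBijective (H.sus X n) (H.sus_bijective n)

@[simp] theorem susE_apply (n : ℕ) (x : H.h X) : H.susE X n x = H.sus X n x := rfl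

/-- the value at level `n` -/
noncomputable def hn {n : ℕ} (a : HC (S X n) (S Y n)) : H.h Y →ₗ[F] H.h X :=
  (H.susE X n).symm.toLinearMap ∘ₗ H.hc a ∘ₗ H.sus Y n

theorem sus_hn {n : ℕ} (a : HC (S X n) (S Y n)) (y : H.h Y) :
    H.sus X n (H.hn a y) = H.hc a (H.sus Y n y) :=
  (H.susE X n).apply_symm_apply _

theorem hn_eq {n : ℕ} {a : HC (S X n) (S Y n)} {y : H.h Y} {x : H.h X}
    (h : H.sus X n x = H.hc a (H.sus Y n y)) : H.hn a y = x :=
  (H.sus_bijective n).1 ((H.sus_hn a y).trans h.symm)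

theorem hn_st {n : ℕ} (a : HC (S X n) (S Y n)) : H.hn (st a) = H.hn a := by
  refine LinearMap.ext fun y => H.hn_eq ?_
  rw [sus_succ, sus_succ, sus_hn, st, hc_comp, hc_comp, hc_symm_hh, hc_smash, hc_h1]

theorem hn_comp {n : ℕ} (b : HC (S Y n) (S Z n)) (a : HC (S X n) (S Y n)) (z : H.h Z) :
    H.hn (b.comp a) z = H.hn a (H.hn b z) := by
  refine H.hn_eq ?_
  rw [sus_hn, sus_hn, hc_comp]

theorem hn_h1 (n : ℕ) (x : H.h X) : H.hn (h1 (S X n)) x = x := H.hn_eq (by rw [hc_h1])

theorem hn_hzero (n : ℕ) (y : H.h Y) : H.hn (hzero (S X n) (S Y n)) y = 0 :=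
  H.hn_eq (by rw [hc_hzero, map_zero])

theorem eps_hn {n : ℕ} (a : HC (S X n) (S Y n)) (y : H.h Y) :
    H.eps X (H.hn a y) = H.hn a (H.eps Y y) := by
  refine (H.hn_eq ?_).symm
  rw [← eps_sus, sus_hn, eps_hc, eps_sus]

/-! ## stable maps -/

theorem hn_seq (s : Pre X Y) {N : ℕ} (h : ∀ n, N ≤ n → s.seq (n + 1) = st (s.seq n)) {n : ℕ}
    (hn : N ≤ n) : H.hn (s.seq n) = H.hn (s.seq N) := by
  induction n, hn using Nat.le_induction with
  | base => rfl
  | succ n hn ih => rw [h n hn, hn_st, ih]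

/-- value on a sequence -/
noncomputable def hpre (s : Pre X Y) : H.h Y →ₗ[F] H.h X := H.hn (s.seq s.ev.choose)

theorem hpre_eq (s : Pre X Y) {N : ℕ} (h : ∀ n, N ≤ n → s.seq (n + 1) = st (s.seq n)) {n : ℕ}
    (hn : N ≤ n) : H.hpre s = H.hn (s.seq n) := by
  have h1 := H.hn_seq s s.ev.choose_spec (le_max_left s.ev.choose n)
  have h2 := H.hn_seq s h (hn.trans (le_max_right s.ev.choose n))
  have h3 := H.hn_seq s h hn
  rw [hpre, ← h1, h2, h3]

/-- **cohomology of a stable map** -/
noncomputable def hst (s : St X Y) : H.h Y →ₗ[F] H.h X :=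
  Quotient.lift (s := Pre.setoid X Y) (fun s => H.hpre s) (by
    rintro s t ⟨N, h⟩
    obtain ⟨M, hM⟩ := s.ev
    obtain ⟨K, hK⟩ := t.ev
    rw [H.hpre_eq s hM (n := max N (max M K)) (by omega),
      H.hpre_eq t hK (n := max N (max M K)) (by omega), h _ (by omega)]) s

theorem hst_of (n : ℕ) (a : HC (S X n) (S Y n)) : H.hst (St.of n a) = H.hn a := by
  have := H.hpre_eq (⟨gen n a, n, fun m hm => gen_succ n a m hm⟩ : Pre X Y)
    (fun m hm => gen_succ n a m hm) le_rfl
  change H.hpre _ = _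
  rw [this]
  change H.hn (gen n a n) = _
  rw [gen_self]

theorem hst_comp (t : St Y Z) (s : St X Y) (z : H.h Z) :
    H.hst (t.comp s) z = H.hst s (H.hst t z) := by
  obtain ⟨n, -, ⟨a, rfl⟩, ⟨b, rfl⟩⟩ := s.exists_of₂ t 0
  rw [St.of_comp_of, hst_of, hst_of, hst_of, hn_comp]

@[simp] theorem hst_id (x : H.h X) : H.hst (St.id X) x = x := by
  rw [← St.of_h1 0, hst_of, hn_h1]

@[simp] theorem hst_zero (y : H.h Y) : H.hst (0 : St X Y) y = 0 := by
  rw [← St.of_zero 0, hst_of, hn_hzero]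

theorem eps_hst (s : St X Y) (y : H.h Y) : H.eps X (H.hst s y) = H.hst s (H.eps Y y) := by
  obtain ⟨N, h⟩ := s.exists_of
  obtain ⟨a, rfl⟩ := h N le_rfl
  rw [hst_of, eps_hn]

theorem hst_map (a : HC X Y) : H.hst (St.map a) = H.hc a := by
  rw [St.map_eq_of a 0, hst_of]
  refine LinearMap.ext fun y => H.hn_eq ?_
  rw [sus_zero, sus_zero, ← hc_comp, ← hc_comp]
  congr 2
  obtain ⟨f, rfl⟩ := HC.mk_surj a
  refine congrArg HC.mk (PMap.ext fun p => ?_)
  obtain ⟨x, v⟩ := p
  change f (x : OnePoint X) = (PMap.ofHomeo (e0 Y)) (sm (f (x : OnePoint X)) (v : OnePoint (Fin 0 → ℂ)))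
  generalize f (x : OnePoint X) = y
  induction y using OnePoint.rec with
  | infty => simp
  | coe y => rfl

theorem hst_ofP (f : PMap X Y) : H.hst (St.ofP f) = H.map f := H.hst_map (HC.mk f)

/-! ### additivity -/

/-- restrictions to the two summands of a wedge are jointly injective -/
theorem wedge_inj {T : Fin 2 → Type} [∀ i, TopologicalSpace (T i)] [∀ i, T2Space (T i)]
    [∀ i, LocallyCompactSpace (T i)] {z : H.h (Σ i, T i)}
    (h0 : H.map (incP 0) z = 0) (h1 : H.map (incP 1) z = 0) : z = 0 := by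
  let D : Dec (T 0) (Σ i, T i) (T 1) :=
    { i := Sigma.mk 0
      hi := IsClosedEmbedding.sigmaMk
      j := Sigma.mk 1
      hj := IsOpenEmbedding.sigmaMk
      compl := by
        ext ⟨i, x⟩
        simp only [mem_range, mem_compl_iff]
        constructor
        · rintro ⟨y, hy⟩ ⟨w, hw⟩
          have e1 := congrArg Sigma.fst hy
          have e2 := congrArg Sigma.fst hw
          simp only at e1 e2
          omega
        · intro h
          have hi : i = 1 := by
            by_contra hne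
            have : i = 0 := by omega
            subst this
            exact h ⟨x, rfl⟩
          subst hi
          exact ⟨x, rfl⟩ }
  obtain ⟨w, rfl⟩ := (H.exactU D z).1 h0
  have e : H.map (incP (T := T) 1) (H.map (prP (T := T) 1) w) = w := by
    rw [← H.map_comp, prP_incP, H.map_id]
  have e2 : w = 0 := e.symm.trans h1
  rw [e2, map_zero]

theorem hst_add (a b : St X Y) (y : H.h Y) :
    H.hst (a + b) y = H.hst a y + H.hst b y := by
  let T : Fin 2 → Type := fun _ => Y
  let c : St X (Σ i, T i) := (St.ofP (incP (T := T) 0)).comp a + (St.ofP (incP (T := T) 1)).comp b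
  let p0 : St (Σ i, T i) Y := St.ofP (prP (T := T) 0)
  let p1 : St (Σ i, T i) Y := St.ofP (prP (T := T) 1)
  have h01 : (0 : Fin 2) ≠ 1 := by decide
  have e0 : p0.comp c = a := by
    change (St.ofP (prP (T := T) 0)).comp ((St.ofP (incP (T := T) 0)).comp a +
      (St.ofP (incP (T := T) 1)).comp b) = a
    rw [St.comp_add, ← St.comp_assoc, ← St.comp_assoc, St.pr_inc, St.pr_inc_ne h01, St.zero_comp,
      add_zero]
    exact St.id_comp a
  have e1 : p1.comp c = b := by
    change (St.ofP (prP (T := T) 1)).comp ((St.ofP (incP (T := T) 0)).comp a +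
      (St.ofP (incP (T := T) 1)).comp b) = b
    rw [St.comp_add, ← St.comp_assoc, ← St.comp_assoc, St.pr_inc, St.pr_inc_ne h01.symm,
      St.zero_comp, zero_add]
    exact St.id_comp b
  have i00 : p0.comp (St.ofP (incP (T := T) 0)) = St.id Y := St.pr_inc (T := T) 0
  have i11 : p1.comp (St.ofP (incP (T := T) 1)) = St.id Y := St.pr_inc (T := T) 1
  have i01 : p0.comp (St.ofP (incP (T := T) 1)) = 0 := St.pr_inc_ne (T := T) h01
  have i10 : p1.comp (St.ofP (incP (T := T) 0)) = 0 := St.pr_inc_ne (T := T) h01.symm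
  have key : H.hst (p0 + p1) y = H.hst p0 y + H.hst p1 y := by
    refine sub_eq_zero.1 (H.wedge_inj ?_ ?_)
    · rw [← H.hst_ofP, map_sub, map_add, ← hst_comp, ← hst_comp, ← hst_comp, St.add_comp, i00, i10,
        add_zero, hst_zero, add_zero, sub_self]
    · rw [← H.hst_ofP, map_sub, map_add, ← hst_comp, ← hst_comp, ← hst_comp, St.add_comp, i01, i11,
        zero_add, hst_zero, zero_add, sub_self]
  have h3 : a + b = (p0 + p1).comp c := by rw [St.add_comp, e0, e1]
  rw [h3, hst_comp, key, map_add, ← hst_comp, ← hst_comp, e0, e1]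

/-- additive form -/
noncomputable def hstHom (X Y : Type) [TopologicalSpace X] [T2Space X] [LocallyCompactSpace X]
    [TopologicalSpace Y] [T2Space Y] [LocallyCompactSpace Y] : St X Y →+ (H.h Y →ₗ[F] H.h X) :=
  AddMonoidHom.mk' H.hst fun a b => LinearMap.ext fun y => H.hst_add a b y

@[simp] theorem hst_neg (a : St X Y) (y : H.h Y) : H.hst (-a) y = -H.hst a y :=
  LinearMap.congr_fun ((H.hstHom X Y).map_neg a) y

theorem hst_sub (a b : St X Y) (y : H.h Y) : H.hst (a - b) y = H.hst a y - H.hst b y :=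
  LinearMap.congr_fun ((H.hstHom X Y).map_sub a b) y

theorem hst_nsmul (n : ℕ) (a : St X Y) (y : H.h Y) : H.hst (n • a) y = n • H.hst a y :=
  LinearMap.congr_fun ((H.hstHom X Y).map_nsmul n a) y

theorem hst_zsmul (n : ℤ) (a : St X Y) (y : H.h Y) : H.hst (n • a) y = n • H.hst a y :=
  LinearMap.congr_fun ((H.hstHom X Y).map_zsmul n a) y

theorem hst_sum {ι : Type*} (J : Finset ι) (s : ι → St X Y) (y : H.h Y) :
    H.hst (∑ i ∈ J, s i) y = ∑ i ∈ J, H.hst (s i) y := by
  have := LinearMap.congr_fun (map_sum (H.hstHom X Y) s J) y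
  rw [LinearMap.sum_apply] at this
  exact this

/-! ### Lefschetz numbers -/

/-- Lefschetz number of a stable self map -/
noncomputable def Lst (φ : St X X) : F := LinearMap.trace F (H.h X) (H.eps X ∘ₗ H.hst φ)

theorem Lst_ofP (f : PMap X X) : H.Lst (St.ofP f) = H.toCoh.L f := by
  rw [Lst, hst_ofP]; rfl

theorem Lst_add (φ ψ : St X X) : H.Lst (φ + ψ) = H.Lst φ + H.Lst ψ := by
  have : H.eps X ∘ₗ H.hst (φ + ψ) = H.eps X ∘ₗ H.hst φ + H.eps X ∘ₗ H.hst ψ :=
    LinearMap.ext fun x => by simp [hst_add]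
  rw [Lst, this, map_add]; rfl

@[simp] theorem Lst_zero : H.Lst (0 : St X X) = 0 := by
  have : H.eps X ∘ₗ H.hst (0 : St X X) = 0 := LinearMap.ext fun x => by simp
  rw [Lst, this, map_zero]

theorem Lst_nsmul (n : ℕ) (φ : St X X) : H.Lst (n • φ) = n • H.Lst φ := by
  have : H.eps X ∘ₗ H.hst (n • φ) = n • (H.eps X ∘ₗ H.hst φ) :=
    LinearMap.ext fun x => by simp [hst_nsmul]
  rw [Lst, this, map_nsmul]; rfl

theorem Lst_zsmul (n : ℤ) (φ : St X X) : H.Lst (n • φ) = n • H.Lst φ := by
  have : H.eps X ∘ₗ H.hst (n • φ) = n • (H.eps X ∘ₗ H.hst φ) :=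
    LinearMap.ext fun x => by simp [hst_zsmul]
  rw [Lst, this, map_zsmul]; rfl

theorem Lst_comm (hX : H.toCoh.Fin X) (hY : H.toCoh.Fin Y) (a : St X Y) (b : St Y X) :
    H.Lst (b.comp a) = H.Lst (a.comp b) := by
  have : FiniteDimensional F (H.h X) := hX
  have : FiniteDimensional F (H.h Y) := hY
  have e1 : H.eps X ∘ₗ H.hst (b.comp a) = H.hst a ∘ₗ (H.eps Y ∘ₗ H.hst b) := by
    ext x
    simp only [LinearMap.comp_apply]
    rw [hst_comp, eps_hst]
  have e2 : H.eps Y ∘ₗ H.hst (a.comp b) = (H.eps Y ∘ₗ H.hst b) ∘ₗ H.hst a := by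
    ext x
    simp only [LinearMap.comp_apply]
    rw [hst_comp]
  rw [Lst, Lst, e1, e2, LinearMap.trace_comp_comm']

/-- stable equivalences preserve Lefschetz numbers -/
theorem Lst_conj (e : St X Y) (hb : Function.Bijective (H.hst e)) (φ : St X X) (ψ : St Y Y)
    (h : ψ.comp e = e.comp φ) : H.Lst φ = H.Lst ψ := by
  let E : H.h Y ≃ₗ[F] H.h X := LinearEquiv.ofBijective (H.hst e) hb
  have e1 : H.eps X ∘ₗ H.hst φ = E.toLinearMap ∘ₗ (H.eps Y ∘ₗ H.hst ψ) ∘ₗ E.symm.toLinearMap := by
    ext x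
    obtain ⟨y, rfl⟩ := E.surjective x
    simp only [LinearMap.comp_apply, LinearEquiv.coe_coe, LinearEquiv.symm_apply_apply]
    change H.eps X (H.hst φ (H.hst e y)) = H.hst e (H.eps Y (H.hst ψ y))
    rw [← hst_comp, ← h, hst_comp, eps_hst]
  rw [Lst, Lst, e1, ← LinearMap.trace_conj' (H.eps Y ∘ₗ H.hst ψ) E]
  rfl

end CohX

end Crest.Agent.R090.HSt285
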