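import Crest.Agent.R090.FMAbs_554
import Crest.Agent.R090.HSt_285

/-!
# Row 90, leaf FM/HOM (registry item 3, helper967): the cohomology theories of HOM as `FM554.CoT`

`AsCoT967.coT H hmap : FM554.CoT` for every `H : CohT253.Coh` which is homotopy invariant:
exactness on mapping cone sequences of arbitrary pointed maps (`ex_i`, `ex_p`, `ex_s`) and the
collapse isomorphism `col`, from exactness for closed subspaces + naturality of `del` only.
`EIso.coh_bijective`: an `EIso` induces isomorphisms `H.map (ρ ∧ 1_W)` and `H.map ρ`.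
-/

set_option autoImplicit false
set_option linter.unusedSectionVars false

open Topology Filter Set unitInterval

namespace Crest.Agent.R090.AsCoT967

open OnePoint Crest.Agent.R090.Sp962 Crest.Agent.R090.CohT253
open Crest.Agent.R090.FM554 (CoT EIso)
open Crest.Agent.R090.Exc503 (OC valC)

universe u v w

section geometry

variable {U V : Type u} [TopologicalSpace U] [T2Space U] [LocallyCompactSpace U]
variable [TopologicalSpace V] [T2Space V] [LocallyCompactSpace V]

/-! ## the decomposition of a mapping cone -/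

theorem isClosedEmbedding_inr (f : PMap U V) : IsClosedEmbedding (MC.inr : V → MC f) := by
  refine ⟨OC.isEmbedding_inr f, ?_⟩
  have h : range (MC.inr : V → MC f) =
      ((↑) : MC f → OnePoint (MC f)) ⁻¹' (range (MC.i f)) := by
    ext z
    constructor
    · rintro ⟨y, rfl⟩
      exact ⟨y, rfl⟩
    · rintro ⟨y, hy⟩
      induction y using OnePoint.rec with
      | infty => exact absurd hy.symm (coe_ne_infty _)
      | coe y => exact ⟨y, coe_injective hy⟩
  rw [h]
  exact (isCompact_range (MC.i f).cont).isClosed.preimage continuous_coe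

theorem continuous_inl (f : PMap U V) : Continuous (MC.inl : U × Io → MC f) := by
  rw [(MC.isEmbedding_j f).continuous_iff]
  refine Continuous.prodMk continuous_coe ?_
  exact (f.cont.comp (continuous_coe.comp continuous_fst)).sm962
    (continuous_qC.comp (continuous_subtype_val.comp continuous_snd))

theorem range_inl (f : PMap U V) : range (MC.inl : U × Io → MC f) = (range (MC.inr : V → MC f))ᶜ := by
  ext z
  constructor
  · rintro ⟨p, rfl⟩ ⟨y, hy⟩
    exact absurd hy (by simp)
  · intro hz
    rcases z with p | y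
    · exact ⟨p, rfl⟩
    · exact absurd ⟨y, rfl⟩ hz

theorem isOpenEmbedding_inl (f : PMap U V) : IsOpenEmbedding (MC.inl : U × Io → MC f) := by
  refine ⟨?_, ?_⟩
  · have h : (fun z : MC f => (MC.j f z).1) ∘ (MC.inl : U × Io → MC f) =
        ((↑) : U × Io → OnePoint (U × Io)) := rfl
    refine IsEmbedding.of_comp (g := fun z : MC f => (MC.j f z).1) (continuous_inl f)
      (continuous_fst.comp (MC.isEmbedding_j f).continuous) ?_
    rw [h]
    exact isOpenEmbedding_coe.isEmbedding
  · rw [range_inl]
    exact (isClosedEmbedding_inr f).isClosed_range.isOpen_compl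

/-- `V ⊂ MC f` with complement `U × Io` -/
def decMC (f : PMap U V) : Dec V (MC f) (U × Io) where
  i := MC.inr
  hi := isClosedEmbedding_inr f
  j := MC.inl
  hj := isOpenEmbedding_inl f
  compl := range_inl f

theorem ofClosed_decMC (f : PMap U V) :
    PMap.ofClosed (decMC f).i (decMC f).hi = MC.i f := PMap.ext fun _ => rfl

theorem ofOpen_decMC (f : PMap U V) : PMap.ofOpen (decMC f).j (decMC f).hj = MC.p f := by
  refine PMap.ext fun z => ?_
  rcases z with p | y
  · exact PMap.ofOpen_coe _ (decMC f).hj p
  · refine (PMap.ofOpen_of_notMem _ (decMC f).hj ?_).trans rfl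
    rintro ⟨p, hp⟩
    exact absurd hp (by simp [decMC])

/-! ## the decomposition of a cone -/

/-- `Io → Ic` -/
def oc (t : Io) : Ic := ⟨t, t.2.1, t.2.2.le⟩

theorem isOpenEmbedding_oc : IsOpenEmbedding oc := by
  have h : IsEmbedding oc := by
    refine IsEmbedding.of_comp (g := ((↑) : Ic → ℝ)) ?_ continuous_subtype_val ?_
    · exact Continuous.subtype_mk continuous_subtype_val _
    · exact IsEmbedding.subtypeVal
  refine ⟨h, ?_⟩
  have : range oc = ((↑) : Ic → ℝ) ⁻¹' (Iio 1) := by
    ext t
    constructor
    · rintro ⟨s, rfl⟩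
      exact s.2.2
    · intro ht
      exact ⟨⟨t, t.2.1, ht⟩, rfl⟩
  rw [this]
  exact isOpen_Iio.preimage continuous_subtype_val

theorem range_oc : range oc = ({one'} : Set Ic)ᶜ := by
  ext t
  constructor
  · rintro ⟨s, rfl⟩ hs
    have : (oc s : ℝ) = 1 := by rw [mem_singleton_iff.1 hs]; rfl
    exact absurd this s.2.2.ne
  · intro ht
    refine ⟨⟨t, t.2.1, lt_of_le_of_ne t.2.2 fun h => ht ?_⟩, rfl⟩
    exact Subtype.ext h

/-- the end of the cone -/
def endC (U : Type u) (a : U) : U × Ic := (a, one')

theorem isClosedEmbedding_endC : IsClosedEmbedding (endC U) := by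
  have h : IsEmbedding (endC U) := by
    refine IsEmbedding.of_comp (g := (Prod.fst : U × Ic → U)) ?_ continuous_fst ?_
    · exact continuous_id.prodMk continuous_const
    · exact IsEmbedding.id
  refine ⟨h, ?_⟩
  have : range (endC U) = Prod.snd ⁻¹' ({one'} : Set Ic) := by
    ext ⟨a, t⟩
    constructor
    · rintro ⟨b, hb⟩
      exact (congrArg Prod.snd hb).symm
    · intro ht
      exact ⟨a, Prod.ext rfl (mem_singleton_iff.1 ht).symm⟩
  rw [this]
  exact isClosed_singleton.preimage continuous_snd

/-- `U × {1} ⊂ U × Ic` with complement `U × Io` -/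
def decC (U : Type u) [TopologicalSpace U] [T2Space U] [LocallyCompactSpace U] :
    Dec U (U × Ic) (U × Io) where
  i := endC U
  hi := isClosedEmbedding_endC
  j := Prod.map id oc
  hj := IsOpenEmbedding.id.prodMap isOpenEmbedding_oc
  compl := by
    ext ⟨a, t⟩
    constructor
    · rintro ⟨⟨b, s⟩, hb⟩ ⟨c, hc⟩
      have h1 : oc s = t := congrArg Prod.snd hb
      have h2 : one' = t := congrArg Prod.snd hc
      have h3 : oc s ∈ ({one'} : Set Ic)ᶜ := by rw [← range_oc]; exact mem_range_self s
      exact h3 (mem_singleton_iff.2 (h1.trans h2.symm))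
    · intro h
      have : t ∈ range oc := by
        rw [range_oc]
        intro ht
        exact h ⟨a, Prod.ext rfl (mem_singleton_iff.1 ht).symm⟩
      obtain ⟨s, rfl⟩ := this
      exact ⟨(a, s), rfl⟩

/-- the cone mapped to the mapping cone -/
noncomputable def cmap (f : PMap U V) : PMap (U × Ic) (MC f) where
  toFun z := z.elim ∞ fun p => MC.q f p.1 p.2
  cont := by
    refine continuous_of_sm ?_
    have : (fun p : OnePoint U × OnePoint Ic => (sm p.1 p.2).elim ∞ fun p : U × Ic =>
        MC.q f p.1 p.2) = fun p => MC.q f p.1 (valC p.2) := by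
      funext p
      obtain ⟨a, b⟩ := p
      induction a using OnePoint.rec with
      | infty => simp
      | coe a =>
        induction b using OnePoint.rec with
        | infty => simp
        | coe b => rfl
    rw [this]
    exact (MC.continuous_q f).comp
      (continuous_fst.prodMk (Exc503.continuous_valC.comp continuous_snd))
  map_inf := rfl

@[simp] theorem cmap_coe (f : PMap U V) (p : U × Ic) : cmap f p = MC.q f p.1 p.2 := rfl

theorem cmap_closed (f : PMap U V) :
    (cmap f).comp (PMap.ofClosed (decC U).i (decC U).hi) =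
      (PMap.ofClosed (decMC f).i (decMC f).hi).comp f := by
  rw [ofClosed_decMC]
  refine PMap.ext fun a => ?_
  change MC.q f (a : OnePoint U) ((one' : Ic) : ℝ) = MC.i f (f a)
  exact MC.q_one f a

theorem cmap_open (f : PMap U V) :
    (PMap.ofOpen (decMC f).j (decMC f).hj).comp (cmap f) =
      (PMap.id (U × Io)).comp (PMap.ofOpen (decC U).j (decC U).hj) := by
  rw [ofOpen_decMC, PMap.id_comp]
  refine PMap.ext fun p => ?_
  obtain ⟨a, t⟩ := p
  change MC.p f (MC.q f a (t : ℝ)) = PMap.collapse (decC U).j (decC U).hj ((a, t) : U × Ic)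
  rw [MC.p_q]
  by_cases ht : (t : ℝ) < 1
  · have e : ((a, t) : U × Ic) = (decC U).j (a, ⟨t, t.2.1, ht⟩) := rfl
    rw [e, PMap.collapse_coe, qI_of_mem ⟨t.2.1, ht⟩, sm_coe]
  · rw [qI_of_ge (not_lt.1 ht), sm_inf_right, PMap.collapse_of_notMem]
    rintro ⟨⟨b, s⟩, hb⟩
    have h1 : oc s = t := congrArg Prod.snd hb
    apply ht
    rw [← h1]
    exact s.2.2

theorem smash_closed (f : PMap U V) :
    (f.smash (PMap.id Ic)).comp (PMap.ofClosed (decC U).i (decC U).hi) =
      (PMap.ofClosed (decC V).i (decC V).hi).comp f := by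
  refine PMap.ext fun a => ?_
  change sm (f a) ((one' : Ic) : OnePoint Ic) = PMap.ofClosed (decC V).i (decC V).hi (f a)
  generalize f a = b
  induction b using OnePoint.rec with
  | infty => rfl
  | coe b => rfl

theorem smash_open (f : PMap U V) :
    (PMap.ofOpen (decC V).j (decC V).hj).comp (f.smash (PMap.id Ic)) =
      (f.smash (PMap.id Io)).comp (PMap.ofOpen (decC U).j (decC U).hj) := by
  refine PMap.ext fun p => ?_
  obtain ⟨a, t⟩ := p
  change PMap.ofOpen (decC V).j (decC V).hj (sm (f a) (t : OnePoint Ic)) =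
    (f.smash (PMap.id Io)) (PMap.ofOpen (decC U).j (decC U).hj ((a, t) : U × Ic))
  by_cases ht : (t : ℝ) < 1
  · have e : ((a, t) : U × Ic) = (decC U).j (a, ⟨t, t.2.1, ht⟩) := rfl
    rw [e, PMap.ofOpen_coe]
    change _ = sm (f a) (((⟨t, t.2.1, ht⟩ : Io)) : OnePoint Io)
    generalize f a = b
    induction b using OnePoint.rec with
    | infty => rw [sm_inf_left, sm_inf_left, PMap.map_inf]
    | coe b =>
      have e' : ((b, t) : V × Ic) = (decC V).j (b, ⟨t, t.2.1, ht⟩) := rfl
      rw [sm_coe, sm_coe, e', PMap.ofOpen_coe]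
  · have hn : ∀ (W : Type u) [TopologicalSpace W] [T2Space W] [LocallyCompactSpace W] (b : W),
        ((b, t) : W × Ic) ∉ range (decC W).j := by
      rintro W _ _ _ b ⟨⟨c, s⟩, hb⟩
      have h1 : oc s = t := congrArg Prod.snd hb
      apply ht
      rw [← h1]
      exact s.2.2
    rw [PMap.ofOpen_of_notMem _ _ (hn U a), PMap.map_inf]
    generalize f a = b
    induction b using OnePoint.rec with
    | infty => rw [sm_inf_left, PMap.map_inf]
    | coe b =>
      rw [sm_coe, PMap.ofOpen_of_notMem _ _ (hn V b)]

end geometry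

/-! ## exactness -/

section coh

variable {F : Type w} [Field F] (H : Coh.{u, v, w} F)

/-- homotopy invariance -/
def HInv : Prop := ∀ {U V : Type u} [TopologicalSpace U] [TopologicalSpace V] [T2Space U]
    [LocallyCompactSpace U] [T2Space V] [LocallyCompactSpace V] {f g : PMap U V},
    f.Homotopic g → ∀ x, H.map f x = H.map g x

variable {H}

variable {U V : Type u} [TopologicalSpace U] [T2Space U] [LocallyCompactSpace U]
variable [TopologicalSpace V] [T2Space V] [LocallyCompactSpace V]

theorem eq_zero_of_null (hH : HInv H) (hU : (PMap.id U).Null) (x : H.h U) : x = 0 := by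
  have := hH hU x
  rwa [H.map_id, H.map_zero'] at this

section dec

variable {K O : Type u} [TopologicalSpace K] [TopologicalSpace O]

/-- the collapse of a contractible closed subspace is an isomorphism -/
theorem bijective_ofOpen (hH : HInv H) [T2Space K] [LocallyCompactSpace K] (D : Dec K U O)
    (hK : (PMap.id K).Null) : Function.Bijective (H.map (PMap.ofOpen D.j D.hj)) := by
  refine ⟨?_, ?_⟩
  · rw [injective_iff_map_eq_zero]
    intro x hx
    obtain ⟨y, rfl⟩ := (H.exactO D x).1 hx
    rw [eq_zero_of_null hH hK y, map_zero]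
  · intro x
    exact (H.exactU D x).1 (eq_zero_of_null hH hK _)

/-- the connecting map of a contractible space is an isomorphism -/
theorem bijective_del (hH : HInv H) (D : Dec K U O) (hU : (PMap.id U).Null) :
    Function.Bijective (H.del D) := by
  refine ⟨?_, ?_⟩
  · rw [injective_iff_map_eq_zero]
    intro x hx
    obtain ⟨y, rfl⟩ := (H.exactK D x).1 hx
    rw [eq_zero_of_null hH hU y, map_zero]
  · intro x
    exact (H.exactO D x).1 (eq_zero_of_null hH hU _)

end dec

/-- the suspension isomorphism -/
theorem bijective_sus (hH : HInv H) (U : Type u) [TopologicalSpace U] [T2Space U]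
    [LocallyCompactSpace U] : Function.Bijective (H.del (decC U)) :=
  bijective_del hH (decC U) (Exc503.null_cone U)

theorem del_decMC (f : PMap U V) (x : H.h V) :
    H.del (decMC f) x = H.del (decC U) (H.map f x) := by
  rw [← H.del_nat (decC U) (decMC f) f (cmap f) (PMap.id _) (cmap_closed f) (cmap_open f) x,
    H.map_id]

theorem sus_nat (f : PMap U V) (x : H.h V) :
    H.map (f.smash (PMap.id Io)) (H.del (decC V) x) = H.del (decC U) (H.map f x) :=
  H.del_nat (decC U) (decC V) f (f.smash (PMap.id Ic)) (f.smash (PMap.id Io)) (smash_closed f)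
    (smash_open f) x

theorem exact_i (hH : HInv H) (f : PMap U V) : Function.Exact (H.map (MC.i f)) (H.map f) := by
  intro x
  rw [← ofClosed_decMC f, ← H.exactK (decMC f) x, del_decMC]
  constructor
  · intro h; rw [h, map_zero]
  · intro h
    exact (bijective_sus hH U).injective (h.trans (map_zero _).symm)

theorem exact_p (f : PMap U V) : Function.Exact (H.map (MC.p f)) (H.map (MC.i f)) := by
  rw [← ofClosed_decMC f, ← ofOpen_decMC f]
  exact H.exactU (decMC f)

theorem exact_s (hH : HInv H) (f : PMap U V) :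
    Function.Exact (H.map (f.smash (PMap.id Io))) (H.map (MC.p f)) := by
  intro x
  rw [← ofOpen_decMC f, H.exactO (decMC f) x]
  constructor
  · rintro ⟨y, rfl⟩
    exact ⟨H.del (decC V) y, by rw [sus_nat, del_decMC]⟩
  · rintro ⟨z, rfl⟩
    obtain ⟨y, rfl⟩ := (bijective_sus hH V).surjective z
    exact ⟨y, by rw [sus_nat, del_decMC]⟩

end coh

/-! ## the instance -/

section inst

variable {F : Type w} [Field F]

/-- **a homotopy invariant `Coh` is a `CoT`** -/
noncomputable def coT (H : Coh.{0, 0, w} F) (hH : HInv H) : CoT where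
  H X _ _ _ := H.h X
  map f := (H.map f).toAddMonoidHom
  map_id X _ _ _ y := H.map_id X y
  map_comp g f y := H.map_comp g f y
  map_homotopic h := by
    ext y
    exact hH h y
  ex_i f := exact_i hH f
  ex_p f := exact_p f
  ex_s f := exact_s hH f
  col {F U O} _ _ _ _ _ _ _ _ _ i e h := by
    have := bijective_ofOpen hH
      (⟨h.ic, h.isClosedEmbedding_ic, h.ec, h.cone.oe, h.range_ec⟩ : Dec (F × Ic) (MC h.incl) O)
      (Exc503.null_cone F)
    exact this

@[simp] theorem coT_map (H : Coh.{0, 0, w} F) (hH : HInv H) {X Y : Type} [TopologicalSpace X]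
    [T2Space X] [LocallyCompactSpace X] [TopologicalSpace Y] [T2Space Y] [LocallyCompactSpace Y]
    (f : PMap X Y) (y : H.h Y) : (coT H hH).map f y = H.map f y := rfl

/-- **an `EIso` induces isomorphisms in cohomology** -/
theorem bijective_smash (H : Coh.{0, 0, w} F) (hH : HInv H) {𝓕 : Set CoT} (hT : coT H hH ∈ 𝓕)
    {X Y : Type} [TopologicalSpace X] [T2Space X] [LocallyCompactSpace X] [TopologicalSpace Y]
    [T2Space Y] [LocallyCompactSpace Y] {ρ : PMap X Y} (hρ : EIso 𝓕 ρ) (W : Type)
    [TopologicalSpace W] [T2Space W] [LocallyCompactSpace W] :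
    Function.Bijective (H.map (ρ.smash (PMap.id W))) := hρ _ hT W

theorem bijective_map (H : Coh.{0, 0, w} F) (hH : HInv H) {𝓕 : Set CoT} (hT : coT H hH ∈ 𝓕)
    {X Y : Type} [TopologicalSpace X] [T2Space X] [LocallyCompactSpace X] [TopologicalSpace Y]
    [T2Space Y] [LocallyCompactSpace Y] {ρ : PMap X Y} (hρ : EIso 𝓕 ρ) :
    Function.Bijective (H.map ρ) := by
  have h1 := (coT H hH).bij_homeo (Homeomorph.prodUnique X Unit)
  have h2 := (coT H hH).bij_homeo (Homeomorph.prodUnique Y Unit)
  have h3 : (PMap.ofHomeo (Homeomorph.prodUnique Y Unit)).comp (ρ.smash (PMap.id Unit)) =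
      ρ.comp (PMap.ofHomeo (Homeomorph.prodUnique X Unit)) := by
    refine PMap.ext fun p => ?_
    obtain ⟨x, t⟩ := p
    change (PMap.ofHomeo (Homeomorph.prodUnique Y Unit)) (sm (ρ x) (t : OnePoint Unit)) = ρ x
    generalize ρ x = y
    induction y using OnePoint.rec with
    | infty => rfl
    | coe y => rfl
  have h4 : Function.Bijective ((coT H hH).map
      ((PMap.ofHomeo (Homeomorph.prodUnique Y Unit)).comp (ρ.smash (PMap.id Unit)))) :=
    (coT H hH).bij_comp h2 (hρ _ hT Unit)
  rw [h3] at h4
  exact (coT H hH).bij_of_comp_left h1 h4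

end inst

/-! ## for helper285's `CohX` -/

section cohX

open Crest.Agent.R090.HSt285

variable {F : Type} [Field F] (H : CohX F)

theorem hinv : HInv H.toCoh := fun h x => H.hmap h x

/-- `CoT` of a `CohX` -/
noncomputable def cohT : CoT := coT H.toCoh (hinv H)

end cohX

end Crest.Agent.R090.AsCoT967
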