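import Crest.Agent.R090.FMProd_554

/-!
# Row 90, leaf FM: closed/open extensions of spaces with a model

`TgtHyp 𝓕` (input, helper305): precomposition with an `EIso` is bijective on stable maps into any
sphere-built space.  Output: for a closed/open pair `F → U ← O`
* `HasModel.ext` : models of `F` and `O` give a model of `U`;
* `HasModel.open` : models of `F` and `U` give a model of `O`.
-/

set_option autoImplicit false
set_option linter.unusedSectionVars false

open Topology Filter Set unitInterval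

namespace Crest.Agent.R090.FM554

open OnePoint Crest.Agent.R090.Sp962
open Crest.Agent.R090.Exc503 (OC)
open Crest.Agent.R090.St528 (St S stN stN_comp stN_smash h1 hh)

/-- precomposition with an `EIso` is bijective for sphere-built targets -/
def TgtHyp (𝓕 : Set CoT) : Prop :=
  ∀ {X M : Type} [TopologicalSpace X] [T2Space X] [LocallyCompactSpace X]
    [TopologicalSpace M] [T2Space M] [LocallyCompactSpace M] (ρ : PMap X M), EIso 𝓕 ρ →
    ∀ (T : Type) [TopologicalSpace T] [T2Space T] [LocallyCompactSpace T], SB T →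
      Function.Bijective (fun g : St M T => g.comp (St.ofP ρ))

section rep

universe u v w

variable {X' : Type u} {X : Type v} {T : Type w}
variable [TopologicalSpace X] [T2Space X] [LocallyCompactSpace X]
variable [TopologicalSpace X'] [T2Space X'] [LocallyCompactSpace X']
variable [TopologicalSpace T] [T2Space T] [LocallyCompactSpace T]

/-- a stable factorisation of a space-level map is realised at some level -/
theorem exists_rep (d : St X T) (r : PMap X' X) (y : PMap X' T)
    (h : d.comp (St.ofP r) = St.ofP y) :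
    ∃ (k : ℕ) (D : PMap (S X k) (S T k)), d = St.mk k D ∧
      (D.comp (r.smash (PMap.id (Fin k → ℂ)))).Homotopic (y.smash (PMap.id (Fin k → ℂ))) := by
  obtain ⟨n, hn⟩ := d.exists_of
  obtain ⟨a, rfl⟩ := hn n le_rfl
  rw [St.ofP, St.ofP, St.map_eq_of _ n, St.map_eq_of _ n, St.of_comp_of] at h
  obtain ⟨k, hk⟩ := St.of_eq_iff.1 h
  rw [stN_comp, stN_smash, stN_smash] at hk
  obtain ⟨D, hD⟩ := HC.mk_surj (stN a k)
  refine ⟨n + k, D, ?_, ?_⟩
  · rw [St.mk, hD, St.of_stN]
  · rw [← hD] at hk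
    exact HC.mk_eq.1 hk

end rep

variable {𝓕 : Set CoT}

variable {F U O MF MU MO : Type}
variable [TopologicalSpace F] [T2Space F] [LocallyCompactSpace F]
variable [TopologicalSpace U] [T2Space U] [LocallyCompactSpace U]
variable [TopologicalSpace O] [T2Space O] [LocallyCompactSpace O]
variable [TopologicalSpace MF] [T2Space MF] [LocallyCompactSpace MF]
variable [TopologicalSpace MU] [T2Space MU] [LocallyCompactSpace MU]
variable [TopologicalSpace MO] [T2Space MO] [LocallyCompactSpace MO]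
variable {i : F → U} {e : O → U}

/-- `ρ ∧ 1` for the level `k` -/
theorem EIso.S {X Y : Type} [TopologicalSpace X] [T2Space X] [LocallyCompactSpace X]
    [TopologicalSpace Y] [T2Space Y] [LocallyCompactSpace Y] {ρ : PMap X Y} (h : EIso 𝓕 ρ)
    (k : ℕ) : EIso 𝓕 (ρ.smash (PMap.id (Fin k → ℂ))) := h.smash_right _

/-- extension, level `0` -/
theorem ext0 (hT : TgtHyp 𝓕) (h : OC i e) (ρF : PMap F MF) (ρO : PMap O MO) (sF : SB MF)
    (sO : SB MO) (eF : EIso 𝓕 ρF) (eO : EIso 𝓕 ρO) : HasModel 𝓕 U := by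
  -- `r : MC incl → MO`
  let r : PMap (MC h.incl) MO := ρO.comp h.c
  have er : EIso 𝓕 r := eO.comp (EIso.c h)
  let y : PMap (MC h.incl) (MF × Io) := (ρF.smash (PMap.id Io)).comp (MC.p h.incl)
  obtain ⟨d, hd⟩ := (hT r er (MF × Io) (sF.prod SB.Io)).surjective (St.ofP y)
  obtain ⟨k, D, -, hD⟩ := exists_rep d r y hd
  -- the square
  let f : PMap (S (MC h.incl) k) (S (F × Io) k) := (MC.p h.incl).smash (PMap.id (Fin k → ℂ))
  let b : PMap (S (F × Io) k) (S (MF × Io) k) :=
    (ρF.smash (PMap.id Io)).smash (PMap.id (Fin k → ℂ))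
  have hsq : (D.comp (r.smash (PMap.id (Fin k → ℂ)))).Homotopic (b.comp f) := by
    have e1 : b.comp f = y.smash (PMap.id (Fin k → ℂ)) := (smash_comp_id _ _).symm
    rw [e1]
    exact hD
  obtain ⟨w, hw1, hw2⟩ := exists_map f D (r.smash (PMap.id (Fin k → ℂ))) b hsq
  have ew : EIso 𝓕 w := EIso.cone hsq (PMap.Homotopic.of_eq hw1) hw2 (er.S k)
    ((eF.smash_right Io).S k)
  have epe : EIso 𝓕 (pe h.incl) :=
    EIso.of_inv (PMap.Homotopic.of_eq (pg_comp_pe h.incl)) (pe_comp_pg h.incl)
  refine HasModel.of_Io ?_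
  refine .of_level (n := k) (M := MC D) ?_
    (w.comp ((PMap.ofHomeo (MC.smR (MC.p h.incl) (Fin k → ℂ)).symm).comp
      ((pe h.incl).smash (PMap.id (Fin k → ℂ))))) ?_
  · exact (sO.S k).cone D ((sF.prod SB.Io).S k)
  · exact ew.comp ((EIso.homeo _).comp (epe.S k))

/-- **closed/open extension** -/
theorem HasModel.ext (hT : TgtHyp 𝓕) (h : OC i e) (hF : HasModel 𝓕 F) (hO : HasModel 𝓕 O) :
    HasModel 𝓕 U := by
  obtain ⟨n, hn⟩ := hF.level
  obtain ⟨m, hm⟩ := hO.level
  obtain ⟨MF, _, _, _, ρF, sF, eF⟩ := hn (max n m) (le_max_left _ _)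
  obtain ⟨MO, _, _, _, ρO, sO, eO⟩ := hm (max n m) (le_max_right _ _)
  exact (ext0 hT (h.prodRight (Fin (max n m) → ℂ)) ρF ρO sF sO eF eO).of_S

/-- open complement, level `0` -/
theorem open0 (hT : TgtHyp 𝓕) (h : OC i e) (ρF : PMap F MF) (ρU : PMap U MU) (sF : SB MF)
    (sU : SB MU) (eF : EIso 𝓕 ρF) (eU : EIso 𝓕 ρU) : HasModel 𝓕 O := by
  obtain ⟨d, hd⟩ := (hT ρF eF MU sU).surjective (St.ofP (ρU.comp h.incl))
  obtain ⟨k, D, -, hD⟩ := exists_rep d ρF (ρU.comp h.incl) hd
  let f : PMap (S F k) (S U k) := h.incl.smash (PMap.id (Fin k → ℂ))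
  have hsq : (D.comp (ρF.smash (PMap.id (Fin k → ℂ)))).Homotopic
      ((ρU.smash (PMap.id (Fin k → ℂ))).comp f) := by
    rw [← smash_comp_id]
    exact hD
  obtain ⟨w, hw1, hw2⟩ := exists_map f D _ _ hsq
  have ew : EIso 𝓕 w := EIso.cone hsq (PMap.Homotopic.of_eq hw1) hw2 (eF.S k) (eU.S k)
  -- `v : MC incl × ℂ^k → MC D`
  let v : PMap (S (MC h.incl) k) (MC D) := w.comp (PMap.ofHomeo (MC.smR h.incl (Fin k → ℂ)).symm)
  have ev : EIso 𝓕 v := ew.comp (EIso.homeo _)
  have ec : EIso 𝓕 (h.c.smash (PMap.id (Fin k → ℂ))) := (EIso.c h).S k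
  have sD : SB (MC D) := (sF.S k).cone D (sU.S k)
  obtain ⟨g, hg⟩ := (hT _ ec (MC D) sD).surjective (St.ofP v)
  obtain ⟨m, G, -, hG⟩ := exists_rep g _ v hg
  have eG : EIso 𝓕 G := EIso.of_comp_left (ec.S m) ((ev.S m).congr hG.symm)
  exact HasModel.of_S (n := k) (.of_level (n := m) (sD.S m) G eG)

/-- **open complement** -/
theorem HasModel.open (hT : TgtHyp 𝓕) (h : OC i e) (hF : HasModel 𝓕 F) (hU : HasModel 𝓕 U) :
    HasModel 𝓕 O := by
  obtain ⟨n, hn⟩ := hF.level
  obtain ⟨m, hm⟩ := hU.level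
  obtain ⟨MF, _, _, _, ρF, sF, eF⟩ := hn (max n m) (le_max_left _ _)
  obtain ⟨MU, _, _, _, ρU, sU, eU⟩ := hm (max n m) (le_max_right _ _)
  exact (open0 hT (h.prodRight (Fin (max n m) → ℂ)) ρF ρU sF sU eF eU).of_S

/-- finite closed filtrations with layers having models -/
theorem HasModel.filtration (hT : TgtHyp 𝓕) (Fi : ℕ → Set U) (hc : ∀ k, IsClosed (Fi k))
    (hmono : Monotone Fi) (h0 : Fi 0 = ∅) {u : ℕ} (hu : Fi u = univ)
    (hl : ∀ k, k < u → ∃ (L : Type) (_ : TopologicalSpace L) (_ : T2Space L)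
      (_ : LocallyCompactSpace L) (_ : HasModel 𝓕 L), Nonempty ({x : U // x ∈ Fi (k + 1) \ Fi k} ≃ₜ L)) :
    HasModel 𝓕 U := by
  have key : ∀ k, k ≤ u → ∀ [LocallyCompactSpace (Fi k)], HasModel 𝓕 (Fi k) := by
    intro k
    induction k with
    | zero =>
      intro _ _
      haveI : IsEmpty (Fi 0) := by rw [h0]; infer_instance
      exact (HasModel.of_SB SB.empty).homeo (Homeomorph.empty)
    | succ k ih =>
      intro hk _
      obtain ⟨L, _, _, _, hL, ⟨eL⟩⟩ := hl k (by omega)
      haveI : LocallyCompactSpace (Fi k) := (hc k).isClosedEmbedding_subtypeVal.locallyCompactSpace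
      have hsub : Fi k ⊆ Fi (k + 1) := hmono (Nat.le_succ k)
      have hoc : OC (Set.inclusion hsub)
          (fun l : L => (⟨(eL.symm l).1, (eL.symm l).2.1⟩ : Fi (k + 1))) := by
        refine ⟨?_, ?_, ?_⟩
        · refine ⟨IsEmbedding.inclusion hsub, ?_⟩
          rw [Set.range_inclusion]
          exact (hc k).preimage continuous_subtype_val
        · have h1 : IsOpenEmbedding (fun x : {x : U // x ∈ Fi (k + 1) \ Fi k} =>
              (⟨x.1, x.2.1⟩ : Fi (k + 1))) := by
            refine ⟨?_, ?_⟩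
            · exact IsEmbedding.inclusion (fun x hx => hx.1)
            · have : range (fun x : {x : U // x ∈ Fi (k + 1) \ Fi k} =>
                (⟨x.1, x.2.1⟩ : Fi (k + 1))) = ((↑) : Fi (k + 1) → U) ⁻¹' (Fi k)ᶜ := by
                ext x
                constructor
                · rintro ⟨y, rfl⟩
                  exact y.2.2
                · intro hx
                  exact ⟨⟨x.1, x.2, hx⟩, rfl⟩
              rw [this]
              exact (hc k).isOpen_compl.preimage continuous_subtype_val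
          exact h1.comp eL.symm.isOpenEmbedding
        · ext x
          constructor
          · rintro ⟨l, rfl⟩ ⟨a, ha⟩
            have := congrArg Subtype.val ha
            exact (eL.symm l).2.2 (by
              have h2 : (a : U) = ((eL.symm l) : U) := this
              rw [← h2]; exact a.2)
          · intro hx
            refine ⟨eL ⟨x.1, x.2, fun h => hx ⟨⟨x.1, h⟩, rfl⟩⟩, ?_⟩
            apply Subtype.ext
            simp
      exact HasModel.ext hT hoc (ih (by omega)) hL
  haveI : LocallyCompactSpace (Fi u) := (hc u).isClosedEmbedding_subtypeVal.locallyCompactSpace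
  have e2 : (Fi u : Set U) ≃ₜ U := (Homeomorph.setCongr hu).trans (Homeomorph.Set.univ U)
  exact (key u le_rfl).homeo e2

end Crest.Agent.R090.FM554
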