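import Crest.Agent.R090.FMPair_554
import Crest.Agent.R090.FMTgt_305

/-!
# Row 90, leaf FM (owner helper554; this file helper806): `St (-) (Fin m → ℝ)` is a `CoT`

* `contra1`, `contra2`, `contra3` : contravariant exactness of `St (-) E` on
  `U → V → MC f → U × Io → V × Io` (any lch `T₂` target `E`);
* `coll_bij` : `F` contractible closed ⟹ `St O E ≃ St U E` (Borsuk; `E` f.d. real);
* `c_bij` : `St O E ≃ St (MC incl) E`;
* `cotSt m : CoT`.
-/

set_option autoImplicit false
set_option linter.unusedSectionVars false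

open Topology Filter Set

namespace Crest.Agent.R090.FM554

open OnePoint Crest.Agent.R090.Sp962 Crest.Agent.R090.Grp528 Crest.Agent.R090.St528
open Crest.Agent.R090.CovSt128 (lv stN_lv)
open Crest.Agent.R090.Exc503 (OC)
open scoped unitInterval

universe u v w x y

section level

variable {A : Type u} {B : Type v} {C : Type w}
variable [TopologicalSpace A] [TopologicalSpace B] [TopologicalSpace C]
variable [T2Space A] [LocallyCompactSpace A] [T2Space B] [LocallyCompactSpace B]
  [T2Space C] [LocallyCompactSpace C]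

/-- a stable map killing an unstable one, at a finite level -/
theorem exists_level_right (F : PMap A B) (y : St B C) (hy : y.comp (St.ofP F) = 0) :
    ∃ (n : ℕ) (y0 : PMap (S B n) (S C n)), y = St.of n (HC.mk y0) ∧
      (y0.comp (F.smash (PMap.id (Fin n → ℂ)))).Null := by
  obtain ⟨n, _, a, rfl⟩ := y.exists_of_ge 0
  rw [St.ofP, St.map_eq_of _ n, St.of_comp_of, ← St.of_zero n, St.of_eq_iff] at hy
  obtain ⟨k, hk⟩ := hy
  have hz : stN (hzero (S A n) (S C n)) k = hzero _ _ := by
    clear hk
    induction k with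
    | zero => rfl
    | succ k ih => rw [stN_succ, ih, st_hzero]; rfl
  rw [stN_comp, stN_lv, hz] at hk
  obtain ⟨h0, hh0⟩ := HC.mk_surj (stN a k)
  refine ⟨n + k, h0, ?_, ?_⟩
  · rw [hh0, St.of_stN]
  · rw [← hh0] at hk
    exact HC.mk_eq.1 hk

theorem of_mk_comp_ofP {n : ℕ} (z : PMap (S B n) (S C n)) (F : PMap A B) :
    (St.of n (HC.mk z)).comp (St.ofP F) =
      St.of n (HC.mk (z.comp (F.smash (PMap.id (Fin n → ℂ))))) := by
  rw [St.ofP, St.map_eq_of _ n, St.of_comp_of]
  rfl

theorem of_congr {n : ℕ} {f g : PMap (S B n) (S C n)} (h : f.Homotopic g) :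
    St.of n (HC.mk f) = St.of n (HC.mk g) := by rw [HC.sound h]

end level

/-! ## contravariant exactness of mapping cone sequences -/

section contra

variable {U : Type u} {V : Type v} {E : Type w}
variable [TopologicalSpace U] [TopologicalSpace V] [TopologicalSpace E]
variable [T2Space U] [LocallyCompactSpace U] [T2Space V] [LocallyCompactSpace V]
  [T2Space E] [LocallyCompactSpace E]

/-- exactness at `V` -/
theorem contra1 (f : PMap U V) (y : St V E) (hy : y.comp (St.ofP f) = 0) :
    ∃ z : St (MC f) E, z.comp (St.ofP (MC.i f)) = y := by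
  obtain ⟨n, y0, rfl, h0⟩ := exists_level_right f y hy
  obtain ⟨g, hg⟩ := MC.exists_desc (f.smash (PMap.id (Fin n → ℂ))) y0 h0
  refine ⟨St.of n (HC.mk (g.comp (PMap.ofHomeo (MC.smR f (Fin n → ℂ)).symm))), ?_⟩
  rw [of_mk_comp_ofP, PMap.comp_assoc, ← MC.smR_i f, symm_comp_cancel, hg]

/-- exactness at `MC f` -/
theorem contra2 (f : PMap U V) (y : St (MC f) E) (hy : y.comp (St.ofP (MC.i f)) = 0) :
    ∃ z : St (U × Io) E, z.comp (St.ofP (MC.p f)) = y := by
  obtain ⟨n, y0, rfl, h0⟩ := exists_level_right (MC.i f) y hy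
  obtain ⟨g, hg⟩ := MC.exists_p (f.smash (PMap.id (Fin n → ℂ)))
    (y0.comp (PMap.ofHomeo (MC.smR f (Fin n → ℂ)))) (by
      rw [PMap.comp_assoc, MC.smR_i]; exact h0)
  refine ⟨St.of n (HC.mk (g.comp (PMap.ofHomeo (MC.swp U (Fin n → ℂ) Io).symm))), ?_⟩
  rw [of_mk_comp_ofP]
  refine of_congr ?_
  have e : (PMap.ofHomeo (MC.swp U (Fin n → ℂ) Io).symm).comp
      ((MC.p f).smash (PMap.id (Fin n → ℂ))) =
      (MC.p (f.smash (PMap.id (Fin n → ℂ)))).comp
        (PMap.ofHomeo (MC.smR f (Fin n → ℂ)).symm) := by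
    refine eq_comp_symm _ ?_
    rw [PMap.comp_assoc, MC.smR_p, symm_comp_cancel]
  have h1 := (hg.comp_right (PMap.ofHomeo (MC.smR f (Fin n → ℂ)).symm)).symm
  rw [PMap.comp_assoc y0, PMap.ofHomeo_comp_symm, PMap.comp_id, PMap.comp_assoc g, ← e,
    ← PMap.comp_assoc] at h1
  exact h1

/-- exactness at `U × Io` -/
theorem contra3 (f : PMap U V) (y : St (U × Io) E) (hy : y.comp (St.ofP (MC.p f)) = 0) :
    ∃ z : St (V × Io) E, z.comp (St.ofP (f.smash (PMap.id Io))) = y := by
  obtain ⟨n, y0, rfl, h0⟩ := exists_level_right (MC.p f) y hy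
  obtain ⟨g, hg⟩ := MC.exists_susp (f.smash (PMap.id (Fin n → ℂ)))
    (y0.comp (PMap.ofHomeo (MC.swp U (Fin n → ℂ) Io))) (by
      rw [PMap.comp_assoc, ← MC.smR_p, ← PMap.comp_assoc]
      exact h0.comp_right _)
  refine ⟨St.of n (HC.mk (g.comp (PMap.ofHomeo (MC.swp V (Fin n → ℂ) Io).symm))), ?_⟩
  rw [of_mk_comp_ofP]
  refine of_congr ?_
  have e : (PMap.ofHomeo (MC.swp V (Fin n → ℂ) Io).symm).comp
      ((f.smash (PMap.id Io)).smash (PMap.id (Fin n → ℂ))) =
      ((f.smash (PMap.id (Fin n → ℂ))).smash (PMap.id Io)).comp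
        (PMap.ofHomeo (MC.swp U (Fin n → ℂ) Io).symm) := by
    refine PMap.ext fun p => ?_
    obtain ⟨⟨a, s⟩, c⟩ := p
    change (PMap.ofHomeo (MC.swp V (Fin n → ℂ) Io).symm)
      (sm (sm (f a) (s : OnePoint Io)) (c : OnePoint (Fin n → ℂ))) =
      sm (sm (f a) (c : OnePoint (Fin n → ℂ))) (s : OnePoint Io)
    generalize f a = b
    induction b using OnePoint.rec with
    | infty => simp
    | coe b => rfl
  have h1 := (hg.comp_right (PMap.ofHomeo (MC.swp U (Fin n → ℂ) Io).symm)).symm
  rw [PMap.comp_assoc y0, PMap.ofHomeo_comp_symm, PMap.comp_id, PMap.comp_assoc g, ← e,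
    ← PMap.comp_assoc] at h1
  exact h1

end contra

/-! ## excision -/

section exc

variable {F : Type u} {U : Type v} {O : Type w} {E : Type x}
variable [TopologicalSpace F] [TopologicalSpace U] [TopologicalSpace O] [TopologicalSpace E]
variable [T2Space F] [LocallyCompactSpace F] [T2Space U] [LocallyCompactSpace U]
  [T2Space O] [LocallyCompactSpace O] [T2Space E] [LocallyCompactSpace E]
variable [AddCommGroup E] [Module ℝ E] [FiniteDimensional ℝ E] [IsTopologicalAddGroup E]
  [ContinuousSMul ℝ E]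

/-- **contravariant exactness for arbitrary closed pairs, sphere target** -/
theorem exists_coll_st {i : F → U} {e : O → U} (h : OC i e) (y : St U E)
    (hy : y.comp (St.ofP h.incl) = 0) : ∃ z : St O E, z.comp (St.ofP h.coll) = y := by
  obtain ⟨n, y0, rfl, h0⟩ := exists_level_right h.incl y hy
  rw [← h.prodRight_incl] at h0
  obtain ⟨g, hg⟩ := (h.prodRight (Fin n → ℂ)).exists_coll
    (Crest.R090.Hep865.NE.onePoint (S E n)) y0 h0
  refine ⟨St.of n (HC.mk g), ?_⟩
  rw [of_mk_comp_ofP, ← h.prodRight_coll]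
  exact of_congr hg.symm

/-- the collapse of a contractible closed subspace is an isomorphism on `St (-) E` -/
theorem coll_bij {i : F → U} {e : O → U} (h : OC i e) (hF : (PMap.id F).Null) :
    Function.Bijective (fun y : St O E => y.comp (St.ofP h.coll)) := by
  constructor
  · intro y y' hyy
    have hy : (y - y').comp (St.ofP h.coll) = 0 := by
      rw [St.sub_comp]; exact sub_eq_zero.2 hyy
    refine sub_eq_zero.1 ?_
    generalize y - y' = z at hy
    obtain ⟨n, y0, rfl, h0⟩ := exists_level_right h.coll z hy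
    rw [← St.of_zero n]
    refine of_congr ?_
    have hF' : (PMap.id (F × (Fin n → ℂ))).Null := by
      rw [← PMap.smash_id]; exact hF.smash_left _
    refine (h.prodRight (Fin n → ℂ)).collapse_inj
      (Crest.R090.Hep865.NE.onePoint (S E n)) hF' ?_
    rw [h.prodRight_coll]
    exact h0
  · intro y
    refine exists_coll_st h y ?_
    have : St.ofP h.incl = 0 := by
      refine St.ofP_null ?_
      have := hF.comp_left h.incl
      rwa [PMap.comp_id] at this
    rw [this, St.comp_zero]

/-- `St O E ≃ St (MC incl) E` -/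
theorem c_bij {i : F → U} {e : O → U} (h : OC i e) :
    Function.Bijective (fun y : St O E => y.comp (St.ofP h.c)) :=
  coll_bij h.cone (Exc503.null_cone F)

end exc

/-! ## the functor -/

/-- `St (-) (Fin m → ℝ)` as a contravariant cohomology functor -/
noncomputable def cotSt (m : ℕ) : CoT where
  H X _ _ _ := St X (Fin m → ℝ)
  grp X _ _ _ := inferInstance
  map f := St.homComp (St.ofP f)
  map_id X _ _ _ y := by
    change y.comp (St.ofP (PMap.id X)) = y
    rw [St.ofP_id, St.comp_id]
  map_comp g f y := by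
    change y.comp (St.ofP (g.comp f)) = (y.comp (St.ofP g)).comp (St.ofP f)
    rw [St.ofP_comp, St.comp_assoc]
  map_homotopic h := by rw [St.ofP_congr h]
  ex_i f := by
    intro y
    constructor
    · intro h
      exact contra1 f y h
    · rintro ⟨z, rfl⟩
      change (z.comp (St.ofP (MC.i f))).comp (St.ofP f) = 0
      rw [St.comp_assoc, ofP_i_comp, St.comp_zero]
  ex_p f := by
    intro y
    constructor
    · intro h
      exact contra2 f y h
    · rintro ⟨z, rfl⟩
      change (z.comp (St.ofP (MC.p f))).comp (St.ofP (MC.i f)) = 0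
      rw [St.comp_assoc, ofP_p_comp_i, St.comp_zero]
  ex_s f := by
    intro y
    constructor
    · intro h
      exact contra3 f y h
    · rintro ⟨z, rfl⟩
      change (z.comp (St.ofP (f.smash (PMap.id Io)))).comp (St.ofP (MC.p f)) = 0
      rw [St.comp_assoc, ofP_smash_comp_p, St.comp_zero]
  col h := c_bij h

@[simp] theorem cotSt_map {X Y : Type} [TopologicalSpace X] [T2Space X] [LocallyCompactSpace X]
    [TopologicalSpace Y] [T2Space Y] [LocallyCompactSpace Y] (m : ℕ) (f : PMap X Y)
    (y : St Y (Fin m → ℝ)) : (cotSt m).map f y = y.comp (St.ofP f) := rfl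

/-- an `EIso` for the family `cotSt` is a sphere isomorphism after smashing with any `W` -/
theorem EIso.sIso {X Y : Type} [TopologicalSpace X] [T2Space X] [LocallyCompactSpace X]
    [TopologicalSpace Y] [T2Space Y] [LocallyCompactSpace Y] {𝓕 : Set CoT}
    (h𝓕 : ∀ m, cotSt m ∈ 𝓕) {ρ : PMap X Y} (h : EIso 𝓕 ρ) (W : Type) [TopologicalSpace W]
    [T2Space W] [LocallyCompactSpace W] : SIso (St.ofP (ρ.smash (PMap.id W))) :=
  fun m => h (cotSt m) (h𝓕 m) W

end Crest.Agent.R090.FM554
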