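import Crest.Agent.R090.FMExt_554
import Crest.Agent.R090.FMSt_806

/-!
# Row 90, leaf FM (helper806): `TgtHyp` for every family containing all `cotSt m`
-/

set_option autoImplicit false
set_option linter.unusedSectionVars false

open Topology Filter Set

namespace Crest.Agent.R090.FM554

open OnePoint Crest.Agent.R090.Sp962 Crest.Agent.R090.Grp528 Crest.Agent.R090.St528

section unit

variable {X Y : Type} [TopologicalSpace X] [T2Space X] [LocallyCompactSpace X]
  [TopologicalSpace Y] [T2Space Y] [LocallyCompactSpace Y]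

theorem unit_smash (ρ : PMap X Y) :
    ρ.comp (PMap.ofHomeo (Homeomorph.prodUnique X Unit)) =
      (PMap.ofHomeo (Homeomorph.prodUnique Y Unit)).comp (ρ.smash (PMap.id Unit)) := by
  refine PMap.ext fun p => ?_
  obtain ⟨x, w⟩ := p
  change ρ (x : OnePoint X) =
    PMap.ofHomeo (Homeomorph.prodUnique Y Unit) (sm (ρ x) (w : OnePoint Unit))
  generalize ρ x = y
  induction y using OnePoint.rec with
  | infty => simp
  | coe y => rfl

/-- an `EIso` is an isomorphism -/
theorem EIso.bij {𝓕 : Set CoT} {ρ : PMap X Y} (h : EIso 𝓕 ρ) {T : CoT} (hT : T ∈ 𝓕) :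
    Function.Bijective (T.map ρ) := by
  refine T.bij_of_comp_left (T.bij_homeo (Homeomorph.prodUnique X Unit)) ?_
  rw [unit_smash]
  exact T.bij_comp (T.bij_homeo _) (h T hT Unit)

theorem EIso.sIso0 {𝓕 : Set CoT} (h𝓕 : ∀ m, cotSt m ∈ 𝓕) {ρ : PMap X Y} (h : EIso 𝓕 ρ) :
    SIso (St.ofP ρ) := fun m => h.bij (h𝓕 m)

end unit

/-- **target hypothesis** for every family containing all `cotSt m` -/
theorem tgtHyp {𝓕 : Set CoT} (h𝓕 : ∀ m, cotSt m ∈ 𝓕) : TgtHyp 𝓕 := by
  intro X M _ _ _ _ _ _ ρ hρ T _ _ _ hT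
  exact (hρ.sIso0 h𝓕).bij hT

theorem tgtHyp_insert (T : CoT) : TgtHyp (insert T (range cotSt)) :=
  tgtHyp fun m => Set.mem_insert_of_mem _ (mem_range_self m)

theorem tgtHyp_range : TgtHyp (range cotSt) := tgtHyp fun m => mem_range_self m

end Crest.Agent.R090.FM554
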