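import Mathlib

/-!
# Row 90, leaf F0: finite cell decompositions (owner helper933)
-/

set_option autoImplicit false
set_option linter.unusedSectionVars false

open Topology Filter Set

namespace Crest.Agent.R090.F0_933

/-- finite unions of complex cells -/
inductive HasCells : (X : Type) → [TopologicalSpace X] → ℕ → Prop
  | empty (X : Type) [TopologicalSpace X] [IsEmpty X] : HasCells X 0
  | cell (X : Type) [TopologicalSpace X] (m : ℕ) (e : X ≃ₜ (Fin m → ℂ)) : HasCells X 1
  | glue (X : Type) [TopologicalSpace X] (A : Set X) (hA : IsClosed A) (a b : ℕ)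
      (ha : HasCells A a) (hb : HasCells (Aᶜ : Set X) b) : HasCells X (a + b)

/-- a homeomorphism restricts to a set and its preimage -/
def preimageHomeo {X Y : Type*} [TopologicalSpace X] [TopologicalSpace Y] (e : X ≃ₜ Y) (A : Set Y) :
    (e ⁻¹' A : Set X) ≃ₜ A :=
  e.subtype (fun _ => Iff.rfl)

theorem HasCells.congr {X : Type} [TopologicalSpace X] {u : ℕ} (h : HasCells X u) :
    ∀ {Y : Type} [TopologicalSpace Y] (_ : Y ≃ₜ X), HasCells Y u := by
  induction h with
  | empty X =>
    intro Y _ e
    have : IsEmpty Y := e.toEquiv.isEmpty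
    exact HasCells.empty Y
  | cell X m e' =>
    intro Y _ e
    exact HasCells.cell Y m (e.trans e')
  | glue X A hA a b _ _ iha ihb =>
    intro Y _ e
    refine HasCells.glue Y (e ⁻¹' A) (hA.preimage e.continuous) a b (iha (preimageHomeo e A)) ?_
    exact ihb (preimageHomeo e Aᶜ)

/-- product with a fixed space -/
def prodPre (Y : Type) {X : Type} [TopologicalSpace X] [TopologicalSpace Y] (A : Set X) :
    ((Prod.snd : Y × X → X) ⁻¹' A : Set (Y × X)) ≃ₜ Y × A where
  toFun z := (z.1.1, ⟨z.1.2, z.2⟩)
  invFun z := ⟨(z.1, z.2.1), z.2.2⟩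
  left_inv _ := rfl
  right_inv _ := rfl
  continuous_toFun := by fun_prop
  continuous_invFun := by fun_prop

theorem HasCells.prod {X : Type} [TopologicalSpace X] {u : ℕ} (h : HasCells X u)
    {Y : Type} [TopologicalSpace Y] {k : ℕ} (f : Y ≃ₜ (Fin k → ℂ)) : HasCells (Y × X) u := by
  induction h with
  | empty X => exact HasCells.empty _
  | cell X m e =>
    refine HasCells.cell _ (k + m) ((f.prodCongr e).trans ?_)
    exact Fin.appendHomeomorph k m
  | glue X A hA a b _ _ iha ihb =>
    refine HasCells.glue _ (Prod.snd ⁻¹' A) (hA.preimage continuous_snd) a b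
      (iha.congr (prodPre Y A)) ?_
    exact ihb.congr (prodPre Y Aᶜ)

/-- the closed chain of a cell decomposition -/
structure CellChain (X : Type) [TopologicalSpace X] (u : ℕ) where
  F : ℕ → Set X
  closed : ∀ i, IsClosed (F i)
  mono : Monotone F
  zero : F 0 = ∅
  top : F u = univ
  dim : ℕ → ℕ
  cell : ∀ i < u, Nonempty ((F (i + 1) \ F i : Set X) ≃ₜ (Fin (dim i) → ℂ))

theorem HasCells.chain {X : Type} [TopologicalSpace X] {u : ℕ} (h : HasCells X u) :
    Nonempty (CellChain X u) := by
  induction h with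
  | empty X =>
    refine ⟨⟨fun _ => ∅, fun _ => isClosed_empty, monotone_const, rfl, ?_, fun _ => 0, ?_⟩⟩
    · exact (Set.univ_eq_empty_iff.2 inferInstance).symm
    · intro i hi; omega
  | cell X m e =>
    refine ⟨⟨fun i => if i = 0 then ∅ else univ, ?_, ?_, by simp, by simp, fun _ => m, ?_⟩⟩
    · intro i
      by_cases hi : i = 0 <;> simp [hi]
    · intro i j hij
      by_cases hi : i = 0
      · simp [hi]
      · have : j ≠ 0 := by omega
        simp [hi, this]
    · intro i hi
      have : i = 0 := by omega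
      subst this
      refine ⟨(Homeomorph.setCongr ?_).trans ((Homeomorph.Set.univ X).trans e)⟩
      simp
  | glue X A hA a b _ _ iha ihb =>
    obtain ⟨ca⟩ := iha
    obtain ⟨cb⟩ := ihb
    have hAtop : ∀ i, a ≤ i → ca.F i = univ := fun i hi =>
      Set.eq_univ_of_univ_subset (by rw [← ca.top]; exact ca.mono hi)
    have hAimg : ((↑) '' (univ : Set A) : Set X) = A := by simp
    have hdis : ∀ (B : Set A) (C : Set (Aᶜ : Set X)),
        Disjoint ((↑) '' B : Set X) ((↑) '' C : Set X) := by
      intro B C
      rw [Set.disjoint_left]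
      rintro _ ⟨x, -, rfl⟩ ⟨y, -, h⟩
      exact y.2 (h ▸ x.2)
    refine ⟨⟨fun i => ((↑) '' ca.F i : Set X) ∪ ((↑) '' cb.F (i - a) : Set X), ?_, ?_, ?_, ?_,
      fun i => if i < a then ca.dim i else cb.dim (i - a), ?_⟩⟩
    · intro i
      rcases le_or_gt i a with hi | hi
      · have h0 : i - a = 0 := by omega
        rw [h0, cb.zero]
        simp only [image_empty, union_empty]
        exact hA.isClosedEmbedding_subtypeVal.isClosedMap _ (ca.closed i)
      · rw [hAtop i hi.le, hAimg]
        have h1 : (A ∪ ((↑) '' cb.F (i - a) : Set X))ᶜ = ((↑) '' (cb.F (i - a))ᶜ : Set X) := by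
          ext x
          simp only [mem_compl_iff, mem_union, mem_image, Subtype.exists, exists_and_right,
            exists_eq_right, not_or, not_exists]
          constructor
          · rintro ⟨hx, h⟩
            exact ⟨hx, h hx⟩
          · rintro ⟨hx, h⟩
            exact ⟨hx, fun _ => h⟩
        rw [← isOpen_compl_iff, h1]
        exact hA.isOpen_compl.isOpenEmbedding_subtypeVal.isOpenMap _ (cb.closed _).isOpen_compl
    · intro i j hij
      exact union_subset_union (image_mono (ca.mono hij)) (image_mono (cb.mono (by omega)))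
    · simp [ca.zero, cb.zero]
    · simp only [add_tsub_cancel_left, cb.top]
      rw [hAtop _ (by omega), hAimg, image_univ, Subtype.range_coe]
      exact union_compl_self A
    · intro i hi
      rcases lt_or_ge i a with hia | hia
      · rw [if_pos hia]
        obtain ⟨e⟩ := ca.cell i hia
        have h0 : i - a = 0 := by omega
        have h1 : i + 1 - a = 0 := by omega
        rw [h0, h1, cb.zero, image_empty, union_empty, union_empty]
        rw [← image_sdiff Subtype.val_injective]
        exact ⟨(IsEmbedding.subtypeVal.homeomorphImage _).symm.trans e⟩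
      · rw [if_neg (by omega)]
        obtain ⟨e⟩ := cb.cell (i - a) (by omega)
        have h1 : i + 1 - a = i - a + 1 := by omega
        rw [h1, hAtop i hia, hAtop (i + 1) (by omega)]
        have h2 : (((↑) '' (univ : Set A) ∪ (↑) '' cb.F (i - a + 1)) \
            ((↑) '' (univ : Set A) ∪ (↑) '' cb.F (i - a)) : Set X) =
            ((↑) '' (cb.F (i - a + 1) \ cb.F (i - a)) : Set X) := by
          rw [image_sdiff Subtype.val_injective]
          have hd := hdis univ (cb.F (i - a + 1))
          ext x
          constructor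
          · rintro ⟨h3 | h3, h4⟩
            · exact absurd (Or.inl h3) h4
            · exact ⟨h3, fun h5 => h4 (Or.inr h5)⟩
          · rintro ⟨h3, h4⟩
            refine ⟨Or.inr h3, ?_⟩
            rintro (h5 | h5)
            · exact Set.disjoint_left.1 hd h5 h3
            · exact h4 h5
        rw [h2]
        exact ⟨(IsEmbedding.subtypeVal.homeomorphImage _).symm.trans e⟩

/-- **the filtration in the form of F1 (737)**: level `0` is `A`, each level `1 ≤ i ≤ u` is a cell -/
structure Flt {B : Type*} [TopologicalSpace B] (A : Set B) (u : ℕ) where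
  lev : B → ℕ
  le : ∀ b, lev b ≤ u
  closed : ∀ i, IsClosed {b | lev b ≤ i}
  zero : ∀ b, lev b = 0 ↔ b ∈ A
  cell : ∀ i, 1 ≤ i → i ≤ u → ∃ m, Nonempty ({b // lev b = i} ≃ₜ (Fin m → ℂ))

open Classical in
/-- the level function of a closed chain of the complement of `A` -/
noncomputable def CellChain.lev {B : Type} [TopologicalSpace B] {A : Set B} {u : ℕ}
    (c : CellChain (Aᶜ : Set B) u) (b : B) : ℕ :=
  if h : b ∈ Aᶜ then Nat.find (p := fun i => (⟨b, h⟩ : (Aᶜ : Set B)) ∈ c.F i)
    ⟨u, by rw [c.top]; trivial⟩ else 0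

theorem CellChain.lev_le_iff {B : Type} [TopologicalSpace B] {A : Set B} {u : ℕ}
    (c : CellChain (Aᶜ : Set B) u) {b : B} (h : b ∈ Aᶜ) (i : ℕ) :
    c.lev b ≤ i ↔ (⟨b, h⟩ : (Aᶜ : Set B)) ∈ c.F i := by
  classical
  rw [CellChain.lev, dif_pos h]
  constructor
  · intro hi
    exact c.mono hi (Nat.find_spec (p := fun i => (⟨b, h⟩ : (Aᶜ : Set B)) ∈ c.F i) _)
  · intro hi
    exact Nat.find_le hi

theorem CellChain.lev_of_mem {B : Type} [TopologicalSpace B] {A : Set B} {u : ℕ}
    (c : CellChain (Aᶜ : Set B) u) {b : B} (h : b ∈ A) : c.lev b = 0 := by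
  rw [CellChain.lev, dif_neg (fun h' => h' h)]

theorem CellChain.lev_pos {B : Type} [TopologicalSpace B] {A : Set B} {u : ℕ}
    (c : CellChain (Aᶜ : Set B) u) {b : B} (h : b ∈ Aᶜ) : 1 ≤ c.lev b := by
  by_contra h0
  have h1 : c.lev b ≤ 0 := by omega
  rw [c.lev_le_iff h, c.zero] at h1
  exact h1

/-- a closed chain of the complement of a closed set gives the level filtration -/
noncomputable def CellChain.flt {B : Type} [TopologicalSpace B] {A : Set B} (hA : IsClosed A)
    {u : ℕ} (c : CellChain (Aᶜ : Set B) u) : Flt A u where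
  lev := c.lev
  le b := by
    by_cases h : b ∈ A
    · rw [c.lev_of_mem h]; exact Nat.zero_le _
    · rw [c.lev_le_iff h, c.top]; trivial
  closed i := by
    have h1 : {b | c.lev b ≤ i}ᶜ = ((↑) '' (c.F i)ᶜ : Set B) := by
      ext x
      constructor
      · intro hx
        have hxA : x ∈ Aᶜ := fun h => hx (by
          change c.lev x ≤ i
          rw [c.lev_of_mem h]; exact Nat.zero_le _)
        exact ⟨⟨x, hxA⟩, fun h => hx ((c.lev_le_iff hxA i).2 h), rfl⟩
      · rintro ⟨⟨y, hy⟩, h, rfl⟩ h'
        exact h ((c.lev_le_iff hy i).1 h')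
    rw [← isOpen_compl_iff, h1]
    exact hA.isOpen_compl.isOpenEmbedding_subtypeVal.isOpenMap _ (c.closed i).isOpen_compl
  zero b := by
    constructor
    · intro h
      by_contra h'
      have := c.lev_pos h'
      omega
    · exact c.lev_of_mem
  cell i hi hiu := by
    obtain ⟨e⟩ := c.cell (i - 1) (by omega)
    refine ⟨_, ⟨Homeomorph.trans ?_ e⟩⟩
    have h1 : ∀ b, c.lev b = i ↔ b ∈ ((↑) '' (c.F (i - 1 + 1) \ c.F (i - 1)) : Set B) := by
      intro b
      constructor
      · intro hb
        have hbA : b ∈ Aᶜ := fun h => by rw [c.lev_of_mem h] at hb; omega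
        refine ⟨⟨b, hbA⟩, ⟨(c.lev_le_iff hbA _).1 (by omega), fun h => ?_⟩, rfl⟩
        have := (c.lev_le_iff hbA _).2 h
        omega
      · rintro ⟨⟨y, hy⟩, ⟨h2, h3⟩, rfl⟩
        have h4 := (c.lev_le_iff hy _).2 h2
        have h5 : ¬ c.lev y ≤ i - 1 := fun h => h3 ((c.lev_le_iff hy _).1 h)
        change c.lev y = i
        omega
    exact (Homeomorph.setCongr (s := {b | c.lev b = i}) (Set.ext h1)).trans
      (IsEmbedding.subtypeVal.homeomorphImage _).symm

end Crest.Agent.R090.F0_933
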