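import Crest.Agent.R090.Inj_812
import Crest.Agent.R090.HasCells_933

/-!
# Row 90: `Inj` from closed/open decompositions and from cells (helper758)

* `Inj.total` : `F → U` closed embedding, `O → U` open embedding, complementary, `Inj F`, `Inj O`
  imply `Inj U` (Tietze);
* `inj_of_hasCells` : `HasCells X n → Inj X`.
-/

set_option autoImplicit false

open Topology Filter Set

namespace Crest.Agent.R090.InjCells758

open OnePoint Crest.Agent.R090.Sp962 Crest.Agent.R090.Inj812 Crest.Agent.R090.F0_933

universe u v w

/-- the closed/open rule for `Inj` (in all universes) -/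
theorem total {U : Type u} {F : Type v} {O : Type w} [TopologicalSpace U] [TopologicalSpace F]
    [TopologicalSpace O] [T2Space U] [LocallyCompactSpace U] (i : F → U) (hi : IsClosedEmbedding i)
    (e : O → U) (he : IsOpenEmbedding e) (hc : range e = (range i)ᶜ) (h1 : Inj F) (h2 : Inj O) :
    Inj U := by
  obtain ⟨a, f, hf, hfi⟩ := h1
  obtain ⟨b, g, hg, hgi⟩ := h2
  have hT2F : T2Space F := hi.isEmbedding.t2Space
  have hic : IsClosedEmbedding (PMap.ofClosed i hi : OnePoint F → OnePoint U) :=
    (PMap.ofClosed i hi).cont.isClosedEmbedding (by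
      intro x y hxy
      induction x using OnePoint.rec with
      | infty =>
        induction y using OnePoint.rec with
        | infty => rfl
        | coe y =>
          rw [PMap.map_inf, PMap.ofClosed_coe] at hxy
          exact absurd hxy.symm (coe_ne_infty _)
      | coe x =>
        induction y using OnePoint.rec with
        | infty =>
          rw [PMap.map_inf, PMap.ofClosed_coe] at hxy
          exact absurd hxy (coe_ne_infty _)
        | coe y =>
          rw [PMap.ofClosed_coe, PMap.ofClosed_coe, coe_eq_coe] at hxy
          rw [hi.injective hxy])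
  obtain ⟨J, hJ⟩ := ContinuousMap.exists_extension' hic (⟨f, hf⟩ : C(OnePoint F, Fin a → ℝ))
  have hJ' : ∀ x, J (PMap.ofClosed i hi x) = f x := fun x => congrFun hJ x
  refine Inj.of_fd (E := (Fin a → ℝ) × (Fin b → ℝ)) (fun x => (J x, g (PMap.ofOpen e he x))) ?_ ?_
  · exact J.continuous.prodMk (hg.comp (PMap.ofOpen e he).cont)
  · -- every point is in the closed part or in the open part
    have hcases : ∀ x : OnePoint U, (∃ y, x = PMap.ofClosed i hi y ∧ PMap.ofOpen e he x = ∞) ∨
        ∃ z : O, x = (e z : OnePoint U) ∧ PMap.ofOpen e he x = (z : OnePoint O) := by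
      intro x
      induction x using OnePoint.rec with
      | infty => exact Or.inl ⟨∞, (PMap.map_inf _).symm, PMap.map_inf _⟩
      | coe x =>
        by_cases h : x ∈ range e
        · obtain ⟨z, rfl⟩ := h
          exact Or.inr ⟨z, rfl, PMap.ofOpen_coe e he z⟩
        · have h' : x ∈ range i := by
            by_contra h2
            exact h (by rw [hc]; exact h2)
          obtain ⟨y, rfl⟩ := h'
          exact Or.inl ⟨(y : OnePoint F), (PMap.ofClosed_coe i hi y).symm,
            PMap.ofOpen_of_notMem e he h⟩
    intro x x' hxx
    have e1 : J x = J x' := congrArg Prod.fst hxx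
    have e2 : g (PMap.ofOpen e he x) = g (PMap.ofOpen e he x') := congrArg Prod.snd hxx
    have e3 := hgi e2
    rcases hcases x with ⟨y, hy, hy'⟩ | ⟨z, hz, hz'⟩
    · rcases hcases x' with ⟨y', h1, h2⟩ | ⟨z', h1, h2⟩
      · rw [hy, h1, hJ', hJ'] at e1
        rw [hy, h1, hfi e1]
      · rw [hy', h2] at e3
        exact absurd e3.symm (coe_ne_infty _)
    · rcases hcases x' with ⟨y', h1, h2⟩ | ⟨z', h1, h2⟩
      · rw [hz', h2] at e3
        exact absurd e3 (coe_ne_infty _)
      · rw [hz', h2, coe_eq_coe] at e3
        rw [hz, h1, e3]

/-- the closed/open rule for a closed subset -/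
theorem total_set {X : Type u} [TopologicalSpace X] [T2Space X] [LocallyCompactSpace X] {A : Set X}
    (hA : IsClosed A) (h1 : Inj A) (h2 : Inj (Aᶜ : Set X)) : Inj X :=
  total Subtype.val hA.isClosedEmbedding_subtypeVal Subtype.val
    hA.isOpen_compl.isOpenEmbedding_subtypeVal
    (by rw [Subtype.range_coe, Subtype.range_coe]) h1 h2

/-- the empty space -/
theorem inj_empty (X : Type u) [TopologicalSpace X] [IsEmpty X] : Inj X := by
  refine ⟨0, fun _ => 0, continuous_const, ?_⟩
  intro x y _
  induction x using OnePoint.rec with
  | infty =>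
    induction y using OnePoint.rec with
    | infty => rfl
    | coe y => exact isEmptyElim y
  | coe x => exact isEmptyElim x

/-- **a space with finitely many cells embeds in a euclidean space** -/
theorem inj_of_hasCells {X : Type} [i : TopologicalSpace X] {n : ℕ} (h : HasCells X n) :
    ∀ [T2Space X] [LocallyCompactSpace X], Inj X := by
  induction h with
  | empty X => intro _ _; exact inj_empty X
  | cell X m e => intro _ _; exact (Inj.fd (Fin m → ℂ)).homeo e
  | glue X A hA a b ha hb iha ihb =>
    intro _ _
    have : LocallyCompactSpace A := hA.isClosedEmbedding_subtypeVal.locallyCompactSpace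
    have : LocallyCompactSpace (Aᶜ : Set X) :=
      hA.isOpen_compl.isOpenEmbedding_subtypeVal.locallyCompactSpace
    exact total_set hA iha ihb

end Crest.Agent.R090.InjCells758
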