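import Crest.Agent.R090.Kun_493
import Crest.Agent.R090.AClass_923

/-!
# Row 90, block HOM: the Künneth class, part 2 (owner helper493)

* `null_Ic`, `decIc : Dec Unit Ic Io`;
* `CC H U` : Künneth and finite dimensional; `cls_KU`, `cls_CC` : helper923's `Cls`.
-/

set_option autoImplicit false
set_option linter.unusedSectionVars false

namespace Crest.Agent.R090.Kun493

open Topology Set OnePoint TensorProduct Crest.Agent.R090.Sp962 Crest.Agent.R090.CohT253
open Crest.Agent.R090.HSt285 Crest.Agent.R090.AClass923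
open scoped unitInterval

/-! ### the half open interval -/

/-- `OnePoint Ic ≃ₜ [0,1]` -/
noncomputable def icI : OnePoint Ic ≃ₜ I :=
  OnePoint.equivOfIsEmbeddingOfRangeEq (0 : I) (fun t : Ic => (⟨t.1, t.2.1.le, t.2.2⟩ : I))
    (by
      refine IsEmbedding.of_comp (g := ((↑) : I → ℝ)) (by fun_prop) continuous_subtype_val ?_
      exact IsEmbedding.subtypeVal)
    (by
      ext t
      simp only [mem_range, mem_compl_iff, mem_singleton_iff]
      constructor
      · rintro ⟨s, rfl⟩ h
        exact s.2.1.ne' (congrArg Subtype.val h)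
      · intro h
        exact ⟨⟨t.1, lt_of_le_of_ne t.2.1 (fun h' => h (Subtype.ext h'.symm)), t.2.2⟩, rfl⟩)

theorem icI_inf : icI ∞ = 0 := rfl

theorem null_Ic : (PMap.id Ic).Null := by
  have h0 : icI.symm 0 = ∞ := by rw [← icI_inf, Homeomorph.symm_apply_apply]
  refine PMap.Homotopic.of (fun p => icI.symm (σ p.1 * icI p.2)) ?_ ?_ ?_ ?_
  · fun_prop
  · intro x
    simp
  · intro x
    simp [h0]
  · intro t
    simp [icI_inf, h0]

/-- the end point of the half open interval -/
def decIc : Dec Unit Ic Io where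
  i _ := one'
  hi := Continuous.isClosedEmbedding (by fun_prop) (fun _ _ _ => rfl)
  j t := ⟨t.1, t.2.1, t.2.2.le⟩
  hj := by
    refine ⟨?_, ?_⟩
    · refine IsEmbedding.of_comp (g := ((↑) : Ic → ℝ)) (by fun_prop) continuous_subtype_val ?_
      exact IsEmbedding.subtypeVal
    · have : range (fun t : Io => (⟨t.1, t.2.1, t.2.2.le⟩ : Ic)) =
          ((↑) : Ic → ℝ) ⁻¹' (Iio 1) := by
        ext t
        simp only [mem_range, mem_preimage, mem_Iio]
        constructor
        · rintro ⟨s, rfl⟩
          exact s.2.2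
        · intro h
          exact ⟨⟨t.1, t.2.1, h⟩, rfl⟩
      rw [this]
      exact isOpen_Iio.preimage continuous_subtype_val
  compl := by
    ext t
    simp only [mem_range, mem_compl_iff, not_exists]
    constructor
    · rintro ⟨s, rfl⟩ _ h
      exact s.2.2.ne (congrArg Subtype.val h).symm
    · intro h
      have h1 : t.1 ≠ 1 := fun h' => h () (Subtype.ext h'.symm)
      exact ⟨⟨t.1, t.2.1, lt_of_le_of_ne t.2.2 h1⟩, rfl⟩

variable {F : Type} [Field F] {H : CohX F}

variable {U V W K O : Type} [TopologicalSpace U] [T2Space U] [LocallyCompactSpace U]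
  [TopologicalSpace V] [T2Space V] [LocallyCompactSpace V]
  [TopologicalSpace W] [T2Space W] [LocallyCompactSpace W]
  [TopologicalSpace K] [T2Space K] [LocallyCompactSpace K]
  [TopologicalSpace O] [T2Space O] [LocallyCompactSpace O]

/-- Künneth and finite dimensional -/
structure CC (H : CohX F) (U : Type) [TopologicalSpace U] [T2Space U] [LocallyCompactSpace U] :
    Prop where
  ku : KU H U
  fin : H.Fin U

theorem CC.of_retract {f : PMap U V} {g : PMap V U} (h : (g.comp f).Homotopic (PMap.id U))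
    (hV : CC H V) : CC H U := ⟨hV.ku.of_retract h, fin_of_retract h hV.fin⟩

theorem CC.of_homeo (e : U ≃ₜ V) (hV : CC H V) : CC H U :=
  CC.of_retract (f := PMap.ofHomeo e) (g := PMap.ofHomeo e.symm)
    (.of_eq (PMap.ofHomeo_symm_comp e)) hV

theorem CC.of_null (h : (PMap.id U).Null) : CC H U := ⟨KU.of_null h, fin_of_null h⟩

theorem CC.of_isEmpty [IsEmpty U] : CC H U := CC.of_null (null_of_isEmpty U)

theorem CC.prod (hU : CC H U) (hV : CC H V) : CC H (U × V) :=
  ⟨hU.ku.prod hV.ku, fin_prod hU.ku hU.fin hV.fin⟩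

section X

variable (X : KX H)
include X

theorem CC.of_dec (D : Dec K U O) (hK : CC H K) (hO : CC H O) : CC H U :=
  ⟨KU.of_dec X D hK.ku hO.ku, Coh.Fin.of_dec _ D hK.fin hO.fin⟩

theorem CC.open_of_dec (D : Dec K U O) (hK : CC H K) (hU : CC H U) : CC H O :=
  ⟨KU.open_of_dec X D hK.ku hU.ku, Coh.Fin.open_of_dec _ D hK.fin hU.fin⟩

theorem CC.closed_of_dec (D : Dec K U O) (hO : CC H O) (hU : CC H U) : CC H K :=
  ⟨KU.closed_of_dec X D hU.ku hO.ku, Coh.Fin.closed_of_dec _ D hO.fin hU.fin⟩

theorem CC.unit : CC H Unit := ⟨KU.unit X, fin_unit X⟩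

theorem CC.io : CC H Io := CC.open_of_dec X decIc (CC.unit X) (CC.of_null null_Ic)

theorem CC.real : CC H ℝ := (CC.io X).of_homeo ioHomeo

theorem CC.fin_pow (hU : CC H U) (n : ℕ) : CC H (Fin n → U) := by
  induction n with
  | zero => exact (CC.unit X).of_homeo (Homeomorph.homeomorphOfUnique (Fin 0 → U) Unit)
  | succ n ih => exact (hU.prod ih).of_homeo (consH U n).symm

theorem CC.pi {ι : Type} [Finite ι] (hU : CC H U) : CC H (ι → U) := by
  obtain ⟨n, ⟨e⟩⟩ := Finite.exists_equiv_fin ι
  exact (CC.fin_pow X hU n).of_homeo (Homeomorph.piCongrLeft (Y := fun _ => U) e.symm).symm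

theorem CC.complex : CC H ℂ :=
  ((CC.real X).prod (CC.real X)).of_homeo Complex.equivRealProdCLM.toHomeomorph

theorem CC.cpow (n : ℕ) : CC H (Fin n → ℂ) := CC.fin_pow X (CC.complex X) n

/-- the Künneth class with finite dimensional cohomology is a class in the sense of 923 -/
theorem cls_CC : Cls (fun U _ _ _ => CC H U) where
  homeo e hU := CC.of_homeo e.symm hU
  empty _ _ _ _ _ := CC.of_isEmpty
  cell n := CC.fin_pow X (CC.real X) n
  prod hU hV := hU.prod hV
  total hoc hF hO := CC.of_dec X ⟨_, hoc.closed, _, hoc.opn, hoc.compl⟩ hF hO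
  opn hoc hF hU := CC.open_of_dec X ⟨_, hoc.closed, _, hoc.opn, hoc.compl⟩ hF hU

end X

end Crest.Agent.R090.Kun493
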