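import Crest.Agent.R090.InjR_812
import Crest.Agent.R090.InjCells_758
import Crest.Agent.R090.AClass_923
import Crest.Agent.R090.FMExt_554
import Crest.Agent.R090.FMTgtHyp_806
import Crest.Agent.R090.AsCoT_967
import Crest.Agent.R090.Kun2_493
import Crest.Agent.R090.HasCells_933

/-!
# Row 90, block (A): the class `Good` (helper812)

`Good H U` : `U⁺` embeds in a euclidean space (`Inj`), `U` has a sphere-built model (`HasModel`) for
all theories `St (-) (Fin m → ℝ)` and the cohomology `H`, and `U` is a finite dimensional Künneth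
space (`CC`).

* `goodCls X : AClass923.Cls (fun U _ _ _ => Good H U)` : homeo, empty, cell, prod, total, opn;
* `good_QU` : `Good U → Good (QU q U)`; `good_pi`, `good_cpow`;
* `good_of_hasCells`, `good_pow_hasCells` : `HasCells V D → Good ((κ → V) × (Fin k → ℂ))`.
-/

set_option autoImplicit false
set_option linter.unusedSectionVars false

open Topology Filter Set

namespace Crest.Agent.R090.Good812

open OnePoint Crest.Agent.R090.Sp962 Crest.Agent.R090.Inj812 Crest.Agent.R090.FM554
open Crest.Agent.R090.HSt285 Crest.Agent.R090.Kun493 Crest.Agent.R090.AClass923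
open Crest.Agent.R090.AsCoT967

variable {F : Type} [Field F]

/-- all theories `St (-) (Fin m → ℝ)` together with `H` -/
noncomputable def FF (H : CohX F) : Set CoT := insert (cohT H) (Set.range cotSt)

theorem cohT_mem (H : CohX F) : cohT H ∈ FF H := mem_insert _ _

theorem cotSt_mem (H : CohX F) (m : ℕ) : cotSt m ∈ FF H := mem_insert_of_mem _ ⟨m, rfl⟩

theorem tgt (H : CohX F) : TgtHyp (FF H) := tgtHyp_insert _

/-- **the class of good spaces** -/
structure Good (H : CohX F) (U : Type) [TopologicalSpace U] [T2Space U] [LocallyCompactSpace U] :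
    Prop where
  inj : Inj U
  model : HasModel (FF H) U
  cc : CC H U

variable {H : CohX F}

theorem Good.ku {U : Type} [TopologicalSpace U] [T2Space U] [LocallyCompactSpace U]
    (h : Good H U) : KU H U := h.cc.ku

theorem Good.fin {U : Type} [TopologicalSpace U] [T2Space U] [LocallyCompactSpace U]
    (h : Good H U) : H.Fin U := h.cc.fin

/-- **closure properties** -/
theorem goodCls (X : KX H) : Cls (fun U _ _ _ => Good H U) where
  homeo e hU := ⟨hU.inj.homeo e.symm, hU.model.homeo e, (cls_CC X).homeo e hU.cc⟩
  empty U _ _ _ hU := ⟨InjCells758.inj_empty U,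
    HasModel.homeo Homeomorph.empty (HasModel.of_SB SB.empty), (cls_CC X).empty U hU⟩
  cell n := ⟨Inj.fd _, HasModel.of_SB (SB.sphere n), (cls_CC X).cell n⟩
  prod hU hV := ⟨hU.inj.prod hV.inj, hU.model.prod hV.model, hU.cc.prod hV.cc⟩
  total hoc hF hO := ⟨InjCells758.total _ hoc.closed _ hoc.opn hoc.compl hF.inj hO.inj,
    HasModel.ext (tgt H) ⟨hoc.closed, hoc.opn, hoc.compl⟩ hF.model hO.model,
    (cls_CC X).total hoc hF.cc hO.cc⟩
  opn hoc hF hU := ⟨hU.inj.open_emb _ hoc.opn,
    HasModel.open (tgt H) ⟨hoc.closed, hoc.opn, hoc.compl⟩ hF.model hU.model,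
    (cls_CC X).opn hoc hF.cc hU.cc⟩

section closure

variable {U V : Type} [TopologicalSpace U] [T2Space U] [LocallyCompactSpace U]
  [TopologicalSpace V] [T2Space V] [LocallyCompactSpace V]

theorem Good.homeo (X : KX H) (e : U ≃ₜ V) (h : Good H U) : Good H V := (goodCls X).homeo e h

theorem Good.prod (X : KX H) (h : Good H U) (h' : Good H V) : Good H (U × V) :=
  (goodCls X).prod h h'

theorem Good.of_isEmpty (X : KX H) [hU : IsEmpty U] : Good H U := (goodCls X).empty U hU

theorem good_real (X : KX H) (n : ℕ) : Good H (Fin n → ℝ) := (goodCls X).cell n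

theorem good_unit (X : KX H) : Good H Unit := (goodCls X).unit

theorem good_complex (X : KX H) : Good H ℂ :=
  (good_real X 2).homeo X ((Homeomorph.finTwoArrow (X := ℝ)).trans
    Complex.equivRealProdCLM.toHomeomorph.symm)

theorem good_io (X : KX H) : Good H Io :=
  (goodCls X).real.homeo X ioHomeo

theorem good_pi (X : KX H) {ι : Type} [Finite ι] (h : Good H U) : Good H (ι → U) :=
  (goodCls X).pi h

theorem good_cpow (X : KX H) (n : ℕ) : Good H (Fin n → ℂ) := good_pi X (good_complex X)

/-- cells of 389's induction principle -/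
theorem good_cell_io (X : KX H) (n : ℕ) : Good H ((Fin n → ℂ) × Io) :=
  (good_cpow X n).prod X (good_io X)

/-- **the reduced power** -/
theorem good_QU (X : KX H) (q : ℕ) [NeZero q] (h : Good H U) : Good H (QU389.QU q U) := by
  have hoc : OC (QU389.QU.diag q U) (QU389.QU.inc q U) :=
    ⟨QU389.QU.isClosedEmbedding_diag, QU389.QU.isOpenEmbedding_inc, QU389.QU.range_inc⟩
  exact (goodCls X).offDiag h hoc

end closure

/-! ### spaces with finitely many cells -/

theorem good_of_hasCells (X : KX H) {V : Type} [i : TopologicalSpace V] {D : ℕ}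
    (h : F0_933.HasCells V D) : ∀ [T2Space V] [LocallyCompactSpace V], Good H V := by
  induction h with
  | empty V => intro _ _; exact Good.of_isEmpty X
  | cell V m e => intro _ _; exact (good_cpow X m).homeo X e.symm
  | glue V A hA a b ha hb iha ihb =>
    intro _ _
    have : LocallyCompactSpace A := hA.isClosedEmbedding_subtypeVal.locallyCompactSpace
    have : LocallyCompactSpace (Aᶜ : Set V) :=
      hA.isOpen_compl.isOpenEmbedding_subtypeVal.locallyCompactSpace
    exact (goodCls X).total (OC.of_isClosed hA) iha ihb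

/-- **input of START** -/
theorem good_pow_hasCells (X : KX H) {V : Type} [TopologicalSpace V] [T2Space V]
    [LocallyCompactSpace V] {D : ℕ} (h : F0_933.HasCells V D) (κ : Type) [Finite κ] (n : ℕ) :
    Good H ((κ → V) × (Fin n → ℂ)) :=
  (good_pi X (good_of_hasCells X h)).prod X (good_cpow X n)

end Crest.Agent.R090.Good812
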