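import Crest.Agent.R090.HopfF_297

/-!
# Row 90, HOPF part G (owner helper297): real linear isomorphisms are stably `± 1`, and every
stable self map of a sphere is an integer multiple of the identity
-/

set_option autoImplicit false
set_option linter.unusedSectionVars false

open Topology Filter Set

namespace Crest.Agent.R090.Hopf297

open OnePoint Sp962 Grp528 St528
open scoped unitInterval

universe u v w x

section lin

variable {E : Type u} [NormedAddCommGroup E] [NormedSpace ℝ E] [FiniteDimensional ℝ E]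

/-- index set of coordinates of `E × ℂ^(m+1)` -/
abbrev idx (E : Type u) [NormedAddCommGroup E] [NormedSpace ℝ E] (m : ℕ) : Type :=
  Fin (Module.finrank ℝ E) ⊕ (Σ _ : Fin (m + 1), Fin 2)

/-- real basis of `E × ℂ^(m+1)` -/
noncomputable def bs (E : Type u) [NormedAddCommGroup E] [NormedSpace ℝ E] [FiniteDimensional ℝ E]
    (m : ℕ) : Module.Basis (idx E m) ℝ (S E (m + 1)) :=
  (Module.finBasis ℝ E).prod (Pi.basis fun _ => Complex.basisOneI)

/-- real coordinates of `E × ℂ^(m+1)` -/
noncomputable def phi (E : Type u) [NormedAddCommGroup E] [NormedSpace ℝ E] [FiniteDimensional ℝ E]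
    (m : ℕ) : S E (m + 1) ≃L[ℝ] (idx E m → ℝ) := (bs E m).equivFunL

/-- stable class of a linear isomorphism in coordinates -/
noncomputable def C (E : Type u) [NormedAddCommGroup E] [NormedSpace ℝ E] [FiniteDimensional ℝ E]
    (m : ℕ) (B : (idx E m → ℝ) ≃L[ℝ] (idx E m → ℝ)) : St E E :=
  St.mk (m + 1) (PMap.ofHomeo (((phi E m).trans B).trans (phi E m).symm).toHomeomorph)

theorem mk_comp_mk {X Y Z : Type*} [TopologicalSpace X] [TopologicalSpace Y] [TopologicalSpace Z]
    [T2Space X] [LocallyCompactSpace X] [T2Space Y] [LocallyCompactSpace Y]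
    [T2Space Z] [LocallyCompactSpace Z] {n : ℕ} (g : PMap (S Y n) (S Z n))
    (f : PMap (S X n) (S Y n)) : (St.mk n g).comp (St.mk n f) = St.mk n (g.comp f) :=
  St.of_comp_of _ _

theorem mk_id {X : Type*} [TopologicalSpace X] [T2Space X] [LocallyCompactSpace X] (n : ℕ) :
    St.mk n (PMap.id (S X n)) = St.id X := St.of_h1 n

theorem mk_congr {X Y : Type*} [TopologicalSpace X] [TopologicalSpace Y]
    [T2Space X] [LocallyCompactSpace X] [T2Space Y] [LocallyCompactSpace Y] {n : ℕ}
    {f g : PMap (S X n) (S Y n)} (h : f.Homotopic g) : St.mk n f = St.mk n g :=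
  congrArg (St.of n) (HC.sound h)

variable {m : ℕ}

theorem C_trans (B B' : (idx E m → ℝ) ≃L[ℝ] (idx E m → ℝ)) :
    C E m (B.trans B') = (C E m B').comp (C E m B) := by
  rw [C, C, C, mk_comp_mk, PMap.ofHomeo_comp]
  congr 2
  ext x : 1
  simp

theorem C_refl : C E m (ContinuousLinearEquiv.refl ℝ _) = St.id E := by
  rw [C, ← mk_id (m + 1)]
  refine congrArg (St.mk (m + 1)) (PMap.ext fun x => ?_)
  simp

theorem C_ext {B B' : (idx E m → ℝ) ≃L[ℝ] (idx E m → ℝ)} (h : ∀ v, B v = B' v) :
    C E m B = C E m B' := by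
  have : B = B' := ContinuousLinearEquiv.ext (funext h)
  rw [this]

/-- linear homotopy invariance -/
theorem C_family {B B' : (idx E m → ℝ) ≃L[ℝ] (idx E m → ℝ)}
    (L : I → (idx E m → ℝ) →ₗ[ℝ] (idx E m → ℝ))
    (hL : Continuous fun p : I × (idx E m → ℝ) => L p.1 p.2)
    (hi : ∀ t, Function.Injective (L t)) (h0 : ∀ v, B v = L 0 v) (h1 : ∀ v, B' v = L 1 v) :
    C E m B = C E m B' := by
  refine mk_congr (Lin202.homotopic_of_linear_family
    (fun t => ((phi E m).symm.toLinearEquiv.toLinearMap.comp
      ((L t).comp (phi E m).toLinearEquiv.toLinearMap))) ?_ ?_ ?_ ?_)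
  · change Continuous fun p : I × S E (m + 1) => (phi E m).symm (L p.1 (phi E m p.2))
    have h := hL.comp (continuous_fst.prodMk ((phi E m).continuous.comp continuous_snd) :
      Continuous fun p : I × S E (m + 1) => (p.1, phi E m p.2))
    exact (phi E m).symm.continuous.comp h
  · intro t
    exact (phi E m).symm.injective.comp ((hi t).comp (phi E m).injective)
  · intro x
    change (((phi E m).symm (B (phi E m x)) : S E (m + 1)) : OnePoint (S E (m + 1))) = _
    rw [h0]
    rfl
  · intro x
    change (((phi E m).symm (B' (phi E m x)) : S E (m + 1)) : OnePoint (S E (m + 1))) = _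
    rw [h1]
    rfl

/-- diagonal maps -/
noncomputable def dg {ι : Type} [Fintype ι] (s : ι → ℝ) (hs : ∀ i, s i ≠ 0) :
    (ι → ℝ) ≃L[ℝ] (ι → ℝ) :=
  LinearEquiv.toContinuousLinearEquiv
    { toFun := fun v i => s i * v i
      map_add' := fun v w => by funext i; simp [mul_add]
      map_smul' := fun c v => by funext i; simp [mul_left_comm]
      invFun := fun v i => (s i)⁻¹ * v i
      left_inv := fun v => by funext i; simp [hs i]
      right_inv := fun v => by funext i; simp [hs i] }

@[simp] theorem dg_apply {ι : Type} [Fintype ι] (s : ι → ℝ) (hs : ∀ i, s i ≠ 0) (v : ι → ℝ) (i : ι) :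
    dg s hs v i = s i * v i := rfl

/-- sign vector -/
noncomputable def rr {ι : Type} (s : Finset ι) (i : ι) : ℝ := open Classical in
  if i ∈ s then -1 else 1

theorem rr_ne {ι : Type} (s : Finset ι) (i : ι) : rr s i ≠ 0 := by
  rw [rr]; split_ifs <;> norm_num

/-- the distinguished coordinate -/
abbrev j0 (E : Type u) [NormedAddCommGroup E] [NormedSpace ℝ E] (m : ℕ) : idx E m :=
  Sum.inr ⟨Fin.last m, 1⟩

theorem phi_inl (x : S E (m + 1)) (i : Fin (Module.finrank ℝ E)) :
    phi E m x (Sum.inl i) = (Module.finBasis ℝ E).repr x.1 i := by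
  simp [phi, bs]

theorem phi_inr (x : S E (m + 1)) (k : Fin (m + 1)) (l : Fin 2) :
    phi E m x (Sum.inr ⟨k, l⟩) = ![(x.2 k).re, (x.2 k).im] l := by
  simp [phi, bs, Pi.basis_repr]

theorem C_j0 : C E m (dg (rr {j0 E m}) (rr_ne _)) = -St.id E := by
  rw [← cj_neg E m, C]
  refine congrArg (St.mk (m + 1)) (PMap.ext fun x => ?_)
  change (((phi E m).symm (dg (rr {j0 E m}) (rr_ne _) (phi E m x)) : S E (m + 1)) :
    OnePoint (S E (m + 1))) = ((cj E m x : S E (m + 1)) : OnePoint (S E (m + 1)))
  rw [coe_eq_coe, ContinuousLinearEquiv.symm_apply_eq]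
  funext i
  rw [dg_apply]
  rcases i with i | ⟨k, l⟩
  · rw [phi_inl, phi_inl, rr, if_neg (by simp), one_mul]
    rfl
  · rw [phi_inr, phi_inr]
    change _ = ![(Function.update x.2 (Fin.last m) (star (x.2 (Fin.last m))) k).re,
      (Function.update x.2 (Fin.last m) (star (x.2 (Fin.last m))) k).im] l
    by_cases hk : k = Fin.last m
    · subst hk
      fin_cases l
      · simp [rr]
      · simp [rr]
    · rw [rr, if_neg (by simp [hk]), one_mul, Function.update_of_ne hk]

theorem comp_neg_one (a : St E E) : a.comp (-St.id E) = -a := by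
  have h := St.comp_add a (St.id E) (-St.id E)
  rw [add_neg_cancel, St.comp_id] at h
  have h0 : a.comp (0 : St E E) = 0 := by
    have := St.comp_add a (0 : St E E) (0 : St E E)
    rw [add_zero] at this
    exact left_eq_add.1 this
  rw [h0] at h
  exact (neg_eq_of_add_eq_zero_right h.symm).symm

theorem neg_one_comp (a : St E E) : (-St.id E).comp a = -a := by
  have h := St.add_comp (St.id E) (-St.id E) a
  rw [add_neg_cancel, St.id_comp] at h
  have h0 : (0 : St E E).comp a = 0 := by
    have := St.add_comp (0 : St E E) 0 a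
    rw [add_zero] at this
    exact left_eq_add.1 this
  rw [h0] at h
  exact (neg_eq_of_add_eq_zero_right h.symm).symm

theorem C_single (i : idx E m) : C E m (dg (rr {i}) (rr_ne _)) = -St.id E := by
  classical
  set τ : (idx E m → ℝ) ≃L[ℝ] (idx E m → ℝ) :=
    (LinearEquiv.funCongrLeft ℝ ℝ (Equiv.swap i (j0 E m))).toContinuousLinearEquiv with hτ
  have hτv : ∀ v k, τ v k = v (Equiv.swap i (j0 E m) k) := fun v k => rfl
  have e : C E m (dg (rr {i}) (rr_ne _)) =
      C E m ((τ.trans (dg (rr {j0 E m}) (rr_ne _))).trans τ) := by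
    refine C_ext fun v => ?_
    funext k
    rw [dg_apply]
    change _ = τ (dg (rr {j0 E m}) (rr_ne _) (τ v)) k
    rw [hτv, dg_apply, hτv, Equiv.swap_apply_self]
    congr 1
    simp only [rr, Finset.mem_singleton]
    by_cases hk : k = i
    · subst hk
      simp
    · rw [if_neg hk, if_neg]
      intro h
      apply hk
      rw [Equiv.swap_apply_eq_iff] at h
      rw [h, Equiv.swap_apply_right]
  have hτ2 : (C E m τ).comp (C E m τ) = St.id E := by
    rw [← C_trans, ← C_refl (E := E) (m := m)]
    refine C_ext fun v => ?_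
    funext k
    change τ (τ v) k = v k
    rw [hτv, hτv, Equiv.swap_apply_self]
  rw [e, C_trans, C_trans, C_j0, neg_one_comp, ← comp_neg_one, ← St.comp_assoc, hτ2, St.id_comp]

theorem C_sign (s : Finset (idx E m)) :
    C E m (dg (rr s) (rr_ne _)) = St.id E ∨ C E m (dg (rr s) (rr_ne _)) = -St.id E := by
  classical
  induction s using Finset.induction_on with
  | empty =>
    left
    rw [← C_refl (E := E) (m := m)]
    refine C_ext fun v => ?_
    funext k
    simp [rr]
  | insert i s hi ih =>
    have e : C E m (dg (rr (insert i s)) (rr_ne _)) =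
        C E m ((dg (rr s) (rr_ne _)).trans (dg (rr {i}) (rr_ne _))) := by
      refine C_ext fun v => ?_
      funext k
      rw [dg_apply]
      change _ = dg (rr {i}) (rr_ne _) (dg (rr s) (rr_ne _) v) k
      rw [dg_apply, dg_apply, ← mul_assoc]
      congr 1
      simp only [rr, Finset.mem_singleton, Finset.mem_insert]
      by_cases hk : k = i
      · subst hk
        simp [hi]
      · simp [hk]
    rw [e, C_trans, C_single]
    rcases ih with h | h
    · right
      rw [h, St.comp_id]
    · left
      rw [h, comp_neg_one, neg_neg]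

theorem C_diag (D : idx E m → ℝ) (hD : ∀ i, D i ≠ 0) :
    C E m (dg D hD) = St.id E ∨ C E m (dg D hD) = -St.id E := by
  classical
  set s : Finset (idx E m) := Finset.univ.filter fun i => D i < 0 with hs
  have h : C E m (dg D hD) = C E m (dg (rr s) (rr_ne _)) := by
    set F : I → idx E m → ℝ := fun t i => (1 - (t : ℝ)) * D i + (t : ℝ) * rr s i with hF
    have hFne : ∀ t i, F t i ≠ 0 := by
      intro t i
      have h0 := t.2.1
      have h1 := t.2.2
      by_cases hi : D i < 0
      · have hr : rr s i = -1 := if_pos (by simp [hs, hi])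
        simp only [hF, hr]
        have : (1 - (t : ℝ)) * D i + (t : ℝ) * -1 < 0 := by
          rcases h0.eq_or_lt with h | h
          · rw [← h]; simpa using hi
          · nlinarith
        exact this.ne
      · have hi' : 0 < D i := lt_of_le_of_ne (not_lt.1 hi) (hD i).symm
        have hr : rr s i = 1 := if_neg (by simp [hs, hi])
        simp only [hF, hr]
        have : 0 < (1 - (t : ℝ)) * D i + (t : ℝ) * 1 := by
          rcases h0.eq_or_lt with h | h
          · rw [← h]; simpa using hi'
          · nlinarith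
        exact this.ne'
    refine C_family (fun t => ((dg (F t) (hFne t)).toLinearEquiv.toLinearMap)) ?_ ?_ ?_ ?_
    · change Continuous fun p : I × (idx E m → ℝ) => fun i => F p.1 i * p.2 i
      simp only [hF]
      fun_prop
    · intro t
      exact (dg (F t) (hFne t)).injective
    · intro v
      funext i
      change D i * v i = F 0 i * v i
      simp [hF]
    · intro v
      funext i
      change rr s i * v i = F 1 i * v i
      simp [hF]
  rw [h]
  exact C_sign s

theorem C_matrix (M : Matrix (idx E m) (idx E m) ℝ) (hM : M.det ≠ 0)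
    (B : (idx E m → ℝ) ≃L[ℝ] (idx E m → ℝ)) (hB : ∀ v, B v = M.mulVec v) :
    C E m B = St.id E ∨ C E m B = -St.id E := by
  classical
  revert B
  refine Matrix.diagonal_transvection_induction_of_det_ne_zero
    (fun M => ∀ B : (idx E m → ℝ) ≃L[ℝ] (idx E m → ℝ), (∀ v, B v = M.mulVec v) →
      C E m B = St.id E ∨ C E m B = -St.id E) M hM ?_ ?_ ?_
  · intro D hD B hB
    have hD' : ∀ i, D i ≠ 0 := by
      rw [Matrix.det_diagonal, Finset.prod_ne_zero_iff] at hD
      exact fun i => hD i (Finset.mem_univ i)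
    have : C E m B = C E m (dg D hD') := by
      refine C_ext fun v => ?_
      funext i
      rw [hB, dg_apply, Matrix.mulVec_diagonal]
    rw [this]
    exact C_diag D hD'
  · rintro ⟨i, j, hij, c⟩ B hB
    left
    rw [← C_refl (E := E) (m := m)]
    symm
    refine C_family (fun t => LinearMap.id + ((t : ℝ) * c) •
      (LinearMap.smulRight (LinearMap.proj j : (idx E m → ℝ) →ₗ[ℝ] ℝ)
        (Pi.single i (1 : ℝ) : idx E m → ℝ))) ?_ ?_ ?_ ?_
    · change Continuous fun p : I × (idx E m → ℝ) =>
        p.2 + ((p.1 : ℝ) * c) • (p.2 j • (Pi.single i (1 : ℝ) : idx E m → ℝ))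
      fun_prop
    · intro t
      rw [injective_iff_map_eq_zero]
      intro v hv
      replace hv : v + ((t : ℝ) * c) • (v j • (Pi.single i (1 : ℝ) : idx E m → ℝ)) = 0 := hv
      have hj : v j = 0 := by
        have := congrFun hv j
        simpa [hij.symm] using this
      simpa [hj] using hv
    · intro v
      simp
    · intro v
      rw [hB]
      simp only [Matrix.TransvectionStruct.toMatrix, Matrix.transvection]
      rw [Matrix.add_mulVec, Matrix.one_mulVec]
      funext k
      simp [Matrix.single_mulVec, Function.update_apply, Pi.single_apply]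
  · intro M N hM hN ihM ihN B hB
    have hMu : IsUnit M.det := isUnit_iff_ne_zero.2 hM
    have hNu : IsUnit N.det := isUnit_iff_ne_zero.2 hN
    have mk : ∀ A : Matrix (idx E m) (idx E m) ℝ, IsUnit A.det →
        ∃ B : (idx E m → ℝ) ≃L[ℝ] (idx E m → ℝ), ∀ v, B v = A.mulVec v := by
      intro A hA
      refine ⟨(LinearEquiv.ofBijective A.mulVecLin ?_).toContinuousLinearEquiv, fun v => rfl⟩
      constructor
      · exact Matrix.mulVec_injective_iff_isUnit.2 ((Matrix.isUnit_iff_isUnit_det A).2 hA)
      · exact Matrix.mulVec_surjective_iff_isUnit.2 ((Matrix.isUnit_iff_isUnit_det A).2 hA)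
    obtain ⟨BM, hBM⟩ := mk M hMu
    obtain ⟨BN, hBN⟩ := mk N hNu
    have e : C E m B = C E m (BN.trans BM) := by
      refine C_ext fun v => ?_
      rw [hB, ContinuousLinearEquiv.trans_apply, hBM, hBN, Matrix.mulVec_mulVec]
    rw [e, C_trans]
    rcases ihM BM hBM with h | h <;> rcases ihN BN hBN with h' | h' <;> rw [h, h']
    · left; simp
    · right; simp
    · right; simp
    · left; rw [comp_neg_one, neg_neg]

/-- **real linear isomorphisms of the levels are stably `± 1`** -/
theorem mk_linear (A : S E (m + 1) ≃L[ℝ] S E (m + 1)) :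
    St.mk (m + 1) (PMap.ofHomeo A.toHomeomorph) = St.id E ∨
      St.mk (m + 1) (PMap.ofHomeo A.toHomeomorph) = -St.id E := by
  classical
  set B : (idx E m → ℝ) ≃L[ℝ] (idx E m → ℝ) := ((phi E m).symm.trans A).trans (phi E m) with hB
  have h : St.mk (m + 1) (PMap.ofHomeo A.toHomeomorph) = C E m B := by
    rw [C]
    refine congrArg (St.mk (m + 1)) (PMap.ext fun x => ?_)
    change ((A x : S E (m + 1)) : OnePoint (S E (m + 1))) =
      (((phi E m).symm (phi E m (A ((phi E m).symm (phi E m x)))) : S E (m + 1)) :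
        OnePoint (S E (m + 1)))
    simp
  rw [h]
  refine C_matrix (LinearMap.toMatrix' B.toLinearEquiv.toLinearMap) ?_ B ?_
  · have h1 : LinearMap.det B.toLinearEquiv.toLinearMap ≠ 0 :=
      (LinearEquiv.isUnit_det' B.toLinearEquiv).ne_zero
    rwa [← LinearMap.det_toMatrix'] at h1
  · intro v
    rw [← Matrix.toLin'_apply, Matrix.toLin'_toMatrix']
    rfl

/-- **HOPF**: every stable self map of a sphere is an integer multiple of the identity. -/
theorem hopf (x : St E E) : ∃ k : ℤ, x = k • St.id E := by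
  obtain ⟨n, hn, a, rfl⟩ := x.exists_of_ge 1
  obtain ⟨m, rfl⟩ := Nat.exists_eq_add_of_le' hn
  obtain ⟨f, rfl⟩ := HC.mk_surj a
  change ∃ k : ℤ, St.mk (m + 1) f = k • St.id E
  refine hopf_ind (E := S E (m + 1)) (fun f => ∃ k : ℤ, St.mk (m + 1) f = k • St.id E)
    ?_ ?_ ?_ ?_ f
  · exact ⟨0, by rw [zero_smul]; exact St.of_zero (m + 1)⟩
  · intro A
    rcases mk_linear A with h | h
    · exact ⟨1, by rw [one_smul]; exact h⟩
    · exact ⟨-1, by rw [neg_one_smul]; exact h⟩
  · rintro f g hfg ⟨k, hk⟩
    exact ⟨k, by rw [mk_congr hfg, hk]⟩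
  · rintro f f1 f2 hU ⟨k1, h1⟩ ⟨k2, h2⟩
    exact ⟨k1 + k2, by rw [mk_union hU, h1, h2, add_smul]⟩

end lin

section general

variable {X : Type u} [TopologicalSpace X] [T2Space X] [LocallyCompactSpace X]
variable {E : Type v} [NormedAddCommGroup E] [NormedSpace ℝ E] [FiniteDimensional ℝ E]

/-- HOPF for any space homeomorphic to a real vector space (for instance `Unit`) -/
theorem hopf_of_homeo (e : X ≃ₜ E) (x : St X X) : ∃ k : ℤ, x = k • St.id X := by
  set a : St X E := St.of 0 (hh (e.prodCongr (Homeomorph.refl (Fin 0 → ℂ)))) with ha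
  set b : St E X := St.of 0 (hh (e.symm.prodCongr (Homeomorph.refl (Fin 0 → ℂ)))) with hb
  have hba : b.comp a = St.id X := by
    rw [ha, hb, St.of_comp_of, ← hh_trans, ← St.of_h1 0]
    refine congrArg (St.of 0) ?_
    rw [← hh_refl]
    refine hh_ext fun p => ?_
    obtain ⟨x, v⟩ := p
    exact Prod.ext (e.symm_apply_apply x) rfl
  obtain ⟨k, hk⟩ := hopf ((a.comp x).comp b)
  refine ⟨k, ?_⟩
  have h1 : x = b.comp (((a.comp x).comp b).comp a) := by
    rw [St.comp_assoc, St.comp_assoc, ← St.comp_assoc b, hba, St.id_comp, St.comp_id]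
  rw [h1, hk]
  have hc : ∀ (k : ℤ) (y : St E E) , (k • y).comp a = k • (y.comp a) := by
    intro k y
    exact map_zsmul (AddMonoidHom.mk' (fun z : St E E => z.comp a)
      (fun z w => St.add_comp z w a)) k y
  have hd : ∀ (k : ℤ) (y : St X E) , b.comp (k • y) = k • (b.comp y) := by
    intro k y
    exact map_zsmul (AddMonoidHom.mk' (fun z : St X E => b.comp z)
      (fun z w => St.comp_add b z w)) k y
  rw [hc, hd, St.id_comp, hba]

/-- HOPF for the one point space: `{S⁰, S⁰}` is generated by the identity -/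
theorem hopf_unit [Unique X] (x : St X X) : ∃ k : ℤ, x = k • St.id X :=
  hopf_of_homeo (E := Fin 0 → ℝ) (Homeomorph.homeomorphOfUnique X (Fin 0 → ℝ)) x

end general

end Crest.Agent.R090.Hopf297
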