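import Crest.Agent.R090.Puppe_962
import Crest.Agent.R090.Lin_202

/-!
# Row 90, F1d: swaps of odd letters are `-1`, permutations of even spheres are `1`
(owner helper541; leaf F1d of 893 #20233)

* `RI : ℝ ≃ₜ Io` with `RI (-t) = flipIo (RI t)`;
* `swap_real`, `swap_odd` : the swap of two copies of `E × ℝ` (`E` complex, finite dimensional) is
  homotopic to the reflection of the last real coordinate;
* `precompH g` : permutation of the coordinates of `κ → X`;
* `stratumSwap` : the swap of two equal odd letters of a stratum is homotopic to a flip of one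
  suspension coordinate (`exists_flip`);
* `precompH_even` : permutations of `κ → (Y × E)` are `(permutation of κ → Y) × 1`.
-/

set_option autoImplicit false
set_option linter.unusedSectionVars false

open Topology Filter Set

namespace Crest.Agent.R090.F1d541

open OnePoint Crest.Agent.R090.Sp962 Crest.Agent.R090.Lin202
open scoped unitInterval

universe u v w

/-! ## the real line and the suspension coordinate -/

/-- homeomorphism of the line with the suspension coordinate -/
noncomputable def RI : ℝ ≃ₜ Io where
  toFun x := ⟨Real.sigmoid x, Real.sigmoid_pos x, Real.sigmoid_lt_one x⟩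
  invFun y := -Real.log ((y : ℝ)⁻¹ - 1)
  left_inv x := by
    simp [Real.sigmoid_def]
  right_inv y := by
    have h1 : (0 : ℝ) < (y : ℝ)⁻¹ - 1 := by
      have := y.2
      rw [sub_pos, one_lt_inv₀ this.1]
      exact this.2
    apply Subtype.ext
    simp [Real.sigmoid_def, Real.exp_log h1]
  continuous_toFun := by
    refine Continuous.subtype_mk ?_ _
    exact continuous_sigmoid
  continuous_invFun := by
    have h1 : Continuous fun y : Io => (y : ℝ)⁻¹ - 1 :=
      (continuous_subtype_val.inv₀ fun y => ne_of_gt y.2.1).sub continuous_const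
    refine (h1.log fun y => ?_).neg
    have := y.2
    refine ne_of_gt ?_
    rw [sub_pos, one_lt_inv₀ this.1]
    exact this.2

theorem RI_neg (x : ℝ) : RI (-x) = MC.flipIo (RI x) := by
  apply Subtype.ext
  exact Real.sigmoid_neg x

/-! ## swaps -/

/-- the reflection of the line -/
def neg : ℝ ≃ₜ ℝ := Homeomorph.neg ℝ

theorem swap_real : (PMap.ofHomeo (Homeomorph.prodComm ℝ ℝ)).Homotopic
    (PMap.ofHomeo ((Homeomorph.refl ℝ).prodCongr neg)) := by
  symm
  refine homotopic_of_linear_family (E := ℝ × ℝ) (F := ℝ × ℝ)
    (fun t => LinearMap.prod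
      (Real.cos (t * (Real.pi / 2)) • LinearMap.fst ℝ ℝ ℝ +
        Real.sin (t * (Real.pi / 2)) • LinearMap.snd ℝ ℝ ℝ)
      (Real.sin (t * (Real.pi / 2)) • LinearMap.fst ℝ ℝ ℝ -
        Real.cos (t * (Real.pi / 2)) • LinearMap.snd ℝ ℝ ℝ)) ?_ ?_ ?_ ?_
  · have : Continuous fun p : I × (ℝ × ℝ) =>
        (Real.cos (p.1 * (Real.pi / 2)) * p.2.1 + Real.sin (p.1 * (Real.pi / 2)) * p.2.2,
          Real.sin (p.1 * (Real.pi / 2)) * p.2.1 - Real.cos (p.1 * (Real.pi / 2)) * p.2.2) := by
      fun_prop
    exact this
  · intro t
    refine (injective_iff_map_eq_zero _).2 ?_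
    rintro ⟨x, y⟩ h
    have h' : (Real.cos (t * (Real.pi / 2)) * x + Real.sin (t * (Real.pi / 2)) * y,
          Real.sin (t * (Real.pi / 2)) * x - Real.cos (t * (Real.pi / 2)) * y) = ((0 : ℝ), (0 : ℝ)) := h
    rw [Prod.mk.injEq] at h'
    replace h := h'
    obtain ⟨h1, h2⟩ := h
    have h3 := Real.sin_sq_add_cos_sq (t * (Real.pi / 2))
    set c := Real.cos (t * (Real.pi / 2))
    set s := Real.sin (t * (Real.pi / 2))
    have hx : x = 0 := by
      have : (s ^ 2 + c ^ 2) * x = 0 := by linear_combination c * h1 + s * h2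
      rwa [h3, one_mul] at this
    have hy : y = 0 := by
      have : (s ^ 2 + c ^ 2) * y = 0 := by linear_combination s * h1 - c * h2
      rwa [h3, one_mul] at this
    rw [hx, hy]; rfl
  · rintro ⟨x, y⟩
    rw [PMap.ofHomeo_coe, coe_eq_coe]
    simp [neg]
  · rintro ⟨x, y⟩
    rw [PMap.ofHomeo_coe, coe_eq_coe]
    simp

section odd

variable (E : Type*) [NormedAddCommGroup E] [NormedSpace ℂ E] [FiniteDimensional ℂ E]

/-- the swap of two odd dimensional spaces `E × ℝ` is a reflection -/
theorem swap_odd : (PMap.ofHomeo (Homeomorph.prodComm (E × ℝ) (E × ℝ))).Homotopic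
    (PMap.ofHomeo ((Homeomorph.refl (E × ℝ)).prodCongr ((Homeomorph.refl E).prodCongr neg))) := by
  have : ProperSpace E := FiniteDimensional.proper ℂ E
  have h := (homotopic_swap' E).smash swap_real
  have h2 := PMap.Homotopic.comp_left
    (PMap.ofHomeo (Homeomorph.prodProdProdComm E ℝ E ℝ).symm)
    (PMap.Homotopic.comp_right h (PMap.ofHomeo (Homeomorph.prodProdProdComm E ℝ E ℝ)))
  refine PMap.Homotopic.trans (.of_eq ?_) (h2.trans (.of_eq ?_))
  · refine PMap.ext fun x => ?_
    obtain ⟨⟨a, s⟩, ⟨b, t⟩⟩ := x
    rfl
  · refine PMap.ext fun x => ?_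
    obtain ⟨⟨a, s⟩, ⟨b, t⟩⟩ := x
    rfl

end odd

/-! ## letters -/

section letter

variable {O : Type u} [TopologicalSpace O] [T2Space O] [LocallyCompactSpace O]
  {S' : Type w} [TopologicalSpace S'] [T2Space S'] [LocallyCompactSpace S']
  {E : Type v} [NormedAddCommGroup E] [NormedSpace ℂ E] [FiniteDimensional ℂ E]

theorem swap_letter (e : O ≃ₜ E × ℝ) :
    (PMap.ofHomeo (Homeomorph.prodComm O O)).Homotopic
      (PMap.ofHomeo ((Homeomorph.refl O).prodCongr
        ((e.trans ((Homeomorph.refl E).prodCongr neg)).trans e.symm))) := by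
  have h2 := PMap.Homotopic.comp_left (PMap.ofHomeo (e.symm.prodCongr e.symm))
    (PMap.Homotopic.comp_right (swap_odd E) (PMap.ofHomeo (e.prodCongr e)))
  refine PMap.Homotopic.trans (.of_eq ?_) (h2.trans (.of_eq ?_))
  · refine PMap.ext fun x => ?_
    obtain ⟨a, b⟩ := x
    simp
  · refine PMap.ext fun x => ?_
    obtain ⟨a, b⟩ := x
    simp

/-- the last real coordinate of the second letter as a suspension coordinate -/
noncomputable def flipK (e : O ≃ₜ E × ℝ) : (O × O) × S' ≃ₜ ((O × E) × S') × Io where
  toFun p := (((p.1.1, (e p.1.2).1), p.2), RI (e p.1.2).2)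
  invFun q := ((q.1.1.1, e.symm (q.1.1.2, RI.symm q.2)), q.1.2)
  left_inv p := by
    obtain ⟨⟨a, b⟩, s⟩ := p
    simp
  right_inv q := by
    obtain ⟨⟨⟨a, b⟩, s⟩, t⟩ := q
    simp
  continuous_toFun := by
    have := e.continuous
    have := RI.continuous
    fun_prop
  continuous_invFun := by
    have := e.symm.continuous
    have := RI.symm.continuous
    fun_prop

/-- the flip conjugated by a homeomorphism with a suspension -/
def flipBy {S : Type*} {W : Type*} [TopologicalSpace S] [TopologicalSpace W] (h : S ≃ₜ W × Io) :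
    S ≃ₜ S :=
  (h.trans ((Homeomorph.refl W).prodCongr MC.flipIo)).trans h.symm

/-- a homeomorphism which swaps two equal odd letters is a flip -/
theorem homotopic_flipBy {S : Type*} [TopologicalSpace S] (e : O ≃ₜ E × ℝ)
    (k : S ≃ₜ (O × O) × S') (τ : S ≃ₜ S)
    (hτ : ∀ x, k (τ x) = (((k x).1.2, (k x).1.1), (k x).2)) :
    (PMap.ofHomeo τ).Homotopic (PMap.ofHomeo (flipBy (k.trans (flipK e)))) := by
  have h := (swap_letter e).smash (PMap.Homotopic.refl (PMap.id S'))
  have h2 := PMap.Homotopic.comp_left (PMap.ofHomeo k.symm)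
    (PMap.Homotopic.comp_right h (PMap.ofHomeo k))
  refine PMap.Homotopic.trans (.of_eq ?_) (h2.trans (.of_eq ?_))
  · refine PMap.ext fun x => ?_
    rw [PMap.ofHomeo_coe, PMap.comp_apply, PMap.comp_apply, PMap.ofHomeo_coe]
    have h1 : k x = (((k x).1.1, (k x).1.2), (k x).2) := rfl
    rw [h1, PMap.smash_coe, PMap.ofHomeo_coe, PMap.id_apply, sm_coe, PMap.ofHomeo_coe, coe_eq_coe]
    rw [Homeomorph.eq_symm_apply, hτ x]
    rfl
  · refine PMap.ext fun x => ?_
    rw [PMap.ofHomeo_coe, PMap.comp_apply, PMap.comp_apply, PMap.ofHomeo_coe]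
    have h1 : k x = (((k x).1.1, (k x).1.2), (k x).2) := rfl
    rw [h1, PMap.smash_coe, PMap.ofHomeo_coe, PMap.id_apply, sm_coe, PMap.ofHomeo_coe, coe_eq_coe]
    rw [Homeomorph.symm_apply_eq, flipBy]
    simp only [Homeomorph.trans_apply, Homeomorph.symm_trans_apply, Homeomorph.apply_symm_apply]
    change (((k x).1.1, e.symm ((e (k x).1.2).1, neg (e (k x).1.2).2)), (k x).2) =
      (((k x).1.1, e.symm ((e (k x).1.2).1, RI.symm (MC.flipIo (RI (e (k x).1.2).2)))), (k x).2)
    rw [← RI_neg, Homeomorph.symm_apply_apply]
    rfl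

end letter

/-! ## strata of words -/

section stratum

variable {κ : Type w} {X : Type u} [TopologicalSpace X]

/-- the stratum of a word -/
abbrev Str (P : κ → Set X) : Type (max u w) := {x : κ → X // ∀ i, x i ∈ P i}

/-- the other coordinates -/
abbrev Rest (P : κ → Set X) (a b : κ) : Type (max u w) :=
  Str (κ := {i : κ // i ≠ a ∧ i ≠ b}) fun i => P i

variable [DecidableEq κ]

/-- split off two coordinates -/
def splitStr (P : κ → Set X) (a b : κ) (hab : a ≠ b) (hP : P a = P b) :
    Str P ≃ₜ (P a × P a) × Rest P a b where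
  toFun x := ((⟨x.1 a, x.2 a⟩, ⟨x.1 b, hP ▸ x.2 b⟩), ⟨fun i => x.1 i, fun i => x.2 i⟩)
  invFun y := ⟨fun i => if h : i = a then y.1.1 else if h' : i = b then y.1.2
    else y.2.1 ⟨i, h, h'⟩, by
      intro i
      by_cases h : i = a
      · subst h
        simp
      · by_cases h' : i = b
        · subst h'
          simp [h, ← hP]
        · simpa [h, h'] using y.2.2 ⟨i, h, h'⟩⟩
  left_inv x := by
    apply Subtype.ext
    funext i
    by_cases h : i = a
    · subst h; simp
    · by_cases h' : i = b
      · subst h'; simp [h]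
      · simp [h, h']
  right_inv y := by
    obtain ⟨⟨u, v⟩, z⟩ := y
    refine Prod.ext (Prod.ext ?_ ?_) ?_
    · apply Subtype.ext; simp
    · apply Subtype.ext; simp [hab.symm]
    · apply Subtype.ext
      funext i
      simp [i.2.1, i.2.2]
  continuous_toFun := by
    refine ((Continuous.subtype_mk ?_ _).prodMk (Continuous.subtype_mk ?_ _)).prodMk
      (Continuous.subtype_mk ?_ _)
    · exact (continuous_apply a).comp continuous_subtype_val
    · exact (continuous_apply b).comp continuous_subtype_val
    · exact continuous_pi fun i => (continuous_apply _).comp continuous_subtype_val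
  continuous_invFun := by
    refine Continuous.subtype_mk (continuous_pi fun i => ?_) _
    by_cases h : i = a
    · simp only [h, dif_pos]
      exact continuous_subtype_val.comp (continuous_fst.comp continuous_fst)
    · by_cases h' : i = b
      · simp only [h', dif_pos, dif_neg hab.symm]
        exact continuous_subtype_val.comp (continuous_snd.comp continuous_fst)
      · simp only [h, h', dif_neg, not_false_eq_true]
        exact (continuous_apply _).comp (continuous_subtype_val.comp continuous_snd)

theorem swap_mem (P : κ → Set X) (a b : κ) (hP : P a = P b) (x : Str P) (i : κ) :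
    x.1 (Equiv.swap a b i) ∈ P i := by
  by_cases h : i = a
  · rw [h, Equiv.swap_apply_left, hP]; exact x.2 b
  · by_cases h' : i = b
    · rw [h', Equiv.swap_apply_right, ← hP]; exact x.2 a
    · rw [Equiv.swap_apply_of_ne_of_ne h h']; exact x.2 i

/-- the swap of the coordinates `a`, `b` of a stratum -/
def swapStr (P : κ → Set X) (a b : κ) (hP : P a = P b) : Str P ≃ₜ Str P where
  toFun x := ⟨fun i => x.1 (Equiv.swap a b i), swap_mem P a b hP x⟩
  invFun x := ⟨fun i => x.1 (Equiv.swap a b i), swap_mem P a b hP x⟩
  left_inv x := by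
    apply Subtype.ext; funext i; simp
  right_inv x := by
    apply Subtype.ext; funext i; simp
  continuous_toFun := by
    refine Continuous.subtype_mk (continuous_pi fun i => ?_) _
    exact (continuous_apply (Equiv.swap a b i)).comp continuous_subtype_val
  continuous_invFun := by
    refine Continuous.subtype_mk (continuous_pi fun i => ?_) _
    exact (continuous_apply (Equiv.swap a b i)).comp continuous_subtype_val

@[simp] theorem swapStr_val (P : κ → Set X) (a b : κ) (hP : P a = P b) (x : Str P) :
    (swapStr P a b hP x).1 = x.1 ∘ Equiv.swap a b := rfl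

theorem splitStr_swapStr (P : κ → Set X) (a b : κ) (hab : a ≠ b) (hP : P a = P b) (x : Str P) :
    splitStr P a b hab hP (swapStr P a b hP x) =
      (((splitStr P a b hab hP x).1.2, (splitStr P a b hab hP x).1.1),
        (splitStr P a b hab hP x).2) := by
  refine Prod.ext (Prod.ext ?_ ?_) ?_
  · apply Subtype.ext; simp [splitStr, swapStr]
  · apply Subtype.ext; simp [splitStr, swapStr]
  · apply Subtype.ext
    funext i
    simp [splitStr, swapStr, Equiv.swap_apply_of_ne_of_ne i.2.1 i.2.2]

/-- a stratum as a closed subspace of a product -/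
def strPi (P : κ → Set X) : Str P ≃ₜ (∀ i, P i) where
  toFun x i := ⟨x.1 i, x.2 i⟩
  invFun y := ⟨fun i => y i, fun i => (y i).2⟩
  left_inv _ := rfl
  right_inv _ := rfl
  continuous_toFun := continuous_pi fun i =>
    Continuous.subtype_mk ((continuous_apply i).comp continuous_subtype_val) _
  continuous_invFun := Continuous.subtype_mk
    (continuous_pi fun i => continuous_subtype_val.comp (continuous_apply i)) _

theorem locallyCompact_str [Finite κ] (P : κ → Set X) [∀ i, LocallyCompactSpace (P i)] :
    LocallyCompactSpace (Str P) :=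
  (strPi P).isClosedEmbedding.locallyCompactSpace

variable {E : Type v} [NormedAddCommGroup E] [NormedSpace ℂ E] [FiniteDimensional ℂ E]

/-- **the swap of two equal odd letters of a stratum is a flip of a suspension coordinate** -/
theorem exists_flip [Finite κ] [T2Space X] (P : κ → Set X) [∀ i, LocallyCompactSpace (P i)]
    (a b : κ) (hab : a ≠ b) (hP : P a = P b) (e : P a ≃ₜ E × ℝ) :
    ∃ (W : Type (max u v w)) (_ : TopologicalSpace W) (_ : T2Space W)
      (_ : LocallyCompactSpace W) (h : Str P ≃ₜ W × Io),
      (PMap.ofHomeo (swapStr P a b hP)).Homotopic (PMap.ofHomeo (flipBy h)) := by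
  have : ProperSpace E := FiniteDimensional.proper ℂ E
  have : LocallyCompactSpace (Rest P a b) := locallyCompact_str _
  exact ⟨(P a × E) × Rest P a b, inferInstance, inferInstance, inferInstance,
    (splitStr P a b hab hP).trans (flipK e),
    homotopic_flipBy e (splitStr P a b hab hP) (swapStr P a b hP)
      (splitStr_swapStr P a b hab hP)⟩

/-! ### contractible letters -/

/-- a space with a factor whose identity is null has null identity -/
theorem null_of_factor {C : Type*} {S : Type*} {S' : Type*} [TopologicalSpace C]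
    [TopologicalSpace S] [TopologicalSpace S'] [T2Space C] [LocallyCompactSpace C] [T2Space S']
    [LocallyCompactSpace S'] (hC : (PMap.id C).Null) (k : S ≃ₜ C × S') : (PMap.id S).Null := by
  have h := (hC.smash_left (PMap.id S')).comp_right (PMap.ofHomeo k)
  have h2 := h.comp_left (PMap.ofHomeo k.symm)
  refine PMap.Homotopic.trans (.of_eq ?_) h2
  refine PMap.ext fun x => ?_
  rw [PMap.smash_id]
  simp

theorem null_of_homeo {C : Type*} {S : Type*} [TopologicalSpace C]
    [TopologicalSpace S] (hC : (PMap.id C).Null) (k : S ≃ₜ C) : (PMap.id S).Null := by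
  have h2 := (hC.comp_right (PMap.ofHomeo k)).comp_left (PMap.ofHomeo k.symm)
  refine PMap.Homotopic.trans (.of_eq ?_) h2
  refine PMap.ext fun x => ?_
  simp

/-- split off one coordinate -/
def splitOne (P : κ → Set X) (a : κ) :
    Str P ≃ₜ P a × Str (κ := {i : κ // i ≠ a}) fun i => P i where
  toFun x := (⟨x.1 a, x.2 a⟩, ⟨fun i => x.1 i, fun i => x.2 i⟩)
  invFun y := ⟨fun i => if h : i = a then y.1 else y.2.1 ⟨i, h⟩, by
      intro i
      by_cases h : i = a
      · subst h
        simp
      · simpa [h] using y.2.2 ⟨i, h⟩⟩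
  left_inv x := by
    apply Subtype.ext
    funext i
    by_cases h : i = a
    · subst h; simp
    · simp [h]
  right_inv y := by
    obtain ⟨u, z⟩ := y
    refine Prod.ext ?_ ?_
    · apply Subtype.ext; simp
    · apply Subtype.ext
      funext i
      simp [i.2]
  continuous_toFun := by
    refine (Continuous.subtype_mk ?_ _).prodMk (Continuous.subtype_mk ?_ _)
    · exact (continuous_apply a).comp continuous_subtype_val
    · exact continuous_pi fun i => (continuous_apply _).comp continuous_subtype_val
  continuous_invFun := by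
    refine Continuous.subtype_mk (continuous_pi fun i => ?_) _
    by_cases h : i = a
    · simp only [h, dif_pos]
      exact continuous_subtype_val.comp continuous_fst
    · simp only [h, dif_neg, not_false_eq_true]
      exact (continuous_apply _).comp (continuous_subtype_val.comp continuous_snd)

/-- **the stratum of a word with a contractible letter has null identity** -/
theorem null_str [Finite κ] [T2Space X] (P : κ → Set X) [∀ i, LocallyCompactSpace (P i)]
    (a : κ) (ha : (PMap.id (P a)).Null) : (PMap.id (Str P)).Null := by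
  have : LocallyCompactSpace (Str (κ := {i : κ // i ≠ a}) fun i => P i) := locallyCompact_str _
  exact null_of_factor ha (splitOne P a)

end stratum

/-! ### the cone coordinate is contractible -/

/-- the height of a point of the cone coordinate -/
def ht (z : OnePoint Ic) : ℝ := z.elim 0 fun t => (t : ℝ)

theorem ht_qC {t : ℝ} (h : t ∈ Icc (0 : ℝ) 1) : ht (qC t) = t := by
  rcases eq_or_lt_of_le h.1 with h0 | h0
  · rw [← h0, qC_zero]; rfl
  · rw [qC_of_mem ⟨h0, h.2⟩]; rfl

@[fun_prop] theorem continuous_ht : Continuous ht := by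
  have h1 : Continuous (fun t : I => qC (t : ℝ)) := continuous_qC.comp continuous_subtype_val
  have h2 : IsQuotientMap (fun t : I => qC (t : ℝ)) :=
    h1.isClosedMap.isQuotientMap h1 qC_surjective
  refine h2.continuous_iff.2 ?_
  have : ht ∘ (fun t : I => qC (t : ℝ)) = fun t : I => (t : ℝ) := by
    funext t
    exact ht_qC t.2
  rw [this]
  exact continuous_subtype_val

theorem null_Ic : (PMap.id Ic).Null := by
  refine PMap.Homotopic.of (fun p => qC ((1 - (p.1 : ℝ)) * ht p.2)) ?_ ?_ ?_ ?_
  · fun_prop
  · intro x
    simp [ht]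
  · intro x
    simp
  · intro t
    simp [ht]

/-- the half line `[0, ∞)` is a cone coordinate -/
noncomputable def iciHomeo : Ici (0 : ℝ) ≃ₜ Ic where
  toFun x := ⟨(1 + (x : ℝ))⁻¹, by
    have := x.2
    rw [mem_Ici] at this
    refine ⟨by positivity, inv_le_one_of_one_le₀ (by linarith)⟩⟩
  invFun y := ⟨(y : ℝ)⁻¹ - 1, by
    have := y.2
    rw [mem_Ici, sub_nonneg]
    exact (one_le_inv₀ this.1).2 this.2⟩
  left_inv x := by
    apply Subtype.ext; simp
  right_inv y := by
    apply Subtype.ext; simp
  continuous_toFun := by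
    refine Continuous.subtype_mk (Continuous.inv₀ (by fun_prop) fun x => ?_) _
    have := x.2
    rw [mem_Ici] at this
    positivity
  continuous_invFun := by
    refine Continuous.subtype_mk (Continuous.sub (Continuous.inv₀ (by fun_prop) fun x => ?_)
      continuous_const) _
    exact ne_of_gt x.2.1

theorem null_Ici : (PMap.id (Ici (0 : ℝ))).Null := null_of_homeo null_Ic iciHomeo

/-- the half line `(-∞, 0]` is a half line `[0, ∞)` -/
def iicHomeo : Iic (0 : ℝ) ≃ₜ Ici (0 : ℝ) where
  toFun x := ⟨-x, by have := x.2; rw [mem_Iic] at this; rw [mem_Ici]; linarith⟩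
  invFun x := ⟨-x, by have := x.2; rw [mem_Ici] at this; rw [mem_Iic]; linarith⟩
  left_inv x := by apply Subtype.ext; simp
  right_inv x := by apply Subtype.ext; simp
  continuous_toFun := by fun_prop
  continuous_invFun := by fun_prop

theorem null_Iic : (PMap.id (Iic (0 : ℝ))).Null := null_of_homeo null_Ici iicHomeo

/-! ## permutations of even spheres -/

section perm

variable {κ : Type w}

/-- permutation of coordinates `x ↦ x ∘ g` -/
def precompH (X : Type u) [TopologicalSpace X] (g : Equiv.Perm κ) : (κ → X) ≃ₜ (κ → X) where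
  toFun x := x ∘ g
  invFun x := x ∘ g.symm
  left_inv x := by funext i; simp
  right_inv x := by funext i; simp
  continuous_toFun := continuous_pi fun i => continuous_apply _
  continuous_invFun := continuous_pi fun i => continuous_apply _

@[simp] theorem precompH_apply (X : Type u) [TopologicalSpace X] (g : Equiv.Perm κ) (x : κ → X) :
    precompH X g x = x ∘ g := rfl

/-- pairs of families -/
def pairH (κ : Type w) (Y : Type u) (E : Type v) [TopologicalSpace Y] [TopologicalSpace E] :
    (κ → Y × E) ≃ₜ (κ → Y) × (κ → E) where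
  toFun x := (fun i => (x i).1, fun i => (x i).2)
  invFun y i := (y.1 i, y.2 i)
  left_inv _ := rfl
  right_inv _ := rfl
  continuous_toFun := by fun_prop
  continuous_invFun := by fun_prop

variable {Y : Type u} [TopologicalSpace Y] {E : Type v}

theorem precompH_pair [TopologicalSpace E] (g : Equiv.Perm κ) :
    precompH (Y × E) g =
      ((pairH κ Y E).trans ((precompH Y g).prodCongr (precompH E g))).trans (pairH κ Y E).symm :=
  rfl

variable [NormedAddCommGroup E] [NormedSpace ℂ E] [FiniteDimensional ℂ E] [Fintype κ]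

/-- permutations of complex vector spaces are homotopic to the identity -/
theorem precompH_homotopic_id (g : Equiv.Perm κ) :
    (PMap.ofHomeo (precompH E g)).Homotopic (PMap.id (κ → E)) := by
  have h := homotopic_id (E := κ → E)
    (LinearEquiv.funCongrLeft ℂ E g).toContinuousLinearEquiv
  refine PMap.Homotopic.trans (.of_eq ?_) h
  refine PMap.ext fun x => ?_
  rfl

theorem precompH_even [T2Space Y] [LocallyCompactSpace Y] (g : Equiv.Perm κ) :
    (PMap.ofHomeo (precompH (Y × E) g)).Homotopic
      (PMap.ofHomeo (((pairH κ Y E).trans ((precompH Y g).prodCongr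
        (Homeomorph.refl (κ → E)))).trans (pairH κ Y E).symm)) := by
  have : ProperSpace E := FiniteDimensional.proper ℂ E
  have h := (PMap.Homotopic.refl (PMap.ofHomeo (precompH Y g))).smash
    (precompH_homotopic_id (E := E) g)
  have h2 := PMap.Homotopic.comp_left (PMap.ofHomeo (pairH κ Y E).symm)
    (PMap.Homotopic.comp_right h (PMap.ofHomeo (pairH κ Y E)))
  refine PMap.Homotopic.trans (.of_eq ?_) (h2.trans (.of_eq ?_))
  · exact PMap.ext fun x => rfl
  · exact PMap.ext fun x => rfl

/-- pairs of families, the vector space first -/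
theorem precompH_even' [T2Space Y] [LocallyCompactSpace Y] (g : Equiv.Perm κ) :
    (PMap.ofHomeo (precompH (E × Y) g)).Homotopic
      (PMap.ofHomeo (((pairH κ E Y).trans ((Homeomorph.refl (κ → E)).prodCongr
        (precompH Y g))).trans (pairH κ E Y).symm)) := by
  have : ProperSpace E := FiniteDimensional.proper ℂ E
  have h := (precompH_homotopic_id (E := E) g).smash
    (PMap.Homotopic.refl (PMap.ofHomeo (precompH Y g)))
  have h2 := PMap.Homotopic.comp_left (PMap.ofHomeo (pairH κ E Y).symm)
    (PMap.Homotopic.comp_right h (PMap.ofHomeo (pairH κ E Y)))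
  refine PMap.Homotopic.trans (.of_eq ?_) (h2.trans (.of_eq ?_))
  · exact PMap.ext fun x => rfl
  · exact PMap.ext fun x => rfl

end perm

end Crest.Agent.R090.F1d541
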