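import Crest.Agent.R090.HSt_285
import Crest.Agent.R090.F1d_541
import Crest.Agent.R090.Kun_493

/-!
# Row 90, block HOM (owner helper811): the suspension class from the unit and the connecting map

`CohY F` : 253's `Coh F` + homotopy invariance + cross product with unit, compatible with the
connecting map.  `CohY.toCohX : HSt285.CohX F` : the suspension class `sg = s × s`,
`s = δ 1 ∈ h Io`, and `x ↦ x × sg` is bijective.
-/

set_option autoImplicit false
set_option linter.unusedSectionVars false

namespace Crest.Agent.R090.CohY811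

open Topology Set Crest.Agent.R090.Sp962 Crest.Agent.R090.Grp528 Crest.Agent.R090.St528
open Crest.Agent.R090.CohT253

/-- product of a decomposition with a space -/
def decX {K U O : Type} [TopologicalSpace K] [TopologicalSpace U] [TopologicalSpace O]
    (D : Dec K U O) (V : Type) [TopologicalSpace V] : Dec (K × V) (U × V) (O × V) where
  i := Prod.map D.i id
  hi := D.hi.prodMap (IsClosedEmbedding.id)
  j := Prod.map D.j id
  hj := D.hj.prodMap (IsOpenEmbedding.id)
  compl := by
    ext ⟨u, v⟩
    have h := congrArg (fun S : Set U => u ∈ S) D.compl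
    simp only [mem_range, mem_compl_iff, eq_iff_iff] at h
    simp only [mem_range, Prod.exists, Prod.map_apply, id_eq, Prod.mk.injEq, mem_compl_iff]
    constructor
    · rintro ⟨o, w, ho, rfl⟩ ⟨k, w', hk, hw⟩
      exact h.1 ⟨o, ho⟩ ⟨k, hk⟩
    · intro h2
      obtain ⟨o, ho⟩ := h.2 (fun ⟨k, hk⟩ => h2 ⟨k, v, hk, rfl⟩)
      exact ⟨o, v, ho, rfl⟩

/-- a cohomology theory with compact supports and a cross product with unit -/
structure CohY (F : Type) [Field F] extends Coh.{0, 0, 0} F where
  /-- homotopy invariance -/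
  hmap : ∀ {U V : Type} [TopologicalSpace U] [TopologicalSpace V] [T2Space U]
    [LocallyCompactSpace U] [T2Space V] [LocallyCompactSpace V] {f g : PMap U V},
    f.Homotopic g → ∀ x, map f x = map g x
  /-- cross product -/
  cr : ∀ (U V : Type) [TopologicalSpace U] [TopologicalSpace V] [T2Space U]
    [LocallyCompactSpace U] [T2Space V] [LocallyCompactSpace V], h U →ₗ[F] h V →ₗ[F] h (U × V)
  cr_map : ∀ {U V U' V' : Type} [TopologicalSpace U] [TopologicalSpace V] [TopologicalSpace U']
    [TopologicalSpace V'] [T2Space U] [LocallyCompactSpace U] [T2Space V] [LocallyCompactSpace V]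
    [T2Space U'] [LocallyCompactSpace U'] [T2Space V'] [LocallyCompactSpace V']
    (f : PMap U V) (g : PMap U' V') (x : h V) (y : h V'),
    map (f.smash g) (cr V V' x y) = cr U U' (map f x) (map g y)
  cr_assoc : ∀ {U V W : Type} [TopologicalSpace U] [TopologicalSpace V] [TopologicalSpace W]
    [T2Space U] [LocallyCompactSpace U] [T2Space V] [LocallyCompactSpace V]
    [T2Space W] [LocallyCompactSpace W] (x : h U) (y : h V) (z : h W),
    map (PMap.ofHomeo (Homeomorph.prodAssoc U V W)) (cr U (V × W) x (cr V W y z)) =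
      cr (U × V) W (cr U V x y) z
  cr_comm_even : ∀ {U V : Type} [TopologicalSpace U] [TopologicalSpace V] [T2Space U]
    [LocallyCompactSpace U] [T2Space V] [LocallyCompactSpace V] (x : h U) (y : h V),
    eps U x = x → map (PMap.ofHomeo (Homeomorph.prodComm V U)) (cr U V x y) = cr V U y x
  cr_comm_odd : ∀ {U V : Type} [TopologicalSpace U] [TopologicalSpace V] [T2Space U]
    [LocallyCompactSpace U] [T2Space V] [LocallyCompactSpace V] (x : h U) (y : h V),
    eps U x = -x → map (PMap.ofHomeo (Homeomorph.prodComm V U)) (cr U V x y) = cr V U (eps V y) x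
  eps_cr : ∀ {U V : Type} [TopologicalSpace U] [TopologicalSpace V] [T2Space U]
    [LocallyCompactSpace U] [T2Space V] [LocallyCompactSpace V] (x : h U) (y : h V),
    eps (U × V) (cr U V x y) = cr U V (eps U x) (eps V y)
  /-- compatibility with the connecting map -/
  del_cr : ∀ {K U O V : Type} [TopologicalSpace K] [TopologicalSpace U] [TopologicalSpace O]
    [TopologicalSpace V] [T2Space K] [LocallyCompactSpace K] [T2Space U] [LocallyCompactSpace U]
    [T2Space O] [LocallyCompactSpace O] [T2Space V] [LocallyCompactSpace V] (D : Dec K U O)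
    (x : h K) (y : h V), cr O V (del D x) y = del (decX D V) (cr K V x y)
  /-- the unit -/
  one : h Unit
  eps_one : eps Unit one = one
  one_ne : one ≠ 0
  one_gen : ∀ x : h Unit, ∃ r : F, x = r • one
  one_cr : ∀ {U : Type} [TopologicalSpace U] [T2Space U] [LocallyCompactSpace U] (x : h U),
    cr Unit U one x = map (PMap.ofHomeo (Homeomorph.punitProd U)) x

namespace CohY

variable {F : Type} [Field F] (H : CohY F)

/-- `Unit → (0,1] ← (0,1)` -/
def D1 : Dec Unit Ic Io where
  i := fun _ => one'
  hi := by
    refine Topology.IsClosedEmbedding.of_continuous_injective_isClosedMap (by fun_prop)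
      (fun _ _ _ => Subsingleton.elim _ _) ?_
    intro s hs
    exact (s.toFinite.image _).isClosed
  j := Set.inclusion Ioo_subset_Ioc_self
  hj := by
    refine ⟨IsEmbedding.inclusion _, ?_⟩
    have : range (Set.inclusion (Ioo_subset_Ioc_self : Ioo (0 : ℝ) 1 ⊆ Ioc (0 : ℝ) 1)) =
        {x : Ic | (x : ℝ) < 1} := by
      ext x
      constructor
      · rintro ⟨t, rfl⟩
        exact t.2.2
      · intro hx
        exact ⟨⟨x.1, x.2.1, hx⟩, rfl⟩
    rw [this]
    exact isOpen_lt continuous_subtype_val continuous_const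
  compl := by
    ext x
    simp only [mem_range, mem_compl_iff, not_exists]
    constructor
    · rintro ⟨t, rfl⟩ _ h
      have := congrArg (fun x : Ic => (x : ℝ)) h
      exact absurd this (ne_of_gt t.2.2)
    · intro h
      have h1 : (x : ℝ) ≠ 1 := fun h2 => h () (Subtype.ext h2.symm)
      exact ⟨⟨x.1, x.2.1, lt_of_le_of_ne x.2.2 h1⟩, rfl⟩

/-- the odd suspension class -/
noncomputable def s : H.h Io := H.del D1 H.one

theorem eps_s : H.eps Io H.s = -H.s := by
  rw [s, H.eps_del, H.eps_one]

section

variable {U V : Type} [TopologicalSpace U] [T2Space U] [LocallyCompactSpace U]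
  [TopologicalSpace V] [T2Space V] [LocallyCompactSpace V]

theorem zero_of_null (h : (PMap.id U).Null) (x : H.h U) : x = 0 := by
  rw [← H.map_id U x, H.hmap h, H.map_zero']

theorem map_homeo_bij (e : U ≃ₜ V) : Function.Bijective (H.map (PMap.ofHomeo e)) := by
  refine Function.bijective_iff_has_inverse.2 ⟨H.map (PMap.ofHomeo e.symm), fun x => ?_, fun x => ?_⟩
  · rw [← H.map_comp, PMap.ofHomeo_comp_symm, H.map_id]
  · rw [← H.map_comp, PMap.ofHomeo_symm_comp, H.map_id]

theorem s_cr_bij : Function.Bijective (fun x : H.h U => H.cr Io U H.s x) := by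
  have h1 : ∀ x : H.h U, H.cr Io U H.s x =
      H.del (decX D1 U) (H.map (PMap.ofHomeo (Homeomorph.punitProd U)) x) := by
    intro x
    rw [s, H.del_cr, H.one_cr]
  have hz : ∀ x : H.h (Ic × U), x = 0 := by
    refine H.zero_of_null ?_
    have h := (F1d541.null_Ic).smash_left (PMap.id U)
    have e : (PMap.id Ic).smash (PMap.id U) = PMap.id (Ic × U) := PMap.ext fun _ => rfl
    rwa [e] at h
  have h2 : Function.Bijective (H.del (decX D1 U)) := by
    constructor
    · rw [injective_iff_map_eq_zero]
      intro x hx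
      obtain ⟨y, rfl⟩ := (H.exactK (decX D1 U) x).1 hx
      rw [hz y, map_zero]
    · intro y
      exact (H.exactO (decX D1 U) y).1 (hz _)
  have h3 : (fun x : H.h U => H.cr Io U H.s x) = H.del (decX D1 U) ∘
      H.map (PMap.ofHomeo (Homeomorph.punitProd U)) := funext h1
  rw [h3]
  exact h2.comp (H.map_homeo_bij _)

theorem cr_s_bij : Function.Bijective (fun x : H.h U => H.cr U Io x H.s) := by
  have h3 : (fun x : H.h U => H.cr U Io x H.s) =
      H.map (PMap.ofHomeo (Homeomorph.prodComm U Io)) ∘ (fun x : H.h U => H.cr Io U H.s x) ∘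
        (H.eps U) := by
    funext x
    change H.cr U Io x H.s = H.map _ (H.cr Io U H.s (H.eps U x))
    rw [H.cr_comm_odd H.s (H.eps U x) H.eps_s, H.eps_eps]
  rw [h3]
  exact (H.map_homeo_bij _).comp (H.s_cr_bij.comp
    (Function.Involutive.bijective (fun x => H.eps_eps U x)))

end

/-- the even suspension class -/
noncomputable def sg : H.h ℂ := H.map (PMap.ofHomeo cIo) (H.cr Io Io H.s H.s)

theorem eps_sg : H.eps ℂ H.sg = H.sg := by
  rw [sg, H.eps_map, H.eps_cr, H.eps_s]
  simp

theorem cr_sg_bij (U : Type) [TopologicalSpace U] [T2Space U] [LocallyCompactSpace U] :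
    Function.Bijective (fun x : H.h U => H.cr U ℂ x H.sg) := by
  have h3 : (fun x : H.h U => H.cr U ℂ x H.sg) =
      H.map (PMap.ofHomeo ((Homeomorph.refl U).prodCongr cIo)) ∘
      H.map (PMap.ofHomeo (Homeomorph.prodAssoc U Io Io).symm) ∘
      (fun x : H.h (U × Io) => H.cr (U × Io) Io x H.s) ∘ (fun x : H.h U => H.cr U Io x H.s) := by
    funext x
    change H.cr U ℂ x H.sg = H.map _ (H.map _ (H.cr (U × Io) Io (H.cr U Io x H.s) H.s))
    rw [← H.cr_assoc, ← H.map_comp (PMap.ofHomeo (Homeomorph.prodAssoc U Io Io)),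
      PMap.ofHomeo_comp_symm, H.map_id, sg]
    have e : PMap.ofHomeo ((Homeomorph.refl U).prodCongr cIo) =
        (PMap.id U).smash (PMap.ofHomeo cIo) := by
      rw [← PMap.ofHomeo_refl, PMap.smash_ofHomeo]
    rw [e, H.cr_map, H.map_id]
  rw [h3]
  exact (H.map_homeo_bij _).comp ((H.map_homeo_bij _).comp (H.cr_s_bij.comp H.cr_s_bij))

/-- 285's axioms -/
noncomputable def toCohX : HSt285.CohX F :=
  { H.toCoh with
    hmap := H.hmap
    cr := H.cr
    cr_map := H.cr_map
    cr_assoc := H.cr_assoc
    cr_comm_even := H.cr_comm_even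
    cr_comm_odd := H.cr_comm_odd
    eps_cr := H.eps_cr
    sg := H.sg
    eps_sg := H.eps_sg
    susp := H.cr_sg_bij }

/-- 493's extra data -/
noncomputable def toKX : Kun493.KX H.toCohX where
  cr_del D V _ _ _ a b := H.del_cr D a b
  one := H.one
  eps_one := H.eps_one
  one_ne := H.one_ne
  one_gen := H.one_gen
  one_cr V _ _ _ b := by
    change H.map _ (H.cr Unit V H.one b) = b
    rw [H.one_cr, ← H.map_comp, PMap.ofHomeo_comp_symm, H.map_id]

end CohY

end Crest.Agent.R090.CohY811
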