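import Crest.Agent.R090.Sph2_285
import Crest.Agent.R090.CohY_811

/-!
# Row 90, leaf AS6 (helper285): the sphere data from 811's `CohY`
-/

set_option autoImplicit false
set_option linter.unusedSectionVars false
set_option linter.style.haveILetI false

namespace Crest.Agent.R090.HSt285

open Topology Set Crest.Agent.R090.Sp962 Crest.Agent.R090.Grp528 Crest.Agent.R090.St528
open Crest.Agent.R090.CohT253 Crest.Agent.R090.Sm202

/-- real suspension class and unit of a `CohY` -/
noncomputable def rsusp {F : Type} [Field F] (H : CohY811.CohY F) : RSusp H.toCohX :=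
  RSusp.ofKX H.toKX (H.map (PMap.ofHomeo ioHomeo) H.s)
    (by
      change H.eps ℝ (H.map (PMap.ofHomeo ioHomeo) H.s) = -H.map (PMap.ofHomeo ioHomeo) H.s
      rw [H.eps_map, H.eps_s, map_neg])
    (by
      intro U _ _ _
      have e : (fun x : H.h U => H.cr U ℝ x (H.map (PMap.ofHomeo ioHomeo) H.s)) =
          H.map (PMap.ofHomeo ((Homeomorph.refl U).prodCongr ioHomeo)) ∘
            (fun x : H.h U => H.cr U Io x H.s) := by
        funext x
        have h := H.cr_map (PMap.id U) (PMap.ofHomeo ioHomeo) x H.s
        rw [H.map_id] at h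
        have h0 : (PMap.id U).smash (PMap.ofHomeo ioHomeo) =
            PMap.ofHomeo ((Homeomorph.refl U).prodCongr ioHomeo) := PMap.ext fun _ => rfl
        rw [h0] at h
        exact h.symm
      have h2 : Function.Bijective
          (fun x : H.h U => H.cr U ℝ x (H.map (PMap.ofHomeo ioHomeo) H.s)) := by
        rw [e]
        exact (H.map_homeo_bij _).comp H.cr_s_bij
      exact h2)

end Crest.Agent.R090.HSt285
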