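import Crest.Agent.R090.AAsm_923
import Crest.Agent.R090.ExtrD_285
import Crest.Agent.R090.DualSB_698
import Crest.Agent.R090.Good_812
import Crest.Agent.R090.HopfG_297
import Crest.Agent.R090.Sph3_285

/-!
# Row 90, EXTRACT (second: helper285)

`extractStmt H : AAsm923.ExtractStmt (Good812.Good H) (fun U _ _ _ φ => H.L φ)` for every
`H : CohX ℚ` with `R : RSusp H` and `K : KX H`.  Inputs: the models of helper554 (`HasModel`,
`tgtHyp`), the duals of helper698 (`DualSB698.exists_dual_id`), helper297's `hopf`, the degree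
formula `RSusp.Lst_eq_of_KU`, helper669's calculus of the ideal.
-/

set_option autoImplicit false
set_option linter.unusedSectionVars false

open Topology Filter Set

noncomputable section

namespace Crest.Agent.R090.Extr285

open OnePoint Crest.Agent.R090.Sp962 Crest.Agent.R090.Grp528 Crest.Agent.R090.St528
  Crest.Agent.R090.Sm202 Crest.Agent.R090.Spine Crest.Agent.R090.FM554
  Crest.Agent.R090.HSt285 Crest.Agent.R090.Hopf297 Crest.Agent.R090.IdS669
  Crest.Agent.R090.AAsm542 Crest.Agent.R090.AAsm923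
open Crest.Agent.R090.Kun493 (KX KU CC crT crT_tmul crT_nat)

variable {F : Type} [Field F] {H : CohX F}

section levels

variable {X : Type} [TopologicalSpace X] [T2Space X] [LocallyCompactSpace X]

/-- the Lefschetz number does not change under `- ∧ ℂⁿ` -/
theorem L_level (φ : PMap X X) (n : ℕ) :
    H.toCoh.L (φ.smash (PMap.id (Fin n → ℂ))) = H.toCoh.L φ := by
  have h0 : St.ofP φ = St.of n (HC.mk (φ.smash (PMap.id (Fin n → ℂ)))) := by
    rw [St.ofP, St.map_eq_of _ n]; rfl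
  rw [← H.Lst_ofP, ← H.Lst_ofP, CohX.Lst, CohX.Lst, H.hst_ofP, h0, H.hst_of]
  have e1 : H.eps (S X n) ∘ₗ H.map (φ.smash (PMap.id (Fin n → ℂ))) =
      (H.susE X n).toLinearMap ∘ₗ (H.eps X ∘ₗ
        H.hn (HC.mk (φ.smash (PMap.id (Fin n → ℂ))))) ∘ₗ (H.susE X n).symm.toLinearMap := by
    ext x
    obtain ⟨y, rfl⟩ := (H.susE X n).surjective x
    simp only [LinearMap.comp_apply, LinearEquiv.coe_coe, LinearEquiv.symm_apply_apply]
    rw [H.susE_apply, H.susE_apply, ← H.eps_sus, H.sus_hn]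
    rfl
  have h1 := LinearMap.trace_conj' (H.eps X ∘ₗ H.hn (HC.mk (φ.smash (PMap.id (Fin n → ℂ)))))
    (H.susE X n)
  rw [← h1, e1]
  rfl

end levels

section transfer

variable {X M : Type} [TopologicalSpace X] [T2Space X] [LocallyCompactSpace X]
  [TopologicalSpace M] [T2Space M] [LocallyCompactSpace M]

/-- the Künneth class is transferred along cohomology isomorphisms -/
theorem KU_transfer (ρ : PMap X M)
    (hρ : ∀ (W : Type) [TopologicalSpace W] [T2Space W] [LocallyCompactSpace W],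
      Function.Bijective (H.map (ρ.smash (PMap.id W))))
    (h0 : Function.Bijective (H.map ρ)) (hX : KU H X) : KU H M := by
  intro W _ _ _
  have h1 : Function.Bijective (TensorProduct.map (H.map ρ) (H.map (PMap.id W))) := by
    have e : TensorProduct.map (H.map ρ) (H.map (PMap.id W)) =
        (LinearMap.rTensor (H.h W) (H.map ρ)) := by
      refine TensorProduct.ext' fun a b => ?_
      rw [TensorProduct.map_tmul, LinearMap.rTensor_tmul, H.map_id]
    rw [e]
    exact Kun493.rTensor_bij _ h0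
  have h2 : (⇑(H.map (ρ.smash (PMap.id W))) ∘ ⇑(crT H M W)) =
      ⇑(crT H X W) ∘ ⇑(TensorProduct.map (H.map ρ) (H.map (PMap.id W))) :=
    funext fun t => crT_nat H ρ (PMap.id W) t
  have h3 : Function.Bijective (⇑(H.map (ρ.smash (PMap.id W))) ∘ ⇑(crT H M W)) := by
    rw [h2]; exact (hX W).comp h1
  exact (Function.Bijective.of_comp_iff' (hρ W) _).1 h3

end transfer

section extract

variable {𝓕 : Set CoT}

theorem eInj_of_EIso (h𝓕 : ∀ m, cotSt m ∈ 𝓕) {X M : Type} [TopologicalSpace X] [T2Space X]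
    [LocallyCompactSpace X] [TopologicalSpace M] [T2Space M] [LocallyCompactSpace M]
    {ρ : PMap X M} (hρ : EIso 𝓕 ρ) : EInj (St.ofP ρ) := by
  intro B _ _ _ N y hy
  have hb : Function.Injective (fun z : St (M × B) (Fin N → ℝ) =>
      z.comp (St.ofP (ρ.smash (PMap.id B)))) := (hρ (cotSt N) (h𝓕 N) B).1
  refine hb (a₂ := 0) ?_
  change y.comp (St.ofP (ρ.smash (PMap.id B))) = (0 : St (M × B) (Fin N → ℝ)).comp _
  rw [St.zero_comp, ← smR_ofP]
  exact hy

/-- **EXTRACT**, one space -/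
theorem extract (h2 : (2 : F) ≠ 0) (R : RSusp H) (h𝓕 : ∀ m, cotSt m ∈ 𝓕)
    (hH : ∀ {X Y : Type} [TopologicalSpace X] [T2Space X] [LocallyCompactSpace X]
      [TopologicalSpace Y] [T2Space Y] [LocallyCompactSpace Y] (ρ : PMap X Y), EIso 𝓕 ρ →
      Function.Bijective (H.map ρ))
    {U : Type} [TopologicalSpace U] [T2Space U] [LocallyCompactSpace U] (hU : HasModel 𝓕 U)
    (hK : ∀ n, KU H (S U n)) (φ : PMap U U) :
    ∃ z : ℤ, H.toCoh.L φ = z ∧
      ∀ (q : ℕ), q.Prime → ∀ (M : Type) [TopologicalSpace M] [T2Space M] [LocallyCompactSpace M]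
        (Z : Set M) [Fact (IsClosed Z)],
        IdQ q Z (St.ofP φ) → IdQ q Z (z • St.id Unit) := by
  obtain ⟨n, M, _, _, _, ρ, hM, hρ⟩ := hU
  obtain ⟨k, B, _, _, _, g, u, tri⟩ := DualSB698.exists_dual_id hM
  have hKM : KU H M := KU_transfer ρ (fun W _ _ _ => hH _ (hρ.smash_right W)) (hH _ hρ) (hK n)
  obtain ⟨ψ, hψ⟩ := (tgtHyp h𝓕 ρ hρ M hM).2
    ((St.ofP ρ).comp (St.ofP (φ.smash (PMap.id (Fin n → ℂ)))))
  replace hψ : ψ.comp (St.ofP ρ) =
    (St.ofP ρ).comp (St.ofP (φ.smash (PMap.id (Fin n → ℂ)))) := hψ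
  obtain ⟨m, hm⟩ := hopf (u.comp ((ψ.smR B).comp ((sh (Homeomorph.prodComm B M)).comp g)))
  have hL := R.Lst_eq_of_KU h2 hKM k g u tri ψ m hm
  refine ⟨m, ?_, ?_⟩
  · rw [← hL, ← L_level φ n, ← H.Lst_ofP]
    refine H.Lst_conj (St.ofP ρ) ?_ _ _ hψ
    rw [H.hst_ofP]
    exact hH ρ hρ
  · intro q hq M' _ _ _ Z _ hI
    have h1 : IdQ q Z (St.ofP (φ.smash (PMap.id (Fin n → ℂ)))) := by
      rw [← smR_ofP]; exact hI.smR _
    have h3 : IdQ q Z ψ := (eInj_of_EIso h𝓕 hρ).idQ_transfer hψ h1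
    refine desusp k m ?_
    rw [← hm]
    exact ((h3.smR B).comp_right _).comp_left _

end extract

/-- **`ExtractStmt`**, general class of spaces -/
theorem extractStmt_of {H : CohX ℚ} (R : RSusp H) {𝓕 : Set CoT} (h𝓕 : ∀ m, cotSt m ∈ 𝓕)
    (hH : ∀ {X Y : Type} [TopologicalSpace X] [T2Space X] [LocallyCompactSpace X]
      [TopologicalSpace Y] [T2Space Y] [LocallyCompactSpace Y] (ρ : PMap X Y), EIso 𝓕 ρ →
      Function.Bijective (H.map ρ))
    (Good : SpPred)
    (hG : ∀ (U : Type) [TopologicalSpace U] [T2Space U] [LocallyCompactSpace U], Good U →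
      HasModel 𝓕 U ∧ ∀ n, KU H (S U n)) :
    ExtractStmt Good (fun U _ _ _ φ => H.toCoh.L φ) := by
  intro U _ _ _ hU φ
  obtain ⟨z, hz, hI⟩ := extract (by norm_num) R h𝓕 hH (hG U hU).1 (hG U hU).2 φ
  exact ⟨z, Or.inl hz, hI⟩

/-- **`ExtractStmt`** for helper812's class of good spaces -/
theorem extractStmt {H : CohX ℚ} (R : RSusp H) (K : KX H) :
    ExtractStmt (fun U _ _ _ => Good812.Good H U) (fun U _ _ _ φ => H.toCoh.L φ) := by
  refine extractStmt_of R (𝓕 := Good812.FF H) (Good812.cotSt_mem H) ?_ _ ?_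
  · intro X Y _ _ _ _ _ _ ρ hρ
    exact AsCoT967.bijective_map H.toCoh (AsCoT967.hinv H) (Good812.cohT_mem H) hρ
  · intro U _ _ _ hU
    exact ⟨hU.model, fun n => (hU.cc.prod (CC.cpow K n)).ku⟩

/-- **`ExtractStmt`** from 811's theory -/
theorem extractStmtY (H : CohY811.CohY ℚ) :
    ExtractStmt (fun U _ _ _ => Good812.Good H.toCohX U) (fun U _ _ _ φ => H.toCohX.toCoh.L φ) :=
  extractStmt (rsusp H) H.toKX

end Crest.Agent.R090.Extr285
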