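import Crest.Agent.R090.AStep_923
import Crest.Agent.R090.Extr_285
import Crest.Agent.R090.CohAS_412

/-!
# Row 90, block (A): `aStmt : Spine.AStmt` (owner helper923)

`H` = the Alexander-Spanier theory `CohAS412.cohAS ℚ`; `ExtractStmt` = 285's `extractStmtY`,
`StepStmt` = `stepStmt_good`, `StartStmt` = `startStmt` (902's START).
-/

set_option autoImplicit false

namespace Crest.Agent.R090.AAsm923

open Crest.Agent.R090.CohY811

/-- (A) from any theory -/
theorem aStmt_of_coh (H : CohY ℚ) : Spine.AStmt :=
  aStmt_of_step (Good := goodP H.toCohX) (L := lef H.toCohX) (Extr285.extractStmtY H)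
    (stepStmt_good H.toKX) (startStmt H.toKX)

/-- **block (A)** -/
theorem aStmt : Spine.AStmt := aStmt_of_coh (CohAS412.cohAS ℚ)

end Crest.Agent.R090.AAsm923
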