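import Crest.Agent.R090.Ho_962

/-!
# Row 90, T1: suspension coordinate, cone coordinate, mapping cones (owner helper962)

* `Io = Ioo (0:ℝ) 1` suspension coordinate, `qI : ℝ → OnePoint Io` (continuous, `∞` off `(0,1)`);
* `Ic = Ioc (0:ℝ) 1` cone coordinate, `qC : ℝ → OnePoint Ic` (`∞` on `t ≤ 0`, `1` on `t ≥ 1`);
* `MC f = (U × Io) ⊕ V` mapping cone of `f : PMap U V`, `MC.q f : OnePoint U × ℝ → OnePoint (MC f)`,
  `MC.i f : PMap V (MC f)`, `MC.p f : PMap (MC f) (U × Io)`, `MC.desc`.
-/

set_option autoImplicit false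
set_option linter.unusedSectionVars false

open Topology Filter Set

namespace Crest.Agent.R090.Sp962

open OnePoint
open scoped unitInterval

universe u v w x

/-- the suspension coordinate -/
abbrev Io : Type := Ioo (0 : ℝ) 1

/-- the cone coordinate (`1` is the end of the cone, `0` the cone point) -/
abbrev Ic : Type := Ioc (0 : ℝ) 1

instance : LocallyCompactSpace Io := isOpen_Ioo.locallyCompactSpace

instance : LocallyCompactSpace Ic :=
  (isOpen_Ioi.isLocallyClosed.inter isClosed_Iic.isLocallyClosed).locallyCompactSpace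

open Classical in
/-- collapse of the real line onto the suspension coordinate -/
noncomputable def qI (t : ℝ) : OnePoint Io := if h : t ∈ Ioo (0 : ℝ) 1 then ((⟨t, h⟩ : Io) : OnePoint Io) else ∞

theorem qI_of_mem {t : ℝ} (h : t ∈ Ioo (0 : ℝ) 1) : qI t = ((⟨t, h⟩ : Io) : OnePoint Io) := dif_pos h

@[simp] theorem qI_coe (t : Io) : qI (t : ℝ) = (t : OnePoint Io) := qI_of_mem t.2

theorem qI_of_le {t : ℝ} (h : t ≤ 0) : qI t = ∞ := dif_neg fun h' => absurd h'.1 (not_lt.2 h)

theorem qI_of_ge {t : ℝ} (h : 1 ≤ t) : qI t = ∞ := dif_neg fun h' => absurd h'.2 (not_lt.2 h)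

@[simp] theorem qI_zero : qI 0 = ∞ := qI_of_le le_rfl
@[simp] theorem qI_one : qI 1 = ∞ := qI_of_ge le_rfl

theorem qI_eq_coe {t : ℝ} {s : Io} : qI t = (s : OnePoint Io) ↔ t = s := by
  constructor
  · intro h
    by_cases h' : t ∈ Ioo (0 : ℝ) 1
    · rw [qI_of_mem h', coe_eq_coe] at h
      rw [← h]
    · rw [qI, dif_neg h'] at h
      exact absurd h.symm (coe_ne_infty _)
  · rintro rfl
    exact qI_coe s

theorem qI_eq_inf {t : ℝ} : qI t = ∞ ↔ t ≤ 0 ∨ 1 ≤ t := by
  constructor
  · intro h
    by_contra hn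
    push Not at hn
    rw [qI_of_mem (mem_Ioo.2 hn)] at h
    exact coe_ne_infty _ h
  · rintro (h | h)
    · exact qI_of_le h
    · exact qI_of_ge h

theorem isOpenEmbedding_Io : IsOpenEmbedding ((↑) : Io → ℝ) := isOpen_Ioo.isOpenEmbedding_subtypeVal

theorem qI_eq_collapse (t : ℝ) : qI t = PMap.collapse ((↑) : Io → ℝ) isOpenEmbedding_Io (t : OnePoint ℝ) := by
  by_cases h : t ∈ Ioo (0 : ℝ) 1
  · rw [qI_of_mem h]
    exact (PMap.collapse_coe _ isOpenEmbedding_Io (⟨t, h⟩ : Io)).symm
  · rw [qI, dif_neg h, PMap.collapse_of_notMem]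
    rintro ⟨s, rfl⟩
    exact h s.2

@[fun_prop] theorem continuous_qI : Continuous qI := by
  have : qI = fun t : ℝ => PMap.collapse ((↑) : Io → ℝ) isOpenEmbedding_Io (t : OnePoint ℝ) :=
    funext qI_eq_collapse
  rw [this]
  exact (PMap.continuous_collapse _ _).comp continuous_coe

theorem qI_surjective (s : OnePoint Io) : ∃ t : I, qI t = s := by
  induction s using OnePoint.rec with
  | infty => exact ⟨0, by simp⟩
  | coe s => exact ⟨⟨s, s.2.1.le, s.2.2.le⟩, qI_coe s⟩

open Classical in
/-- collapse of the real line onto the cone coordinate -/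
noncomputable def qC (t : ℝ) : OnePoint Ic :=
  if h : 0 < t then ((⟨min t 1, lt_min h one_pos, min_le_right _ _⟩ : Ic) : OnePoint Ic) else ∞

theorem qC_of_pos {t : ℝ} (h : 0 < t) :
    qC t = ((⟨min t 1, lt_min h one_pos, min_le_right _ _⟩ : Ic) : OnePoint Ic) := dif_pos h

theorem qC_of_mem {t : ℝ} (h : t ∈ Ioc (0 : ℝ) 1) : qC t = ((⟨t, h⟩ : Ic) : OnePoint Ic) := by
  rw [qC_of_pos h.1, coe_eq_coe]
  exact Subtype.ext (min_eq_left h.2)

@[simp] theorem qC_coe (t : Ic) : qC (t : ℝ) = (t : OnePoint Ic) := qC_of_mem t.2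

theorem qC_of_le {t : ℝ} (h : t ≤ 0) : qC t = ∞ := dif_neg (not_lt.2 h)

@[simp] theorem qC_zero : qC 0 = ∞ := qC_of_le le_rfl

/-- the end point of the cone coordinate -/
def one' : Ic := ⟨1, one_pos, le_rfl⟩

theorem qC_of_ge {t : ℝ} (h : 1 ≤ t) : qC t = (one' : OnePoint Ic) := by
  rw [qC_of_pos (lt_of_lt_of_le one_pos h), coe_eq_coe]
  exact Subtype.ext (min_eq_right h)

@[simp] theorem qC_one : qC 1 = (one' : OnePoint Ic) := qC_of_ge le_rfl

theorem qC_eq_inf {t : ℝ} : qC t = ∞ ↔ t ≤ 0 := by
  constructor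
  · intro h
    by_contra hn
    rw [qC_of_pos (not_le.1 hn)] at h
    exact coe_ne_infty _ h
  · exact qC_of_le

@[fun_prop] theorem continuous_qC : Continuous qC := by
  rw [continuous_iff_continuousAt]
  intro t
  rcases le_or_gt t 0 with h | h
  · rw [ContinuousAt, qC_of_le h, hasBasis_nhds_infty.tendsto_right_iff]
    rintro K ⟨_, hK⟩
    have hK' : IsCompact ((↑) '' K : Set ℝ) := hK.image continuous_subtype_val
    have h0 : t ∉ ((↑) '' K : Set ℝ) := by
      rintro ⟨s, _, rfl⟩
      exact absurd s.2.1 (not_lt.2 h)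
    have h1 : (1 : ℝ) ≠ t := by linarith
    filter_upwards [hK'.isClosed.isOpen_compl.mem_nhds h0, gt_mem_nhds (show t < 1 by linarith)]
      with s hs hs1
    rcases le_or_gt s 0 with h' | h'
    · right; exact qC_of_le h'
    · left
      refine ⟨⟨s, h', hs1.le⟩, ?_, (qC_of_mem ⟨h', hs1.le⟩).symm⟩
      intro hsK
      exact hs ⟨_, hsK, rfl⟩
  · have hopen : Ioi (0 : ℝ) ∈ 𝓝 t := isOpen_Ioi.mem_nhds h
    have hc : ContinuousOn qC (Ioi 0) := by
      rw [continuousOn_iff_continuous_domRestrict]
      have : (Ioi (0 : ℝ)).domRestrict qC = fun s : Ioi (0 : ℝ) =>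
          ((⟨min s.1 1, lt_min s.2 one_pos, min_le_right _ _⟩ : Ic) : OnePoint Ic) := by
        funext s
        exact qC_of_pos s.2
      rw [this]
      exact continuous_coe.comp (Continuous.subtype_mk (by fun_prop) _)
    exact hc.continuousAt hopen

theorem qC_surjective (s : OnePoint Ic) : ∃ t : I, qC t = s := by
  induction s using OnePoint.rec with
  | infty => exact ⟨0, by simp⟩
  | coe s => exact ⟨⟨s, s.2.1.le, s.2.2⟩, qC_coe s⟩

/-! ## mapping cones -/

variable {U : Type u} {V : Type v} {W : Type w} {X : Type x}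
variable [TopologicalSpace U] [TopologicalSpace V] [TopologicalSpace W] [TopologicalSpace X]

/-- the mapping cone of `f : OnePoint U → OnePoint V`, without its base point; the end `t → 1` of
`(a, t)` is glued to `f a`, the end `t → 0` is the cone point (= base point) -/
inductive MC (f : PMap U V) : Type (max u v)
  | inl : U × Io → MC f
  | inr : V → MC f

namespace MC

/-- the defining injection -/
noncomputable def j (f : PMap U V) : MC f → OnePoint (U × Io) × OnePoint (V × Ic)
  | .inl p => ((p : OnePoint (U × Io)), sm (f p.1) (qC p.2))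
  | .inr y => (∞, sm (y : OnePoint V) (one' : OnePoint Ic))

noncomputable instance (f : PMap U V) : TopologicalSpace (MC f) := TopologicalSpace.induced (j f) inferInstance

theorem j_injective (f : PMap U V) : Function.Injective (j f) := by
  rintro (p | y) (p' | y') h
  · have := congrArg Prod.fst h
    simp only [j] at this
    rw [coe_injective this]
  · have := congrArg Prod.fst h
    simp only [j] at this
    exact absurd this (coe_ne_infty _)
  · have := congrArg Prod.fst h
    simp only [j] at this
    exact absurd this (infty_ne_coe _)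
  · have := congrArg Prod.snd h
    simp only [j, sm_coe] at this
    have := (Prod.ext_iff.1 (coe_injective this)).1
    simp only at this
    rw [this]

theorem isEmbedding_j (f : PMap U V) : IsEmbedding (j f) := ⟨⟨rfl⟩, j_injective f⟩

theorem j_ne (f : PMap U V) (z : MC f) : j f z ≠ (∞, ∞) := by
  rcases z with p | y
  · intro h
    have := congrArg Prod.fst h
    exact coe_ne_infty _ this
  · intro h
    have := congrArg Prod.snd h
    exact coe_ne_infty _ this

variable [T2Space U] [T2Space V] [LocallyCompactSpace U] [LocallyCompactSpace V]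

instance (f : PMap U V) : T2Space (MC f) := (isEmbedding_j f).t2Space

/-- the closed image of the cone -/
theorem range_j (f : PMap U V) : range (j f) = (range (fun p : OnePoint U × I =>
    ((sm p.1 (qI p.2), sm (f p.1) (qC p.2)) : OnePoint (U × Io) × OnePoint (V × Ic))) ∪
    range (fun y : OnePoint V => ((∞, sm y (one' : OnePoint Ic)) :
      OnePoint (U × Io) × OnePoint (V × Ic)))) \ {(∞, ∞)} := by
  ext z
  constructor
  · rintro ⟨c, rfl⟩
    refine ⟨?_, j_ne f c⟩
    rcases c with p | y
    · left
      obtain ⟨a, t⟩ := p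
      refine ⟨((a : OnePoint U), ⟨t, t.2.1.le, t.2.2.le⟩), ?_⟩
      simp only [j]
      rw [qI_coe, sm_coe]
    · right
      exact ⟨y, rfl⟩
  · rintro ⟨h | h, hne⟩
    · obtain ⟨⟨a, t⟩, rfl⟩ := h
      induction a using OnePoint.rec with
      | infty => exact absurd (by simp) hne
      | coe a =>
        rcases eq_or_lt_of_le t.2.2 with h1 | h1
        · have ht : (t : ℝ) = 1 := h1
          simp only [ht, qI_one, sm_inf_right, qC_one] at hne ⊢
          generalize f (a : OnePoint U) = b at hne ⊢
          induction b using OnePoint.rec with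
          | infty => exact absurd (by simp) hne
          | coe b => exact ⟨.inr b, rfl⟩
        · rcases eq_or_lt_of_le t.2.1 with h0 | h0
          · have ht : (t : ℝ) = 0 := h0.symm
            simp only [ht, qI_zero, sm_inf_right, qC_zero] at hne
            exact absurd rfl hne
          · refine ⟨.inl (a, ⟨t, h0, h1⟩), ?_⟩
            simp only [j]
            rw [qI_of_mem (mem_Ioo.2 ⟨h0, h1⟩), sm_coe]
    · obtain ⟨y, rfl⟩ := h
      induction y using OnePoint.rec with
      | infty => exact absurd (by simp) hne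
      | coe y => exact ⟨.inr y, rfl⟩

theorem continuous_aux1 (f : PMap U V) : Continuous (fun p : OnePoint U × I =>
    ((sm p.1 (qI p.2), sm (f p.1) (qC p.2)) : OnePoint (U × Io) × OnePoint (V × Ic))) := by
  refine Continuous.prodMk ?_ ?_
  · exact continuous_fst.sm962 (continuous_qI.comp (by fun_prop))
  · exact (f.cont.comp continuous_fst).sm962 (continuous_qC.comp (by fun_prop))

theorem continuous_aux2 (_f : PMap U V) : Continuous (fun y : OnePoint V =>
    ((∞, sm y (one' : OnePoint Ic)) : OnePoint (U × Io) × OnePoint (V × Ic))) :=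
  continuous_const.prodMk (continuous_id.sm962 continuous_const)

theorem isClosed_aux (f : PMap U V) : IsClosed (range (fun p : OnePoint U × I =>
    ((sm p.1 (qI p.2), sm (f p.1) (qC p.2)) : OnePoint (U × Io) × OnePoint (V × Ic))) ∪
    range (fun y : OnePoint V => ((∞, sm y (one' : OnePoint Ic)) :
      OnePoint (U × Io) × OnePoint (V × Ic)))) :=
  (isCompact_range (continuous_aux1 f)).isClosed.union (isCompact_range (continuous_aux2 f)).isClosed

instance (f : PMap U V) : LocallyCompactSpace (MC f) := by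
  refine (isEmbedding_j f).isInducing.locallyCompactSpace ?_
  rw [range_j]
  exact (isClosed_aux f).isLocallyClosed.inter
    (isOpen_compl_singleton (x := ((∞, ∞) : OnePoint (U × Io) × OnePoint (V × Ic)))).isLocallyClosed

/-- the extension of `j` to the one point compactification -/
noncomputable def J (f : PMap U V) (z : OnePoint (MC f)) : OnePoint (U × Io) × OnePoint (V × Ic) :=
  z.elim (∞, ∞) (j f)

@[simp] theorem J_inf (f : PMap U V) : J f ∞ = (∞, ∞) := rfl
@[simp] theorem J_coe (f : PMap U V) (z : MC f) : J f z = j f z := rfl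

theorem continuous_J (f : PMap U V) : Continuous (J f) := by
  rw [OnePoint.continuous_iff]
  refine ⟨?_, (isEmbedding_j f).continuous⟩
  rw [hasBasis_coclosedCompact.tendsto_left_iff]
  intro N hN
  obtain ⟨O, hO, hOo, hmem⟩ := mem_nhds_iff.mp hN
  refine ⟨(j f) ⁻¹' Oᶜ, ?_, fun z hz => hO (by simpa using hz)⟩
  have hcl : IsClosed ((j f) ⁻¹' Oᶜ) := hOo.isClosed_compl.preimage (isEmbedding_j f).continuous
  refine ⟨hcl, ?_⟩
  rw [(isEmbedding_j f).isCompact_iff, image_preimage_eq_inter_range, range_j]
  have : Oᶜ ∩ ((range (fun p : OnePoint U × I =>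
    ((sm p.1 (qI p.2), sm (f p.1) (qC p.2)) : OnePoint (U × Io) × OnePoint (V × Ic))) ∪
    range (fun y : OnePoint V => ((∞, sm y (one' : OnePoint Ic)) :
      OnePoint (U × Io) × OnePoint (V × Ic)))) \ {(∞, ∞)}) = Oᶜ ∩ (range (fun p : OnePoint U × I =>
    ((sm p.1 (qI p.2), sm (f p.1) (qC p.2)) : OnePoint (U × Io) × OnePoint (V × Ic))) ∪
    range (fun y : OnePoint V => ((∞, sm y (one' : OnePoint Ic)) :
      OnePoint (U × Io) × OnePoint (V × Ic)))) := by
    ext z
    simp only [mem_inter_iff, mem_compl_iff, Set.mem_sdiff, mem_singleton_iff]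
    constructor
    · rintro ⟨h1, h2, _⟩; exact ⟨h1, h2⟩
    · rintro ⟨h1, h2⟩
      refine ⟨h1, h2, ?_⟩
      rintro rfl
      exact h1 hmem
  rw [this]
  exact (hOo.isClosed_compl.inter (isClosed_aux f)).isCompact

theorem J_injective (f : PMap U V) : Function.Injective (J f) := by
  intro z z' h
  induction z using OnePoint.rec with
  | infty =>
    induction z' using OnePoint.rec with
    | infty => rfl
    | coe z' => exact absurd h.symm (j_ne f z')
  | coe z =>
    induction z' using OnePoint.rec with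
    | infty => exact absurd h (j_ne f z)
    | coe z' => rw [j_injective f h]

theorem isClosedEmbedding_J (f : PMap U V) : IsClosedEmbedding (J f) :=
  (continuous_J f).isClosedEmbedding (J_injective f)

theorem continuous_iff_J {Z : Type*} [TopologicalSpace Z] (f : PMap U V) {g : Z → OnePoint (MC f)} :
    Continuous g ↔ Continuous (fun z => J f (g z)) :=
  (isClosedEmbedding_J f).isEmbedding.continuous_iff

/-- point of the cone with real coordinate `t`: `∞` for `t ≤ 0`, `f a` for `t ≥ 1` -/
noncomputable def q (f : PMap U V) (a : OnePoint U) (t : ℝ) : OnePoint (MC f) :=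
  if 1 ≤ t then (f a).elim ∞ fun y => ((MC.inr y : MC f) : OnePoint (MC f))
  else (sm a (qI t)).elim ∞ fun p => ((MC.inl p : MC f) : OnePoint (MC f))

theorem J_q (f : PMap U V) (a : OnePoint U) (t : ℝ) :
    J f (q f a t) = (sm a (qI t), sm (f a) (qC t)) := by
  rw [q]
  split_ifs with h
  · rw [qI_of_ge h, qC_of_ge h, sm_inf_right]
    generalize f a = b
    induction b using OnePoint.rec with
    | infty => rfl
    | coe b => rfl
  · push Not at h
    rcases le_or_gt t 0 with h0 | h0
    · rw [qI_of_le h0, qC_of_le h0]; simp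
    · induction a using OnePoint.rec with
      | infty => simp
      | coe a =>
        rw [qI_of_mem (mem_Ioo.2 ⟨h0, h⟩), sm_coe]
        rfl

theorem continuous_q (f : PMap U V) : Continuous (fun p : OnePoint U × ℝ => q f p.1 p.2) := by
  rw [continuous_iff_J]
  have : (fun p : OnePoint U × ℝ => J f (q f p.1 p.2)) =
      fun p => (sm p.1 (qI p.2), sm (f p.1) (qC p.2)) := funext fun p => J_q f p.1 p.2
  rw [this]
  refine Continuous.prodMk ?_ ?_
  · exact continuous_fst.sm962 (continuous_qI.comp continuous_snd)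
  · exact (f.cont.comp continuous_fst).sm962 (continuous_qC.comp continuous_snd)

@[simp] theorem q_inf (f : PMap U V) (t : ℝ) : q f ∞ t = ∞ := by
  rw [q]; split_ifs <;> simp

theorem q_of_le (f : PMap U V) (a : OnePoint U) {t : ℝ} (h : t ≤ 0) : q f a t = ∞ := by
  rw [q, if_neg (by linarith), qI_of_le h]; simp

@[simp] theorem q_zero (f : PMap U V) (a : OnePoint U) : q f a 0 = ∞ := q_of_le f a le_rfl

theorem q_of_mem (f : PMap U V) (a : U) {t : ℝ} (h : t ∈ Ioo (0 : ℝ) 1) :
    q f a t = ((MC.inl (a, ⟨t, h⟩) : MC f) : OnePoint (MC f)) := by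
  rw [q, if_neg (not_le.2 h.2), qI_of_mem h]; rfl

/-- inclusion of the target into the cone -/
noncomputable def i (f : PMap U V) : PMap V (MC f) where
  toFun y := y.elim ∞ fun y => ((MC.inr y : MC f) : OnePoint (MC f))
  cont := by
    rw [continuous_iff_J]
    have : (fun y : OnePoint V => J f (y.elim ∞ fun y => ((MC.inr y : MC f) : OnePoint (MC f)))) =
        fun y => (∞, sm y (one' : OnePoint Ic)) := by
      funext y
      induction y using OnePoint.rec with
      | infty => rfl
      | coe y => rfl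
    rw [this]
    exact continuous_aux2 f
  map_inf := rfl

@[simp] theorem i_coe (f : PMap U V) (y : V) : i f y = ((MC.inr y : MC f) : OnePoint (MC f)) := rfl

theorem q_of_ge (f : PMap U V) (a : OnePoint U) {t : ℝ} (h : 1 ≤ t) : q f a t = i f (f a) := by
  rw [q, if_pos h]; rfl

@[simp] theorem q_one (f : PMap U V) (a : OnePoint U) : q f a 1 = i f (f a) := q_of_ge f a le_rfl

/-- pinch map from the cone onto the suspension of the source -/
noncomputable def p (f : PMap U V) : PMap (MC f) (U × Io) where
  toFun z := (J f z).1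
  cont := (continuous_J f).fst
  map_inf := rfl

@[simp] theorem p_q (f : PMap U V) (a : OnePoint U) (t : ℝ) : p f (q f a t) = sm a (qI t) := by
  change (J f (q f a t)).1 = _
  rw [J_q]

@[simp] theorem p_i (f : PMap U V) (y : OnePoint V) : p f (i f y) = ∞ := by
  induction y using OnePoint.rec with
  | infty => rfl
  | coe y => rfl

/-- induction principle -/
theorem cases (f : PMap U V) {P : OnePoint (MC f) → Prop}
    (h1 : ∀ (a : OnePoint U) (t : ℝ), t ∈ Icc (0 : ℝ) 1 → P (q f a t)) (h2 : ∀ y, P (i f y))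
    (z : OnePoint (MC f)) : P z := by
  induction z using OnePoint.rec with
  | infty => exact h2 ∞
  | coe z =>
    rcases z with p | y
    · have := h1 p.1 p.2 ⟨p.2.2.1.le, p.2.2.2.le⟩
      rw [q_of_mem f p.1 p.2.2] at this
      exact this
    · exact h2 y

/-- continuity of maps out of the cone (with a compact parameter) -/
theorem continuous_of (f : PMap U V) {K : Type*} [TopologicalSpace K] [CompactSpace K] [T2Space K]
    {Z : Type*} [TopologicalSpace Z] {g : K × OnePoint (MC f) → Z}
    (h1 : Continuous (fun p : K × (OnePoint U × I) => g (p.1, q f p.2.1 p.2.2)))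
    (h2 : Continuous (fun p : K × OnePoint V => g (p.1, i f p.2))) : Continuous g := by
  let φ : (K × (OnePoint U × I)) ⊕ (K × OnePoint V) → K × OnePoint (MC f) :=
    Sum.elim (fun p => (p.1, q f p.2.1 p.2.2)) (fun p => (p.1, i f p.2))
  have hφ : Continuous φ := by
    refine Continuous.sumElim ?_ ?_
    · exact continuous_fst.prodMk ((continuous_q f).comp
        ((continuous_fst.comp continuous_snd).prodMk
          (continuous_subtype_val.comp (continuous_snd.comp continuous_snd))))
    · exact continuous_fst.prodMk ((i f).cont.comp continuous_snd)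
  have hs : Function.Surjective φ := by
    rintro ⟨k, z⟩
    revert z
    refine MC.cases f ?_ ?_
    · intro a t ht
      exact ⟨Sum.inl (k, (a, ⟨t, ht⟩)), rfl⟩
    · intro y
      exact ⟨Sum.inr (k, y), rfl⟩
  refine (hφ.isClosedMap.isQuotientMap hφ hs).continuous_iff.2 ?_
  have : g ∘ φ = Sum.elim (fun p : K × (OnePoint U × I) => g (p.1, q f p.2.1 p.2.2))
      (fun p : K × OnePoint V => g (p.1, i f p.2)) := by
    funext z
    rcases z with z | z <;> rfl
  rw [this]
  exact Continuous.sumElim h1 h2

theorem continuous_of' (f : PMap U V) {Z : Type*} [TopologicalSpace Z] {g : OnePoint (MC f) → Z}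
    (h1 : Continuous (fun p : OnePoint U × I => g (q f p.1 p.2)))
    (h2 : Continuous (fun p : OnePoint V => g (i f p))) : Continuous g := by
  have := continuous_of f (K := Unit) (g := fun p => g p.2) (h1.comp continuous_snd)
    (h2.comp continuous_snd)
  exact this.comp ((continuous_const (y := ())).prodMk continuous_id)

/-- raw map out of the cone -/
noncomputable def lift {Z : Type*} (f : PMap U V) (H : OnePoint U → ℝ → Z) (g : OnePoint V → Z)
    (z : OnePoint (MC f)) : Z :=
  z.elim (g ∞) fun c => match c with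
    | .inl p => H p.1 p.2
    | .inr y => g y

@[simp] theorem lift_i {Z : Type*} (f : PMap U V) (H : OnePoint U → ℝ → Z) (g : OnePoint V → Z)
    (y : OnePoint V) : lift f H g (i f y) = g y := by
  induction y using OnePoint.rec with
  | infty => rfl
  | coe y => rfl

theorem lift_q {Z : Type*} (f : PMap U V) (H : OnePoint U → ℝ → Z) (g : OnePoint V → Z)
    (hinf : ∀ t, H ∞ t = g ∞) (h0 : ∀ a, H a 0 = g ∞) (h1 : ∀ a, H a 1 = g (f a))
    (a : OnePoint U) {t : ℝ} (ht : t ∈ Icc (0 : ℝ) 1) : lift f H g (q f a t) = H a t := by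
  rcases eq_or_lt_of_le ht.1 with h | h
  · rw [← h, q_zero, h0]; rfl
  rcases eq_or_lt_of_le ht.2 with h' | h'
  · rw [h', q_one, lift_i, h1]
  induction a using OnePoint.rec with
  | infty => rw [q_inf, hinf]; rfl
  | coe a => rw [q_of_mem f a ⟨h, h'⟩]; rfl

theorem continuous_lift {Z : Type*} [TopologicalSpace Z] (f : PMap U V) (H : OnePoint U → ℝ → Z)
    (g : OnePoint V → Z) (hH : Continuous (fun p : OnePoint U × I => H p.1 p.2))
    (hg : Continuous g)
    (hinf : ∀ t, H ∞ t = g ∞) (h0 : ∀ a, H a 0 = g ∞) (h1 : ∀ a, H a 1 = g (f a)) :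
    Continuous (lift f H g) := by
  refine continuous_of' f ?_ (by simpa using hg)
  have : (fun p : OnePoint U × I => lift f H g (q f p.1 p.2)) = fun p => H p.1 p.2 := by
    funext p
    exact lift_q f H g hinf h0 h1 p.1 p.2.2
  rw [this]
  exact hH

/-- pointed map out of the cone from a null homotopy of `g ∘ f` -/
noncomputable def desc (f : PMap U V) (g : PMap V W) (H : OnePoint U → ℝ → OnePoint W)
    (hH : Continuous (fun p : OnePoint U × I => H p.1 p.2))
    (hinf : ∀ t, H ∞ t = ∞) (h0 : ∀ a, H a 0 = ∞) (h1 : ∀ a, H a 1 = g (f a)) :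
    PMap (MC f) W where
  toFun := lift f H g
  cont := continuous_lift f H g hH g.cont (by simpa using hinf) (by simpa using h0) h1
  map_inf := g.map_inf

@[simp] theorem desc_i (f : PMap U V) (g : PMap V W) (H : OnePoint U → ℝ → OnePoint W)
    (hH : Continuous (fun p : OnePoint U × I => H p.1 p.2))
    (hinf : ∀ t, H ∞ t = ∞) (h0 : ∀ a, H a 0 = ∞) (h1 : ∀ a, H a 1 = g (f a)) (y : OnePoint V) :
    desc f g H hH hinf h0 h1 (i f y) = g y := lift_i f H g y

theorem desc_q (f : PMap U V) (g : PMap V W) (H : OnePoint U → ℝ → OnePoint W)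
    (hH : Continuous (fun p : OnePoint U × I => H p.1 p.2))
    (hinf : ∀ t, H ∞ t = ∞) (h0 : ∀ a, H a 0 = ∞) (h1 : ∀ a, H a 1 = g (f a)) (a : OnePoint U)
    {t : ℝ} (ht : t ∈ Icc (0 : ℝ) 1) :
    desc f g H hH hinf h0 h1 (q f a t) = H a t :=
  lift_q f H g (by simpa using hinf) (by simpa using h0) h1 a ht

/-- `i ∘ f` is null homotopic -/
theorem i_comp_null (f : PMap U V) : ((i f).comp f).Null := by
  refine PMap.Homotopic.of (fun p => q f p.2 (1 - p.1)) ?_ ?_ ?_ ?_
  · exact (continuous_q f).comp (continuous_snd.prodMk (by fun_prop))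
  · intro x
    change q f x (1 - ((0 : I) : ℝ)) = i f (f x)
    rw [Set.Icc.coe_zero, sub_zero, q_one]
  · intro x
    change q f x (1 - ((1 : I) : ℝ)) = ∞
    rw [Set.Icc.coe_one, sub_self, q_zero]
  · intro t; exact q_inf f _

theorem p_comp_i (f : PMap U V) : (p f).comp (i f) = PMap.zero V (U × Io) :=
  PMap.ext fun _ => rfl

/-- a map killed by `f` up to homotopy extends over the cone -/
theorem exists_desc (f : PMap U V) (g : PMap V W) (h : (g.comp f).Null) :
    ∃ g' : PMap (MC f) W, g'.comp (i f) = g := by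
  obtain ⟨H, hH, H0, H1, Hi⟩ := h.exists
  refine ⟨desc f g (fun a t => H (Set.projIcc (0 : ℝ) 1 zero_le_one (1 - t), a)) ?_ ?_ ?_ ?_, ?_⟩
  · exact hH.comp ((continuous_projIcc.comp (by fun_prop)).prodMk continuous_fst)
  · intro t; exact Hi _
  · intro a
    have : Set.projIcc (0 : ℝ) 1 zero_le_one (1 - 0) = 1 := by
      rw [sub_zero]; exact Set.projIcc_right _
    rw [this, H1]; rfl
  · intro a
    have : Set.projIcc (0 : ℝ) 1 zero_le_one (1 - 1) = 0 := by
      rw [sub_self]; exact Set.projIcc_left _
    rw [this, H0]; rfl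
  · refine PMap.ext fun y => ?_
    rw [PMap.comp_apply, desc_i]

end MC

end Crest.Agent.R090.Sp962
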