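import Crest.Agent.R090.QU_389
import Crest.Agent.R090.GSp_389
import Crest.Agent.R090.Dens_255

/-!
# Row 90, block (A), leaf A-IPOW (helper542): a `⊗`-ideal of pointed maps with the closed/open rules
is carried into itself (up to powers) by the power construction

* `MapPred`, `PId J` : two-sided ideal `J` of pointed maps of locally compact Hausdorff spaces,
  stable under `∧ 1`, with the two closed/open rules (the literal consequences of the ideal with
  sphere targets that are used);
* `PId.pow` : `J φ → J (pow ι φ)`;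
* `PId.qu`  : `J φ → J (QU.map φ ∘ QU.map φ)`;
* `PId.bal_*` : the three steps of the induction over free `G`-cells for `Bal.map`.
-/

set_option autoImplicit false
set_option linter.unusedSectionVars false

open Topology Filter Set

namespace Crest.Agent.R090.AIPow542

open OnePoint Crest.Agent.R090.Sp962 Crest.Agent.R090.Pi568 Crest.Agent.R090.Orb389
  Crest.Agent.R090.QU389 Crest.Agent.R090.GSp389 Crest.Agent.R090.Dens255

/-- predicates on pointed maps of locally compact Hausdorff spaces -/
abbrev MapPred : Type 1 :=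
  ∀ {U V : Type} [TopologicalSpace U] [T2Space U] [LocallyCompactSpace U]
    [TopologicalSpace V] [T2Space V] [LocallyCompactSpace V], PMap U V → Prop

/-- a two-sided `⊗`-ideal of pointed maps with the two closed/open rules -/
structure PId (J : MapPred) : Prop where
  left : ∀ {U V W : Type} [TopologicalSpace U] [T2Space U] [LocallyCompactSpace U]
    [TopologicalSpace V] [T2Space V] [LocallyCompactSpace V]
    [TopologicalSpace W] [T2Space W] [LocallyCompactSpace W] (g : PMap V W) (f : PMap U V),
    J f → J (g.comp f)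
  right : ∀ {U V W : Type} [TopologicalSpace U] [T2Space U] [LocallyCompactSpace U]
    [TopologicalSpace V] [T2Space V] [LocallyCompactSpace V]
    [TopologicalSpace W] [T2Space W] [LocallyCompactSpace W] (f : PMap V W) (g : PMap U V),
    J f → J (f.comp g)
  smash : ∀ {U V : Type} [TopologicalSpace U] [T2Space U] [LocallyCompactSpace U]
    [TopologicalSpace V] [T2Space V] [LocallyCompactSpace V] (f : PMap U V),
    J f → ∀ (W : Type) [TopologicalSpace W] [T2Space W] [LocallyCompactSpace W],
    J (f.smash (PMap.id W))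
  empty : ∀ {U V : Type} [TopologicalSpace U] [T2Space U] [LocallyCompactSpace U]
    [TopologicalSpace V] [T2Space V] [LocallyCompactSpace V] [IsEmpty U] (f : PMap U V), J f
  total : ∀ {F U O : Type} [TopologicalSpace F] [T2Space F] [LocallyCompactSpace F]
    [TopologicalSpace U] [T2Space U] [LocallyCompactSpace U]
    [TopologicalSpace O] [T2Space O] [LocallyCompactSpace O] (i : F → U) (hi : IsClosedEmbedding i)
    (e : O → U) (he : IsOpenEmbedding e), range e = (range i)ᶜ →
    ∀ (fF : PMap F F) (fU : PMap U U) (fO : PMap O O),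
      fU.comp (PMap.ofClosed i hi) = (PMap.ofClosed i hi).comp fF →
      (PMap.ofOpen e he).comp fU = fO.comp (PMap.ofOpen e he) → J fF → J fO → J (fU.comp fU)
  rot : ∀ {F U O : Type} [TopologicalSpace F] [T2Space F] [LocallyCompactSpace F]
    [TopologicalSpace U] [T2Space U] [LocallyCompactSpace U]
    [TopologicalSpace O] [T2Space O] [LocallyCompactSpace O] (i : F → U) (hi : IsClosedEmbedding i)
    (e : O → U) (he : IsOpenEmbedding e), range e = (range i)ᶜ →
    ∀ (fF : PMap F F) (fU : PMap U U) (fO : PMap O O),
      fU.comp (PMap.ofClosed i hi) = (PMap.ofClosed i hi).comp fF →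
      (PMap.ofOpen e he).comp fU = fO.comp (PMap.ofOpen e he) → J fF → J fU → J (fO.comp fO)

section iter

variable {U V W : Type*} [TopologicalSpace U] [TopologicalSpace V] [TopologicalSpace W]

theorem iter_one (f : PMap U U) : iter f 1 = f := rfl

theorem iter_two (f : PMap U U) : iter f 2 = f.comp f := rfl

theorem iter_add (f : PMap U U) (m n : ℕ) : iter f (m + n) = (iter f m).comp (iter f n) := by
  induction n with
  | zero => rfl
  | succ n ih => rw [← Nat.add_assoc, iter_succ, ih, iter_succ, PMap.comp_assoc]

theorem iter_mul (f : PMap U U) (m n : ℕ) : iter f (m * n) = iter (iter f m) n := by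
  induction n with
  | zero => rfl
  | succ n ih => rw [Nat.mul_succ, iter_add, ih, iter_succ]

theorem iter_comm (f : PMap U U) (m n : ℕ) :
    (iter f m).comp (iter f n) = (iter f n).comp (iter f m) := by
  rw [← iter_add, ← iter_add, Nat.add_comm]

/-- squares are inherited by iterates -/
theorem iter_square {f : PMap U U} {g : PMap V V} {p : PMap U V} (h : p.comp f = g.comp p) (n : ℕ) :
    p.comp (iter f n) = (iter g n).comp p := by
  induction n with
  | zero => rfl
  | succ n ih => rw [iter_succ, ← PMap.comp_assoc, ih, PMap.comp_assoc, h, iter_succ,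
      PMap.comp_assoc]

/-- a strictly functorial construction commutes with iterates -/
theorem iter_functor {f : PMap U U} {g : ℕ → PMap V V} (h0 : g 0 = PMap.id V)
    (hs : ∀ n, g (n + 1) = (g n).comp (g 1)) (n : ℕ) : g n = iter (g 1) n := by
  induction n with
  | zero => exact h0
  | succ n ih => rw [hs, ih, iter_succ]

end iter

namespace PId

variable {J : MapPred} (h : PId J)
include h

section basic

variable {U V W X : Type} [TopologicalSpace U] [T2Space U] [LocallyCompactSpace U]
  [TopologicalSpace V] [T2Space V] [LocallyCompactSpace V]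
  [TopologicalSpace W] [T2Space W] [LocallyCompactSpace W]
  [TopologicalSpace X] [T2Space X] [LocallyCompactSpace X]

theorem sandwich (g : PMap V W) {f : PMap U V} (k : PMap X U) (hf : J f) :
    J (g.comp (f.comp k)) := h.left g _ (h.right _ k hf)

/-- transport along a homeomorphism -/
theorem conj (e : U ≃ₜ V) {f : PMap U U} {g : PMap V V}
    (hc : g.comp (PMap.ofHomeo e) = (PMap.ofHomeo e).comp f) (hf : J f) : J g := by
  have : g = (PMap.ofHomeo e).comp (f.comp (PMap.ofHomeo e.symm)) := by
    rw [← PMap.comp_assoc, ← hc, PMap.comp_assoc, PMap.ofHomeo_comp_symm, PMap.comp_id]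
  rw [this]
  exact h.sandwich _ _ hf

theorem smash' {f : PMap U V} (hf : J f) (g : PMap W X) : J (f.smash g) := by
  have : f.smash g = ((PMap.id V).smash g).comp (f.smash (PMap.id W)) := by
    rw [PMap.smash_comp]; rfl
  rw [this]
  exact h.left _ _ (h.smash f hf W)

theorem iter_ge {f : PMap U U} {m n : ℕ} (hmn : m ≤ n) (hm : J (iter f m)) : J (iter f n) := by
  obtain ⟨k, rfl⟩ := Nat.exists_eq_add_of_le hmn
  rw [iter_add]
  exact h.right _ _ hm

/-- smash powers -/
theorem pi_fin {n : ℕ} (f : Fin (n + 1) → PMap U V) (hf : J (f 0)) : J (PMap.pi f) := by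
  have e : PMap.pi f = (PMap.ofHomeo (finSucc (fun _ => V)).symm).comp
      (((f 0).smash (PMap.pi (fun i : Fin n => f i.succ))).comp
        (PMap.ofHomeo (finSucc (fun _ => U)))) := by
    have e0 := finSucc_pi (U := fun _ : Fin (n + 1) => U) (V := fun _ : Fin (n + 1) => V) f
    rw [← e0, ← PMap.comp_assoc, PMap.ofHomeo_symm_comp, PMap.id_comp]
  rw [e]
  exact h.sandwich _ _ (h.smash' hf _)

theorem pow {ι : Type} [Finite ι] [Nonempty ι] {φ : PMap U V} (hφ : J φ) :
    J (pow ι φ) := by
  obtain ⟨n, ⟨e⟩⟩ := Finite.exists_equiv_fin ι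
  obtain ⟨i⟩ := ‹Nonempty ι›
  obtain ⟨m, rfl⟩ : ∃ m, n = m + 1 := ⟨n - 1, by have := (e i).pos; omega⟩
  have e1 : Pi568.pow ι φ = (PMap.ofHomeo (reixc V e.symm).symm).comp
      ((Pi568.pow (Fin (m + 1)) φ).comp (PMap.ofHomeo (reixc U e.symm))) := by
    rw [← reixc_pow, ← PMap.comp_assoc, PMap.ofHomeo_symm_comp, PMap.id_comp]
  rw [e1]
  exact h.sandwich _ _ (h.pi_fin _ hφ)

end basic

section qu

variable {U : Type} [TopologicalSpace U] [T2Space U] [LocallyCompactSpace U]
variable {q : ℕ} [NeZero q]

/-- the reduced power of a map in the ideal -/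
theorem qu {φ : PMap U U} (hφ : J φ) : J ((QU.map q φ).comp (QU.map q φ)) :=
  h.rot (QU.diag q U) QU.isClosedEmbedding_diag (QU.inc q U) QU.isOpenEmbedding_inc QU.range_inc
    φ (Pi568.pow (ZMod q) φ) (QU.map q φ) (QU.map_diag φ) (QU.map_collapse φ).symm hφ (h.pow hφ)

theorem qu_iter {φ : PMap U U} {k : ℕ} (hφ : J (iter φ k)) : J (iter (QU.map q φ) (k * 2)) := by
  have e : iter (QU.map q φ) k = QU.map q (iter φ k) := by
    induction k with
    | zero => exact QU.map_id.symm
    | succ k ih =>
      have : ∀ n, iter (QU.map q φ) n = QU.map q (iter φ n) := by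
        intro n
        induction n with
        | zero => exact QU.map_id.symm
        | succ n ih => rw [iter_succ, ih, iter_succ, QU.map_comp]
      exact this _
  rw [iter_mul, e]
  exact h.qu hφ

end qu

/-! ## balanced products -/

section bal

variable {G : Type} [Group G] [Finite G]
variable {A : Type} [TopologicalSpace A] [T2Space A] [LocallyCompactSpace A] [MulAction G A]
  [ContinuousConstSMul G A] {f : PMap A A} (hf : Equi G f)

theorem bal_total {F T O : GSp G} (p : GPair F T O) {a b : ℕ}
    (hF : J (iter (Bal.map hf F.X) a)) (hO : J (iter (Bal.map hf O.X) b)) :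
    J (iter (Bal.map hf T.X) (max a b * 2)) := by
  rw [iter_mul]
  refine h.total (Bal.incl A p.ie) (Bal.isClosedEmbedding_incl p.ie p.ic) (Bal.incl A p.je)
    (Bal.isOpenEmbedding_incl p.je p.jo) (Bal.range_compl A p)
    (iter (Bal.map hf F.X) (max a b)) _ (iter (Bal.map hf O.X) (max a b)) ?_ ?_
    (h.iter_ge (le_max_left _ _) hF) (h.iter_ge (le_max_right _ _) hO)
  · exact (iter_square (Bal.map_incl_closed hf p.ie p.ic).symm _).symm
  · exact iter_square (Bal.map_incl_open hf p.je p.jo).symm _

theorem bal_empty (T : GSp G) [IsEmpty T.X] (a : ℕ) : J (iter (Bal.map hf T.X) a) := by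
  have : IsEmpty (Bal G A T.X) := by
    refine ⟨fun x => ?_⟩
    obtain ⟨⟨_, t⟩, -⟩ := Orb.mk_surj (G := G) x
    exact isEmptyElim t
  exact h.empty _

theorem bal_cell [TopologicalSpace G] [DiscreteTopology G] (L : Type) [TopologicalSpace L]
    [T2Space L] [LocallyCompactSpace L] {a : ℕ} (ha : J (iter f a)) :
    J (iter (Bal.map hf (cellG G L).X) a) := by
  have e1 : iter (f.smash (PMap.id L)) a = (iter f a).smash (PMap.id L) := by
    have : ∀ n, iter (f.smash (PMap.id L)) n = (iter f n).smash (PMap.id L) := by
      intro n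
      induction n with
      | zero => exact PMap.smash_id.symm
      | succ n ih => rw [iter_succ, ih, iter_succ, PMap.smash_comp]; rfl
    exact this a
  refine h.conj (Bal.cell A L) (f := iter (f.smash (PMap.id L)) a) ?_ ?_
  · exact (iter_square (Bal.map_cell (L := L) hf).symm a).symm
  · rw [e1]
    exact h.smash _ ha L

/-- the induction step in the form of an induction principle over free `G`-spaces -/
theorem bal_ind [TopologicalSpace G] [DiscreteTopology G] {a : ℕ} (ha : J (iter f a))
    (T : GSp G)
    (ind : ∀ P : GSp G → Prop, (∀ T : GSp G, IsEmpty T.X → P T) →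
      (∀ n : ℕ, P (cellG G (Fin n → ℝ))) →
      (∀ {F T O : GSp G}, GPair F T O → P F → P O → P T) → P T) :
    ∃ k, J (iter (Bal.map hf T.X) k) :=
  ind (fun T => ∃ k, J (iter (Bal.map hf T.X) k))
    (fun T _ => ⟨0, h.bal_empty hf T 0⟩)
    (fun n => ⟨a, h.bal_cell hf (Fin n → ℝ) ha⟩)
    (fun p ⟨_, ha⟩ ⟨_, hb⟩ => ⟨_, h.bal_total hf p ha hb⟩)

end bal

end PId

end Crest.Agent.R090.AIPow542
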