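import Crest.Agent.R090.Exc_503
import Crest.Agent.R090.St3_528

/-!
# Row 90, leaf EX (helper503): the exact sequence of a closed pair in `St`, sphere targets

`SphT E`: every `OnePoint (E × ℂⁿ)` is a neighbourhood extensor (`E = ℝᵏ`, `ℂᵏ`, ...).
For `h : OC i e` (`F` closed in `U`, `O` the complement) and `SphT E`:

`St (U × Io) E → St (F × Io) E →[delta] St O E →[coll] St U E →[incl] St F E` is exact.
-/

set_option autoImplicit false
set_option linter.unusedSectionVars false
set_option linter.unusedVariables false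

open Topology Filter Set

namespace Crest.Agent.R090.Exc503

open OnePoint Crest.Agent.R090.Sp962 Crest.R090.Hep865
open Crest.Agent.R090.Grp528 Crest.Agent.R090.St528
open scoped unitInterval

universe u v w x u' v' w'

/-! ## sphere targets -/

/-- sphere targets -/
def SphT (E : Type x) [TopologicalSpace E] : Prop := ∀ n : ℕ, NE.{u} (OnePoint (S E n))

theorem SphT.of_homeo {E : Type x} {E' : Type w} [TopologicalSpace E] [TopologicalSpace E']
    (e : E ≃ₜ E') (h : SphT.{u} E) : SphT.{u} E' := fun n =>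
  NE.of_homeo (e.prodCongr (Homeomorph.refl (Fin n → ℂ))).onePointCongr (h n)

/-- finite dimensional real vector spaces are sphere targets -/
theorem SphT.fd (E : Type x) [AddCommGroup E] [Module ℝ E] [FiniteDimensional ℝ E]
    [TopologicalSpace E] [IsTopologicalAddGroup E] [ContinuousSMul ℝ E] [T2Space E] :
    SphT.{u} E := fun n => NE.onePoint (E × (Fin n → ℂ))

/-- `E × W` for a finite dimensional real vector space `W` -/
theorem SphT.fd_homeo {E : Type x} [TopologicalSpace E] (G : Type w) [AddCommGroup G] [Module ℝ G]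
    [FiniteDimensional ℝ G] [TopologicalSpace G] [IsTopologicalAddGroup G] [ContinuousSMul ℝ G]
    [T2Space G] (e : G ≃ₜ E) : SphT.{u} E := (SphT.fd G).of_homeo e

theorem SphT.unit : SphT.{u} Unit :=
  SphT.fd_homeo (Fin 0 → ℝ) (Homeomorph.homeomorphOfUnique _ _)

theorem SphT.real : SphT.{u} ℝ := SphT.fd ℝ
theorem SphT.complex : SphT.{u} ℂ := SphT.fd ℂ
theorem SphT.Io : SphT.{u} Io := SphT.real.of_homeo ioHomeo

/-- levels of a sphere target are `NE` -/
theorem SphT.ne {E : Type x} [TopologicalSpace E] (h : SphT.{u} E) : NE.{u} (OnePoint E) :=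
  NE.of_homeo (Homeomorph.onePointCongr
    { toFun := fun p => p.1
      invFun := fun a => (a, Fin.elim0)
      left_inv := fun p => Prod.ext rfl (Subsingleton.elim _ _)
      right_inv := fun _ => rfl
      continuous_toFun := by fun_prop
      continuous_invFun := by fun_prop }) (h 0)

/-! ## every mapping cone is an open-closed pair -/

section mc

variable {F : Type u} {U : Type v} [TopologicalSpace F] [TopologicalSpace U]
variable [T2Space F] [T2Space U] [LocallyCompactSpace F] [LocallyCompactSpace U]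

theorem MC.isClosedEmbedding_inr (f : PMap F U) : IsClosedEmbedding (MC.inr : U → MC f) := by
  refine ⟨OC.isEmbedding_inr f, ?_⟩
  have h1 : Function.Injective (MC.i f) := by
    intro a b hab
    induction a using OnePoint.rec with
    | infty =>
      induction b using OnePoint.rec with
      | infty => rfl
      | coe b => exact absurd hab.symm (coe_ne_infty _)
    | coe a =>
      induction b using OnePoint.rec with
      | infty => exact absurd hab (coe_ne_infty _)
      | coe b =>
        have := coe_injective hab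
        rw [MC.inr.injEq] at this
        rw [this]
  have h2 : IsClosedEmbedding (MC.i f) := (MC.i f).cont.isClosedEmbedding h1
  have h4 : range (MC.inr : U → MC f) = ((↑) : MC f → OnePoint (MC f)) ⁻¹' (range (MC.i f)) := by
    ext z
    constructor
    · rintro ⟨p, rfl⟩
      exact ⟨p, rfl⟩
    · rintro ⟨p, hp⟩
      induction p using OnePoint.rec with
      | infty => exact absurd hp.symm (coe_ne_infty _)
      | coe p => exact ⟨p, coe_injective hp⟩
  rw [h4]
  exact h2.isClosed_range.preimage continuous_coe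

/-- projection of the open part of the cone, inverse to `inl` -/
theorem MC.isOpenEmbedding_inl (f : PMap F U) : IsOpenEmbedding (MC.inl : F × Io → MC f) := by
  have hr : range (MC.inl : F × Io → MC f) = (range (MC.inr : U → MC f))ᶜ := by
    ext z
    rcases z with p | y
    · simp
    · simp
  have ho : IsOpen (range (MC.inl : F × Io → MC f)) := by
    rw [hr]
    exact (MC.isClosedEmbedding_inr f).isClosed_range.isOpen_compl
  refine ⟨?_, ho⟩
  -- continuity
  have hcont : Continuous (MC.inl : F × Io → MC f) := by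
    have h1 : Continuous fun p : F × Io => MC.q f (p.1 : OnePoint F) ((p.2 : Io) : ℝ) :=
      (MC.continuous_q f).comp ((continuous_coe.comp continuous_fst).prodMk
        (continuous_subtype_val.comp continuous_snd))
    have h2 : (fun p : F × Io => MC.q f (p.1 : OnePoint F) ((p.2 : Io) : ℝ)) =
        ((↑) : MC f → OnePoint (MC f)) ∘ MC.inl := by
      funext p
      exact MC.q_of_mem f p.1 p.2.2
    rw [h2] at h1
    exact isOpenEmbedding_coe.isEmbedding.continuous_iff.2 h1
  -- the map `p` is a left inverse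
  have hp : Continuous ((MC.p f) ∘ ((↑) : MC f → OnePoint (MC f))) :=
    (MC.p f).cont.comp continuous_coe
  have hi : IsInducing (((MC.p f) ∘ ((↑) : MC f → OnePoint (MC f))) ∘ MC.inl) := by
    have : (((MC.p f) ∘ ((↑) : MC f → OnePoint (MC f))) ∘ MC.inl) =
        ((↑) : F × Io → OnePoint (F × Io)) := by
      funext p
      rfl
    rw [this]
    exact isOpenEmbedding_coe.isInducing
  refine ⟨IsInducing.of_comp hcont hp hi, ?_⟩
  intro a b hab
  rw [MC.inl.injEq] at hab
  exact hab

/-- `U → MC f ← F × Io` -/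
theorem OC.ofMC (f : PMap F U) : OC (MC.inr : U → MC f) (MC.inl : F × Io → MC f) where
  ci := MC.isClosedEmbedding_inr f
  oe := MC.isOpenEmbedding_inl f
  compl := by
    ext z
    rcases z with p | y
    · simp
    · simp

theorem OC.ofMC_incl (f : PMap F U) : (OC.ofMC f).incl = MC.i f := PMap.ext fun _ => rfl

theorem OC.ofMC_coll (f : PMap F U) : (OC.ofMC f).coll = MC.p f := by
  refine PMap.ext fun z => ?_
  rcases z with p | y
  · exact (OC.ofMC f).coll_e p
  · exact (OC.ofMC f).coll_i y

end mc

/-! ## the exact sequence -/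

namespace OC

variable {F U O : Type u} {E : Type x}
variable [TopologicalSpace F] [TopologicalSpace U] [TopologicalSpace O] [TopologicalSpace E]
variable [T2Space F] [T2Space U] [T2Space O] [T2Space E]
variable [LocallyCompactSpace F] [LocallyCompactSpace U] [LocallyCompactSpace O]
  [LocallyCompactSpace E]
variable {i : F → U} {e : O → U}

/-- restriction to the closed part -/
noncomputable def res (h : OC i e) (E : Type x) [TopologicalSpace E] [T2Space E]
    [LocallyCompactSpace E] : St U E →+ St F E := St.homComp (St.ofP h.incl)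

/-- extension from the open part -/
noncomputable def ext (h : OC i e) (E : Type x) [TopologicalSpace E] [T2Space E]
    [LocallyCompactSpace E] : St O E →+ St U E := St.homComp (St.ofP h.coll)

@[simp] theorem res_apply (h : OC i e) (y : St U E) : h.res E y = y.comp (St.ofP h.incl) := rfl
@[simp] theorem ext_apply (h : OC i e) (y : St O E) : h.ext E y = y.comp (St.ofP h.coll) := rfl

theorem ofP_coll_comp_incl (h : OC i e) : (St.ofP h.coll).comp (St.ofP h.incl) = 0 := by
  rw [← St.ofP_comp, h.coll_comp_incl, St.ofP_zero]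

/-- **(S1)** exactness at `U` -/
theorem st_exists_coll (hE : SphT.{u} E) (h : OC i e) (y : St U E)
    (hy : y.comp (St.ofP h.incl) = 0) : ∃ z : St O E, y = z.comp (St.ofP h.coll) := by
  obtain ⟨n, -, a, rfl⟩ := y.exists_of_ge 0
  rw [St.ofP, St.map_eq_of _ n, St.of_comp_of, St.of_eq_zero_iff] at hy
  obtain ⟨k, hk⟩ := hy
  rw [stN_comp, stN_smash] at hk
  obtain ⟨g, hg⟩ := HC.mk_surj (stN a k)
  rw [← hg] at hk
  have hk' : (g.comp (h.prodRight (Fin (n + k) → ℂ)).incl).Null := by
    rw [h.prodRight_incl]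
    exact HC.mk_eq.1 hk
  obtain ⟨g', hg'⟩ := (h.prodRight (Fin (n + k) → ℂ)).exists_coll (hE (n + k)) g hk'
  refine ⟨St.of (n + k) (HC.mk g'), ?_⟩
  rw [St.ofP, St.map_eq_of _ (n + k), St.of_comp_of, ← St.of_stN a k, ← hg]
  congr 1
  rw [h.prodRight_coll] at hg'
  exact HC.sound hg'

/-- **(S3)** the collapse of a contractible closed subspace is injective -/
theorem st_collapse_inj (hE : SphT.{u} E) (h : OC i e) (hF : (PMap.id F).Null) {z : St O E}
    (hz : z.comp (St.ofP h.coll) = 0) : z = 0 := by
  obtain ⟨n, -, a, rfl⟩ := z.exists_of_ge 0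
  rw [St.ofP, St.map_eq_of _ n, St.of_comp_of, St.of_eq_zero_iff] at hz
  obtain ⟨k, hk⟩ := hz
  rw [stN_comp, stN_smash] at hk
  obtain ⟨g, hg⟩ := HC.mk_surj (stN a k)
  rw [← hg] at hk
  rw [St.of_eq_zero_iff]
  refine ⟨k, ?_⟩
  rw [← hg]
  refine HC.sound ((h.prodRight (Fin (n + k) → ℂ)).collapse_inj (hE (n + k)) ?_ ?_)
  · rw [← PMap.smash_id]
    exact hF.smash_left _
  · rw [h.prodRight_coll]
    exact HC.mk_eq.1 hk

/-- the collapse of a contractible closed subspace is surjective -/
theorem st_collapse_surj (hE : SphT.{u} E) (h : OC i e) (hF : (PMap.id F).Null) (y : St U E) :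
    ∃ z : St O E, y = z.comp (St.ofP h.coll) := by
  refine h.st_exists_coll hE y ?_
  have : (h.incl).Null := by
    have := hF.comp_left h.incl
    rwa [PMap.comp_id] at this
  rw [St.ofP_null this, St.comp_zero]

/-- `c^*` is injective -/
theorem st_c_inj (hE : SphT.{u} E) (h : OC i e) {z : St O E}
    (hz : z.comp (St.ofP h.c) = 0) : z = 0 := h.cone.st_collapse_inj hE (null_cone F) hz

theorem st_c_inj' (hE : SphT.{u} E) (h : OC i e) {z z' : St O E}
    (hz : z.comp (St.ofP h.c) = z'.comp (St.ofP h.c)) : z = z' := by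
  rw [← sub_eq_zero]
  refine h.st_c_inj hE ?_
  rw [St.sub_comp, hz, sub_self]

/-- `c^*` is surjective -/
theorem st_c_surj (hE : SphT.{u} E) (h : OC i e) (y : St (MC h.incl) E) :
    ∃ z : St O E, y = z.comp (St.ofP h.c) := h.cone.st_collapse_surj hE (null_cone F) y

/-- `c^* : St O E ≃+ St (MC incl) E` -/
noncomputable def cEquiv (hE : SphT.{u} E) (h : OC i e) : St O E ≃+ St (MC h.incl) E :=
  AddEquiv.ofBijective (St.homComp (St.ofP h.c))
    ⟨fun _ _ hz => h.st_c_inj' hE hz, fun y => (h.st_c_surj hE y).imp fun _ hz => hz.symm⟩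

theorem cEquiv_apply (hE : SphT.{u} E) (h : OC i e) (z : St O E) :
    h.cEquiv hE z = z.comp (St.ofP h.c) := rfl

/-- **the connecting map** `St (F × Io) E → St O E`, `(δ w) ∘ c = w ∘ p` -/
noncomputable def delta (hE : SphT.{u} E) (h : OC i e) : St (F × Io) E →+ St O E :=
  (h.cEquiv hE).symm.toAddMonoidHom.comp (St.homComp (St.ofP (MC.p h.incl)))

theorem delta_comp_c (hE : SphT.{u} E) (h : OC i e) (w : St (F × Io) E) :
    (h.delta hE w).comp (St.ofP h.c) = w.comp (St.ofP (MC.p h.incl)) :=
  (h.cEquiv hE).apply_symm_apply _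

theorem eq_delta_iff (hE : SphT.{u} E) (h : OC i e) (z : St O E) (w : St (F × Io) E) :
    z = h.delta hE w ↔ z.comp (St.ofP h.c) = w.comp (St.ofP (MC.p h.incl)) := by
  rw [← delta_comp_c hE]
  exact ⟨fun h => by rw [h], fun hz => h.st_c_inj' hE hz⟩

theorem ofP_c_comp_i (h : OC i e) :
    (St.ofP h.c).comp (St.ofP (MC.i h.incl)) = St.ofP h.coll := by
  rw [← St.ofP_comp, h.c_comp_i]

theorem delta_comp_coll (hE : SphT.{u} E) (h : OC i e) (w : St (F × Io) E) :
    (h.delta hE w).comp (St.ofP h.coll) = 0 := by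
  rw [← ofP_c_comp_i, ← St.comp_assoc, delta_comp_c, St.comp_assoc, ← St.ofP_comp, MC.p_comp_i,
    St.ofP_zero, St.comp_zero]

/-- **(S2)** exactness at `O` -/
theorem st_exists_delta (hE : SphT.{u} E) (h : OC i e) (z : St O E)
    (hz : z.comp (St.ofP h.coll) = 0) : ∃ w : St (F × Io) E, z = h.delta hE w := by
  obtain ⟨w, hw⟩ := (OC.ofMC h.incl).st_exists_coll hE (z.comp (St.ofP h.c)) (by
    rw [OC.ofMC_incl, St.comp_assoc, ofP_c_comp_i, hz])
  refine ⟨w, (h.eq_delta_iff hE _ _).2 ?_⟩
  rw [hw, OC.ofMC_coll]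

theorem exact_U (hE : SphT.{u} E) (h : OC i e) : Function.Exact (h.ext E) (h.res E) := by
  intro y
  constructor
  · intro hy
    obtain ⟨z, hz⟩ := h.st_exists_coll hE y hy
    exact ⟨z, hz.symm⟩
  · rintro ⟨z, rfl⟩
    rw [ext_apply, res_apply, St.comp_assoc, ofP_coll_comp_incl, St.comp_zero]

theorem exact_O (hE : SphT.{u} E) (h : OC i e) : Function.Exact (h.delta hE) (h.ext E) := by
  intro z
  constructor
  · intro hz
    obtain ⟨w, hw⟩ := h.st_exists_delta hE z hz
    exact ⟨w, hw.symm⟩
  · rintro ⟨w, rfl⟩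
    exact h.delta_comp_coll hE w

end OC

/-! ### the second Puppe map -/

section puppe

variable {F : Type u} {U : Type v} [TopologicalSpace F] [TopologicalSpace U]
variable [T2Space F] [T2Space U] [LocallyCompactSpace F] [LocallyCompactSpace U]

theorem flip_qI {t : ℝ} (ht : t ∈ Icc (0 : ℝ) 1) :
    PMap.ofHomeo MC.flipIo (qI t) = qI (1 - t) := by
  by_cases h : t ∈ Ioo (0 : ℝ) 1
  · have h' : 1 - t ∈ Ioo (0 : ℝ) 1 := ⟨by linarith [h.2], by linarith [h.1]⟩
    rw [qI_of_mem h, qI_of_mem h']
    rfl
  · rw [mem_Ioo, not_and_or, not_lt, not_lt] at h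
    rcases h with h | h
    · have : t = 0 := le_antisymm h ht.1
      subst this
      simp
    · have : t = 1 := le_antisymm ht.2 h
      subst this
      simp

/-- `p₂ ≃ (f ∧ flip) ∘ c₂ : MC (U → MC f) → U × Io` -/
theorem homotopic_p2 (f : PMap F U) :
    (MC.p (OC.ofMC f).incl).Homotopic
      ((f.smash (PMap.ofHomeo MC.flipIo)).comp (OC.ofMC f).c) := by
  let h := OC.ofMC f
  have hi : ∀ y, h.incl y = MC.i f y := fun y => by rw [OC.ofMC_incl]
  have hc : ∀ z, h.coll z = MC.p f z := fun z => by rw [OC.ofMC_coll]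
  -- the homotopy on `MC f`
  let A : I → OnePoint (MC f) → OnePoint (U × Io) := fun τ =>
    MC.lift f (fun a t => sm (f a) (qI (2 - t - τ))) (fun y => sm y (qI (1 - τ)))
  have hA1 : ∀ (τ : I) a (t : ℝ), t ∈ Icc (0 : ℝ) 1 →
      A τ (MC.q f a t) = sm (f a) (qI (2 - t - τ)) := by
    intro τ a t ht
    refine MC.lift_q f _ _ ?_ ?_ ?_ a ht
    · intro t; simp
    · intro a
      rw [sm_inf_left, qI_of_ge (by linarith [τ.2.2]), sm_inf_right]
    · intro a
      congr 2
      ring
  have hA2 : ∀ (τ : I) y, A τ (MC.i f y) = sm y (qI (1 - τ)) := fun τ y => MC.lift_i f _ _ y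
  have hAc : Continuous fun p : I × OnePoint (MC f) => A p.1 p.2 := by
    refine MC.continuous_of f ?_ ?_
    · have : (fun p : I × (OnePoint F × I) => A p.1 (MC.q f p.2.1 p.2.2)) =
          fun p => sm (f p.2.1) (qI (2 - p.2.2 - p.1)) := by
        funext p
        exact hA1 _ _ _ p.2.2.2
      rw [this]
      exact (f.cont.comp (by fun_prop)).sm962 (continuous_qI.comp (by fun_prop))
    · have : (fun p : I × OnePoint U => A p.1 (MC.i f p.2)) =
          fun p => sm p.2 (qI (1 - p.1)) := by
        funext p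
        exact hA2 _ _
      rw [this]
      exact continuous_snd.sm962 (continuous_qI.comp (by fun_prop))
  -- the homotopy on `MC h.incl`
  let B : I → OnePoint (MC h.incl) → OnePoint (U × Io) := fun τ =>
    MC.lift h.incl (fun y s => sm y (qI (s - τ))) (A τ)
  have hAinf : ∀ τ, A τ ∞ = ∞ := fun τ => by
    have := hA2 τ ∞
    rw [(MC.i f).map_inf, sm_inf_left] at this
    exact this
  have hB1 : ∀ (τ : I) y (s : ℝ), s ∈ Icc (0 : ℝ) 1 →
      B τ (MC.q h.incl y s) = sm y (qI (s - τ)) := by
    intro τ y s hs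
    refine MC.lift_q h.incl _ _ ?_ ?_ ?_ y hs
    · intro t; rw [hAinf, sm_inf_left]
    · intro a
      rw [hAinf, qI_of_le (by linarith [τ.2.1]), sm_inf_right]
    · intro a
      rw [hi, hA2]
  have hB2 : ∀ (τ : I) z, B τ (MC.i h.incl z) = A τ z := fun τ z => MC.lift_i h.incl _ _ z
  have hBc : Continuous fun p : I × OnePoint (MC h.incl) => B p.1 p.2 := by
    refine MC.continuous_of h.incl ?_ ?_
    · have : (fun p : I × (OnePoint U × I) => B p.1 (MC.q h.incl p.2.1 p.2.2)) =
          fun p => sm p.2.1 (qI (p.2.2 - p.1)) := by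
        funext p
        exact hB1 _ _ _ p.2.2.2
      rw [this]
      exact (continuous_fst.comp continuous_snd).sm962 (continuous_qI.comp (by fun_prop))
    · have : (fun p : I × OnePoint (MC f) => B p.1 (MC.i h.incl p.2)) =
          fun p => A p.1 p.2 := by
        funext p
        exact hB2 _ _
      rw [this]
      exact hAc
  refine PMap.Homotopic.of (fun p => B p.1 p.2) hBc ?_ ?_ ?_
  · intro z
    refine MC.cases h.incl (P := fun z => B 0 z = MC.p h.incl z) ?_ ?_ (z : OnePoint (MC h.incl))
    · intro y s hs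
      rw [hB1 _ _ _ hs, MC.p_q, Set.Icc.coe_zero, sub_zero]
    · intro z
      rw [hB2, MC.p_i]
      refine MC.cases f (P := fun z => A 0 z = ∞) ?_ ?_ z
      · intro a t ht
        rw [hA1 _ _ _ ht, Set.Icc.coe_zero, sub_zero, qI_of_ge (by linarith [ht.2]), sm_inf_right]
      · intro y
        rw [hA2, Set.Icc.coe_zero, sub_zero, qI_one, sm_inf_right]
  · intro z
    refine MC.cases h.incl (P := fun z => B 1 z =
      (f.smash (PMap.ofHomeo MC.flipIo)).comp h.c z) ?_ ?_ (z : OnePoint (MC h.incl))
    · intro y s hs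
      rw [hB1 _ _ _ hs, PMap.comp_apply, h.c_q _ hs, PMap.map_inf, Set.Icc.coe_one,
        qI_of_le (by linarith [hs.2]), sm_inf_right]
    · intro z
      rw [hB2, PMap.comp_apply, h.c_i, hc]
      refine MC.cases f (P := fun z => A 1 z =
        (f.smash (PMap.ofHomeo MC.flipIo)) (MC.p f z)) ?_ ?_ z
      · intro a t ht
        rw [hA1 _ _ _ ht, MC.p_q, PMap.smash_sm, flip_qI ht, Set.Icc.coe_one]
        congr 2
        ring
      · intro y
        rw [hA2, MC.p_i, PMap.map_inf, Set.Icc.coe_one, sub_self, qI_zero, sm_inf_right]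
  · intro τ
    have := hB2 τ ∞
    rw [(MC.i h.incl).map_inf, hAinf] at this
    exact this

/-- `(f ∧ 1) ∘ p : MC f → U × Io` is null -/
theorem null_smash_comp_p (f : PMap F U) :
    ((f.smash (PMap.id Io)).comp (MC.p f)).Null := by
  let A : I → OnePoint (MC f) → OnePoint (U × Io) := fun τ =>
    MC.lift f (fun a t => sm (f a) (qI (t - τ))) (fun y => sm y (qI (1 - τ)))
  have hA1 : ∀ (τ : I) a (t : ℝ), t ∈ Icc (0 : ℝ) 1 →
      A τ (MC.q f a t) = sm (f a) (qI (t - τ)) := by
    intro τ a t ht
    refine MC.lift_q f _ _ ?_ ?_ ?_ a ht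
    · intro t; simp
    · intro a
      rw [sm_inf_left, qI_of_le (by linarith [τ.2.1]), sm_inf_right]
    · intro a
      rfl
  have hA2 : ∀ (τ : I) y, A τ (MC.i f y) = sm y (qI (1 - τ)) := fun τ y => MC.lift_i f _ _ y
  have hAc : Continuous fun p : I × OnePoint (MC f) => A p.1 p.2 := by
    refine MC.continuous_of f ?_ ?_
    · have : (fun p : I × (OnePoint F × I) => A p.1 (MC.q f p.2.1 p.2.2)) =
          fun p => sm (f p.2.1) (qI (p.2.2 - p.1)) := by
        funext p
        exact hA1 _ _ _ p.2.2.2
      rw [this]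
      exact (f.cont.comp (by fun_prop)).sm962 (continuous_qI.comp (by fun_prop))
    · have : (fun p : I × OnePoint U => A p.1 (MC.i f p.2)) =
          fun p => sm p.2 (qI (1 - p.1)) := by
        funext p
        exact hA2 _ _
      rw [this]
      exact continuous_snd.sm962 (continuous_qI.comp (by fun_prop))
  refine PMap.Homotopic.of (fun p => A p.1 p.2) hAc ?_ ?_ ?_
  · intro z
    refine MC.cases f (P := fun z => A 0 z =
      (f.smash (PMap.id Io)).comp (MC.p f) z) ?_ ?_ (z : OnePoint (MC f))
    · intro a t ht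
      rw [hA1 _ _ _ ht, PMap.comp_apply, MC.p_q, PMap.smash_sm, Set.Icc.coe_zero, sub_zero]
      rfl
    · intro y
      rw [hA2, PMap.comp_apply, MC.p_i, PMap.map_inf, Set.Icc.coe_zero, sub_zero, qI_one,
        sm_inf_right]
  · intro z
    refine MC.cases f (P := fun z => A 1 z = ∞) ?_ ?_ (z : OnePoint (MC f))
    · intro a t ht
      rw [hA1 _ _ _ ht, Set.Icc.coe_one, qI_of_le (by linarith [ht.2]), sm_inf_right]
    · intro y
      rw [hA2, Set.Icc.coe_one, sub_self, qI_zero, sm_inf_right]
  · intro τ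
    have := hA2 τ ∞
    rw [(MC.i f).map_inf, sm_inf_left] at this
    exact this

end puppe

namespace OC

variable {F U O : Type u} {E : Type x}
variable [TopologicalSpace F] [TopologicalSpace U] [TopologicalSpace O] [TopologicalSpace E]
variable [T2Space F] [T2Space U] [T2Space O] [T2Space E]
variable [LocallyCompactSpace F] [LocallyCompactSpace U] [LocallyCompactSpace O]
  [LocallyCompactSpace E]
variable {i : F → U} {e : O → U}

/-- restriction of suspended classes -/
noncomputable def resS (h : OC i e) (E : Type x) [TopologicalSpace E] [T2Space E]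
    [LocallyCompactSpace E] : St (U × Io) E →+ St (F × Io) E :=
  St.homComp (St.ofP (h.incl.smash (PMap.id Io)))

@[simp] theorem resS_apply (h : OC i e) (y : St (U × Io) E) :
    h.resS E y = y.comp (St.ofP (h.incl.smash (PMap.id Io))) := rfl

/-- exactness at `F × Io` -/
theorem delta_eq_zero (hE : SphT.{u} E) (h : OC i e) (w : St (F × Io) E)
    (hw : h.delta hE w = 0) : ∃ v : St (U × Io) E, w = v.comp (St.ofP (h.incl.smash (PMap.id Io))) := by
  have h1 : w.comp (St.ofP (OC.ofMC h.incl).coll) = 0 := by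
    rw [OC.ofMC_coll, ← h.delta_comp_c hE, hw, St.zero_comp]
  obtain ⟨v, hv⟩ := (OC.ofMC h.incl).st_exists_delta hE w h1
  rw [eq_delta_iff] at hv
  rw [St.ofP_congr (homotopic_p2 h.incl), St.ofP_comp, ← St.comp_assoc] at hv
  have h2 := (OC.ofMC h.incl).st_c_inj' hE hv
  refine ⟨v.comp (St.ofP ((PMap.id U).smash (PMap.ofHomeo MC.flipIo))), ?_⟩
  rw [h2, St.comp_assoc, ← St.ofP_comp]
  congr 2
  refine PMap.ext fun p => ?_
  rfl

theorem delta_comp_incl (hE : SphT.{u} E) (h : OC i e) (v : St (U × Io) E) :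
    h.delta hE (v.comp (St.ofP (h.incl.smash (PMap.id Io)))) = 0 := by
  symm
  rw [eq_delta_iff, St.zero_comp, St.comp_assoc, ← St.ofP_comp,
    St.ofP_null (null_smash_comp_p h.incl), St.comp_zero]

theorem exact_F (hE : SphT.{u} E) (h : OC i e) : Function.Exact (h.resS E) (h.delta hE) := by
  intro w
  constructor
  · intro hw
    obtain ⟨v, hv⟩ := h.delta_eq_zero hE w hw
    exact ⟨v, hv.symm⟩
  · rintro ⟨v, rfl⟩
    exact h.delta_comp_incl hE v

end OC

/-! ### naturality for strict maps of pairs -/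

section nat

variable {F U O : Type u} {F' U' O' : Type u} {E : Type x}
variable [TopologicalSpace F] [TopologicalSpace U] [TopologicalSpace O] [TopologicalSpace E]
variable [T2Space F] [T2Space U] [T2Space O] [T2Space E]
variable [LocallyCompactSpace F] [LocallyCompactSpace U] [LocallyCompactSpace O]
  [LocallyCompactSpace E]
variable [TopologicalSpace F'] [TopologicalSpace U'] [TopologicalSpace O']
variable [T2Space F'] [T2Space U'] [T2Space O'] [LocallyCompactSpace F'] [LocallyCompactSpace U']
  [LocallyCompactSpace O']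
variable {i : F → U} {e : O → U} {i' : F' → U'} {e' : O' → U'}

/-- naturality of the connecting map -/
theorem OC.delta_nat (hE : SphT.{u} E) (h : OC i e) (h' : OC i' e') (φ : PMap F F')
    (ψ : PMap U U') (χ : PMap O O') (hsq : ψ.comp h.incl = h'.incl.comp φ)
    (hsq' : h'.coll.comp ψ = χ.comp h.coll) (w : St (F' × Io) E) :
    (h'.delta hE w).comp (St.ofP χ) = h.delta hE (w.comp (St.ofP (φ.smash (PMap.id Io)))) := by
  rw [OC.eq_delta_iff, St.comp_assoc, ← St.ofP_comp, ← OC.c_comp_mcMap h h' φ ψ χ hsq hsq',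
    St.ofP_comp, ← St.comp_assoc, OC.delta_comp_c, St.comp_assoc, ← St.ofP_comp, p_comp_mcMap,
    St.ofP_comp, ← St.comp_assoc]

/-- naturality of the restriction -/
theorem OC.res_nat (h : OC i e) (h' : OC i' e') (φ : PMap F F') (ψ : PMap U U')
    (hsq : ψ.comp h.incl = h'.incl.comp φ) (y : St U' E) :
    (y.comp (St.ofP ψ)).comp (St.ofP h.incl) = (y.comp (St.ofP h'.incl)).comp (St.ofP φ) := by
  rw [St.comp_assoc, ← St.ofP_comp, hsq, St.ofP_comp, ← St.comp_assoc]

/-- naturality of the extension -/
theorem OC.ext_nat (h : OC i e) (h' : OC i' e') (ψ : PMap U U') (χ : PMap O O')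
    (hsq' : h'.coll.comp ψ = χ.comp h.coll) (z : St O' E) :
    (z.comp (St.ofP χ)).comp (St.ofP h.coll) = (z.comp (St.ofP h'.coll)).comp (St.ofP ψ) := by
  rw [St.comp_assoc, ← St.ofP_comp, ← hsq', St.ofP_comp, ← St.comp_assoc]

/-- the connecting map commutes with stable maps between sphere targets -/
theorem OC.comp_delta {E' : Type w} [TopologicalSpace E'] [T2Space E'] [LocallyCompactSpace E']
    (hE : SphT.{u} E) (hE' : SphT.{u} E') (h : OC i e) (t : St E E') (w : St (F × Io) E) :
    t.comp (h.delta hE w) = h.delta hE' (t.comp w) := by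
  rw [OC.eq_delta_iff, St.comp_assoc, OC.delta_comp_c, St.comp_assoc]

/-- restriction is bijective if the open part is contractible (used with vanishing arguments) -/
theorem OC.st_ext_surj_of_res (hE : SphT.{u} E) (h : OC i e)
    (hF : ∀ y : St F E, y = 0) (y : St U E) : ∃ z : St O E, y = z.comp (St.ofP h.coll) :=
  h.st_exists_coll hE y (hF _)

end nat

end Crest.Agent.R090.Exc503
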