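import Mathlib
import Crest.Prelude.Def_TorusSlots

/-!
# Row 90, GLUE part B = NBHD (owner helper264)

* `continuous_torusEmb`, `isClosed_torusLocus`, `continuous_totalProj`;
* `exists_nbhd` : there are a closed neighbourhood `Z` of the torus locus and a continuous map `Φ₀`
  on all of `Y × T` (Tietze) which is injective on the slot bundle over `Z`.
-/

set_option autoImplicit false

open Topology Filter Set

namespace Crest.Agent.R090.Nbhd264

open Crest.OpAlg

theorem continuous_torusData (m : ℕ) : Continuous (torusData m) := by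
  induction m with
  | zero => exact continuous_const
  | succ m ih =>
    have h1 : Continuous fun w : Fin (m + 1) → Circle => torusData m (Fin.init w) :=
      ih.comp (Continuous.finInit continuous_id)
    have h2 : Continuous fun w : Fin (m + 1) → Circle => ((w (Fin.last m) : Circle) : ℂ) :=
      continuous_subtype_val.comp (continuous_apply _)
    have h3 : Continuous fun w : Fin (m + 1) → Circle => ((w (Fin.last m) : Circle) : ℂ).re :=
      Complex.continuous_re.comp h2
    have h4 : Continuous fun w : Fin (m + 1) → Circle => ((w (Fin.last m) : Circle) : ℂ).im :=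
      Complex.continuous_im.comp h2
    refine Continuous.prodMk ?_ ?_
    · exact Continuous.finSnoc (A := fun _ => ℝ)
        ((continuous_fst.comp h1).add ((continuous_const.mul h3).smul (continuous_snd.comp h1)))
        (continuous_const.mul h4)
    · exact Continuous.finSnoc (A := fun _ => ℝ) (h3.smul (continuous_snd.comp h1)) h4

theorem continuous_torusEmb (p : ℕ) : Continuous (torusEmb p) :=
  continuous_fst.comp (continuous_torusData (2 * p))

theorem isClosed_sparse (t n : ℕ) (s : ℝ) : IsClosed (sparse t n s) := by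
  have h1 : IsClosed {z : Fin n → Fin t → ℝ | ∀ j k, |z j k| ≤ 2} := by
    have : {z : Fin n → Fin t → ℝ | ∀ j k, |z j k| ≤ 2} = ⋂ j, ⋂ k, {z | |z j k| ≤ 2} := by
      ext z; simp
    rw [this]
    refine isClosed_iInter fun j => isClosed_iInter fun k => ?_
    exact isClosed_le (by fun_prop) continuous_const
  have h2 : IsClosed {z : Fin n → Fin t → ℝ | (({j | z j ≠ 0} : Set (Fin n)).ncard : ℝ) ≤ s} := by
    rw [← isOpen_compl_iff, isOpen_iff_mem_nhds]
    intro z hz
    simp only [mem_compl_iff, mem_ofPred_eq, not_le] at hz ⊢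
    have : ∀ᶠ z' in 𝓝 z, ∀ j, z j ≠ 0 → z' j ≠ 0 := by
      rw [eventually_all]
      intro j
      by_cases hj : z j = 0
      · exact Eventually.of_forall fun _ h => absurd hj h
      · have : ∀ᶠ z' : Fin n → Fin t → ℝ in 𝓝 z, z' j ≠ 0 :=
          (continuous_apply j).continuousAt.eventually_ne hj
        exact this.mono fun _ h _ => h
    filter_upwards [this] with z' hz'
    simp only [mem_compl_iff, mem_ofPred_eq, not_le]
    refine lt_of_lt_of_le hz ?_
    exact_mod_cast Set.ncard_le_ncard (fun j hj => hz' j hj) (Set.toFinite _)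
  exact h1.inter h2

theorem isClosed_torusLocus {Y : Type*} [TopologicalSpace Y] (p n : ℕ) (s : ℝ)
    {f : Y → Fin n → Fin (2 * p + 1) → ℝ} (hf : Continuous f) :
    IsClosed (torusLocus p n s f) := by
  refine (isClosed_sparse _ _ _).preimage ?_
  refine continuous_pi fun j => ?_
  exact ((continuous_apply j).comp (hf.comp continuous_fst)).sub
    ((continuous_torusEmb p).comp ((continuous_apply j).comp continuous_snd))

/-- `|x|² ≠ 0` for the sphere vector -/
theorem sphereVec_pos (z₁ z₂ : Circle) :
    0 < sphereVec z₁ z₂ 0 ^ 2 + sphereVec z₁ z₂ 1 ^ 2 + sphereVec z₁ z₂ 2 ^ 2 := by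
  have h1 : (z₁ : ℂ).re ^ 2 + (z₁ : ℂ).im ^ 2 = 1 := by
    have := Circle.normSq_coe z₁
    rw [Complex.normSq_apply] at this; nlinarith
  have h2 : (z₂ : ℂ).re ^ 2 + (z₂ : ℂ).im ^ 2 = 1 := by
    have := Circle.normSq_coe z₂
    rw [Complex.normSq_apply] at this; nlinarith
  simp only [sphereVec, Matrix.cons_val_zero, Matrix.cons_val_one, Matrix.cons_val]
  generalize (z₁ : ℂ).re = a at *
  generalize (z₁ : ℂ).im = b at *
  generalize (z₂ : ℂ).re = c at *
  generalize (z₂ : ℂ).im = d at *
  by_contra hcon
  push Not at hcon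
  have hb := sq_nonneg b
  have hd := sq_nonneg d
  have hac := sq_nonneg (a + c - 1)
  have e1 : b = 0 := by nlinarith
  have e2 : d = 0 := by nlinarith
  have e3 : a + c - 1 = 0 := by nlinarith
  rw [e1] at h1
  rw [e2] at h2
  have e4 : c = 1 - a := by linarith
  rw [e4] at h2
  nlinarith

theorem continuous_sphereVec : Continuous fun z : Circle × Circle => sphereVec z.1 z.2 := by
  have h1 : Continuous fun z : Circle × Circle => ((z.1 : Circle) : ℂ) :=
    continuous_subtype_val.comp continuous_fst
  have h2 : Continuous fun z : Circle × Circle => ((z.2 : Circle) : ℂ) :=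
    continuous_subtype_val.comp continuous_snd
  refine continuous_pi fun i => ?_
  fin_cases i
  · exact Complex.continuous_im.comp h1
  · exact Complex.continuous_im.comp h2
  · exact ((Complex.continuous_re.comp h1).add (Complex.continuous_re.comp h2)).sub continuous_const

theorem continuous_lineProj : Continuous fun z : Circle × Circle => lineProj z.1 z.2 := by
  have hs := continuous_sphereVec
  have h0 : Continuous fun z : Circle × Circle => sphereVec z.1 z.2 0 :=
    (continuous_apply 0).comp hs
  have h1 : Continuous fun z : Circle × Circle => sphereVec z.1 z.2 1 :=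
    (continuous_apply 1).comp hs
  have h2 : Continuous fun z : Circle × Circle => sphereVec z.1 z.2 2 :=
    (continuous_apply 2).comp hs
  have hr : Continuous fun z : Circle × Circle => Real.sqrt (sphereVec z.1 z.2 0 ^ 2 +
      sphereVec z.1 z.2 1 ^ 2 + sphereVec z.1 z.2 2 ^ 2) := by fun_prop
  have hr0 : ∀ z : Circle × Circle, Real.sqrt (sphereVec z.1 z.2 0 ^ 2 +
      sphereVec z.1 z.2 1 ^ 2 + sphereVec z.1 z.2 2 ^ 2) ≠ 0 := fun z =>
    (Real.sqrt_pos.2 (sphereVec_pos z.1 z.2)).ne'
  have d0 := h0.div hr hr0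
  have d1 := h1.div hr hr0
  have d2 := h2.div hr hr0
  refine continuous_matrix fun i j => ?_
  fin_cases i <;> fin_cases j <;>
    simp only [lineProj, bottProj, Matrix.of_apply, Matrix.cons_val', Matrix.cons_val_zero,
      Matrix.cons_val_one, Matrix.cons_val_fin_one, Fin.zero_eta, Fin.mk_one, Fin.isValue]
  · exact (Complex.continuous_ofReal.comp (continuous_const.add d2)).div_const _
  · exact ((Complex.continuous_ofReal.comp d0).sub
      ((Complex.continuous_ofReal.comp d1).mul continuous_const)).div_const _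
  · exact ((Complex.continuous_ofReal.comp d0).add
      ((Complex.continuous_ofReal.comp d1).mul continuous_const)).div_const _
  · exact (Complex.continuous_ofReal.comp (continuous_const.sub d2)).div_const _

theorem continuous_slotProj (p : ℕ) : Continuous (slotProj p) := by
  have h2 : ∀ i : Fin p, Continuous fun w : Fin (2 * p) → Circle =>
      lineProj (w ⟨2 * i.val, by omega⟩) (w ⟨2 * i.val + 1, by omega⟩) := by
    intro i
    have h : Continuous fun w : Fin (2 * p) → Circle =>
        ((w ⟨2 * i.val, by omega⟩, w ⟨2 * i.val + 1, by omega⟩) : Circle × Circle) :=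
      (continuous_apply _).prodMk (continuous_apply _)
    have h3 := continuous_lineProj.comp h
    simp only [Function.comp_def] at h3
    exact h3
  have h4 : Continuous fun (w : Fin (2 * p) → Circle) (i : Fin p) =>
      lineProj (w ⟨2 * i.val, by omega⟩) (w ⟨2 * i.val + 1, by omega⟩) :=
    continuous_pi h2
  exact h4.matrix_blockDiagonal

theorem continuous_totalProj (p n : ℕ) : Continuous (totalProj p n) := by
  unfold totalProj
  refine Continuous.matrix_blockDiagonal ?_
  refine continuous_pi fun j => ?_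
  exact (continuous_slotProj p).comp (continuous_apply j)

/-- the set where a family of matrices is injective on the ranges of a family of matrices is open -/
theorem isOpen_inj {X : Type*} [TopologicalSpace X] {ι κ : Type*} [Fintype ι] [Fintype κ]
    (P : X → Matrix ι ι ℂ) (hP : Continuous P) (Φ : X → Matrix κ ι ℂ) (hΦ : Continuous Φ) :
    IsOpen {x | ∀ v : ι → ℂ, (P x).mulVec v = v → (Φ x).mulVec v = 0 → v = 0} := by
  have hc : IsClosed {q : X × Metric.sphere (0 : ι → ℂ) 1 |
      (P q.1).mulVec (q.2 : ι → ℂ) = (q.2 : ι → ℂ) ∧ (Φ q.1).mulVec (q.2 : ι → ℂ) = 0} := by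
    have h2 : Continuous fun q : X × Metric.sphere (0 : ι → ℂ) 1 => (q.2 : ι → ℂ) :=
      continuous_subtype_val.comp continuous_snd
    refine IsClosed.inter (isClosed_eq ?_ h2) (isClosed_eq ?_ continuous_const)
    · exact (hP.comp continuous_fst).matrix_mulVec h2
    · exact (hΦ.comp continuous_fst).matrix_mulVec h2
  have hcl := isClosedMap_fst_of_compactSpace _ hc
  have : {x | ∀ v : ι → ℂ, (P x).mulVec v = v → (Φ x).mulVec v = 0 → v = 0} =
      (Prod.fst '' {q : X × Metric.sphere (0 : ι → ℂ) 1 |
      (P q.1).mulVec (q.2 : ι → ℂ) = (q.2 : ι → ℂ) ∧ (Φ q.1).mulVec (q.2 : ι → ℂ) = 0})ᶜ := by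
    ext x
    constructor
    · rintro h ⟨⟨x', v⟩, ⟨h1, h2⟩, rfl⟩
      have := h v h1 h2
      have hv := v.2
      rw [this] at hv
      simp at hv
    · intro h v h1 h2
      by_contra hv
      have hn : ‖v‖ ≠ 0 := norm_ne_zero_iff.2 hv
      refine h ⟨(x, ⟨((‖v‖ : ℂ))⁻¹ • v, ?_⟩), ⟨?_, ?_⟩, rfl⟩
      · rw [mem_sphere_zero_iff_norm, norm_smul, norm_inv, Complex.norm_real, norm_norm,
          inv_mul_cancel₀ hn]
      · simp only [Matrix.mulVec_smul, h1]
      · simp only [Matrix.mulVec_smul, h2, smul_zero]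
  rw [this]
  exact hcl.isOpen_compl

universe u

/-- NBHD -/
theorem exists_nbhd {p n : ℕ} {s : ℝ}
    {Y : Type u} [TopologicalSpace Y] [CompactSpace Y] [TopologicalSpace.MetrizableSpace Y]
    {f : Y → Fin n → Fin (2 * p + 1) → ℝ} (hf : Continuous f) {K : ℕ}
    {Φ : Y × (Fin n → Fin (2 * p) → Circle) → Matrix (Fin K) ((Fin 2 × Fin p) × Fin n) ℂ}
    (hΦ : ContinuousOn Φ (torusLocus p n s f))
    (hmono : ∀ q ∈ torusLocus p n s f, ∀ v : (Fin 2 × Fin p) × Fin n → ℂ,
      (totalProj p n q.2).mulVec v = v → (Φ q).mulVec v = 0 → v = 0) :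
    ∃ (Z : Set (Y × (Fin n → Fin (2 * p) → Circle)))
      (Φ₀ : Y × (Fin n → Fin (2 * p) → Circle) → Matrix (Fin K) ((Fin 2 × Fin p) × Fin n) ℂ),
      IsClosed Z ∧ torusLocus p n s f ⊆ interior Z ∧ Continuous Φ₀ ∧
      (∀ q ∈ torusLocus p n s f, Φ₀ q = Φ q) ∧
      ∀ q ∈ Z, ∀ v : (Fin 2 × Fin p) × Fin n → ℂ,
        (totalProj p n q.2).mulVec v = v → (Φ₀ q).mulVec v = 0 → v = 0 := by
  have hT := isClosed_torusLocus p n s hf
  have ht : TietzeExtension.{u} (Fin K → ((Fin 2 × Fin p) × Fin n) → ℂ) := inferInstance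
  obtain ⟨g, hg⟩ := @ContinuousMap.exists_restrict_eq
    (Y × (Fin n → Fin (2 * p) → Circle)) _ _ _
    (Fin K → ((Fin 2 × Fin p) × Fin n) → ℂ) _ ht hT
    ⟨fun x => Φ x.1, continuousOn_iff_continuous_domRestrict.1 hΦ⟩
  have hg' : ∀ q ∈ torusLocus p n s f, g q = Φ q := fun q hq => by
    have := congrArg (fun h => h ⟨q, hq⟩) hg
    exact this
  have hgc : Continuous (fun q => (Matrix.of (g q) : Matrix (Fin K) ((Fin 2 × Fin p) × Fin n) ℂ)) :=
    g.continuous
  have ho := isOpen_inj (fun q : Y × (Fin n → Fin (2 * p) → Circle) => totalProj p n q.2)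
    ((continuous_totalProj p n).comp continuous_snd) _ hgc
  obtain ⟨u, hu, hTu, hcu⟩ := normal_exists_closure_subset hT ho (by
    intro q hq v h1 h2
    refine hmono q hq v h1 ?_
    have : (Matrix.of (g q) : Matrix (Fin K) ((Fin 2 × Fin p) × Fin n) ℂ) = Φ q := hg' q hq
    rw [← this]; exact h2)
  refine ⟨closure u, fun q => Matrix.of (g q), isClosed_closure, ?_, hgc, hg', ?_⟩
  · exact hTu.trans (interior_maximal subset_closure hu)
  · intro q hq v h1 h2
    exact hcu hq v h1 h2

end Crest.Agent.R090.Nbhd264
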