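import Crest.Agent.R090.BottN_513

/-!
# Row 90, MATCH (helper513, second helper627)

The torus collapse in complex coordinates: `kC : TT p n → (ℂ^{n × p})⁺`,
`tc (allCoord x) = (blockH)⁺ (smPi fun b => kC (x b).2)`, and `kC ≃ ± (Bott coordinates)`.
-/

set_option autoImplicit false

open Topology Filter Set

namespace Crest.Agent.R090.Match513

open OnePoint Crest.Agent.R090.Sp962 Crest.OpAlg Crest.Agent.R090.Deg513 Crest.Agent.R090.T5
  Crest.Agent.R090.Pi568 Crest.Agent.R090.Bott513

/-- torus collapse of one block in complex coordinates -/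
noncomputable def kC {p n : ℕ} (W : TT p n) : OnePoint (Fin n × Fin p → ℂ) :=
  smPi (fun q : Fin n × Fin p =>
    tc2 (W q.1 ⟨2 * q.2.val, two_mul_lt q.2⟩) (W q.1 ⟨2 * q.2.val + 1, two_mul_add_lt q.2⟩))

theorem continuous_kC {p n : ℕ} : Continuous (kC : TT p n → _) :=
  Continuous.smPi568 fun q => continuous_tc2.comp (continuous_coord q)

theorem tcB_eq_kC {p n : ℕ} (W : TT p n) : tcB W = OnePoint.map (realH n p) (kC W) := tcB_eq W

/-- reindexing and smash powers -/
theorem smPi_map {ι : Type*} {U V : ι → Type*} (e : ∀ i, U i → V i)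
    (x : ∀ i, OnePoint (U i)) :
    smPi (fun i => OnePoint.map (e i) (x i)) =
      OnePoint.map (fun v i => e i (v i)) (smPi x) := by
  by_cases h : ∃ i, x i = ∞
  · obtain ⟨i, hi⟩ := h
    rw [smPi_of_inf i hi, smPi_of_inf i (by rw [hi]; rfl)]
    rfl
  · push Not at h
    have : ∀ i, ∃ v : U i, x i = (v : OnePoint (U i)) := fun i => by
      obtain ⟨v, hv⟩ := ne_infty_iff_exists.1 (h i)
      exact ⟨v, hv.symm⟩
    choose v hv using this
    rw [smPi_eq_coe.2 hv, OnePoint.map_some]
    exact smPi_eq_coe.2 fun i => by rw [hv i]; rfl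

theorem smPi_reindex {ι κ V : Type*} [TopologicalSpace V] (e : ι ≃ κ) (x : ι → OnePoint V) :
    smPi (fun k => x (e.symm k)) =
      OnePoint.map (fun (v : ι → V) (k : κ) => v (e.symm k)) (smPi x) := by
  by_cases h : ∃ i, x i = ∞
  · obtain ⟨i, hi⟩ := h
    rw [smPi_of_inf i hi, smPi_of_inf (e i) (by simpa using hi)]
    rfl
  · push Not at h
    have : ∀ i, ∃ v : V, x i = (v : OnePoint V) := fun i => by
      obtain ⟨v, hv⟩ := ne_infty_iff_exists.1 (h i)
      exact ⟨v, hv.symm⟩
    choose v hv using this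
    rw [smPi_eq_coe.2 hv, OnePoint.map_some]
    exact smPi_eq_coe.2 fun k => hv (e.symm k)

/-- `u` copies of `ℂ^{n × p}` are `ℝ^{Idx}` -/
noncomputable def blockH (u n p : ℕ) : (Fin u → (Fin n × Fin p → ℂ)) ≃ₜ (Idx p n u → ℝ) :=
  (Homeomorph.piCongrRight fun _ => realH n p).trans (curryH (Fin u) (Fin n × Fin (2 * p)) ℝ)

/-- **MATCH**: `SI`'s `κ` is the smash product of the block maps `kC`. -/
theorem tc_allCoord_eq {p n u : ℕ} {Y : Type*} (x : Fin u → Y × TT p n) :
    tc (allCoord x) = OnePoint.map (blockH u n p) (smPi (fun b => kC (x b).2)) := by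
  rw [tc_allCoord]
  have h1 : (fun b => tcB (x b).2) = fun b => OnePoint.map (realH n p) (kC (x b).2) :=
    funext fun b => tcB_eq_kC _
  rw [h1, smPi_map (fun _ : Fin u => (realH n p : (Fin n × Fin p → ℂ) → _))]
  generalize smPi (fun b => kC (x b).2) = y
  induction y using OnePoint.rec with
  | infty => rfl
  | coe y => rfl

/-! ## `kC` and the Bott coordinates -/

/-- `kC` as a continuous map -/
noncomputable def kCc (p n : ℕ) : C(TT p n, OnePoint (Fin n × Fin p → ℂ)) := ⟨kC, continuous_kC⟩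

/-- the Bott coordinates as a continuous map -/
noncomputable def bottc (p n : ℕ) : C(TT p n, OnePoint (Fin n × Fin p → ℂ)) :=
  ⟨bottB, continuous_bottB⟩

/-- the opposite Bott coordinates -/
noncomputable def nbottc (p n : ℕ) : C(TT p n, OnePoint (Fin n × Fin p → ℂ)) :=
  ⟨fun W => OnePoint.map (fun v => -v) (bottB W),
    (Homeomorph.neg (Fin n × Fin p → ℂ)).onePointCongr.continuous.comp continuous_bottB⟩

theorem bottc_homotopic (p n : ℕ) : (bottc p n).Homotopic (kCc p n) := by
  refine ⟨⟨⟨fun a => smPi (fun q : Fin n × Fin p =>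
    bottH (a.1, a.2 q.1 ⟨2 * q.2.val, two_mul_lt q.2⟩,
      a.2 q.1 ⟨2 * q.2.val + 1, two_mul_add_lt q.2⟩)), ?_⟩, ?_, ?_⟩⟩
  · refine Continuous.smPi568 fun q => ?_
    exact continuous_bottH.comp (continuous_fst.prodMk ((continuous_coord q).comp continuous_snd))
  · intro W
    show smPi _ = bottB W
    simp only [bottH_zero]
    rfl
  · intro W
    show smPi _ = kC W
    simp only [bottH_one]
    rfl

theorem nbottc_homotopic (p n : ℕ) : (nbottc p n).Homotopic (kCc p n) :=
  ((neg_homotopic (bottc p n) (nbottc p n) fun _ => rfl).symm).trans (bottc_homotopic p n)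

theorem nbottc_apply {p n : ℕ} (W : TT p n) :
    nbottc p n W = smPi (fun q : Fin n × Fin p => OnePoint.map (fun z : ℂ => -z)
      (stz (sphereVec (W q.1 ⟨2 * q.2.val, two_mul_lt q.2⟩)
        (W q.1 ⟨2 * q.2.val + 1, two_mul_add_lt q.2⟩)))) := by
  rw [smPi_map (fun _ : Fin n × Fin p => (fun z : ℂ => -z))]
  rfl

section compact

variable {Z : Type*} [TopologicalSpace Z] [CompactSpace Z] {p n : ℕ} (w : C(Z, TT p n))

/-- on every compact `Z` over the torus the three pointed maps `Z⁺ → (ℂ^{n × p})⁺` are homotopic -/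
theorem pm_bott_homotopic :
    (ofC ((bottc p n).comp w)).Homotopic (ofC ((kCc p n).comp w)) :=
  ofC_homotopic ((bottc_homotopic p n).comp (ContinuousMap.Homotopic.refl w))

theorem pm_nbott_homotopic :
    (ofC ((nbottc p n).comp w)).Homotopic (ofC ((kCc p n).comp w)) :=
  ofC_homotopic ((nbottc_homotopic p n).comp (ContinuousMap.Homotopic.refl w))

end compact

end Crest.Agent.R090.Match513
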