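import Crest.Agent.R090.GlueA_264
import Crest.Agent.R090.GlueB_264
import Crest.Agent.R090.Block_568
import Crest.Agent.R090.Cyl_349
import Crest.Agent.R090.Match_513

/-!
# Row 90, GLUE part C (owner helper264)

* `psi` : the map `Y × T → (Cyl f)⁺` for `f = κ|Z₀` (`Z₀` compact);
* `nullOn_pow` : from the nullity of `(pow (Fin u) r).comp incl ∧ 1` on `P_{u,m}` to `NullOn`;
* `SI_of_null` : 758's `SI` from the nullity on `P_{u,m}(Cyl f, Z₀)`.
-/

set_option autoImplicit false
set_option linter.unusedSectionVars false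

open Topology Filter Set

namespace Crest.Agent.R090.Glue264

open OnePoint Crest.Agent.R090.Sp962 Crest.Agent.R090.Pi568 Crest.Agent.R090.Dens255
  Crest.Agent.R090.Block568 Crest.Agent.R090.T5 Crest.Agent.R090.Cyl349
open scoped unitInterval

section psi

variable {X : Type*} [TopologicalSpace X] [T2Space X] {Z₀ : Set X}
variable [CompactSpace Z₀]
variable {V : Type*} [TopologicalSpace V] [T2Space V] [LocallyCompactSpace V]

open Classical in
/-- the map into the mapping cylinder -/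
noncomputable def psi (f : PMap Z₀ V) (κ : X → OnePoint V) (s : X → ℝ) (x : X) :
    OnePoint (Cyl f) :=
  if h : x ∈ Z₀ then Cyl.q f ((⟨x, h⟩ : Z₀) : OnePoint Z₀) (s x) else Cyl.i f (κ x)

theorem psi_of_mem (f : PMap Z₀ V) (κ : X → OnePoint V) (s : X → ℝ) {x : X} (h : x ∈ Z₀) :
    psi f κ s x = Cyl.q f ((⟨x, h⟩ : Z₀) : OnePoint Z₀) (s x) := dif_pos h

theorem psi_of_notMem (f : PMap Z₀ V) (κ : X → OnePoint V) (s : X → ℝ) {x : X} (h : x ∉ Z₀) :
    psi f κ s x = Cyl.i f (κ x) := dif_neg h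

theorem continuous_psi (f : PMap Z₀ V) {κ : X → OnePoint V} (hκ : Continuous κ) {s : X → ℝ}
    (hs : Continuous s) (hf : ∀ z : Z₀, f (z : OnePoint Z₀) = κ z)
    (hZ : IsClosed Z₀) (hs1 : ∀ x ∉ interior Z₀, 1 ≤ s x) : Continuous (psi f κ s) := by
  have h1 : ContinuousOn (psi f κ s) Z₀ := by
    rw [continuousOn_iff_continuous_domRestrict]
    have : Z₀.domRestrict (psi f κ s) = fun z : Z₀ => Cyl.q f (z : OnePoint Z₀) (s z) := by
      funext z
      exact psi_of_mem f κ s z.2
    rw [this]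
    exact (Cyl.continuous_q f).comp
      (continuous_coe.prodMk (hs.comp continuous_subtype_val))
  have h2 : ContinuousOn (psi f κ s) (interior Z₀)ᶜ := by
    have h3 : EqOn (psi f κ s) (fun x => Cyl.i f (κ x)) (interior Z₀)ᶜ := by
      intro x hx
      by_cases h : x ∈ Z₀
      · rw [psi_of_mem f κ s h, Cyl.q_of_ge f _ (hs1 x hx), hf]
      · exact psi_of_notMem f κ s h
    exact (((Cyl.i f).cont.comp hκ).continuousOn).congr h3
  have h4 := h1.union_of_isClosed h2 hZ isOpen_interior.isClosed_compl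
  have h5 : Z₀ ∪ (interior Z₀)ᶜ = univ := by
    rw [eq_univ_iff_forall]
    intro x
    by_cases h : x ∈ interior Z₀
    · exact Or.inl (interior_subset h)
    · exact Or.inr h
  rw [h5] at h4
  exact continuousOn_univ.1 h4

theorem ret_psi (f : PMap Z₀ V) {κ : X → OnePoint V} {s : X → ℝ}
    (hf : ∀ z : Z₀, f (z : OnePoint Z₀) = κ z) (x : X) :
    Cyl.ret f (psi f κ s x) = κ x := by
  by_cases h : x ∈ Z₀
  · rw [psi_of_mem f κ s h, Cyl.ret_q, hf]
  · rw [psi_of_notMem f κ s h, Cyl.ret_i]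

theorem psi_mem (f : PMap Z₀ V) (κ : X → OnePoint V) {s : X → ℝ} {x : X} (h : x ∈ Z₀)
    (hs : s x ≤ 0) : psi f κ s x = (Cyl.iU f ⟨x, h⟩ : OnePoint (Cyl f)) := by
  rw [psi_of_mem f κ s h, Cyl.q_of_le f _ hs, Cyl.q_coe_zero]
  rfl

end psi

section pow

variable {X : Type*} [TopologicalSpace X] [T2Space X] [CompactSpace X]
variable {M S : Type*} [TopologicalSpace M] [T2Space M] [LocallyCompactSpace M]
  [TopologicalSpace S] [T2Space S] [LocallyCompactSpace S]

/-- nullity on `P_{u,m}(M, Z)` gives nullity on the families with at least `m` points in `B` -/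
theorem nullOn_pow {ψ : X → OnePoint M} (hψ : Continuous ψ) (r : PMap M S)
    {Z : Set M} [hZ' : Fact (IsClosed Z)] {B : Set X} (hB : IsClosed B)
    (hBZ : ∀ x ∈ B, ∀ y : M, ψ x = (y : OnePoint M) → y ∈ Z) {u m l : ℕ}
    (h : (((pow (Fin u) r).comp (incl (isClosed_PP (ι := Fin u) hZ'.out m))).smash
      (PMap.id (Fin l → ℝ))).Null) :
    NullOn (V := Fin u → S) (PP B (Fin u) m) (fun x => smPi fun b => r (ψ (x b))) l := by
  have hZ := hZ'.out
  have hA : IsClosed (PP B (Fin u) m) := isClosed_PP hB m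
  have : CompactSpace (PP B (Fin u) m) := isCompact_iff_compactSpace.1 hA.isCompact
  -- the lift
  obtain ⟨K, hK, hK'⟩ := exists_lift
    (isClosed_PP (ι := Fin u) hZ m).isClosedEmbedding_subtypeVal
    (T := PP B (Fin u) m) (K := fun x => smPi fun b => ψ ((x : Fin u → X) b))
    (Continuous.smPi568 fun b => hψ.comp ((continuous_apply b).comp continuous_subtype_val)) (by
      rintro ⟨x, hx⟩
      by_cases h : ∃ b, ψ (x b) = ∞
      · exact Or.inl (smPi_eq_inf.2 h)
      · right
        push Not at h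
        have : ∀ b, ∃ y : M, ψ (x b) = (y : OnePoint M) := fun b => by
          obtain ⟨y, hy⟩ := ne_infty_iff_exists.1 (h b)
          exact ⟨y, hy.symm⟩
        choose y hy using this
        refine ⟨⟨y, ?_⟩, smPi_eq_coe.2 hy⟩
        exact le_trans (show m ≤ {i | x i ∈ B}.ncard from hx)
          (Set.ncard_le_ncard (fun b hb => hBZ _ hb _ (hy b)) (Set.toFinite _)))
  have ht : Tendsto K (coclosedCompact (PP B (Fin u) m)) (𝓝 ∞) := by
    rw [coclosedCompact_eq_cocompact, cocompact_eq_bot]; exact tendsto_bot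
  have h2 := h.comp_right ((PMap.ofFun K hK ht).smash (PMap.id (Fin l → ℝ)))
  refine nullOn_of_null _ (fun b s => ?_) h2
  rw [PMap.comp_apply, PMap.smash_coe, PMap.smash_sm]
  have h3 : (incl (isClosed_PP (ι := Fin u) hZ m)) (K b) =
      smPi fun c => ψ ((b : Fin u → X) c) := hK' b
  rw [PMap.comp_apply]
  change sm (pow (Fin u) r ((incl (isClosed_PP (ι := Fin u) hZ m)) (K b))) _ = _
  rw [h3, pow_smPi]
  rfl

end pow

/-- transport of `NullOn` along a homeomorphism of the target -/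
theorem nullOn_homeo {X V W : Type*} [TopologicalSpace X] [TopologicalSpace V]
    [TopologicalSpace W] [T2Space V] [T2Space W] [LocallyCompactSpace V] {B : Set X}
    {κ : X → OnePoint V}
    {l : ℕ} (e : V ≃ₜ W) (h : NullOn B κ l) : NullOn B (fun x => PMap.ofHomeo e (κ x)) l := by
  obtain ⟨h, hc, ht, h0, h1⟩ := h
  refine ⟨fun p => (PMap.ofHomeo e).smash (PMap.id (Fin l → ℝ)) (h p),
    (PMap.cont _).comp hc, ?_, fun b s => ?_, fun b s => ?_⟩
  · have h2 := ((PMap.ofHomeo e).smash (PMap.id (Fin l → ℝ))).cont.tendsto ∞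
    rw [PMap.map_inf] at h2
    exact h2.comp ht
  · change (PMap.ofHomeo e).smash (PMap.id (Fin l → ℝ)) (h (b, s, 0)) = _
    rw [h0, PMap.smash_sm]
    rfl
  · change (PMap.ofHomeo e).smash (PMap.id (Fin l → ℝ)) (h (b, s, 1)) = _
    rw [h1]
    rfl

/-! ## 758's `SI` -/

section SI

variable {p n : ℕ} {Y : Type*} [TopologicalSpace Y] [CompactSpace Y] [T2Space Y]

instance instFactRangeIU {U V : Type*} [TopologicalSpace U] [TopologicalSpace V]
    [T2Space U] [LocallyCompactSpace U] [T2Space V] [LocallyCompactSpace V] (f : PMap U V) :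
    Fact (IsClosed (range (Cyl.iU f))) := ⟨(Cyl.isClosedEmbedding_iU f).isClosed_range⟩

instance instLcPPCyl {U V : Type*} [TopologicalSpace U] [TopologicalSpace V]
    [T2Space U] [LocallyCompactSpace U] [T2Space V] [LocallyCompactSpace V] (f : PMap U V)
    {ι : Type*} [Finite ι] (m : ℕ) : LocallyCompactSpace (PP (range (Cyl.iU f)) ι m) := instLcPP m

instance instLcE {p n : ℕ} : LocallyCompactSpace (Fin n × Fin (2 * p) → ℝ) := inferInstance

/-- the torus collapse of one block on a compact set `Z₀ ⊆ Y × T` -/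
noncomputable def fZ (Z₀ : Set (Y × TT p n)) [CompactSpace Z₀] :
    PMap Z₀ (Fin n × Fin (2 * p) → ℝ) :=
  PMap.ofFun (fun z => Bott513.tcB (z : Y × TT p n).2)
    (Bott513.continuous_tcB.comp (continuous_snd.comp continuous_subtype_val)) (by
      rw [coclosedCompact_eq_cocompact, cocompact_eq_bot]; exact tendsto_bot)

@[simp] theorem fZ_coe (Z₀ : Set (Y × TT p n)) [CompactSpace Z₀] (z : Z₀) :
    fZ Z₀ (z : OnePoint Z₀) = Bott513.tcB (z : Y × TT p n).2 := rfl

/-- **758's `SI` from the nullity of `P_{u,m}(Cyl f, Z₀) → (E^u)⁺`**, `f = κ|Z₀`, any coordinates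
`k` of the torus collapse of one block. -/
theorem SI_of_null_gen {E : Type*} [TopologicalSpace E] [T2Space E] [LocallyCompactSpace E]
    {k : TT p n → OnePoint E} (hk : Continuous k)
    {a : ℝ} {f : Y → Fin n → Fin (2 * p + 1) → ℝ} {Z₀ : Set (Y × TT p n)}
    [CompactSpace Z₀] (hZ₀ : IsClosed Z₀)
    (hf : Continuous f)
    (hT : Crest.OpAlg.torusLocus p n (a * n) f ⊆ interior Z₀)
    {f' : PMap Z₀ E} (hf' : ∀ z : Z₀, f' (z : OnePoint Z₀) = k (z : Y × TT p n).2)
    {u m l : ℕ} (e : (Fin u → E) ≃ₜ (Idx p n u → ℝ))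
    (he : ∀ x : Fin u → Y × TT p n, tc (allCoord x) = OnePoint.map e (smPi fun b => k (x b).2))
    (hu : 0 < u) (hm : 2 * m ≤ u)
    (h : (((pow (Fin u) (Cyl.ret f')).comp
      (incl (isClosed_PP (ι := Fin u) (instFactRangeIU f').out m))).smash
      (PMap.id (Fin l → ℝ))).Null) : SI p n a f := by
  have hTc := Nbhd264.isClosed_torusLocus p n (a * n) hf
  obtain ⟨W, hW, hTW, hWZ⟩ := normal_exists_closure_subset hTc isOpen_interior hT
  -- the Urysohn function
  have hd : Disjoint (closure W) (interior Z₀)ᶜ := disjoint_compl_right_iff_subset.2 hWZ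
  obtain ⟨s, hs0, hs1, -⟩ := exists_continuous_zero_one_of_isClosed isClosed_closure
    isOpen_interior.isClosed_compl hd
  set κ : Y × TT p n → OnePoint E := fun x => k x.2 with hκ
  have hκc : Continuous κ := hk.comp continuous_snd
  have hψ : Continuous (psi f' κ s) := by
    refine continuous_psi f' hκc s.continuous hf' hZ₀ fun x hx => ?_
    exact (hs1 hx).ge
  have h2 := nullOn_pow hψ (Cyl.ret f') (Z := range (Cyl.iU f'))
    (B := closure W) isClosed_closure (fun x hx y hy => by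
      have hxZ : x ∈ Z₀ := interior_subset (hWZ hx)
      rw [psi_mem f' κ hxZ (hs0 hx).le, coe_eq_coe] at hy
      exact ⟨_, hy⟩) h
  have h3 := nullOn_homeo e h2
  refine ⟨closure W, isClosed_closure, hTW.trans (interior_maximal subset_closure hW),
    u, m, l, hu, hm, ?_⟩
  have h4 : (fun x : Fin u → Y × TT p n => tc (allCoord x)) = fun x =>
      PMap.ofHomeo e (smPi fun b => Cyl.ret f' (psi f' κ s (x b))) := by
    funext x
    rw [he]
    have : (fun b => Cyl.ret f' (psi f' κ s (x b))) = fun b => k (x b).2 :=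
      funext fun b => ret_psi f' hf' _
    rw [this]
    rfl
  rw [h4]
  exact h3

/-- `SI_of_null_gen` in the real coordinates `tcB` -/
theorem SI_of_null {a : ℝ} {f : Y → Fin n → Fin (2 * p + 1) → ℝ} {Z₀ : Set (Y × TT p n)}
    [CompactSpace Z₀] (hZ₀ : IsClosed Z₀) (hf : Continuous f)
    (hT : Crest.OpAlg.torusLocus p n (a * n) f ⊆ interior Z₀) {u m l : ℕ} (hu : 0 < u)
    (hm : 2 * m ≤ u)
    (h : (((pow (Fin u) (Cyl.ret (fZ Z₀))).comp
      (incl (isClosed_PP (ι := Fin u) (instFactRangeIU (fZ Z₀)).out m))).smash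
      (PMap.id (Fin l → ℝ))).Null) : SI p n a f :=
  SI_of_null_gen Bott513.continuous_tcB hZ₀ hf hT (fun _ => rfl)
    (Bott513.curryH (Fin u) (Fin n × Fin (2 * p)) ℝ) (fun x => Bott513.tc_allCoord x) hu hm h

/-- the torus coordinate on `Z₀` -/
def torC (Z₀ : Set (Y × TT p n)) : C(Z₀, TT p n) :=
  ⟨fun z => (z : Y × TT p n).2, continuous_snd.comp continuous_subtype_val⟩

instance instLcEC {p n : ℕ} : LocallyCompactSpace (Fin n × Fin p → ℂ) := inferInstance

/-- `κ|Z₀` in the complex coordinates `kC` -/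
noncomputable def fC (Z₀ : Set (Y × TT p n)) [CompactSpace Z₀] : PMap Z₀ (Fin n × Fin p → ℂ) :=
  Bott513.ofC ((Match513.kCc p n).comp (torC Z₀))

@[simp] theorem fC_coe (Z₀ : Set (Y × TT p n)) [CompactSpace Z₀] (z : Z₀) :
    fC Z₀ (z : OnePoint Z₀) = Match513.kC (z : Y × TT p n).2 := rfl

/-- `SI_of_null_gen` in the complex coordinates `kC` -/
theorem SI_of_nullC {a : ℝ} {f : Y → Fin n → Fin (2 * p + 1) → ℝ} {Z₀ : Set (Y × TT p n)}
    [CompactSpace Z₀] (hZ₀ : IsClosed Z₀) (hf : Continuous f)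
    (hT : Crest.OpAlg.torusLocus p n (a * n) f ⊆ interior Z₀) {u m l : ℕ} (hu : 0 < u)
    (hm : 2 * m ≤ u)
    (h : (((pow (Fin u) (Cyl.ret (fC Z₀))).comp
      (incl (isClosed_PP (ι := Fin u) (instFactRangeIU (fC Z₀)).out m))).smash
      (PMap.id (Fin l → ℝ))).Null) : SI p n a f :=
  SI_of_null_gen Match513.continuous_kC hZ₀ hf hT (fun _ => rfl)
    (Match513.blockH u n p) (fun x => Match513.tc_allCoord_eq x) hu hm h

end SI

end Crest.Agent.R090.Glue264
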