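import Crest.Agent.R090.Spine_796

/-!
# Row 90: reduction of S0119 to `Y : Type`

A compact metrizable space embeds in `ℕ →ᵇ ℝ : Type`, hence every compact metrizable space is
homeomorphic to one living in `Type`.  All data (`f`, `Φ`, `G`) are transported along this
homeomorphism.  So the whole stable side of row 90 may be done for spaces in `Type`.
-/

set_option autoImplicit false

open Topology Filter Set

namespace Crest.Agent.R090.Univ639

universe u

/-- The conclusion of S0119. -/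
def Concl (p n : ℕ) (a : ℝ) {Y : Type u} [TopologicalSpace Y]
    (f : Y → Fin n → Fin (2 * p + 1) → ℝ) (U : ℕ) : Prop :=
  ∃ u : ℕ, U ≤ u ∧ ∃ G : (Fin u → Y) → (Fin u × Fin n → Fin (2 * p + 1) → ℝ),
      Continuous G ∧ (∀ y s k, |G y s k| ≤ 1) ∧
      (∀ y, a / 8 * (u * n : ℝ) ≤
        (({s | Crest.OpAlg.IsBoundarySlot (G y s)} : Set (Fin u × Fin n)).ncard : ℝ)) ∧
      ∀ y (b : Fin u) (j : Fin n), Crest.OpAlg.IsBoundarySlot (f (y b) j) →
        G y (b, j) = f (y b) j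

/-- Transport of the conclusion along a homeomorphism. -/
theorem Concl.transport {p n : ℕ} {a : ℝ} {Y : Type u} [TopologicalSpace Y]
    {Y' : Type} [TopologicalSpace Y'] (e : Y ≃ₜ Y')
    (f : Y → Fin n → Fin (2 * p + 1) → ℝ) {U : ℕ}
    (h : Concl p n a (fun y' : Y' => f (e.symm y')) U) : Concl p n a f U := by
  obtain ⟨u, hu, G, hG, hG1, hG2, hG3⟩ := h
  refine ⟨u, hu, fun y => G (fun b => e (y b)), ?_, fun y s k => hG1 _ _ _, fun y => hG2 _, ?_⟩
  · exact hG.comp (continuous_pi fun b => e.continuous.comp (continuous_apply b))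
  · intro y b j hb
    have := hG3 (fun b => e (y b)) b j
    simp only [Homeomorph.symm_apply_apply] at this
    exact this hb

/-- Every compact metrizable space is homeomorphic to a compact metrizable space in `Type`. -/
theorem exists_small (Y : Type u) [TopologicalSpace Y] [CompactSpace Y]
    [TopologicalSpace.MetrizableSpace Y] :
    ∃ (Y' : Type) (_ : TopologicalSpace Y') (_ : CompactSpace Y')
      (_ : TopologicalSpace.MetrizableSpace Y'), Nonempty (Y ≃ₜ Y') := by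
  letI : MetricSpace Y := TopologicalSpace.metrizableSpaceMetric Y
  haveI : SecondCountableTopology Y := inferInstance
  obtain ⟨F, hF⟩ := TopologicalSpace.exists_embedding_l_infty Y
  let e : Y ≃ₜ Set.range F := hF.toHomeomorph
  haveI : CompactSpace (Set.range F) := e.compactSpace
  exact ⟨Set.range F, inferInstance, inferInstance, inferInstance, ⟨e⟩⟩

/-- The hypotheses of S0119 as one proposition. -/
structure Hyp (p n : ℕ) (a : ℝ) {Y : Type u} [TopologicalSpace Y]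
    (f : Y → Fin n → Fin (2 * p + 1) → ℝ) (K : ℕ)
    (Φ : Y × (Fin n → Fin (2 * p) → Circle) → Matrix (Fin K) ((Fin 2 × Fin p) × Fin n) ℂ) :
    Prop where
  cont : Continuous f
  cube : ∀ y, f y ∈ Crest.OpAlg.cube (2 * p + 1) n
  lt : K < 2 * p * n
  contΦ : ContinuousOn Φ (Crest.OpAlg.torusLocus p n (a * n) f)
  mono : ∀ q ∈ Crest.OpAlg.torusLocus p n (a * n) f, ∀ v : (Fin 2 × Fin p) × Fin n → ℂ,
      (Crest.OpAlg.totalProj p n q.2).mulVec v = v → (Φ q).mulVec v = 0 → v = 0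

/-- Transport of the hypotheses along a homeomorphism. -/
theorem Hyp.transport {p n : ℕ} {a : ℝ} {Y : Type u} [TopologicalSpace Y]
    {Y' : Type} [TopologicalSpace Y'] (e : Y ≃ₜ Y')
    {f : Y → Fin n → Fin (2 * p + 1) → ℝ} {K : ℕ}
    {Φ : Y × (Fin n → Fin (2 * p) → Circle) → Matrix (Fin K) ((Fin 2 × Fin p) × Fin n) ℂ}
    (h : Hyp p n a f K Φ) :
    Hyp p n a (fun y' : Y' => f (e.symm y')) K (fun q => Φ (e.symm q.1, q.2)) := by
  have hmem : ∀ q : Y' × (Fin n → Fin (2 * p) → Circle),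
      q ∈ Crest.OpAlg.torusLocus p n (a * n) (fun y' : Y' => f (e.symm y')) →
      (e.symm q.1, q.2) ∈ Crest.OpAlg.torusLocus p n (a * n) f := fun q hq => hq
  refine ⟨h.cont.comp e.symm.continuous, fun y => h.cube _, h.lt, ?_, ?_⟩
  · exact h.contΦ.comp (((e.symm.continuous.comp continuous_fst).prodMk
      continuous_snd).continuousOn) hmem
  · intro q hq v hv hv'
    exact h.mono _ (hmem q hq) v hv hv'

/-- **Reduction to `Y : Type`.** -/
theorem concl_of_small
    (H : ∀ (p n : ℕ), 1 ≤ p → 1 ≤ n → ∀ a : ℝ, 0 < a → a < 1 / 16 →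
      ∀ (Y : Type) [TopologicalSpace Y] [CompactSpace Y] [TopologicalSpace.MetrizableSpace Y]
        (f : Y → Fin n → Fin (2 * p + 1) → ℝ) (K : ℕ)
        (Φ : Y × (Fin n → Fin (2 * p) → Circle) →
          Matrix (Fin K) ((Fin 2 × Fin p) × Fin n) ℂ),
        Hyp p n a f K Φ → ∀ U : ℕ, Concl p n a f U)
    (p n : ℕ) (hp : 1 ≤ p) (hn : 1 ≤ n) (a : ℝ) (ha : 0 < a) (ha' : a < 1 / 16)
    (Y : Type u) [TopologicalSpace Y] [CompactSpace Y] [TopologicalSpace.MetrizableSpace Y]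
    (f : Y → Fin n → Fin (2 * p + 1) → ℝ) (K : ℕ)
    (Φ : Y × (Fin n → Fin (2 * p) → Circle) →
      Matrix (Fin K) ((Fin 2 × Fin p) × Fin n) ℂ)
    (h : Hyp p n a f K Φ) (U : ℕ) : Concl p n a f U := by
  obtain ⟨Y', i1, i2, i3, ⟨e⟩⟩ := exists_small Y
  exact Concl.transport e f (H p n hp hn a ha ha' Y' _ K _ (h.transport e) U)

/-- **S0119 from the stable input `T5.SI` for spaces in `Type`.** -/
theorem result_of_SI_small
    (H : ∀ (p n : ℕ), 1 ≤ p → 1 ≤ n → ∀ a : ℝ, 0 < a → a < 1 / 16 →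
      ∀ (Y : Type) [TopologicalSpace Y] [CompactSpace Y] [TopologicalSpace.MetrizableSpace Y]
        (f : Y → Fin n → Fin (2 * p + 1) → ℝ) (K : ℕ)
        (Φ : Y × (Fin n → Fin (2 * p) → Circle) →
          Matrix (Fin K) ((Fin 2 × Fin p) × Fin n) ℂ),
        Hyp p n a f K Φ → T5.SI p n a f)
    (p n : ℕ) (hp : 1 ≤ p) (hn : 1 ≤ n) (a : ℝ) (ha : 0 < a) (ha' : a < 1 / 16)
    (Y : Type u) [TopologicalSpace Y] [CompactSpace Y] [TopologicalSpace.MetrizableSpace Y]
    (f : Y → Fin n → Fin (2 * p + 1) → ℝ) (hf : Continuous f)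
    (hfC : ∀ y, f y ∈ Crest.OpAlg.cube (2 * p + 1) n)
    (K : ℕ) (hK : K < 2 * p * n)
    (Φ : Y × (Fin n → Fin (2 * p) → Circle) → Matrix (Fin K) ((Fin 2 × Fin p) × Fin n) ℂ)
    (hΦ : ContinuousOn Φ (Crest.OpAlg.torusLocus p n (a * n) f))
    (hmono : ∀ q ∈ Crest.OpAlg.torusLocus p n (a * n) f, ∀ v : (Fin 2 × Fin p) × Fin n → ℂ,
      (Crest.OpAlg.totalProj p n q.2).mulVec v = v → (Φ q).mulVec v = 0 → v = 0)
    (U : ℕ) :
    ∃ u : ℕ, U ≤ u ∧ ∃ G : (Fin u → Y) → (Fin u × Fin n → Fin (2 * p + 1) → ℝ),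
      Continuous G ∧ (∀ y s k, |G y s k| ≤ 1) ∧
      (∀ y, a / 8 * (u * n : ℝ) ≤
        (({s | Crest.OpAlg.IsBoundarySlot (G y s)} : Set (Fin u × Fin n)).ncard : ℝ)) ∧
      ∀ y (b : Fin u) (j : Fin n), Crest.OpAlg.IsBoundarySlot (f (y b) j) →
        G y (b, j) = f (y b) j :=
  concl_of_small (fun p n hp hn a ha ha' Y _ _ _ f K Φ h U =>
      Spine796.result_of_SI p n hp hn a ha ha' f h.cont h.cube
        (H p n hp hn a ha ha' Y f K Φ h) U)
    p n hp hn a ha ha' Y f K Φ ⟨hf, hfC, hK, hΦ, hmono⟩ U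

end Crest.Agent.R090.Univ639
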