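import Mathlib

/-!
Row 90: the Young quasi-idempotent of the `c`-stretched staircase (`c = q - 1`).
Cells `((i,t),r)` with `i + t < D`, `r < c`; the row is `i`, the column is `(t,r)`.
`P` = row preserving, `Q` = column preserving permutations, `e' = a * b`.
-/

set_option autoImplicit false

namespace Crest.Agent.R090.Young152

open Finset Equiv

/-- Double counting certificate (uniqueness of extremal matrices). -/
theorem extremal {R S : Type*} [Fintype R] [Fintype S] (u : R → ℤ) (v : S → ℤ)
    (A B : R → S → ℤ) (hrow : ∀ r, ∑ s, A r s = ∑ s, B r s)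
    (hcol : ∀ s, ∑ r, A r s = ∑ r, B r s)
    (hpos : ∀ r s, 0 < u r + v s → B r s ≤ A r s)
    (hneg : ∀ r s, u r + v s < 0 → A r s ≤ B r s)
    (hne : ∀ r s, u r + v s ≠ 0) : ∀ r s, A r s = B r s := by
  have h1 : ∑ r, ∑ s, (u r + v s) * (A r s - B r s) = 0 := by
    have e1 : ∑ r, ∑ s, u r * (A r s - B r s) = 0 := by
      apply Finset.sum_eq_zero
      intro r _
      rw [← Finset.mul_sum, Finset.sum_sub_distrib, hrow r]
      ring
    have e2 : ∑ r, ∑ s, v s * (A r s - B r s) = 0 := by
      rw [Finset.sum_comm]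
      apply Finset.sum_eq_zero
      intro s _
      rw [← Finset.mul_sum, Finset.sum_sub_distrib, hcol s]
      ring
    have e3 : ∑ r, ∑ s, (u r + v s) * (A r s - B r s)
        = ∑ r, ∑ s, u r * (A r s - B r s) + ∑ r, ∑ s, v s * (A r s - B r s) := by
      rw [← Finset.sum_add_distrib]
      refine Finset.sum_congr rfl fun r _ => ?_
      rw [← Finset.sum_add_distrib]
      refine Finset.sum_congr rfl fun s _ => ?_
      ring
    rw [e3, e1, e2]
    rfl
  have h2 : ∀ r s, 0 ≤ (u r + v s) * (A r s - B r s) := by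
    intro r s
    rcases lt_trichotomy (u r + v s) 0 with h | h | h
    · exact mul_nonneg_of_nonpos_of_nonpos h.le (by have := hneg r s h; omega)
    · exact absurd h (hne r s)
    · exact mul_nonneg h.le (by have := hpos r s h; omega)
  intro r s
  have h3 := (Finset.sum_eq_zero_iff_of_nonneg
    (fun r _ => Finset.sum_nonneg (fun s _ => h2 r s))).1 h1 r (mem_univ r)
  have h4 := (Finset.sum_eq_zero_iff_of_nonneg (fun s _ => h2 r s)).1 h3 s (mem_univ s)
  have h5 := (mul_eq_zero.1 h4).resolve_left (hne r s)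
  omega

/-- Cells of the `c`-stretched staircase with `D` rows. -/
abbrev Cell (D c : ℕ) := {p : Fin D × Fin D // (p.1 : ℕ) + (p.2 : ℕ) < D} × Fin c

variable {D c : ℕ}

/-- row of a cell -/
def row (x : Cell D c) : Fin D := x.1.1.1
/-- column of a cell -/
def col (x : Cell D c) : Fin D × Fin c := (x.1.1.2, x.2)

theorem cell_lt (x : Cell D c) : (row x : ℕ) + ((col x).1 : ℕ) < D := x.1.2

theorem cell_ext {x y : Cell D c} (h1 : row x = row y) (h2 : col x = col y) : x = y := by
  rcases x with ⟨⟨⟨i, t⟩, h⟩, r⟩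
  rcases y with ⟨⟨⟨i', t'⟩, h'⟩, r'⟩
  simp only [row, col, Prod.mk.injEq] at h1 h2
  obtain ⟨h2, h3⟩ := h2
  subst h1 h2 h3
  rfl

/-- the cell with given row and column -/
def mkCell (i : Fin D) (j : Fin D × Fin c) (h : (i : ℕ) + (j.1 : ℕ) < D) : Cell D c :=
  (⟨(i, j.1), h⟩, j.2)

@[simp] theorem row_mkCell (i : Fin D) (j : Fin D × Fin c) (h : (i : ℕ) + (j.1 : ℕ) < D) :
    row (mkCell i j h) = i := rfl
@[simp] theorem col_mkCell (i : Fin D) (j : Fin D × Fin c) (h : (i : ℕ) + (j.1 : ℕ) < D) :
    col (mkCell i j h) = j := rfl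

/-- row preserving permutations -/
def P (D c : ℕ) : Subgroup (Perm (Cell D c)) where
  carrier := {g | ∀ x, row (g x) = row x}
  mul_mem' := by
    intro g h hg hh x
    rw [Perm.mul_apply, hg, hh]
  one_mem' := fun x => rfl
  inv_mem' := by
    intro g hg x
    have h1 := hg (g⁻¹ x)
    have h2 : g (g⁻¹ x) = x := g.apply_symm_apply x
    rw [h2] at h1
    exact h1.symm

/-- column preserving permutations -/
def Q (D c : ℕ) : Subgroup (Perm (Cell D c)) where
  carrier := {g | ∀ x, col (g x) = col x}
  mul_mem' := by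
    intro g h hg hh x
    rw [Perm.mul_apply, hg, hh]
  one_mem' := fun x => rfl
  inv_mem' := by
    intro g hg x
    have h1 := hg (g⁻¹ x)
    have h2 : g (g⁻¹ x) = x := g.apply_symm_apply x
    rw [h2] at h1
    exact h1.symm

theorem mem_P {g : Perm (Cell D c)} : g ∈ P D c ↔ ∀ x, row (g x) = row x := Iff.rfl
theorem mem_Q {g : Perm (Cell D c)} : g ∈ Q D c ↔ ∀ x, col (g x) = col x := Iff.rfl

instance : DecidablePred (· ∈ P D c) :=
  fun g => decidable_of_iff (∀ x, row (g x) = row x) Iff.rfl
instance : DecidablePred (· ∈ Q D c) :=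
  fun g => decidable_of_iff (∀ x, col (g x) = col x) Iff.rfl

theorem eq_one_of_mem {g : Perm (Cell D c)} (h1 : g ∈ P D c) (h2 : g ∈ Q D c) : g = 1 := by
  ext1 x
  exact cell_ext (h1 x) (h2 x)

/-- counting matrix -/
def cnt {R S : Type*} [DecidableEq R] [DecidableEq S] (f : Cell D c → R) (g : Cell D c → S)
    (r : R) (s : S) : ℤ := ∑ x : Cell D c, if f x = r ∧ g x = s then 1 else 0

theorem cnt_sum_right {R S : Type*} [DecidableEq R] [DecidableEq S] [Fintype S]
    (f : Cell D c → R) (g : Cell D c → S) (r : R) :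
    ∑ s, cnt f g r s = ∑ x : Cell D c, if f x = r then 1 else 0 := by
  unfold cnt
  rw [Finset.sum_comm]
  refine Finset.sum_congr rfl fun x _ => ?_
  by_cases h : f x = r
  · simp [h]
  · simp [h]

theorem cnt_sum_left {R S : Type*} [DecidableEq R] [DecidableEq S] [Fintype R]
    (f : Cell D c → R) (g : Cell D c → S) (s : S) :
    ∑ r, cnt f g r s = ∑ x : Cell D c, if g x = s then 1 else 0 := by
  unfold cnt
  rw [Finset.sum_comm]
  refine Finset.sum_congr rfl fun x _ => ?_
  by_cases h : g x = s
  · simp [h]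
  · simp [h]

theorem cnt_nonneg {R S : Type*} [DecidableEq R] [DecidableEq S]
    (f : Cell D c → R) (g : Cell D c → S) (r : R) (s : S) : 0 ≤ cnt f g r s :=
  Finset.sum_nonneg fun x _ => by split_ifs <;> simp

theorem one_le_cnt {R S : Type*} [DecidableEq R] [DecidableEq S]
    (f : Cell D c → R) (g : Cell D c → S) (x : Cell D c) : 1 ≤ cnt f g (f x) (g x) := by
  unfold cnt
  have h := Finset.single_le_sum (f := fun y : Cell D c =>
    if f y = f x ∧ g y = g x then (1 : ℤ) else 0)
    (fun y _ => by split_ifs <;> simp) (mem_univ x)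
  simpa using h

theorem exists_of_cnt_pos {R S : Type*} [DecidableEq R] [DecidableEq S]
    (f : Cell D c → R) (g : Cell D c → S) {r : R} {s : S} (h : 0 < cnt f g r s) :
    ∃ x, f x = r ∧ g x = s := by
  by_contra hne
  push Not at hne
  have : cnt f g r s = 0 := by
    unfold cnt
    refine Finset.sum_eq_zero fun x _ => ?_
    rw [if_neg]
    rintro ⟨h1, h2⟩
    exact hne x h1 h2
  omega

theorem cnt_le_one {R S : Type*} [DecidableEq R] [DecidableEq S]
    (f : Cell D c → R) (g : Cell D c → S) (r : R) (s : S)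
    (h : ∀ x y, f x = f y → g x = g y → x = y) : cnt f g r s ≤ 1 := by
  by_cases hx : ∃ x, f x = r ∧ g x = s
  · obtain ⟨x, h1, h2⟩ := hx
    unfold cnt
    rw [Finset.sum_eq_single x]
    · simp [h1, h2]
    · intro y _ hy
      rw [if_neg]
      rintro ⟨h3, h4⟩
      exact hy (h y x (h3.trans h1.symm) (h4.trans h2.symm))
    · intro hx
      exact absurd (mem_univ x) hx
  · have : ¬ 0 < cnt f g r s := fun h => hx (exists_of_cnt_pos f g h)
    omega

/-- the potentials: `2D - 1 - 2i - 2t` is positive iff `i + t < D` -/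
theorem pot_pos (i t : ℕ) (h : (0:ℤ) < (2 * (D:ℤ) - 1 - 2 * i) + (-2 * t)) : i + t < D := by
  omega

/-- von Neumann's lemma. -/
theorem vonNeumann (h : Perm (Cell D c))
    (hh : ∀ x y, row x = row y → col (h x) = col (h y) → x = y) :
    ∃ s ∈ Q D c, ∃ p ∈ P D c, h = s * p := by
  have key : ∀ r j, cnt (D := D) (c := c) row col r j = cnt row (fun x => col (h x)) r j := by
    apply extremal (R := Fin D) (S := Fin D × Fin c)
      (fun r => 2 * (D:ℤ) - 1 - 2 * ((r : ℕ) : ℤ)) (fun j => -2 * ((j.1 : ℕ) : ℤ))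
    · intro r
      rw [cnt_sum_right, cnt_sum_right]
    · intro j
      rw [cnt_sum_left, cnt_sum_left]
      exact (Equiv.sum_comp h (fun x => if col x = j then (1:ℤ) else 0)).symm
    · intro r j hrj
      have h1 := pot_pos _ _ hrj
      have h2 := one_le_cnt (D := D) (c := c) row col (mkCell r j h1)
      have h3 := cnt_le_one row (fun x => col (h x)) r j hh
      simp only [row_mkCell, col_mkCell] at h2
      omega
    · intro r j hrj
      have h1 : cnt (D := D) (c := c) row col r j = 0 := by
        by_contra h0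
        have h2 := cnt_nonneg (D := D) (c := c) row col r j
        obtain ⟨x, hx1, hx2⟩ := exists_of_cnt_pos (D := D) (c := c) row col
          (lt_of_le_of_ne h2 (Ne.symm h0))
        have := cell_lt x
        rw [hx1, hx2] at this
        omega
      rw [h1]
      exact cnt_nonneg _ _ _ _
    · intro r j
      omega
  -- the column preserving map
  have hcell : ∀ z : Cell D c, (row (h⁻¹ z) : ℕ) + ((col z).1 : ℕ) < D := by
    intro z
    have h1 := one_le_cnt (D := D) (c := c) row (fun x => col (h x)) (h⁻¹ z)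
    rw [← key] at h1
    obtain ⟨y, hy1, hy2⟩ := exists_of_cnt_pos (D := D) (c := c) row col
      (lt_of_lt_of_le Int.one_pos h1)
    have := cell_lt y
    rw [hy1, hy2] at this
    simpa using this
  let ψ : Cell D c → Cell D c := fun z => mkCell (row (h⁻¹ z)) (col z) (hcell z)
  have hψ : Function.Injective ψ := by
    intro z z' hz
    have h1 : row (ψ z) = row (ψ z') := by rw [hz]
    have h2 : col (ψ z) = col (ψ z') := by rw [hz]
    simp only [ψ, row_mkCell, col_mkCell] at h1 h2
    have h3 := hh _ _ h1 (by simpa using h2)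
    exact h⁻¹.injective h3
  let s : Perm (Cell D c) := Equiv.ofBijective ψ (Finite.injective_iff_bijective.1 hψ)
  have hs : ∀ z, s z = ψ z := fun z => rfl
  refine ⟨s⁻¹, ?_, s * h, ?_, ?_⟩
  · apply (Q D c).inv_mem
    intro z
    rw [hs]
    rfl
  · intro x
    rw [Perm.mul_apply, hs]
    simp [ψ]
  · rw [inv_mul_cancel_left]


/-! ### the group algebra -/

open MonoidAlgebra in
/-- row symmetriser -/
noncomputable def symP (D c : ℕ) : MonoidAlgebra ℤ (Perm (Cell D c)) :=
  ∑ p : P D c, of ℤ _ (p : Perm (Cell D c))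

open MonoidAlgebra in
/-- column antisymmetriser -/
noncomputable def altQ (D c : ℕ) : MonoidAlgebra ℤ (Perm (Cell D c)) :=
  ∑ s : Q D c, ((Perm.sign (s : Perm (Cell D c)) : ℤˣ) : ℤ) • of ℤ _ (s : Perm (Cell D c))

/-- the Young quasi-idempotent -/
noncomputable def young (D c : ℕ) : MonoidAlgebra ℤ (Perm (Cell D c)) := symP D c * altQ D c

open MonoidAlgebra in
theorem symP_mul_of {p : Perm (Cell D c)} (hp : p ∈ P D c) : symP D c * of ℤ _ p = symP D c := by
  unfold symP
  rw [Finset.sum_mul]
  rw [← Equiv.sum_comp (Equiv.mulRight (⟨p, hp⟩ : P D c))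
    (fun p => of ℤ (Perm (Cell D c)) (p : Perm (Cell D c)))]
  refine Finset.sum_congr rfl fun p' _ => ?_
  simp

open MonoidAlgebra in
theorem of_mul_altQ {s : Perm (Cell D c)} (hs : s ∈ Q D c) :
    of ℤ _ s * altQ D c = ((Perm.sign s : ℤˣ) : ℤ) • altQ D c := by
  unfold altQ
  rw [Finset.mul_sum, Finset.smul_sum]
  rw [← Equiv.sum_comp (Equiv.mulLeft (⟨s, hs⟩ : Q D c))
    (fun s' : Q D c => ((Perm.sign s : ℤˣ) : ℤ) • ((Perm.sign (s' : Perm (Cell D c)) : ℤˣ) : ℤ) •
      of ℤ (Perm (Cell D c)) (s' : Perm (Cell D c)))]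
  refine Finset.sum_congr rfl fun s' _ => ?_
  have h1 : ((Perm.sign s : ℤˣ) : ℤ) * ((Perm.sign s : ℤˣ) : ℤ) = 1 := by
    rw [← Units.val_mul, Int.units_mul_self, Units.val_one]
  simp only [Equiv.coe_mulLeft, Subgroup.coe_mul, map_mul, Units.val_mul, mul_smul_comm,
    smul_smul, ← mul_assoc, h1, one_mul]

theorem swap_mem_P {x y : Cell D c} (h : row x = row y) : swap x y ∈ P D c := by
  intro z
  rcases eq_or_ne z x with rfl | h1
  · rw [swap_apply_left, h]
  · rcases eq_or_ne z y with rfl | h2
    · rw [swap_apply_right, h]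
    · rw [swap_apply_of_ne_of_ne h1 h2]

theorem swap_mem_Q {x y : Cell D c} (h : col x = col y) : swap x y ∈ Q D c := by
  intro z
  rcases eq_or_ne z x with rfl | h1
  · rw [swap_apply_left, h]
  · rcases eq_or_ne z y with rfl | h2
    · rw [swap_apply_right, h]
    · rw [swap_apply_of_ne_of_ne h1 h2]

open MonoidAlgebra in
theorem symP_of_altQ (g : Perm (Cell D c)) :
    ∃ n : ℤ, symP D c * of ℤ _ g * altQ D c = n • young D c := by
  by_cases hg : ∃ x y, row x = row y ∧ col (g⁻¹ x) = col (g⁻¹ y) ∧ x ≠ y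
  · obtain ⟨x, y, h1, h2, h3⟩ := hg
    refine ⟨0, ?_⟩
    have ht : swap x y ∈ P D c := swap_mem_P h1
    have hs : swap (g⁻¹ x) (g⁻¹ y) ∈ Q D c := swap_mem_Q h2
    have hconj : swap x y * g = g * swap (g⁻¹ x) (g⁻¹ y) := by
      rw [Equiv.mul_swap_eq_swap_mul]
      have e1 : g (g⁻¹ x) = x := g.apply_symm_apply x
      have e2 : g (g⁻¹ y) = y := g.apply_symm_apply y
      rw [e1, e2]
    have h4 : symP D c * of ℤ _ g * altQ D c = -(symP D c * of ℤ _ g * altQ D c) := by
      conv_lhs => rw [← symP_mul_of ht]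
      rw [mul_assoc (symP D c), ← map_mul, hconj, map_mul, ← mul_assoc, mul_assoc _ _ (altQ D c),
        of_mul_altQ hs, Perm.sign_swap (fun h => h3 (g⁻¹.injective h))]
      simp
    have h5 : (2 : ℤ) • (symP D c * of ℤ _ g * altQ D c) = 0 := by
      rw [two_smul]
      nth_rewrite 1 [h4]
      simp
    have h6 : symP D c * of ℤ _ g * altQ D c = 0 := by
      apply coeff_injective
      ext z
      have := congrArg (fun w => w.coeff z) h5
      simp only [coeff_smul_apply, coeff_zero, Finsupp.coe_zero, Pi.zero_apply, smul_eq_mul] at this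
      simp only [coeff_zero, Finsupp.coe_zero, Pi.zero_apply]
      omega
    rw [h6, zero_smul]
  · push Not at hg
    obtain ⟨s, hs, p, hp, h⟩ := vonNeumann (g⁻¹) hg
    have hg' : g = p⁻¹ * s⁻¹ := by
      rw [← inv_inv g, h, mul_inv_rev]
    refine ⟨((Perm.sign s⁻¹ : ℤˣ) : ℤ), ?_⟩
    rw [hg', map_mul, ← mul_assoc, symP_mul_of ((P D c).inv_mem hp), mul_assoc,
      of_mul_altQ ((Q D c).inv_mem hs), mul_smul_comm]
    rfl


open MonoidAlgebra in
theorem young_sq' : ∃ n : ℤ, young D c * young D c = n • young D c := by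
  have h : ∀ x : MonoidAlgebra ℤ (Perm (Cell D c)),
      ∃ n : ℤ, symP D c * x * altQ D c = n • young D c := by
    intro x
    induction x using MonoidAlgebra.induction_linear with
    | zero => exact ⟨0, by simp⟩
    | add x y hx hy =>
      obtain ⟨m, hm⟩ := hx
      obtain ⟨n, hn⟩ := hy
      exact ⟨m + n, by rw [mul_add, add_mul, hm, hn, add_smul]⟩
    | single g r =>
      obtain ⟨n, hn⟩ := symP_of_altQ g
      refine ⟨r * n, ?_⟩
      have h1 : (single g r : MonoidAlgebra ℤ (Perm (Cell D c))) = r • of ℤ _ g := by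
        rw [of_apply, smul_single, smul_eq_mul, mul_one]
      rw [h1, mul_smul_comm, smul_mul_assoc, hn, smul_smul]
  obtain ⟨n, hn⟩ := h (altQ D c * symP D c)
  exact ⟨n, by rw [← hn]; unfold young; simp only [mul_assoc]⟩

/-- the sign as an integer -/
def sg (g : Perm (Cell D c)) : ℤ := ((Perm.sign g : ℤˣ) : ℤ)

theorem sg_mul (g h : Perm (Cell D c)) : sg (g * h) = sg g * sg h := by
  unfold sg
  rw [Perm.sign_mul, Units.val_mul]

theorem sg_mul_self (g : Perm (Cell D c)) : sg g * sg g = 1 := by
  unfold sg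
  rw [← Units.val_mul, Int.units_mul_self, Units.val_one]

open MonoidAlgebra in
theorem young_eq : young D c = ∑ p : P D c, ∑ s : Q D c,
    sg (s : Perm (Cell D c)) • of ℤ _ ((p : Perm (Cell D c)) * s) := by
  unfold young symP altQ
  rw [Finset.sum_mul_sum]
  refine Finset.sum_congr rfl fun p _ => Finset.sum_congr rfl fun s _ => ?_
  rw [mul_smul_comm, map_mul]
  rfl

open MonoidAlgebra in
theorem coeff_smul_of (r : ℤ) (g h : Perm (Cell D c)) :
    (r • of ℤ (Perm (Cell D c)) g).coeff h = if g = h then r else 0 := by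
  rw [of_apply, smul_single, smul_eq_mul, mul_one, coeff_single, Finsupp.single_apply]

theorem coeff_young (g : Perm (Cell D c)) : (young D c).coeff g = ∑ p : P D c, ∑ s : Q D c,
    if (p : Perm (Cell D c)) * s = g then sg (s : Perm (Cell D c)) else 0 := by
  rw [young_eq, MonoidAlgebra.coeff_sum, Finsupp.finsetSum_apply]
  refine Finset.sum_congr rfl fun p _ => ?_
  rw [MonoidAlgebra.coeff_sum, Finsupp.finsetSum_apply]
  refine Finset.sum_congr rfl fun s _ => ?_
  rw [coeff_smul_of]

theorem coeff_young_one : (young D c).coeff 1 = 1 := by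
  rw [coeff_young, Finset.sum_eq_single 1, Finset.sum_eq_single 1]
  · simp [sg]
  · intro s _ hs
    rw [if_neg]
    simpa using hs
  · simp
  · intro p _ hp
    refine Finset.sum_eq_zero fun s _ => ?_
    rw [if_neg]
    intro h
    apply hp
    have h1 : (p : Perm (Cell D c)) = (s : Perm (Cell D c))⁻¹ := eq_inv_of_mul_eq_one_left h
    have h2 : (p : Perm (Cell D c)) ∈ Q D c := by
      rw [h1]
      exact (Q D c).inv_mem s.2
    exact Subtype.ext (eq_one_of_mem p.2 h2)
  · simp

/-- the scalar -/
noncomputable def M (D c : ℕ) : ℤ := (young D c * young D c).coeff 1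

theorem young_sq : young D c * young D c = M D c • young D c := by
  obtain ⟨n, hn⟩ := young_sq' (D := D) (c := c)
  have h : M D c = n := by
    unfold M
    rw [hn, MonoidAlgebra.coeff_smul_apply, coeff_young_one, smul_eq_mul, mul_one]
  rw [h, hn]

/-- number of `p ∈ P` with `s p s' ∈ P` -/
def N (s s' : Perm (Cell D c)) : ℕ :=
  (univ.filter fun p : P D c => s * (p : Perm (Cell D c)) * s' ∈ P D c).card

theorem sum_reorder {α β : Type*} [Fintype α] [Fintype β] (f : α → β → α → β → ℤ) :
    ∑ p, ∑ s, ∑ p', ∑ s', f p s p' s' = ∑ s, ∑ s', ∑ p', ∑ p, f p s p' s' := by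
  rw [Finset.sum_comm]
  refine Finset.sum_congr rfl fun s _ => ?_
  rw [Finset.sum_comm]
  have : ∀ p', ∑ p, ∑ s', f p s p' s' = ∑ s', ∑ p, f p s p' s' := fun p' => Finset.sum_comm
  simp only [this]
  rw [Finset.sum_comm]

open MonoidAlgebra in
theorem M_eq : M D c = ∑ s : Q D c, ∑ s' : Q D c, sg (s : Perm (Cell D c)) *
    sg (s' : Perm (Cell D c)) * (N (s : Perm (Cell D c)) s' : ℤ) := by
  have h1 : young D c * young D c = ∑ p : P D c, ∑ s : Q D c, ∑ p' : P D c, ∑ s' : Q D c,
      (sg (s : Perm (Cell D c)) * sg (s' : Perm (Cell D c))) •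
        of ℤ _ ((p : Perm (Cell D c)) * (s * p' * s')) := by
    rw [young_eq, Finset.sum_mul]
    refine Finset.sum_congr rfl fun p _ => ?_
    rw [Finset.sum_mul]
    refine Finset.sum_congr rfl fun s _ => ?_
    rw [Finset.mul_sum]
    refine Finset.sum_congr rfl fun p' _ => ?_
    rw [Finset.mul_sum]
    refine Finset.sum_congr rfl fun s' _ => ?_
    rw [smul_mul_smul_comm, ← map_mul]
    congr 2
  have h2 : M D c = ∑ p : P D c, ∑ s : Q D c, ∑ p' : P D c, ∑ s' : Q D c,
      if (p : Perm (Cell D c)) * (s * p' * s') = 1 then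
        sg (s : Perm (Cell D c)) * sg (s' : Perm (Cell D c)) else 0 := by
    unfold M
    rw [h1]
    simp only [MonoidAlgebra.coeff_sum, Finsupp.finsetSum_apply, coeff_smul_of]
  rw [h2, sum_reorder]
  refine Finset.sum_congr rfl fun s _ => Finset.sum_congr rfl fun s' _ => ?_
  have h3 : ∀ p' : P D c, (∑ p : P D c, if (p : Perm (Cell D c)) * (s * p' * s') = 1 then
        sg (s : Perm (Cell D c)) * sg (s' : Perm (Cell D c)) else 0) =
      if (s : Perm (Cell D c)) * p' * s' ∈ P D c then
        sg (s : Perm (Cell D c)) * sg (s' : Perm (Cell D c)) else 0 := by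
    intro p'
    by_cases h : (s : Perm (Cell D c)) * p' * s' ∈ P D c
    · rw [if_pos h, Finset.sum_eq_single (⟨_, (P D c).inv_mem h⟩ : P D c)]
      · rw [if_pos]
        exact inv_mul_cancel _
      · intro p _ hp
        rw [if_neg]
        intro h4
        apply hp
        exact Subtype.ext (eq_inv_of_mul_eq_one_left h4)
      · simp
    · rw [if_neg h]
      refine Finset.sum_eq_zero fun p _ => ?_
      rw [if_neg]
      intro h4
      apply h
      have h5 := eq_inv_of_mul_eq_one_right h4
      rw [h5]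
      exact (P D c).inv_mem p.2
  simp only [h3]
  rw [← Finset.sum_filter, Finset.sum_const, nsmul_eq_mul, mul_comm]
  rfl

/-! ### the reversal and the arithmetic of `M` -/

/-- counting function of a column permutation -/
abbrev mat (s : Perm (Cell D c)) (i k : Fin D) : ℤ := cnt row (fun x => row (s x)) i k

/-- reversal of all the columns, as a function -/
def revFun (x : Cell D c) : Cell D c :=
  mkCell ⟨D - 1 - ((col x).1 : ℕ) - (row x : ℕ), by have := cell_lt x; omega⟩ (col x)
    (by have := cell_lt x; simp only; omega)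

theorem revFun_revFun (x : Cell D c) : revFun (revFun x) = x := by
  apply cell_ext
  · apply Fin.ext
    have := cell_lt x
    simp only [revFun, row_mkCell, col_mkCell]
    omega
  · rfl

/-- reversal of all the columns -/
def rho : Perm (Cell D c) := ⟨revFun, revFun, revFun_revFun, revFun_revFun⟩

theorem rho_apply (x : Cell D c) : rho x = revFun x := rfl

theorem rho_mem : (rho : Perm (Cell D c)) ∈ Q D c := fun _ => rfl

theorem rho_mul_rho : (rho : Perm (Cell D c)) * rho = 1 := by
  ext1 x
  exact revFun_revFun x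

theorem row_rho (x : Cell D c) : ((row (rho x) : Fin D) : ℕ) = D - 1 - ((col x).1 : ℕ) - (row x : ℕ) :=
  rfl

/-- the matrix of the reversal -/
theorem mat_rho (i k : Fin D) (h : (i : ℕ) + (k : ℕ) < D) : mat (rho : Perm (Cell D c)) i k = c := by
  unfold mat cnt
  have hD : 0 < D := by omega
  have h1 : ∀ x : Cell D c, (row x = i ∧ row (rho x) = k) ↔
      ∃ r : Fin c, x = mkCell i (⟨D - 1 - i - k, by omega⟩, r) (by simp only; omega) := by
    intro x
    constructor
    · rintro ⟨h1, h2⟩
      refine ⟨(col x).2, cell_ext h1 ?_⟩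
      have h3 := cell_lt x
      have h4 := congrArg Fin.val h2
      rw [row_rho] at h4
      rw [h1] at h3 h4
      apply Prod.ext
      · apply Fin.ext
        simp only [col_mkCell]
        omega
      · rfl
    · rintro ⟨r, rfl⟩
      refine ⟨rfl, ?_⟩
      apply Fin.ext
      rw [row_rho]
      simp only [row_mkCell, col_mkCell]
      omega
  simp only [h1]
  rw [← Finset.sum_filter, Finset.sum_const, nsmul_eq_mul, mul_one]
  have h2 : (univ.filter fun x : Cell D c => ∃ r : Fin c,
      x = mkCell i (⟨D - 1 - i - k, by omega⟩, r) (by simp only; omega)) =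
      (univ : Finset (Fin c)).image
        (fun r => mkCell i (⟨D - 1 - i - k, by omega⟩, r) (by simp only; omega)) := by
    ext x
    simp only [mem_filter, mem_univ, true_and, mem_image]
    constructor
    · rintro ⟨r, hr⟩
      exact ⟨r, hr.symm⟩
    · rintro ⟨r, hr⟩
      exact ⟨r, hr.symm⟩
  rw [h2, Finset.card_image_of_injective, Finset.card_univ, Fintype.card_fin]
  intro r r' hr
  exact congrArg Prod.snd (congrArg col hr)

theorem mat_rho_zero (i k : Fin D) (h : D ≤ (i : ℕ) + (k : ℕ)) :
    mat (rho : Perm (Cell D c)) i k = 0 := by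
  by_contra h0
  have h2 := cnt_nonneg (D := D) (c := c) row (fun x => row (rho x)) i k
  obtain ⟨x, hx1, hx2⟩ := exists_of_cnt_pos (D := D) (c := c) row (fun x => row (rho x))
    (lt_of_le_of_ne h2 (Ne.symm h0))
  have h3 := cell_lt x
  have h4 := congrArg Fin.val hx2
  simp only [row_rho] at h4
  rw [hx1] at h3 h4
  omega

/-- a column permutation whose matrix has entries at most `c` has the matrix of the reversal -/
theorem mat_eq (s : Perm (Cell D c)) (h : ∀ i k, mat s i k ≤ c) (i k : Fin D) :
    mat (rho : Perm (Cell D c)) i k = mat s i k := by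
  revert i k
  apply extremal (R := Fin D) (S := Fin D)
    (fun r => 2 * (D:ℤ) - 1 - 2 * ((r : ℕ) : ℤ)) (fun j => -2 * ((j : ℕ) : ℤ))
  · intro r
    rw [cnt_sum_right, cnt_sum_right]
  · intro j
    rw [cnt_sum_left, cnt_sum_left]
    rw [Equiv.sum_comp rho (fun x => if row x = j then (1:ℤ) else 0),
      Equiv.sum_comp s (fun x => if row x = j then (1:ℤ) else 0)]
  · intro r j hrj
    rw [mat_rho r j (pot_pos _ _ hrj)]
    exact h r j
  · intro r j hrj
    rw [mat_rho_zero r j (by omega)]
    exact cnt_nonneg _ _ _ _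
  · intro r j
    omega

/-- sums over cells of a function of `(row x, row (s x))` -/
theorem sum_mat (s : Perm (Cell D c)) (F : Fin D → Fin D → ℤ) :
    ∑ x : Cell D c, F (row x) (row (s x)) = ∑ i, ∑ k, mat s i k * F i k := by
  unfold mat cnt
  have : ∀ i k, (∑ x : Cell D c, if row x = i ∧ row (s x) = k then (1:ℤ) else 0) * F i k =
      ∑ x : Cell D c, if row x = i ∧ row (s x) = k then F i k else 0 := by
    intro i k
    rw [Finset.sum_mul]
    refine Finset.sum_congr rfl fun x _ => ?_
    split_ifs <;> simp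
  simp only [this]
  have h2 : ∀ i, ∑ k, ∑ x : Cell D c, (if row x = i ∧ row (s x) = k then F i k else 0) =
      ∑ x : Cell D c, if row x = i then F i (row (s x)) else 0 := by
    intro i
    rw [Finset.sum_comm]
    refine Finset.sum_congr rfl fun x _ => ?_
    by_cases h : row x = i <;> simp [h]
  simp only [h2]
  rw [Finset.sum_comm]
  refine Finset.sum_congr rfl fun x _ => ?_
  simp

/-- the reversal is the only column permutation whose matrix has entries at most `c` -/
theorem eq_rho (s : Perm (Cell D c)) (hs : s ∈ Q D c) (h : ∀ i k, mat s i k ≤ c) : s = rho := by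
  have hm := mat_eq s h
  let T : Perm (Cell D c) → Cell D c → ℤ := fun g x => ((row x : ℕ) : ℤ) + ((row (g x) : ℕ) : ℤ)
  have hTr : ∀ x, T rho x = (D:ℤ) - 1 - ((col x).1 : ℕ) := by
    intro x
    simp only [T]
    have := cell_lt x
    rw [row_rho]
    omega
  have hsq : ∑ x, T s x ^ 2 = ∑ x, T rho x ^ 2 := by
    simp only [T]
    rw [sum_mat s (fun i k => (((i : ℕ) : ℤ) + ((k : ℕ) : ℤ)) ^ 2),
      sum_mat rho (fun i k => (((i : ℕ) : ℤ) + ((k : ℕ) : ℤ)) ^ 2)]
    simp only [hm]
  have hlin : ∀ g ∈ Q D c, ∑ x, T g x * T rho x =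
      ∑ x, ((row x : ℕ) : ℤ) * T rho x + ∑ x, ((row x : ℕ) : ℤ) * T rho x := by
    intro g hg
    have h1 : ∑ x, ((row (g x) : ℕ) : ℤ) * T rho x = ∑ x, ((row x : ℕ) : ℤ) * T rho x := by
      rw [← Equiv.sum_comp g (fun x => ((row x : ℕ) : ℤ) * T rho x)]
      refine Finset.sum_congr rfl fun x _ => ?_
      rw [hTr, hTr, hg x]
    calc ∑ x, T g x * T rho x
        = ∑ x, ((row x : ℕ) : ℤ) * T rho x + ∑ x, ((row (g x) : ℕ) : ℤ) * T rho x := by
          rw [← Finset.sum_add_distrib]
          refine Finset.sum_congr rfl fun x _ => ?_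
          simp only [T]
          ring
      _ = _ := by rw [h1]
  have hz : ∑ x, (T s x - T rho x) ^ 2 = 0 := by
    have e1 : ∀ x, (T s x - T rho x) ^ 2 = T s x ^ 2 - 2 * (T s x * T rho x) + T rho x ^ 2 := by
      intro x
      ring
    simp only [e1]
    rw [Finset.sum_add_distrib, Finset.sum_sub_distrib, ← Finset.mul_sum, hsq, hlin s hs]
    have e2 := hlin rho rho_mem
    have e3 : ∑ x, T rho x * T rho x = ∑ x, T rho x ^ 2 :=
      Finset.sum_congr rfl fun x _ => by ring
    rw [e3] at e2
    rw [← e2]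
    ring
  ext1 x
  have h0 := (Finset.sum_eq_zero_iff_of_nonneg (fun x _ => sq_nonneg (T s x - T rho x))).1 hz x
    (mem_univ x)
  have h1 : T s x = T rho x := by
    have := pow_eq_zero_iff (two_ne_zero) |>.1 h0
    omega
  apply cell_ext
  · apply Fin.ext
    simp only [T] at h1
    omega
  · rw [hs x, rho_mem x]


/-! ### `M` is prime to `q = c + 1` -/

theorem N_comm (s s' : Perm (Cell D c)) : N s s' = N s' s := by
  have key : ∀ s s' : Perm (Cell D c), N s s' ≤ N s' s := by
    intro s s'
    unfold N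
    apply Finset.card_le_card_of_injOn
      (fun p : P D c => if h : s * (p : Perm (Cell D c)) * s' ∈ P D c then
        (⟨(s * (p : Perm (Cell D c)) * s')⁻¹, (P D c).inv_mem h⟩ : P D c) else 1)
    · intro p hp
      simp only [coe_filter, mem_univ, true_and, Set.mem_ofPred_eq] at hp ⊢
      rw [dif_pos hp]
      have : s' * (s * (p : Perm (Cell D c)) * s')⁻¹ * s = (p : Perm (Cell D c))⁻¹ := by group
      simp only [this]
      exact (P D c).inv_mem p.2
    · intro p hp p' hp' h
      simp only [coe_filter, mem_univ, true_and, Set.mem_ofPred_eq] at hp hp'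
      simp only [dif_pos hp, dif_pos hp', Subtype.mk.injEq, inv_inj, mul_left_inj,
        mul_right_inj] at h
      exact Subtype.ext h
  exact le_antisymm (key s s') (key s' s)

/-- fibres of `x ↦ (row x, row (s x))` -/
def fib (s : Perm (Cell D c)) (ik : Fin D × Fin D) : ℕ :=
  Fintype.card {x : Cell D c // (row x, row (s x)) = ik}

theorem mat_eq_fib (s : Perm (Cell D c)) (i k : Fin D) : mat s i k = fib s (i, k) := by
  unfold mat cnt fib
  rw [← Finset.sum_filter, Finset.sum_const, nsmul_eq_mul, mul_one, Fintype.card_subtype]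
  simp only [Prod.mk.injEq]

theorem N_inv (s : Perm (Cell D c)) : N s s⁻¹ = ∏ ik, (fib s ik).factorial := by
  unfold fib
  rw [← DomMulAct.stabilizer_card (fun x : Cell D c => (row x, row (s x)))]
  unfold N
  rw [← Fintype.card_subtype]
  refine Fintype.card_congr ⟨fun p => ⟨(p.1 : Perm (Cell D c)), ?_⟩, fun g => ⟨⟨g.1, ?_⟩, ?_⟩,
    fun p => rfl, fun g => rfl⟩
  · funext x
    simp only [Function.comp_apply, Prod.mk.injEq]
    refine ⟨p.1.2 x, ?_⟩
    have := p.2 (s x)
    simpa using this
  · intro x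
    have := congrFun g.2 x
    simp only [Function.comp_apply, Prod.mk.injEq] at this
    exact this.1
  · intro x
    have := congrFun g.2 (s⁻¹ x)
    simp only [Function.comp_apply, Prod.mk.injEq] at this
    simpa using this.2

theorem N_eq_of_ne_zero (s s' : Perm (Cell D c)) (h : N s s' ≠ 0) :
    N s s' = ∏ ik, (fib s ik).factorial := by
  rw [← N_inv]
  unfold N at h
  obtain ⟨p0, hp0⟩ := Finset.card_pos.1 (Nat.pos_of_ne_zero h)
  simp only [mem_filter, mem_univ, true_and] at hp0
  unfold N
  rw [← Fintype.card_subtype, ← Fintype.card_subtype]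
  refine Fintype.card_congr ⟨fun p => ⟨p.1 * p0⁻¹, ?_⟩, fun p => ⟨p.1 * p0, ?_⟩, ?_, ?_⟩
  · have h1 : s * ((p.1 * p0⁻¹ : P D c) : Perm (Cell D c)) * s⁻¹ =
        (s * (p.1 : Perm (Cell D c)) * s') * (s * (p0 : Perm (Cell D c)) * s')⁻¹ := by
      simp only [Subgroup.coe_mul, Subgroup.coe_inv]
      group
    rw [h1]
    exact (P D c).mul_mem p.2 ((P D c).inv_mem hp0)
  · have h1 : s * ((p.1 * p0 : P D c) : Perm (Cell D c)) * s' =
        (s * (p.1 : Perm (Cell D c)) * s⁻¹) * (s * (p0 : Perm (Cell D c)) * s') := by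
      simp only [Subgroup.coe_mul]
      group
    rw [h1]
    exact (P D c).mul_mem p.2 hp0
  · intro p
    apply Subtype.ext
    simp
  · intro p
    apply Subtype.ext
    simp

theorem dvd_N (hq : (c + 1).Prime) (s s' : Perm (Cell D c)) (hs : s ∈ Q D c) (hne : s ≠ rho) :
    (c + 1) ∣ N s s' := by
  by_contra hnd
  have h0 : N s s' ≠ 0 := by
    intro h
    rw [h] at hnd
    exact hnd (dvd_zero _)
  apply hne
  apply eq_rho s hs
  intro i k
  rw [mat_eq_fib]
  by_contra hlt
  apply hnd
  rw [N_eq_of_ne_zero s s' h0]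
  refine dvd_trans ?_ (Finset.dvd_prod_of_mem _ (mem_univ (i, k)))
  rw [hq.dvd_factorial]
  omega

theorem not_dvd_N_rho (hq : (c + 1).Prime) : ¬ (c + 1) ∣ N (rho : Perm (Cell D c)) rho := by
  have h1 : (rho : Perm (Cell D c)) = rho⁻¹ := eq_inv_of_mul_eq_one_left rho_mul_rho
  nth_rewrite 2 [h1]
  rw [N_inv, Prime.dvd_finsetProd_iff hq.prime]
  rintro ⟨⟨i, k⟩, _, h⟩
  rw [hq.dvd_factorial] at h
  have h2 := mat_eq_fib (rho : Perm (Cell D c)) i k
  rcases lt_or_ge ((i : ℕ) + (k : ℕ)) D with h3 | h3
  · rw [mat_rho _ _ h3] at h2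
    omega
  · rw [mat_rho_zero _ _ h3] at h2
    omega

/-- **`M` is prime to `q = c + 1`.** -/
theorem not_dvd_M (hq : (c + 1).Prime) : ¬ ((c + 1 : ℕ) : ℤ) ∣ M D c := by
  classical
  intro hM
  apply not_dvd_N_rho (D := D) hq
  have h1 : M D c = ∑ x : Q D c × Q D c, sg (x.1 : Perm (Cell D c)) *
      sg (x.2 : Perm (Cell D c)) * (N (x.1 : Perm (Cell D c)) x.2 : ℤ) := by
    rw [M_eq, Fintype.sum_prod_type]
  rw [h1, ← Finset.add_sum_erase _ _ (mem_univ ((⟨rho, rho_mem⟩, ⟨rho, rho_mem⟩) :
    Q D c × Q D c))] at hM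
  have h2 : ((c + 1 : ℕ) : ℤ) ∣ ∑ x ∈ univ.erase ((⟨rho, rho_mem⟩, ⟨rho, rho_mem⟩) :
      Q D c × Q D c), sg (x.1 : Perm (Cell D c)) *
      sg (x.2 : Perm (Cell D c)) * (N (x.1 : Perm (Cell D c)) x.2 : ℤ) := by
    refine Finset.dvd_sum fun x hx => ?_
    apply Dvd.dvd.mul_left
    rw [Int.natCast_dvd_natCast]
    by_cases h3 : (x.1 : Perm (Cell D c)) = rho
    · by_cases h4 : (x.2 : Perm (Cell D c)) = rho
      · exfalso
        rw [Finset.mem_erase] at hx
        apply hx.1
        exact Prod.ext (Subtype.ext h3) (Subtype.ext h4)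
      · rw [N_comm]
        exact dvd_N hq _ _ x.2.2 h4
    · exact dvd_N hq _ _ x.1.2 h3
  have h5 := (dvd_add_left h2).1 hM
  simp only [sg_mul_self, one_mul] at h5
  exact_mod_cast h5


/-! ### words -/

/-- **kills words with few letters** (coefficient form) -/
theorem kills (hc : 0 < c) {ι : Type*} [DecidableEq ι] (w w' : Cell D c → ι)
    (hw : (univ.image w).card < D) :
    ∑ g : Perm (Cell D c), (if w ∘ g = w' then (young D c).coeff g else 0) = 0 := by
  classical
  have h1 : ∑ g : Perm (Cell D c), (if w ∘ g = w' then (young D c).coeff g else 0) =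
      ∑ p : P D c, ∑ s : Q D c, if (w ∘ (p : Perm (Cell D c))) ∘ (s : Perm (Cell D c)) = w'
        then sg (s : Perm (Cell D c)) else 0 := by
    simp only [coeff_young]
    have h2 : ∀ g : Perm (Cell D c), (if w ∘ g = w' then ∑ p : P D c, ∑ s : Q D c,
          (if (p : Perm (Cell D c)) * s = g then sg (s : Perm (Cell D c)) else 0) else 0) =
        ∑ p : P D c, ∑ s : Q D c, if (p : Perm (Cell D c)) * s = g then
          (if w ∘ g = w' then sg (s : Perm (Cell D c)) else 0) else 0 := by
      intro g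
      by_cases h : w ∘ g = w' <;> simp [h]
    simp only [h2]
    rw [Finset.sum_comm]
    refine Finset.sum_congr rfl fun p _ => ?_
    rw [Finset.sum_comm]
    refine Finset.sum_congr rfl fun s _ => ?_
    simp only [Finset.sum_ite_eq, mem_univ, if_true]
    rfl
  rw [h1]
  refine Finset.sum_eq_zero fun p _ => ?_
  set v : Cell D c → ι := w ∘ (p : Perm (Cell D c)) with hv
  -- pigeonhole in the first column
  have hD : 0 < D := lt_of_le_of_lt (Nat.zero_le _) hw
  let j0 : Fin D × Fin c := (⟨0, hD⟩, ⟨0, hc⟩)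
  obtain ⟨i, i', hii, hvi⟩ : ∃ i i' : Fin D, i ≠ i' ∧
      v (mkCell i j0 i.2) = v (mkCell i' j0 i'.2) := by
    by_contra hne
    push Not at hne
    have hinj : Function.Injective (fun i : Fin D => v (mkCell i j0 i.2)) := by
      intro i i' h
      by_contra h3
      exact hne i i' h3 h
    have h4 : (univ.image (fun i : Fin D => v (mkCell i j0 i.2))).card = D := by
      rw [Finset.card_image_of_injective _ hinj, Finset.card_univ, Fintype.card_fin]
    have h5 : univ.image (fun i : Fin D => v (mkCell i j0 i.2)) ⊆ univ.image w := by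
      intro z hz
      simp only [mem_image, mem_univ, true_and] at hz ⊢
      obtain ⟨i, hi⟩ := hz
      exact ⟨_, hi⟩
    have := Finset.card_le_card h5
    omega
  set x := mkCell i j0 i.2
  set y := mkCell i' j0 i'.2
  have hxy : x ≠ y := by
    intro h
    exact hii (congrArg row h)
  have ht : swap x y ∈ Q D c := swap_mem_Q rfl
  have hvt : v ∘ (swap x y) = v := by
    funext z
    simp only [Function.comp_apply]
    rcases eq_or_ne z x with rfl | h1
    · rw [swap_apply_left, hvi]
    · rcases eq_or_ne z y with rfl | h2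
      · rw [swap_apply_right, hvi]
      · rw [swap_apply_of_ne_of_ne h1 h2]
  have h6 : ∑ s : Q D c, (if v ∘ (s : Perm (Cell D c)) = w' then sg (s : Perm (Cell D c)) else 0) =
      - ∑ s : Q D c, (if v ∘ (s : Perm (Cell D c)) = w' then sg (s : Perm (Cell D c)) else 0) := by
    conv_lhs => rw [← Equiv.sum_comp (Equiv.mulLeft (⟨swap x y, ht⟩ : Q D c))]
    rw [← Finset.sum_neg_distrib]
    refine Finset.sum_congr rfl fun s _ => ?_
    have h7 : v ∘ ((Equiv.mulLeft (⟨swap x y, ht⟩ : Q D c) s : Q D c) : Perm (Cell D c)) =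
        v ∘ (s : Perm (Cell D c)) := by
      simp only [Equiv.coe_mulLeft, Subgroup.coe_mul, Perm.coe_mul]
      rw [← Function.comp_assoc, hvt]
    have h8 : sg ((Equiv.mulLeft (⟨swap x y, ht⟩ : Q D c) s : Q D c) : Perm (Cell D c)) =
        - sg (s : Perm (Cell D c)) := by
      simp only [Equiv.coe_mulLeft, Subgroup.coe_mul]
      rw [sg_mul]
      unfold sg
      rw [Perm.sign_swap hxy]
      simp
    rw [h7, h8]
    split_ifs <;> simp
  omega

/-- the trace of a nonzero quasi-idempotent integer matrix -/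
theorem trace_quasi {W : Type*} [Fintype W] [DecidableEq W] (A : Matrix W W ℤ) (m : ℤ)
    (hm : m ≠ 0) (hA : A * A = m • A) (h0 : A ≠ 0) : ∃ r : ℕ, 0 < r ∧ A.trace = m * r := by
  have hmq : (m : ℚ) ≠ 0 := by exact_mod_cast hm
  obtain ⟨F, hFdef⟩ : ∃ F : Matrix W W ℚ, F = (m : ℚ)⁻¹ • A.map (Int.castRingHom ℚ) := ⟨_, rfl⟩
  have hF : IsIdempotentElem (Matrix.toLin' F) := by
    have h1 : F * F = F := by
      rw [hFdef, smul_mul_smul_comm, ← Matrix.map_mul, hA]
      have h2 : (m • A).map (Int.castRingHom ℚ) = (m : ℚ) • A.map (Int.castRingHom ℚ) := by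
        ext w w'
        rw [Matrix.smul_apply, Matrix.map_apply, Matrix.map_apply, Matrix.smul_apply]
        simp
      rw [h2, smul_smul]
      congr 1
      field_simp
    unfold IsIdempotentElem
    rw [Module.End.mul_eq_comp, ← Matrix.toLin'_mul, h1]
  have hproj := LinearMap.IsIdempotentElem.isProj_range _ hF
  have htr := LinearMap.IsProj.trace hproj
  rw [Matrix.trace_toLin'_eq] at htr
  refine ⟨Module.finrank ℚ (LinearMap.range (Matrix.toLin' F)), ?_, ?_⟩
  · rw [Nat.pos_iff_ne_zero]
    intro h3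
    have h1 := Submodule.finrank_eq_zero.1 h3
    rw [LinearMap.range_eq_bot] at h1
    have h2 : F = 0 := by
      apply Matrix.toLin'.injective
      rw [h1, map_zero]
    apply h0
    ext w w'
    have h4 := congrFun (congrFun h2 w) w'
    rw [hFdef, Matrix.smul_apply, Matrix.map_apply, Matrix.zero_apply, smul_eq_mul,
      mul_eq_zero, inv_eq_zero] at h4
    have h5 := h4.resolve_left hmq
    simpa using h5
  · have h1 : F.trace = (m : ℚ)⁻¹ * (A.trace : ℚ) := by
      rw [hFdef, Matrix.trace_smul, smul_eq_mul]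
      congr 1
      simp only [Matrix.trace, Matrix.diag_apply, Matrix.map_apply]
      push_cast
      rfl
    rw [h1] at htr
    have h2 : (A.trace : ℚ) = (m : ℚ) *
        (Module.finrank ℚ (LinearMap.range (Matrix.toLin' F)) : ℚ) := by
      rw [← htr]
      field_simp
    exact_mod_cast h2

section words

variable {ι : Type*} [Fintype ι] [DecidableEq ι]

/-- permutation matrix on words -/
def pm (g : Perm (Cell D c)) : Matrix (Cell D c → ι) (Cell D c → ι) ℤ :=
  fun w w' => if w ∘ g = w' then 1 else 0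

theorem pm_mul (g h : Perm (Cell D c)) : pm (ι := ι) (g * h) = pm g * pm h := by
  ext w w'
  rw [Matrix.mul_apply]
  simp only [pm, ite_mul, one_mul, zero_mul, Finset.sum_ite_eq, mem_univ, if_true, Perm.coe_mul]
  rfl

omit [Fintype ι] in
theorem pm_one : pm (D := D) (c := c) (ι := ι) 1 = 1 := by
  ext w w'
  rw [Matrix.one_apply]
  rfl

/-- permutation matrices as a monoid hom -/
def pmHom : Perm (Cell D c) →* Matrix (Cell D c → ι) (Cell D c → ι) ℤ where
  toFun := pm
  map_one' := pm_one
  map_mul' := pm_mul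

/-- the young matrix -/
noncomputable def ym (D c : ℕ) (ι : Type*) [Fintype ι] [DecidableEq ι] :
    Matrix (Cell D c → ι) (Cell D c → ι) ℤ :=
  MonoidAlgebra.lift ℤ _ _ pmHom (young D c)

theorem ym_sq : ym D c ι * ym D c ι = M D c • ym D c ι := by
  unfold ym
  rw [← map_mul, young_sq, map_zsmul]

theorem ym_apply (w w' : Cell D c → ι) : ym D c ι w w' =
    ∑ g : Perm (Cell D c), (if w ∘ g = w' then (young D c).coeff g else 0) := by
  unfold ym
  rw [MonoidAlgebra.lift_apply, Finsupp.sum_fintype _ _ (by simp), Matrix.sum_apply]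
  refine Finset.sum_congr rfl fun g _ => ?_
  simp only [Matrix.smul_apply, pmHom, MonoidHom.coe_mk, OneHom.coe_mk, pm, smul_eq_mul]
  split_ifs <;> simp

theorem ym_ne_zero (hι : D ≤ Fintype.card ι) : ym D c ι ≠ 0 := by
  obtain ⟨φ⟩ : Nonempty (Fin D ↪ ι) := by
    apply Function.Embedding.nonempty_of_card_le
    rwa [Fintype.card_fin]
  intro h0
  have h1 := congrFun (congrFun h0 (φ ∘ row)) (φ ∘ row)
  rw [ym_apply, Matrix.zero_apply] at h1
  have h2 : ∑ g : Perm (Cell D c), (if (φ ∘ row) ∘ g = φ ∘ row then (young D c).coeff g else 0) =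
      ∑ p : P D c, ∑ s : Q D c, if (p : Perm (Cell D c)) * s ∈ P D c
        then sg (s : Perm (Cell D c)) else 0 := by
    simp only [coeff_young]
    have h3 : ∀ g : Perm (Cell D c), (φ ∘ row) ∘ g = φ ∘ row ↔ g ∈ P D c := by
      intro g
      constructor
      · intro h x
        exact φ.injective (congrFun h x)
      · intro h
        funext x
        simp only [Function.comp_apply]
        rw [h x]
    have h2 : ∀ g : Perm (Cell D c), (if (φ ∘ row) ∘ g = φ ∘ row then ∑ p : P D c, ∑ s : Q D c,
          (if (p : Perm (Cell D c)) * s = g then sg (s : Perm (Cell D c)) else 0) else 0) =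
        ∑ p : P D c, ∑ s : Q D c, if (p : Perm (Cell D c)) * s = g then
          (if g ∈ P D c then sg (s : Perm (Cell D c)) else 0) else 0 := by
      intro g
      by_cases h : g ∈ P D c
      · simp [h3, h]
      · simp [h3, h]
    simp only [h2]
    rw [Finset.sum_comm]
    refine Finset.sum_congr rfl fun p _ => ?_
    rw [Finset.sum_comm]
    refine Finset.sum_congr rfl fun s _ => ?_
    simp only [Finset.sum_ite_eq, mem_univ, if_true]
  rw [h2] at h1
  have h4 : ∀ p : P D c, (∑ s : Q D c, if (p : Perm (Cell D c)) * s ∈ P D c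
        then sg (s : Perm (Cell D c)) else 0) = 1 := by
    intro p
    rw [Finset.sum_eq_single 1]
    · rw [if_pos]
      · simp [sg]
      · simp
    · intro s _ hs
      rw [if_neg]
      intro h
      apply hs
      have h5 : (s : Perm (Cell D c)) ∈ P D c := by
        have := (P D c).mul_mem ((P D c).inv_mem p.2) h
        rwa [inv_mul_cancel_left] at this
      exact Subtype.ext (eq_one_of_mem h5 s.2)
    · simp
  simp only [h4] at h1
  simp at h1

/-- **trace = M * r with r > 0** -/
theorem trace_ym (hM : M D c ≠ 0) (hι : D ≤ Fintype.card ι) :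
    ∃ r : ℕ, 0 < r ∧ (ym D c ι).trace = M D c * r :=
  trace_quasi _ _ hM ym_sq (ym_ne_zero hι)

theorem trace_eq : (ym D c ι).trace = ∑ g : Perm (Cell D c),
    (young D c).coeff g * (Fintype.card {w : Cell D c → ι // w ∘ g = w} : ℤ) := by
  unfold Matrix.trace
  simp only [Matrix.diag_apply, ym_apply]
  rw [Finset.sum_comm]
  refine Finset.sum_congr rfl fun g _ => ?_
  rw [← Finset.sum_filter, Finset.sum_const, nsmul_eq_mul, mul_comm, Fintype.card_subtype]

end words


/-! ### powers and abstract vanishing (any abelian group, no division by 2) -/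

theorem young_pow (n : ℕ) : young D c ^ (n + 1) = M D c ^ n • young D c := by
  induction n with
  | zero => simp
  | succ n ih =>
    rw [pow_succ, ih, smul_mul_assoc, young_sq, smul_smul, pow_succ]

/-- sums against the Young element -/
theorem sum_coeff {A : Type*} [AddCommGroup A] (φ : Perm (Cell D c) → A) :
    ∑ g : Perm (Cell D c), (young D c).coeff g • φ g =
      ∑ p : P D c, ∑ s : Q D c, sg (s : Perm (Cell D c)) •
        φ ((p : Perm (Cell D c)) * (s : Perm (Cell D c))) := by
  classical
  simp only [coeff_young]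
  have h2 : ∀ g : Perm (Cell D c), (∑ p : P D c, ∑ s : Q D c,
        (if (p : Perm (Cell D c)) * s = g then sg (s : Perm (Cell D c)) else 0)) • φ g =
      ∑ p : P D c, ∑ s : Q D c, if (p : Perm (Cell D c)) * s = g then
        (sg (s : Perm (Cell D c)) • φ g) else 0 := by
    intro g
    rw [Finset.sum_smul]
    refine Finset.sum_congr rfl fun p _ => ?_
    rw [Finset.sum_smul]
    refine Finset.sum_congr rfl fun s _ => ?_
    split_ifs <;> simp
  simp only [h2]
  rw [Finset.sum_comm]
  refine Finset.sum_congr rfl fun p _ => ?_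
  rw [Finset.sum_comm]
  refine Finset.sum_congr rfl fun s _ => ?_
  simp only [Finset.sum_ite_eq, mem_univ, if_true]

/-- a word `w` with two equal letters at `x, y` in one column, on which the transposition acts
trivially, is killed -/
theorem kills_even_of {A : Type*} [AddCommGroup A] (φ : Perm (Cell D c) → A)
    (x y : Cell D c) (hxy : x ≠ y) (hcol : col x = col y)
    (hφ : ∀ g, φ (g * swap x y) = φ g) :
    ∑ g : Perm (Cell D c), (young D c).coeff g • φ g = 0 := by
  classical
  rw [sum_coeff]
  refine Finset.sum_eq_zero fun p _ => ?_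
  have ht : swap x y ∈ Q D c := swap_mem_Q hcol
  refine Finset.sum_involution (fun s _ => s * (⟨swap x y, ht⟩ : Q D c)) ?_ ?_ ?_ ?_
  · intro s _
    have h1 : sg (((s * (⟨swap x y, ht⟩ : Q D c) : Q D c)) : Perm (Cell D c)) =
        - sg (s : Perm (Cell D c)) := by
      rw [Subgroup.coe_mul, sg_mul]
      unfold sg
      rw [Perm.sign_swap hxy]
      simp
    rw [h1, Subgroup.coe_mul, ← mul_assoc, hφ]
    simp
  · intro s _ _ h
    have h1 : (⟨swap x y, ht⟩ : Q D c) = 1 := mul_eq_left.1 h
    have h2 : swap x y = 1 := congrArg Subtype.val h1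
    have h3 := congrArg (fun g : Perm (Cell D c) => g x) h2
    simp only [swap_apply_left, Perm.coe_one, id_eq] at h3
    exact hxy h3.symm
  · intro s _
    exact mem_univ _
  · intro s _
    rw [mul_assoc]
    have : (⟨swap x y, ht⟩ : Q D c) * (⟨swap x y, ht⟩ : Q D c) = 1 := by
      apply Subtype.ext
      simp
    rw [this, mul_one]

/-- **signed kill**: if equal odd letters anti-commute and there are more than `D * |O|`
odd letters then the Young element kills the word (any abelian group of coefficients). -/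
theorem kills_odd {A : Type*} [AddCommGroup A] {ι : Type*} [DecidableEq ι]
    (w : Cell D c → ι) (O : Finset ι) (φ : Perm (Cell D c) → A)
    (hφ : ∀ g x y, x ≠ y → w x = w y → w x ∈ O → φ (g * swap x y) = - φ g)
    (hO : D * O.card < (univ.filter fun x => w x ∈ O).card) :
    ∑ g : Perm (Cell D c), (young D c).coeff g • φ g = 0 := by
  classical
  rw [sum_coeff, Finset.sum_comm]
  refine Finset.sum_eq_zero fun s _ => ?_
  rw [← Finset.smul_sum]
  -- a row of `w ∘ s⁻¹` with two equal odd letters
  obtain ⟨x, y, hxy, hrow, hwxy, hwO⟩ : ∃ x y : Cell D c, x ≠ y ∧ row x = row y ∧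
      w ((s : Perm (Cell D c))⁻¹ x) = w ((s : Perm (Cell D c))⁻¹ y) ∧
      w ((s : Perm (Cell D c))⁻¹ x) ∈ O := by
    by_contra hne
    push Not at hne
    have h1 : (univ.filter fun x => w x ∈ O).card =
        (univ.filter fun x : Cell D c => w ((s : Perm (Cell D c))⁻¹ x) ∈ O).card := by
      apply Finset.card_bij (fun x _ => (s : Perm (Cell D c)) x)
      · intro x hx
        simpa using hx
      · intro x _ y _ h
        exact (s : Perm (Cell D c)).injective h
      · intro y hy
        refine ⟨(s : Perm (Cell D c))⁻¹ y, ?_, ?_⟩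
        · simpa using hy
        · exact (s : Perm (Cell D c)).apply_symm_apply y
    have h2 : (univ.filter fun x : Cell D c => w ((s : Perm (Cell D c))⁻¹ x) ∈ O).card ≤
        ((univ : Finset (Fin D)) ×ˢ O).card := by
      apply Finset.card_le_card_of_injOn (fun x => (row x, w ((s : Perm (Cell D c))⁻¹ x)))
      · intro x hx
        simp only [coe_filter, mem_univ, true_and, Set.mem_ofPred_eq] at hx
        exact Finset.mem_coe.2 (Finset.mem_product.2 ⟨mem_univ _, hx⟩)
      · intro x hx y hy h
        simp only [coe_filter, mem_univ, true_and, Set.mem_ofPred_eq] at hx hy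
        simp only [Prod.mk.injEq] at h
        by_contra hxy
        exact hne x y hxy h.1 h.2 hx
    rw [Finset.card_product, Finset.card_univ, Fintype.card_fin] at h2
    omega
  have ht : swap x y ∈ P D c := swap_mem_P hrow
  have h0 : ∑ p : P D c, φ ((p : Perm (Cell D c)) * (s : Perm (Cell D c))) = 0 := by
    refine Finset.sum_involution (fun p _ => p * (⟨swap x y, ht⟩ : P D c)) ?_ ?_ ?_ ?_
    · intro p _
      have h1 : ((p * (⟨swap x y, ht⟩ : P D c) : P D c) : Perm (Cell D c)) *
          (s : Perm (Cell D c)) = (p : Perm (Cell D c)) * s *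
            swap ((s : Perm (Cell D c))⁻¹ x) ((s : Perm (Cell D c))⁻¹ y) := by
        rw [Subgroup.coe_mul, mul_assoc, mul_assoc, Equiv.mul_swap_eq_swap_mul]
        have e1 : (s : Perm (Cell D c)) ((s : Perm (Cell D c))⁻¹ x) = x :=
          (s : Perm (Cell D c)).apply_symm_apply x
        have e2 : (s : Perm (Cell D c)) ((s : Perm (Cell D c))⁻¹ y) = y :=
          (s : Perm (Cell D c)).apply_symm_apply y
        rw [e1, e2]
      rw [h1, hφ _ _ _ (fun h => hxy ((s : Perm (Cell D c))⁻¹.injective h)) hwxy hwO]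
      simp
    · intro p _ _ h
      have h1 : (⟨swap x y, ht⟩ : P D c) = 1 := mul_eq_left.1 h
      have h2 : swap x y = 1 := congrArg Subtype.val h1
      have h3 := congrArg (fun g : Perm (Cell D c) => g x) h2
      simp only [swap_apply_left, Perm.coe_one, id_eq] at h3
      exact hxy h3.symm
    · intro p _
      exact mem_univ _
    · intro p _
      rw [mul_assoc]
      have : (⟨swap x y, ht⟩ : P D c) * (⟨swap x y, ht⟩ : P D c) = 1 := by
        apply Subtype.ext
        simp
      rw [this, mul_one]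
  rw [h0, smul_zero]


/-! ### the version on `Fin r` -/

/-- number of cells -/
def yr (D c : ℕ) : ℕ := Fintype.card (Cell D c)

/-- a numbering of the cells -/
noncomputable def cellEquiv (D c : ℕ) : Cell D c ≃ Fin (yr D c) := Fintype.equivFin _

/-- transport of permutations -/
noncomputable def tr (D c : ℕ) : Perm (Cell D c) ≃* Perm (Fin (yr D c)) :=
  (cellEquiv D c).permCongrHom

theorem tr_swap (x y : Cell D c) :
    tr D c (swap x y) = swap (cellEquiv D c x) (cellEquiv D c y) := by
  exact Equiv.symm_trans_swap_trans x y (cellEquiv D c)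

/-- **the Young element of `ℤ[Σ_r]`** -/
noncomputable def yF (D c : ℕ) : MonoidAlgebra ℤ (Perm (Fin (yr D c))) :=
  ∑ g : Perm (Cell D c), (young D c).coeff g • MonoidAlgebra.of ℤ _ (tr D c g)

theorem yF_eq_lift : yF D c = MonoidAlgebra.lift ℤ _ _
    ((MonoidAlgebra.of ℤ (Perm (Fin (yr D c)))).comp (tr D c).toMonoidHom) (young D c) := by
  rw [MonoidAlgebra.lift_apply, Finsupp.sum_fintype _ _ (by simp)]
  rfl

theorem yF_sq : yF D c * yF D c = M D c • yF D c := by
  rw [yF_eq_lift, ← map_mul, young_sq, map_zsmul]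

theorem yF_pow (n : ℕ) : yF D c ^ (n + 1) = M D c ^ n • yF D c := by
  rw [yF_eq_lift, ← map_pow, young_pow, map_zsmul]

theorem coeff_yF (g : Perm (Cell D c)) : (yF D c).coeff (tr D c g) = (young D c).coeff g := by
  classical
  unfold yF
  rw [MonoidAlgebra.coeff_sum, Finsupp.finsetSum_apply, Finset.sum_eq_single g]
  · rw [MonoidAlgebra.of_apply, MonoidAlgebra.smul_single, smul_eq_mul, mul_one,
      MonoidAlgebra.coeff_single, Finsupp.single_apply, if_pos rfl]
  · intro h _ hh
    rw [MonoidAlgebra.of_apply, MonoidAlgebra.smul_single, smul_eq_mul, mul_one,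
      MonoidAlgebra.coeff_single, Finsupp.single_apply, if_neg]
    exact fun h1 => hh ((tr D c).injective h1)
  · simp

theorem sum_yF {A : Type*} [AddCommGroup A] (φ : Perm (Fin (yr D c)) → A) :
    ∑ g : Perm (Fin (yr D c)), (yF D c).coeff g • φ g =
      ∑ g : Perm (Cell D c), (young D c).coeff g • φ (tr D c g) := by
  rw [← Equiv.sum_comp (tr D c).toEquiv]
  refine Finset.sum_congr rfl fun g _ => ?_
  simp only [MulEquiv.toEquiv_eq_coe, MulEquiv.coe_toEquiv]
  rw [coeff_yF]

/-- in a ring on which `Σ_r` acts the Young element is a quasi-idempotent -/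
theorem yF_sq_map {R : Type*} [Ring R] (ρ : Perm (Fin (yr D c)) →* R) :
    (∑ g : Perm (Fin (yr D c)), (yF D c).coeff g • ρ g) *
      (∑ g : Perm (Fin (yr D c)), (yF D c).coeff g • ρ g) =
      M D c • ∑ g : Perm (Fin (yr D c)), (yF D c).coeff g • ρ g := by
  have h : (∑ g : Perm (Fin (yr D c)), (yF D c).coeff g • ρ g) =
      MonoidAlgebra.lift ℤ _ _ ρ (yF D c) := by
    rw [MonoidAlgebra.lift_apply, Finsupp.sum_fintype _ _ (by simp)]
  rw [h, ← map_mul, yF_sq, map_zsmul]

/-- **signed kill**, version on `Fin r` -/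
theorem kills_odd_fin {A : Type*} [AddCommGroup A] {ι : Type*} [DecidableEq ι]
    (w : Fin (yr D c) → ι) (O : Finset ι) (φ : Perm (Fin (yr D c)) → A)
    (hφ : ∀ g x y, x ≠ y → w x = w y → w x ∈ O → φ (g * swap x y) = - φ g)
    (hO : D * O.card < (univ.filter fun x => w x ∈ O).card) :
    ∑ g : Perm (Fin (yr D c)), (yF D c).coeff g • φ g = 0 := by
  rw [sum_yF]
  apply kills_odd (fun x => w (cellEquiv D c x)) O (fun g => φ (tr D c g))
  · intro g x y hxy hw hwO
    rw [map_mul, tr_swap]
    exact hφ _ _ _ (fun h => hxy ((cellEquiv D c).injective h)) hw hwO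
  · refine lt_of_lt_of_eq hO ?_
    symm
    apply Finset.card_bij (fun x _ => cellEquiv D c x)
    · intro x hx
      simpa using hx
    · intro x _ y _ h
      exact (cellEquiv D c).injective h
    · intro y hy
      exact ⟨(cellEquiv D c).symm y, by simpa using hy, by simp⟩

/-- **even kill**, version on `Fin r`: words in fewer than `D` letters on which transpositions
of equal letters act trivially are killed -/
theorem kills_even_fin (hc : 0 < c) {A : Type*} [AddCommGroup A] {ι : Type*} [DecidableEq ι]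
    (w : Fin (yr D c) → ι) (φ : Perm (Fin (yr D c)) → A)
    (hφ : ∀ g x y, x ≠ y → w x = w y → φ (g * swap x y) = φ g)
    (hw : (univ.image w).card < D) :
    ∑ g : Perm (Fin (yr D c)), (yF D c).coeff g • φ g = 0 := by
  rw [sum_yF]
  have hD : 0 < D := lt_of_le_of_lt (Nat.zero_le _) hw
  let j0 : Fin D × Fin c := (⟨0, hD⟩, ⟨0, hc⟩)
  obtain ⟨i, i', hii, hvi⟩ : ∃ i i' : Fin D, i ≠ i' ∧
      w (cellEquiv D c (mkCell i j0 i.2)) = w (cellEquiv D c (mkCell i' j0 i'.2)) := by
    by_contra hne
    push Not at hne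
    have hinj : Function.Injective (fun i : Fin D => w (cellEquiv D c (mkCell i j0 i.2))) := by
      intro i i' h
      by_contra h3
      exact hne i i' h3 h
    have h4 : (univ.image (fun i : Fin D => w (cellEquiv D c (mkCell i j0 i.2)))).card = D := by
      rw [Finset.card_image_of_injective _ hinj, Finset.card_univ, Fintype.card_fin]
    have h5 : univ.image (fun i : Fin D => w (cellEquiv D c (mkCell i j0 i.2))) ⊆
        univ.image w := by
      intro z hz
      simp only [mem_image, mem_univ, true_and] at hz ⊢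
      obtain ⟨i, hi⟩ := hz
      exact ⟨_, hi⟩
    have := Finset.card_le_card h5
    omega
  have hxy : mkCell i j0 i.2 ≠ mkCell i' j0 i'.2 := fun h => hii (congrArg row h)
  apply kills_even_of _ (mkCell i j0 i.2) (mkCell i' j0 i'.2) hxy rfl
  intro g
  rw [map_mul, tr_swap]
  exact hφ _ _ _ (fun h => hxy ((cellEquiv D c).injective h)) hvi

/-- **trace on words**, version on `Fin r` -/
theorem trace_fin (hq : (c + 1).Prime) {ι : Type*} [Fintype ι] [DecidableEq ι]
    (hι : D ≤ Fintype.card ι) : ∃ k : ℕ, 0 < k ∧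
    ∑ g : Perm (Fin (yr D c)), (yF D c).coeff g *
      (Fintype.card {w : Fin (yr D c) → ι // w ∘ g = w} : ℤ) = M D c * k := by
  have hM : M D c ≠ 0 := fun h => not_dvd_M hq (h ▸ dvd_zero _)
  obtain ⟨k, hk, h⟩ := trace_ym (ι := ι) hM hι
  refine ⟨k, hk, ?_⟩
  rw [← h, trace_eq]
  have h1 := sum_yF (D := D) (c := c) (A := ℤ)
    (fun g => (Fintype.card {w : Fin (yr D c) → ι // w ∘ g = w} : ℤ))
  simp only [smul_eq_mul] at h1
  rw [h1]
  refine Finset.sum_congr rfl fun g _ => ?_
  congr 2
  refine Fintype.card_congr ⟨fun w => ⟨w.1 ∘ cellEquiv D c, ?_⟩,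
    fun w => ⟨w.1 ∘ (cellEquiv D c).symm, ?_⟩, ?_, ?_⟩
  · funext x
    have := congrFun w.2 (cellEquiv D c x)
    simpa [tr, Equiv.permCongr_apply] using this
  · funext x
    have := congrFun w.2 ((cellEquiv D c).symm x)
    simpa [tr, Equiv.permCongr_apply] using this
  · intro w
    apply Subtype.ext
    funext x
    simp
  · intro w
    apply Subtype.ext
    funext x
    simp

/-- number of cells: `c * (1 + 2 + ... + D)` -/
theorem yr_eq : yr D c = c * ∑ i ∈ Finset.range D, (D - i) := by
  unfold yr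
  rw [Fintype.card_prod, Fintype.card_fin, mul_comm]
  congr 1
  rw [Fintype.card_subtype, Finset.card_filter, ← Finset.univ_product_univ,
    Finset.sum_product, ← Fin.sum_univ_eq_sum_range (fun i => D - i)]
  refine Finset.sum_congr rfl fun i _ => ?_
  rw [← Finset.card_filter]
  have h1 : (univ.filter fun k : Fin D => (i : ℕ) + (k : ℕ) < D).card =
      (Finset.range (D - i)).card := by
    apply Finset.card_bij (fun (k : Fin D) _ => (k : ℕ))
    · intro k hk
      simp only [mem_filter, mem_univ, true_and] at hk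
      rw [Finset.mem_range]
      omega
    · intro a _ b _ h
      exact Fin.ext h
    · intro k hk
      rw [Finset.mem_range] at hk
      refine ⟨⟨k, by omega⟩, ?_, rfl⟩
      simp only [mem_filter, mem_univ, true_and]
      omega
  rw [h1, Finset.card_range]

end Crest.Agent.R090.Young152
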