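import Crest.Agent.R090.Prod_202
import Crest.Agent.R090.Block_568
import Crest.Agent.R090.Cyl_349
import Crest.Agent.R090.Strata_973
import Crest.Agent.R090.HasCells_933
import Crest.Agent.R090.Young_152
import Crest.Agent.R090.Univ_639
import Crest.Agent.R090.GlueC_264

/-!
# Row 90, the spine: literal Props of all arrows (integration captain helper796)

Everything lives in `Type`.  `St = St528.St`, `PP = Dens255.PP`, `Cyl = Cyl349.Cyl`.

* `tens a b`      : `a ∧ b` = 202's `St.prod`;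
* `SNull h`       : `h` kills every class `g : St (X' × T) (Fin j → ℝ)`, all lch `T`, all `j`;
* `iotaP Z K s l` : `P_{K,s+l} → P_{K,s}`;
* `IdQ q Z g`     : the ideal `I_q(M, Z)`;
* `permSt V a`    : the action of `a ∈ ℤ[Σ_κ]` on `V^κ`;
* `kappa f κ m`   : `P_{κ,m}(Cyl f, Z) → E^κ`;
* `PrimeKill`, `F0Out`, `F1Out`, and the arrows `...Stmt`.
-/

set_option autoImplicit false
set_option linter.unusedSectionVars false

open Topology Filter Set

namespace Crest.Agent.R090.Spine

open OnePoint Crest.Agent.R090.Sp962 Crest.Agent.R090.St528 Crest.Agent.R090.Dens255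
open Crest.Agent.R090.Pi568 Crest.Agent.R090.Block568 Crest.Agent.R090.Cyl349
open Crest.Agent.R090.F0_933 Crest.Agent.R090.Young152

/-- closed subspaces are locally compact -/
instance instLcClosed {X : Type*} [TopologicalSpace X] [LocallyCompactSpace X] {A : Set X}
    [hA : Fact (IsClosed A)] : LocallyCompactSpace A :=
  hA.out.isClosedEmbedding_subtypeVal.locallyCompactSpace

/-! ## stable notions -/

section stable

variable {X X' Y Y' : Type} [TopologicalSpace X] [TopologicalSpace X'] [TopologicalSpace Y]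
  [TopologicalSpace Y'] [T2Space X] [T2Space X'] [T2Space Y] [T2Space Y']
  [LocallyCompactSpace X] [LocallyCompactSpace X'] [LocallyCompactSpace Y]
  [LocallyCompactSpace Y']

/-- the external product `a ∧ b` of stable maps -/
noncomputable abbrev tens (a : St X X') (b : St Y Y') : St (X × Y) (X' × Y') := a.prod b

/-- `h` kills every cohomotopy class with sphere target, also after smashing with any space -/
def SNull (h : St X X') : Prop :=
  ∀ (T : Type) [TopologicalSpace T] [T2Space T] [LocallyCompactSpace T] (j : ℕ)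
    (g : St (X' × T) (Fin j → ℝ)), g.comp (h.smR T) = 0

/-- iterated composition of a stable self map -/
noncomputable def npow (a : St X X) : ℕ → St X X
  | 0 => St.id X
  | k + 1 => (npow a k).comp a

end stable

/-! ## the ideal -/

section ideal

variable {M : Type} [TopologicalSpace M] [T2Space M] [LocallyCompactSpace M]

/-- `P_{K,s+l} → P_{K,s}` -/
def iotaP (Z : Set M) [hZ : Fact (IsClosed Z)] (K s l : ℕ) :
    PMap (PP Z (Fin K) (s + l)) (PP Z (Fin K) s) :=
  inclS (isClosed_PP hZ.out (s + l)) (PP_antitone Z (Nat.le_add_right s l))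

/-- the ideal `I_q(M, Z)` in source form (sphere targets) -/
def IdQ (q : ℕ) (Z : Set M) [Fact (IsClosed Z)] {X X' : Type} [TopologicalSpace X]
    [TopologicalSpace X'] [T2Space X] [T2Space X'] [LocallyCompactSpace X]
    [LocallyCompactSpace X'] (g : St X X') : Prop :=
  ∃ l : ℕ, ∀ K s : ℕ, ∃ n : ℕ, ¬ q ∣ n ∧ SNull (n • tens (St.ofP (iotaP Z K s l)) g)

end ideal

/-! ## group ring actions on powers -/

/-- the action of `a ∈ ℤ[Σ_κ]` on `V^κ` -/
noncomputable def permSt (V : Type) [TopologicalSpace V] [T2Space V] [LocallyCompactSpace V]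
    {κ : Type} [Fintype κ] [DecidableEq κ] (a : MonoidAlgebra ℤ (Equiv.Perm κ)) :
    St (κ → V) (κ → V) :=
  ∑ σ : Equiv.Perm κ, a.coeff σ • St.ofP (PMap.ofHomeo (Strata973.perm (X := V) σ))

/-! ## the pair `(Cyl f, Z)` -/

section pair

variable {Z E : Type} [TopologicalSpace Z] [TopologicalSpace E] [T2Space Z] [T2Space E]
  [LocallyCompactSpace Z] [LocallyCompactSpace E]

instance instFactRange (f : PMap Z E) : Fact (IsClosed (range (Cyl.iU f))) :=
  ⟨(Cyl.isClosedEmbedding_iU f).isClosed_range⟩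

instance instFactPP {M : Type} [TopologicalSpace M] {Z : Set M} [hZ : Fact (IsClosed Z)]
    {κ : Type} [Finite κ] (m : ℕ) : Fact (IsClosed (PP Z κ m)) := ⟨isClosed_PP hZ.out m⟩

/-- `P_{κ,m}(Cyl f, Z) → E^κ` -/
noncomputable def kappa (f : PMap Z E) (κ : Type) [Fintype κ] (m : ℕ) :
    PMap (PP (range (Cyl.iU f)) κ m) (κ → E) :=
  (pow κ (Cyl.ret f)).comp (incl (isClosed_PP (Cyl.isClosedEmbedding_iU f).isClosed_range m))

/-- for the prime `q`, a sparse power of `f` is killed by an integer prime to `q` -/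
def PrimeKill (q : ℕ) (f : PMap Z E) : Prop :=
  ∃ u m n : ℕ, 0 < u ∧ 4 * m ≤ u ∧ ¬ q ∣ n ∧ n • St.ofP (kappa f (Fin u) m) = 0

end pair

/-! ## outputs of F0 and F1 -/

/-- **output of F0** (this contains I0): a closed subspace `A ≃ E × V` of `B`, `V` with `D` complex
cells, `B ∖ A` with `u` complex cells, and the composite `Z × V → E × V ≃ A → B` null -/
def F0Out {Z E : Type} [TopologicalSpace Z] [T2Space Z] [LocallyCompactSpace Z]
    [TopologicalSpace E] [T2Space E] [LocallyCompactSpace E] (f : PMap Z E) (D u : ℕ) : Prop :=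
  ∃ (V B : Type) (_ : TopologicalSpace V) (_ : T2Space V) (_ : LocallyCompactSpace V)
    (_ : TopologicalSpace B) (_ : T2Space B) (_ : LocallyCompactSpace B)
    (A : Set B) (hA : Fact (IsClosed A)) (θ : A ≃ₜ E × V),
    HasCells V D ∧ Nonempty (Flt A u) ∧
      (((incl hA.out).comp (PMap.ofHomeo θ.symm)).comp (f.smash (PMap.id V))).Null

/-- **output of F1** for the Young element of parameters `D`, `c = q - 1` -/
def F1Out {Z E : Type} [TopologicalSpace Z] [T2Space Z] [LocallyCompactSpace Z]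
    [TopologicalSpace E] [T2Space E] [LocallyCompactSpace E] (f : PMap Z E) (c D m : ℕ) : Prop :=
  ∃ (V : Type) (_ : TopologicalSpace V) (_ : T2Space V) (_ : LocallyCompactSpace V),
    HasCells V D ∧ ∃ L : ℕ,
      SNull (tens (St.ofP (kappa f (Fin (yr D c)) m)) (permSt V (yF D c ^ (L + 1))))

/-! ## the arrows -/

/-- (F0 + I0) [349, 96, 933, 806, 272; 417, 275, 491, 513] -/
def F0Stmt : Prop :=
  ∀ (p n : ℕ), 1 ≤ p → 1 ≤ n → ∀ (Y : Type) [TopologicalSpace Y] [CompactSpace Y] [T2Space Y]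
    (Z : Set (Y × T5.TT p n)) [Fact (IsClosed Z)] [CompactSpace Z] (K : ℕ)
    (Φ : Y × T5.TT p n → Matrix (Fin K) ((Fin 2 × Fin p) × Fin n) ℂ),
    K < 2 * p * n → Continuous Φ →
    (∀ x ∈ Z, ∀ v : (Fin 2 × Fin p) × Fin n → ℂ,
      (Crest.OpAlg.totalProj p n x.2).mulVec v = v → (Φ x).mulVec v = 0 → v = 0) →
    ∃ D u : ℕ, 0 < D ∧ 8 * u ≤ D ∧ F0Out (Glue264.fC Z) D u

/-- (F1) [737, 893, 663, 541, 973] -/
def F1Stmt : Prop :=
  ∀ (α : Type) [Fintype α] [DecidableEq α] (Z : Type) [TopologicalSpace Z] [T2Space Z]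
    [LocallyCompactSpace Z] (f : PMap Z (α → ℂ)) (c D u m : ℕ), 1 ≤ c → 0 < D →
    F0Out f D u → D * u < m → F1Out f c D m

/-- (F2) [466, 255] -/
def F2Stmt : Prop :=
  ∀ (M : Type) [TopologicalSpace M] [T2Space M] [LocallyCompactSpace M] (Z : Set M)
    [hZ : Fact (IsClosed Z)] (W : Type) [TopologicalSpace W] [T2Space W] [LocallyCompactSpace W]
    (a : St W W), SNull (tens (St.ofP (incl hZ.out)) a) →
    ∀ K s : ℕ, SNull (tens (St.ofP (iotaP Z K s 1)) (npow a K))

/-- (E-IN-I) [466, 255] : from `F1Out` (and `F2Stmt`) the Young element is in the ideal of the pair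
`(M_J, Z_J) = ((Cyl f)^r, P_{r,m})`, `r = yr D c` -/
def EInIStmt : Prop :=
  ∀ (Z E : Type) [TopologicalSpace Z] [T2Space Z] [LocallyCompactSpace Z] [TopologicalSpace E]
    [T2Space E] [LocallyCompactSpace E] (f : PMap Z E) (c D m : ℕ), (c + 1).Prime → 0 < D →
    F1Out f c D m →
    ∃ (V : Type) (_ : TopologicalSpace V) (_ : T2Space V) (_ : LocallyCompactSpace V),
      HasCells V D ∧
      IdQ (c + 1) (PP (range (Cyl.iU f)) (Fin (yr D c)) m) (permSt V (yF D c))

/-- (A) [923, 253, 389, 902, 669, 554, 698, 297, 58, ...] -/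
def AStmt : Prop :=
  ∀ (c D : ℕ), (c + 1).Prime → 0 < D →
    ∀ (V : Type) [TopologicalSpace V] [T2Space V] [LocallyCompactSpace V], HasCells V D →
    ∀ (M : Type) [TopologicalSpace M] [T2Space M] [LocallyCompactSpace M] (Z : Set M)
      [Fact (IsClosed Z)],
      IdQ (c + 1) Z (permSt V (yF D c)) → IdQ (c + 1) Z (St.id Unit)

/-- (KILL) [568, 649] : `1_S ∈ I_q(M_J, Z_J)` and `4 (m - 1) < r` give `PrimeKill` -/
def KillStmt : Prop :=
  ∀ (α : Type) [Fintype α] [DecidableEq α] (Z : Type) [TopologicalSpace Z] [T2Space Z]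
    [LocallyCompactSpace Z] (f : PMap Z (α → ℂ)) (q r m : ℕ), 1 ≤ m → 4 * (m - 1) < r →
    IdQ q (PP (range (Cyl.iU f)) (Fin r) m) (St.id Unit) → PrimeKill q f

/-- (GLUE) [264] -/
def GlueStmt : Prop :=
  ∀ (p n : ℕ), 1 ≤ p → 1 ≤ n → ∀ (a : ℝ) (Y : Type) [TopologicalSpace Y] [CompactSpace Y]
    [T2Space Y] (f : Y → Fin n → Fin (2 * p + 1) → ℝ), Continuous f →
    ∀ (Z : Set (Y × T5.TT p n)) [Fact (IsClosed Z)] [CompactSpace Z],
      Crest.OpAlg.torusLocus p n (a * n) f ⊆ interior Z →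
      (∀ q : ℕ, q.Prime → PrimeKill q (Glue264.fC Z)) → T5.SI p n a f

end Crest.Agent.R090.Spine
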