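import Crest.Agent.R090.AIPow_542
import Crest.Agent.R090.SpineDefs_796
import Crest.Agent.R090.ExcSt_503

/-!
# Row 90, block (A) (helper542): the ideal `I_q(M, Z)` on pointed maps satisfies `PId`

* `Kl n h` : `n • (g ∘ (h ∧ 1_T)) = 0` for every class `g` with sphere target;
* `Kl.total`, `Kl.rot` : the two closed/open rules;
* `JQ q Z f := IdQ q Z (St.ofP f)` and **`pid : PId (JQ q Z)`** for prime `q`.
-/

set_option autoImplicit false
set_option linter.unusedSectionVars false

open Topology Filter Set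

namespace Crest.Agent.R090.APId542

open OnePoint Crest.Agent.R090.Sp962 Crest.Agent.R090.St528 Crest.Agent.R090.Dens255
  Crest.Agent.R090.Spine Crest.Agent.R090.Exc503 Crest.Agent.R090.AIPow542 Crest.Agent.R090.Sm202

section kl

variable {X X' X'' Y : Type} [TopologicalSpace X] [TopologicalSpace X'] [TopologicalSpace X'']
  [TopologicalSpace Y] [T2Space X] [T2Space X'] [T2Space X''] [T2Space Y]
  [LocallyCompactSpace X] [LocallyCompactSpace X'] [LocallyCompactSpace X'']
  [LocallyCompactSpace Y]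

/-- `n • h` kills every class with sphere target -/
def Kl (n : ℕ) (h : PMap X X') : Prop :=
  ∀ (T : Type) [TopologicalSpace T] [T2Space T] [LocallyCompactSpace T] (j : ℕ)
    (g : St (X' × T) (Fin j → ℝ)), n • g.comp (St.ofP (h.smash (PMap.id T))) = 0

theorem snull_iff {n : ℕ} (a : PMap X X') (b : PMap X'' Y) :
    SNull (n • tens (St.ofP a) (St.ofP b)) ↔ Kl n (a.smash b) := by
  have key : ∀ (T : Type) [TopologicalSpace T] [T2Space T] [LocallyCompactSpace T] (j : ℕ)
      (g : St ((X' × Y) × T) (Fin j → ℝ)),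
      g.comp ((n • tens (St.ofP a) (St.ofP b)).smR T) =
        n • g.comp (St.ofP ((a.smash b).smash (PMap.id T))) := by
    intro T _ _ _ j g
    rw [tens, prod_ofP, smR_nsmul, smR_ofP, St.comp_nsmul]
  constructor
  · intro h T _ _ _ j g
    rw [← key]
    exact h T j g
  · intro h T _ _ _ j g
    rw [key]
    exact h T j g

theorem Kl.left {n : ℕ} {f : PMap X X'} (hf : Kl n f) (g : PMap X' X'') : Kl n (g.comp f) := by
  intro T _ _ _ j y
  have e : (g.comp f).smash (PMap.id T) = (g.smash (PMap.id T)).comp (f.smash (PMap.id T)) := by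
    rw [PMap.smash_comp]; rfl
  rw [e, St.ofP_comp, ← St.comp_assoc]
  exact hf T j _

theorem Kl.right {n : ℕ} {f : PMap X' X''} (hf : Kl n f) (g : PMap X X') : Kl n (f.comp g) := by
  intro T _ _ _ j y
  have e : (f.comp g).smash (PMap.id T) = (f.smash (PMap.id T)).comp (g.smash (PMap.id T)) := by
    rw [PMap.smash_comp]; rfl
  rw [e, St.ofP_comp, ← St.comp_assoc, ← St.nsmul_comp, hf T j y, St.zero_comp]

theorem Kl.mul {n : ℕ} {f : PMap X X'} (hf : Kl n f) (m : ℕ) : Kl (m * n) f := by
  intro T _ _ _ j y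
  rw [mul_nsmul', hf T j y, nsmul_zero]

theorem Kl.smashR {n : ℕ} {f : PMap X X'} (hf : Kl n f) (W : Type) [TopologicalSpace W] [T2Space W]
    [LocallyCompactSpace W] : Kl n (f.smash (PMap.id W)) := by
  intro T _ _ _ j y
  have e : (f.smash (PMap.id W)).smash (PMap.id T) =
      (PMap.ofHomeo (asC X' W T).symm).comp
        ((f.smash (PMap.id (W × T))).comp (PMap.ofHomeo (asC X W T))) := by
    refine PMap.ext fun p => ?_
    obtain ⟨⟨x, w⟩, t⟩ := p
    change sm (sm (f x) (w : OnePoint W)) (t : OnePoint T) =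
      PMap.ofHomeo (asC X' W T).symm (sm (f x) ((w, t) : W × T))
    generalize f (x : OnePoint X) = x'
    induction x' using OnePoint.rec with
    | infty => rfl
    | coe x' => rfl
  rw [e, St.ofP_comp, St.ofP_comp, ← St.comp_assoc, ← St.comp_assoc, ← St.nsmul_comp, hf,
    St.zero_comp]

/-- assembling `∧ 1_W` on the right factor -/
theorem Kl.smash_right {n : ℕ} {A A' : Type} [TopologicalSpace A] [T2Space A]
    [LocallyCompactSpace A] [TopologicalSpace A'] [T2Space A'] [LocallyCompactSpace A']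
    {a : PMap A A'} {f : PMap X X'} (hf : Kl n (a.smash f)) (W : Type) [TopologicalSpace W]
    [T2Space W] [LocallyCompactSpace W] : Kl n (a.smash (f.smash (PMap.id W))) := by
  have e : a.smash (f.smash (PMap.id W)) =
      (PMap.ofHomeo (asC A' X' W)).comp
        (((a.smash f).smash (PMap.id W)).comp (PMap.ofHomeo (asC A X W).symm)) := by
    refine PMap.ext fun p => ?_
    obtain ⟨x, y, w⟩ := p
    change sm (a x) (sm (f y) (w : OnePoint W)) =
      PMap.ofHomeo (asC A' X' W) (sm (sm (a x) (f y)) (w : OnePoint W))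
    generalize a (x : OnePoint A) = x'
    generalize f (y : OnePoint X) = y'
    induction x' using OnePoint.rec with
    | infty => simp
    | coe x' =>
      induction y' using OnePoint.rec with
      | infty => simp
      | coe y' => rfl
  rw [e]
  exact (Kl.right (hf.smashR W) _).left _

end kl

section rules

variable {A A' A'' : Type} [TopologicalSpace A] [T2Space A] [LocallyCompactSpace A]
  [TopologicalSpace A'] [T2Space A'] [LocallyCompactSpace A']
  [TopologicalSpace A''] [T2Space A''] [LocallyCompactSpace A'']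
variable {F U O : Type} [TopologicalSpace F] [T2Space F] [LocallyCompactSpace F]
    [TopologicalSpace U] [T2Space U] [LocallyCompactSpace U]
    [TopologicalSpace O] [T2Space O] [LocallyCompactSpace O]
variable {i : F → U} {e : O → U} (h : OC i e)
variable {a : PMap A' A} {b : PMap A'' A'} {fF : PMap F F} {fU : PMap U U} {fO : PMap O O}

/-- the pair `(B × (F ⊂ U)) × T` -/
theorem pairT (h : OC i e) (B T : Type) [TopologicalSpace B] [TopologicalSpace T] :
    OC (Prod.map (Prod.map (id : B → B) i) (id : T → T))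
      (Prod.map (Prod.map (id : B → B) e) (id : T → T)) := (h.prodLeft B).prodRight T

theorem pairT_incl (B T : Type) [TopologicalSpace B] [T2Space B] [LocallyCompactSpace B]
    [TopologicalSpace T] [T2Space T] [LocallyCompactSpace T] :
    (pairT h B T).incl = ((PMap.id B).smash h.incl).smash (PMap.id T) := by
  refine ((h.prodLeft B).prodRight_incl (W := T)).trans ?_
  rw [OC.prodLeft_incl]

theorem pairT_coll (B T : Type) [TopologicalSpace B] [T2Space B] [LocallyCompactSpace B]
    [TopologicalSpace T] [T2Space T] [LocallyCompactSpace T] :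
    (pairT h B T).coll = ((PMap.id B).smash h.coll).smash (PMap.id T) := by
  refine ((h.prodLeft B).prodRight_coll (W := T)).trans ?_
  rw [OC.prodLeft_coll]

theorem smash3 {B B' B'' X X' X'' T : Type} [TopologicalSpace B] [T2Space B]
    [LocallyCompactSpace B] [TopologicalSpace B'] [T2Space B'] [LocallyCompactSpace B']
    [TopologicalSpace B''] [T2Space B''] [LocallyCompactSpace B'']
    [TopologicalSpace X] [T2Space X] [LocallyCompactSpace X] [TopologicalSpace X'] [T2Space X']
    [LocallyCompactSpace X'] [TopologicalSpace X''] [T2Space X''] [LocallyCompactSpace X'']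
    [TopologicalSpace T] [T2Space T] [LocallyCompactSpace T]
    (g : PMap B' B'') (f : PMap B B') (g' : PMap X' X'') (f' : PMap X X') :
    ((g.smash g').smash (PMap.id T)).comp ((f.smash f').smash (PMap.id T)) =
      ((g.comp f).smash (g'.comp f')).smash (PMap.id T) := by
  rw [PMap.smash_comp, PMap.smash_comp]
  rfl

theorem sphR (j : ℕ) : SphT.{0} (Fin j → ℝ) := SphT.fd (Fin j → ℝ)

/-- **closed/open rule, whole space** -/
theorem Kl.total (hi : fU.comp h.incl = h.incl.comp fF) (ho : h.coll.comp fU = fO.comp h.coll)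
    {n₁ n₂ : ℕ} (hF : Kl n₁ (a.smash fF)) (hO : Kl n₂ (b.smash fO)) :
    Kl (n₁ * n₂) ((a.comp b).smash (fU.comp fU)) := by
  intro T _ _ _ j g
  have hr : (n₁ • g.comp (St.ofP ((a.smash fU).smash (PMap.id T)))).comp
      (St.ofP (pairT h A' T).incl) = 0 := by
    have e1 : ((a.smash fU).smash (PMap.id T)).comp
        (((PMap.id A').smash h.incl).smash (PMap.id T)) =
        (((PMap.id A).smash h.incl).smash (PMap.id T)).comp
          ((a.smash fF).smash (PMap.id T)) := by
      rw [smash3, smash3, hi]; rfl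
    rw [St.nsmul_comp, St.comp_assoc, ← St.ofP_comp, pairT_incl h, e1, St.ofP_comp,
      ← St.comp_assoc]
    exact hF T j _
  obtain ⟨z, hz⟩ := (pairT h A' T).st_exists_coll (sphR j) _ hr
  have e2 : ((a.comp b).smash (fU.comp fU)).smash (PMap.id T) =
      ((a.smash fU).smash (PMap.id T)).comp ((b.smash fU).smash (PMap.id T)) := (smash3 _ _ _ _).symm
  have e3 : (((PMap.id A').smash h.coll).smash (PMap.id T)).comp ((b.smash fU).smash (PMap.id T)) =
      ((b.smash fO).smash (PMap.id T)).comp (((PMap.id A'').smash h.coll).smash (PMap.id T)) := by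
    rw [smash3, smash3, ho]; rfl
  rw [mul_comm, mul_nsmul', e2, St.ofP_comp, ← St.comp_assoc, ← St.nsmul_comp, hz, pairT_coll h,
    St.comp_assoc, ← St.ofP_comp, e3, St.ofP_comp, ← St.comp_assoc, ← St.nsmul_comp, hO T j z,
    St.zero_comp]

/-- **closed/open rule, rotated** -/
theorem Kl.rot (hi : fU.comp h.incl = h.incl.comp fF) (ho : h.coll.comp fU = fO.comp h.coll)
    {n₁ n₂ : ℕ} (hU : Kl n₁ (a.smash fU)) (hF : Kl n₂ (b.smash fF)) :
    Kl (n₁ * n₂) ((a.comp b).smash (fO.comp fO)) := by
  intro T _ _ _ j g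
  have hr : (n₁ • g.comp (St.ofP ((a.smash fO).smash (PMap.id T)))).comp
      (St.ofP (pairT h A' T).coll) = 0 := by
    have e1 : ((a.smash fO).smash (PMap.id T)).comp
        (((PMap.id A').smash h.coll).smash (PMap.id T)) =
        (((PMap.id A).smash h.coll).smash (PMap.id T)).comp
          ((a.smash fU).smash (PMap.id T)) := by
      rw [smash3, smash3, ho]; rfl
    rw [St.nsmul_comp, St.comp_assoc, ← St.ofP_comp, pairT_coll h, e1, St.ofP_comp,
      ← St.comp_assoc]
    exact hU T j _
  obtain ⟨w, hw⟩ := (pairT h A' T).st_exists_delta (sphR j) _ hr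
  have e2 : ((a.comp b).smash (fO.comp fO)).smash (PMap.id T) =
      ((a.smash fO).smash (PMap.id T)).comp ((b.smash fO).smash (PMap.id T)) := (smash3 _ _ _ _).symm
  have hn := OC.delta_nat (sphR j) (pairT h A'' T) (pairT h A' T) ((b.smash fF).smash (PMap.id T))
    ((b.smash fU).smash (PMap.id T)) ((b.smash fO).smash (PMap.id T))
    (by rw [pairT_incl h, pairT_incl h, smash3, smash3, hi]; rfl)
    (by rw [pairT_coll h, pairT_coll h, smash3, smash3, ho]; rfl) w
  have h0 : n₂ • w.comp (St.ofP (((b.smash fF).smash (PMap.id T)).smash (PMap.id Io))) = 0 :=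
    (hF.smashR T) Io j w
  rw [mul_comm, mul_nsmul', e2, St.ofP_comp, ← St.comp_assoc, ← St.nsmul_comp, hw, hn,
    ← map_nsmul, h0, map_zero]

end rules

/-! ## the ideal -/

section ideal

variable {M : Type} [TopologicalSpace M] [T2Space M] [LocallyCompactSpace M]

/-- the ideal on pointed maps -/
def JQ (q : ℕ) (Z : Set M) [Fact (IsClosed Z)] : MapPred :=
  fun {_ _} _ _ _ _ _ _ f => IdQ q Z (St.ofP f)

variable {q : ℕ} {Z : Set M} [hZ : Fact (IsClosed Z)]

theorem JQ_iff {U V : Type} [TopologicalSpace U] [T2Space U] [LocallyCompactSpace U]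
    [TopologicalSpace V] [T2Space V] [LocallyCompactSpace V] (f : PMap U V) :
    JQ q Z f ↔ ∃ l : ℕ, ∀ K s : ℕ, ∃ n : ℕ, ¬ q ∣ n ∧ Kl n ((iotaP Z K s l).smash f) := by
  unfold JQ IdQ
  simp only [snull_iff]

/-- inclusion of `P_{K,s+(l+l')}` into `P_{K,s+l}` as composite -/
theorem iotaP_add (K s l l' : ℕ) : ∃ c : PMap (PP Z (Fin K) (s + (l + l'))) (PP Z (Fin K) (s + l + l')),
    iotaP Z K s (l + l') = ((iotaP Z K s l).comp (iotaP Z K (s + l) l')).comp c := by
  refine ⟨inclS (isClosed_PP hZ.out _) (by rw [Nat.add_assoc]), ?_⟩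
  exact PMap.ext fun _ => rfl

theorem not_dvd_mul' (hq : q.Prime) {m n : ℕ} (hm : ¬ q ∣ m) (hn : ¬ q ∣ n) : ¬ q ∣ m * n :=
  fun h => (hq.dvd_mul.1 h).elim hm hn

/-- **the ideal has all the properties used by the power construction** -/
theorem pid (hq : q.Prime) : PId (JQ q Z) where
  left g f hf := by
    rw [JQ_iff] at hf ⊢
    obtain ⟨l, hl⟩ := hf
    refine ⟨l, fun K s => ?_⟩
    obtain ⟨n, hn, hk⟩ := hl K s
    refine ⟨n, hn, ?_⟩
    have e : (iotaP Z K s l).smash (g.comp f) =
        ((PMap.id _).smash g).comp ((iotaP Z K s l).smash f) := by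
      rw [PMap.smash_comp]; rfl
    rw [e]
    exact hk.left _
  right f g hf := by
    rw [JQ_iff] at hf ⊢
    obtain ⟨l, hl⟩ := hf
    refine ⟨l, fun K s => ?_⟩
    obtain ⟨n, hn, hk⟩ := hl K s
    refine ⟨n, hn, ?_⟩
    have e : (iotaP Z K s l).smash (f.comp g) =
        ((iotaP Z K s l).smash f).comp ((PMap.id _).smash g) := by
      rw [PMap.smash_comp]; rfl
    rw [e]
    exact hk.right _
  smash f hf W _ _ _ := by
    rw [JQ_iff] at hf ⊢
    obtain ⟨l, hl⟩ := hf
    refine ⟨l, fun K s => ?_⟩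
    obtain ⟨n, hn, hk⟩ := hl K s
    exact ⟨n, hn, hk.smash_right W⟩
  empty {U V} _ _ _ _ _ _ _ f := by
    rw [JQ_iff]
    refine ⟨0, fun K s => ⟨1, hq.one_lt.ne' ∘ Nat.dvd_one.1, ?_⟩⟩
    intro T _ _ _ j g
    have : ((iotaP Z K s 0).smash f).smash (PMap.id T) = PMap.zero _ _ :=
      PMap.ext fun p => isEmptyElim p.1.2
    rw [this, St.ofP_zero, St.comp_zero, nsmul_zero]
  total i hi e he hc fF fU fO h1 h2 hF hO := by
    rw [JQ_iff] at hF hO ⊢
    obtain ⟨l, hl⟩ := hF
    obtain ⟨l', hl'⟩ := hO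
    refine ⟨l + l', fun K s => ?_⟩
    obtain ⟨n, hn, hk⟩ := hl K s
    obtain ⟨n', hn', hk'⟩ := hl' K (s + l)
    obtain ⟨c, hc'⟩ := iotaP_add (Z := Z) K s l l'
    refine ⟨n * n', not_dvd_mul' hq hn hn', ?_⟩
    have h3 := Kl.total (⟨hi, he, hc⟩ : OC i e) h1 h2 hk hk'
    have e : (iotaP Z K s (l + l')).smash (fU.comp fU) =
        (((iotaP Z K s l).comp (iotaP Z K (s + l) l')).smash (fU.comp fU)).comp
          (c.smash (PMap.id _)) := by
      rw [hc', PMap.smash_comp]; rfl
    rw [e]
    exact h3.right _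
  rot i hi e he hc fF fU fO h1 h2 hF hU := by
    rw [JQ_iff] at hF hU ⊢
    obtain ⟨l', hl'⟩ := hF
    obtain ⟨l, hl⟩ := hU
    refine ⟨l + l', fun K s => ?_⟩
    obtain ⟨n, hn, hk⟩ := hl K s
    obtain ⟨n', hn', hk'⟩ := hl' K (s + l)
    obtain ⟨c, hc'⟩ := iotaP_add (Z := Z) K s l l'
    refine ⟨n * n', not_dvd_mul' hq hn hn', ?_⟩
    have h3 := Kl.rot (⟨hi, he, hc⟩ : OC i e) h1 h2 hk hk'
    have e : (iotaP Z K s (l + l')).smash (fO.comp fO) =
        (((iotaP Z K s l).comp (iotaP Z K (s + l) l')).smash (fO.comp fO)).comp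
          (c.smash (PMap.id _)) := by
      rw [hc', PMap.smash_comp]; rfl
    rw [e]
    exact h3.right _

end ideal

end Crest.Agent.R090.APId542
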