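import Crest.Agent.R090.Ho_962

/-!
# Row 90, T1g: Alexander-Spanier cohomology with compact supports (owner helper412)

* `SQ d M Z` : subquotient homology `{x ∈ M | d x ∈ Z} / (d M + Z)`, exact triangle of `Z ≤ L ≤ M`;
* `Tp X` tuples, `Co k X` cochains, `dl` differential, `Spp k X A` cochains with support off `A`;
* `AS k X A` : cohomology of `X` relative to `A` (cochains supported off `A`);
* `RH k U := AS k (OnePoint U) {∞}`, contravariant functor on pointed maps.
-/

set_option autoImplicit false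

noncomputable section

open Topology Filter Set

namespace Crest.Agent.R090.AS412

open OnePoint Crest.Agent.R090.Sp962 Finsupp

universe u v w x y

/-! ## subquotient homology -/

section SQ

variable {k : Type u} {E : Type v} {E' : Type w} {E'' : Type x} [CommRing k] [AddCommGroup E]
  [Module k E] [AddCommGroup E'] [Module k E'] [AddCommGroup E''] [Module k E'']

/-- relative cocycles -/
def cyc (d : E →ₗ[k] E) (M Z : Submodule k E) : Submodule k E := M ⊓ Z.comap d

/-- relative coboundaries, inside `cyc` -/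
def bds (d : E →ₗ[k] E) (M Z : Submodule k E) : Submodule k (cyc d M Z) :=
  (M.map d ⊔ Z).comap (cyc d M Z).subtype

/-- subquotient homology -/
abbrev SQ (d : E →ₗ[k] E) (M Z : Submodule k E) : Type v := (cyc d M Z) ⧸ (bds d M Z)

namespace SQ

variable {d : E →ₗ[k] E} {M Z : Submodule k E} {d' : E' →ₗ[k] E'} {M' Z' : Submodule k E'}
  {d'' : E'' →ₗ[k] E''} {M'' Z'' : Submodule k E''}

/-- the class of a relative cocycle -/
def mk (x : E) (hM : x ∈ M) (hd : d x ∈ Z) : SQ d M Z := Submodule.Quotient.mk ⟨x, hM, hd⟩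

theorem mk_surj (a : SQ d M Z) : ∃ (x : E) (hM : x ∈ M) (hd : d x ∈ Z), a = mk x hM hd := by
  obtain ⟨⟨x, hM, hd⟩, rfl⟩ := Submodule.Quotient.mk_surjective _ a
  exact ⟨x, hM, hd, rfl⟩

theorem mk_eq_zero {x : E} {hM : x ∈ M} {hd : d x ∈ Z} :
    (mk x hM hd : SQ d M Z) = 0 ↔ ∃ y ∈ M, x - d y ∈ Z := by
  unfold mk
  rw [Submodule.Quotient.mk_eq_zero]
  simp only [bds, Submodule.mem_comap, Submodule.subtype_apply, Submodule.mem_sup,
    Submodule.mem_map]
  constructor
  · rintro ⟨_, ⟨y, hy, rfl⟩, z, hz, h⟩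
    exact ⟨y, hy, by rw [← h]; simpa using hz⟩
  · rintro ⟨y, hy, h⟩
    exact ⟨_, ⟨y, hy, rfl⟩, _, h, by abel⟩

theorem mk_add {x y : E} {hx : x ∈ M} {hy : y ∈ M} {hdx : d x ∈ Z} {hdy : d y ∈ Z} :
    (mk x hx hdx : SQ d M Z) + mk y hy hdy =
      mk (x + y) (add_mem hx hy) (by rw [map_add]; exact add_mem hdx hdy) := rfl

theorem mk_sub {x y : E} {hx : x ∈ M} {hy : y ∈ M} {hdx : d x ∈ Z} {hdy : d y ∈ Z} :
    (mk x hx hdx : SQ d M Z) - mk y hy hdy =
      mk (x - y) (sub_mem hx hy) (by rw [map_sub]; exact sub_mem hdx hdy) := rfl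

theorem mk_smul {x : E} {hx : x ∈ M} {hdx : d x ∈ Z} (r : k) :
    r • (mk x hx hdx : SQ d M Z) =
      mk (r • x) (M.smul_mem r hx) (by rw [_root_.map_smul]; exact Z.smul_mem r hdx) := rfl

theorem mk_eq_mk {x y : E} {hx : x ∈ M} {hy : y ∈ M} {hdx : d x ∈ Z} {hdy : d y ∈ Z} :
    (mk x hx hdx : SQ d M Z) = mk y hy hdy ↔ ∃ w ∈ M, x - y - d w ∈ Z := by
  rw [← sub_eq_zero, mk_sub, mk_eq_zero]

theorem mk_congr {x y : E} {hx : x ∈ M} {hy : y ∈ M} {hdx : d x ∈ Z} {hdy : d y ∈ Z}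
    (h : x - y ∈ Z) : (mk x hx hdx : SQ d M Z) = mk y hy hdy :=
  mk_eq_mk.2 ⟨0, zero_mem _, by simpa using h⟩

/-- conditions for a linear map to induce a map of subquotient homologies -/
structure Ok (d : E →ₗ[k] E) (M Z : Submodule k E) (d' : E' →ₗ[k] E') (M' Z' : Submodule k E')
    (f : E →ₗ[k] E') : Prop where
  hM : ∀ x ∈ M, f x ∈ M'
  hZ : ∀ x ∈ Z, f x ∈ Z'
  hd : ∀ x ∈ M, f (d x) - d' (f x) ∈ Z'

/-- induced map -/
def map (f : E →ₗ[k] E') (h : Ok d M Z d' M' Z' f) : SQ d M Z →ₗ[k] SQ d' M' Z' :=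
  Submodule.mapQ _ _
    (f.restrict (p := cyc d M Z) (q := cyc d' M' Z') (fun x hx => by
      refine ⟨h.hM _ hx.1, ?_⟩
      have h1 := h.hZ _ hx.2
      have h2 := h.hd _ hx.1
      have := sub_mem h1 h2
      simpa using this))
    (by
      rintro ⟨x, hx⟩ hx'
      simp only [bds, Submodule.mem_comap, Submodule.subtype_apply, Submodule.mem_sup,
        Submodule.mem_map] at hx' ⊢
      obtain ⟨_, ⟨y, hy, rfl⟩, z, hz, hxy⟩ := hx'
      refine ⟨_, ⟨f y, h.hM _ hy, rfl⟩, _, add_mem (h.hd _ hy) (h.hZ _ hz), ?_⟩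
      change _ = f x
      rw [← hxy, map_add]
      abel)

theorem map_mk (f : E →ₗ[k] E') (h : Ok d M Z d' M' Z' f) (x : E) (hM : x ∈ M) (hd : d x ∈ Z) :
    ∃ hM' hd', map f h (mk x hM hd) = mk (f x) hM' hd' := by
  refine ⟨h.hM _ hM, ?_, rfl⟩
  have := sub_mem (h.hZ _ hd) (h.hd _ hM)
  simpa using this

theorem map_mk' (f : E →ₗ[k] E') (h : Ok d M Z d' M' Z' f) {x : E} {hM : x ∈ M} {hd : d x ∈ Z}
    {hM' : f x ∈ M'} {hd' : d' (f x) ∈ Z'} :
    map f h (mk x hM hd) = mk (f x) hM' hd' := rfl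

theorem Ok.id {M₁ Z₁ : Submodule k E} (hM : M ≤ M₁) (hZ : Z ≤ Z₁) :
    Ok d M Z d M₁ Z₁ LinearMap.id :=
  ⟨hM, hZ, fun x _ => by simp⟩

theorem Ok.comp {f : E →ₗ[k] E'} {g : E' →ₗ[k] E''} (hg : Ok d' M' Z' d'' M'' Z'' g)
    (hf : Ok d M Z d' M' Z' f) : Ok d M Z d'' M'' Z'' (g ∘ₗ f) where
  hM x hx := hg.hM _ (hf.hM _ hx)
  hZ x hx := hg.hZ _ (hf.hZ _ hx)
  hd x hx := by
    have h1 := hg.hZ _ (hf.hd _ hx)
    have h2 := hg.hd _ (hf.hM _ hx)
    rw [map_sub] at h1
    have := add_mem h1 h2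
    simpa using this

theorem map_comp {f : E →ₗ[k] E'} {g : E' →ₗ[k] E''} (hg : Ok d' M' Z' d'' M'' Z'' g)
    (hf : Ok d M Z d' M' Z' f) (h : Ok d M Z d'' M'' Z'' (g ∘ₗ f)) (a : SQ d M Z) :
    map (g ∘ₗ f) h a = map g hg (map f hf a) := by
  obtain ⟨x, hM, hd, rfl⟩ := mk_surj a
  rfl

theorem map_id' (h : Ok d M Z d M Z LinearMap.id) (a : SQ d M Z) : map LinearMap.id h a = a := by
  obtain ⟨x, hM, hd, rfl⟩ := mk_surj a
  rfl

/-- chain homotopic maps -/
theorem map_eq_of_htp {f g : E →ₗ[k] E'} (hf : Ok d M Z d' M' Z' f) (hg : Ok d M Z d' M' Z' g)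
    (H : ∀ x ∈ M, d x ∈ Z → ∃ y ∈ M', f x - g x - d' y ∈ Z') : map f hf = map g hg := by
  refine LinearMap.ext fun a => ?_
  obtain ⟨x, hM, hd, rfl⟩ := mk_surj a
  obtain ⟨h1, h2, e1⟩ := map_mk f hf x hM hd
  obtain ⟨h3, h4, e2⟩ := map_mk g hg x hM hd
  rw [e1, e2, mk_eq_mk]
  exact H x hM hd

/-! ### exact triangle of `Z ≤ L ≤ M` -/

section triangle

variable {L : Submodule k E} (hdd : ∀ x, d (d x) = 0) (hZL : Z ≤ L) (hLM : L ≤ M)
  (hdL : ∀ x ∈ L, d x ∈ L)

/-- `H(L/Z) → H(M/Z)` -/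
def incl (d : E →ₗ[k] E) (Z : Submodule k E) {L M : Submodule k E} (hLM : L ≤ M) :
    SQ d L Z →ₗ[k] SQ d M Z :=
  map LinearMap.id ⟨hLM, fun _ h => h, fun x _ => by simp⟩

/-- `H(M/Z) → H(M/L)` -/
def proj (d : E →ₗ[k] E) (M : Submodule k E) {Z L : Submodule k E} (hZL : Z ≤ L) :
    SQ d M Z →ₗ[k] SQ d M L :=
  map LinearMap.id ⟨fun _ h => h, hZL, fun x _ => by simp⟩

/-- connecting map `H(M/L) → H(L/Z)`, induced by `d` -/
def conn (d : E →ₗ[k] E) (M L Z : Submodule k E) (hdd : ∀ x, d (d x) = 0)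
    (_hdL : ∀ x ∈ L, d x ∈ L) : SQ d M L →ₗ[k] SQ d L Z :=
  Submodule.liftQ _
    { toFun := fun x => (mk (d x.1) x.2.2 (by rw [hdd]; exact zero_mem _) : SQ d L Z)
      map_add' := fun x y => by
        rw [mk_add]
        exact mk_congr (by simp)
      map_smul' := fun r x => by
        rw [RingHom.id_apply, mk_smul]
        exact mk_congr (by simp) }
    (by
      rintro ⟨x, hx⟩ hx'
      simp only [bds, Submodule.mem_comap, Submodule.subtype_apply, Submodule.mem_sup,
        Submodule.mem_map] at hx'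
      obtain ⟨_, ⟨y, hy, rfl⟩, z, hz, hxy⟩ := hx'
      rw [LinearMap.mem_ker]
      change (mk (d x) hx.2 (by rw [hdd]; exact zero_mem _) : SQ d L Z) = 0
      rw [mk_eq_zero]
      refine ⟨z, hz, ?_⟩
      rw [← hxy, map_add, hdd]
      simp)

theorem conn_mk (hdd : ∀ x, d (d x) = 0) (hdL : ∀ x ∈ L, d x ∈ L) (x : E) (hM : x ∈ M)
    (hd : d x ∈ L) :
    conn d M L Z hdd hdL (mk x hM hd) = mk (d x) hd (by rw [hdd]; exact zero_mem _) := rfl

include hdd in
theorem exact_incl_proj : Function.Exact (incl d Z hLM) (proj d M hZL) := by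
  intro a
  obtain ⟨x, hM, hd, rfl⟩ := mk_surj a
  constructor
  · intro h
    change (mk x hM (hZL hd) : SQ d M L) = 0 at h
    rw [mk_eq_zero] at h
    obtain ⟨y, hy, h⟩ := h
    have h' : d (x - d y) ∈ Z := by rw [map_sub, hdd, sub_zero]; exact hd
    refine ⟨mk (x - d y) h h', ?_⟩
    change (mk (x - d y) (hLM h) h' : SQ d M Z) = _
    rw [mk_eq_mk]
    refine ⟨-y, neg_mem hy, ?_⟩
    simp
  · rintro ⟨b, hb⟩
    obtain ⟨z, hL, hd', rfl⟩ := mk_surj b
    rw [← hb]
    change (mk z (hLM hL) (hZL hd') : SQ d M L) = 0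
    rw [mk_eq_zero]
    exact ⟨0, zero_mem _, by simpa using hL⟩

include hZL hLM in
theorem exact_proj_conn : Function.Exact (proj d M hZL) (conn d M L Z hdd hdL) := by
  intro a
  obtain ⟨x, hM, hd, rfl⟩ := mk_surj a
  constructor
  · intro h
    rw [conn_mk, mk_eq_zero] at h
    obtain ⟨y, hy, h⟩ := h
    have h1 : x - y ∈ M := sub_mem hM (hLM hy)
    have h2 : d (x - y) ∈ Z := by rw [map_sub]; exact h
    refine ⟨mk (x - y) h1 h2, ?_⟩
    change (mk (x - y) h1 (hZL h2) : SQ d M L) = _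
    exact mk_congr (by simpa using hy)
  · rintro ⟨b, hb⟩
    obtain ⟨z, hL, hd', rfl⟩ := mk_surj b
    rw [← hb]
    change conn d M L Z hdd hdL (mk z hL (hZL hd')) = 0
    rw [conn_mk, mk_eq_zero]
    exact ⟨0, zero_mem _, by simpa using hd'⟩

include hZL hLM in
theorem exact_conn_incl : Function.Exact (conn d M L Z hdd hdL) (incl d Z hLM) := by
  intro a
  obtain ⟨x, hL, hd, rfl⟩ := mk_surj a
  constructor
  · intro h
    change (mk x (hLM hL) hd : SQ d M Z) = 0 at h
    rw [mk_eq_zero] at h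
    obtain ⟨y, hy, h⟩ := h
    have h1 : d y ∈ L := by
      have := sub_mem hL (hZL h)
      simpa using this
    refine ⟨mk y hy h1, ?_⟩
    rw [conn_mk]
    refine mk_congr ?_
    have := neg_mem h
    simpa using this
  · rintro ⟨b, hb⟩
    obtain ⟨z, hM, hd', rfl⟩ := mk_surj b
    rw [← hb]
    rw [conn_mk]
    change (mk (d z) (hLM hd') (by rw [hdd]; exact zero_mem _) : SQ d M Z) = 0
    rw [mk_eq_zero]
    exact ⟨z, hM, by simp⟩

end triangle

end SQ

end SQ

/-! ## tuples, chains, cochains -/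

/-- tuples of points -/
abbrev Tp (X : Type u) : Type u := Σ n : ℕ, (Fin (n + 1) → X)

/-- chains on tuples -/
abbrev Ch (k : Type v) [CommRing k] (X : Type u) : Type (max u v) := Tp X →₀ k

/-- cochains: arbitrary functions on tuples (all degrees together) -/
abbrev Co (k : Type v) (X : Type u) : Type (max u v) := Tp X → k

section chains

variable (k : Type v) [CommRing k] {X : Type u} {Y : Type w}

/-- boundary of a tuple -/
noncomputable def bdT : Tp X → Ch k X
  | ⟨0, _⟩ => 0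
  | ⟨n + 1, x⟩ => ∑ i : Fin (n + 2), single ⟨n, x ∘ i.succAbove⟩ ((-1 : k) ^ (i : ℕ))

/-- boundary -/
noncomputable def bd : Ch k X →ₗ[k] Ch k X := Finsupp.linearCombination k (bdT k)

/-- augmentation of a tuple -/
def augT : Tp X → k
  | ⟨0, _⟩ => 1
  | ⟨_ + 1, _⟩ => 0

/-- augmentation -/
noncomputable def aug : Ch k X →ₗ[k] k := Finsupp.linearCombination k (augT k)

/-- cone on a tuple -/
noncomputable def coneT (a : X) (t : Tp X) : Ch k X :=
  single ⟨t.1 + 1, Fin.cons a t.2⟩ 1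

/-- cone -/
noncomputable def cone (a : X) : Ch k X →ₗ[k] Ch k X := Finsupp.linearCombination k (coneT k a)

variable {k}

@[simp] theorem bd_single (t : Tp X) (r : k) : bd k (single t r) = r • bdT k t := by
  simp [bd]

@[simp] theorem aug_single (t : Tp X) (r : k) : aug k (single t r) = r * augT k t := by
  simp [aug]

@[simp] theorem cone_single (a : X) (t : Tp X) (r : k) :
    cone k a (single t r) = single ⟨t.1 + 1, Fin.cons a t.2⟩ r := by
  simp [cone, coneT]

theorem cons_comp_succAbove_succ {n : ℕ} (a : X) (x : Fin (n + 2) → X) (j : Fin (n + 2)) :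
    (Fin.cons a x : Fin (n + 3) → X) ∘ (j.succ).succAbove =
      Fin.cons a (x ∘ j.succAbove) := by
  funext i
  refine Fin.cases ?_ (fun i => ?_) i
  · simp
  · simp

theorem cons_comp_succAbove_zero {n : ℕ} (a : X) (x : Fin (n + 1) → X) :
    (Fin.cons a x : Fin (n + 2) → X) ∘ (0 : Fin (n + 2)).succAbove = x := by
  funext i
  simp

theorem bd_cone (a : X) (c : Ch k X) :
    bd k (cone k a c) = c - aug k c • single ⟨0, fun _ => a⟩ 1 - cone k a (bd k c) := by
  induction c using Finsupp.induction_linear with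
  | zero => simp
  | add f g hf hg => simp only [map_add, hf, hg, add_smul]; abel
  | single t r =>
    obtain ⟨n, x⟩ := t
    rcases n with _ | n
    · simp only [cone_single, bd_single, bdT, aug_single, augT, smul_zero, map_zero, sub_zero,
        mul_one]
      rw [Fin.sum_univ_two]
      simp only [Fin.isValue, Fin.val_zero, pow_zero, Fin.val_one, pow_one]
      rw [cons_comp_succAbove_zero, smul_add]
      have : (Fin.cons a x : Fin 2 → X) ∘ (1 : Fin 2).succAbove = fun _ => a := by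
        funext i
        fin_cases i
        simp
      rw [this]
      simp [sub_eq_add_neg]
    · simp only [cone_single, bd_single, aug_single, augT, mul_zero, zero_smul, sub_zero]
      rw [bdT, Fin.sum_univ_succ, cons_comp_succAbove_zero]
      simp only [Fin.val_zero, pow_zero, Fin.val_succ, pow_succ, mul_neg, mul_one, smul_add,
        smul_single, smul_eq_mul, single_neg, Finset.sum_neg_distrib, _root_.map_smul, bdT,
        map_sum, cone_single, cons_comp_succAbove_succ, smul_neg]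
      simp [sub_eq_add_neg]

theorem tuple_eq_cone {n : ℕ} (x : Fin (n + 2) → X) :
    (single ⟨n + 1, x⟩ 1 : Ch k X) = cone k (x 0) (single ⟨n, Fin.tail x⟩ 1) := by
  rw [cone_single]
  simp

theorem aug_bd (c : Ch k X) : aug k (bd k c) = 0 := by
  induction c using Finsupp.induction_linear with
  | zero => simp
  | add f g hf hg => simp only [map_add, hf, hg, add_zero]
  | single t r =>
    obtain ⟨n, x⟩ := t
    rcases n with _ | _ | n
    · simp [bdT]
    · simp [bdT, augT, Fin.sum_univ_two]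
    · simp [bdT, augT]

theorem bd_bd (c : Ch k X) : bd k (bd k c) = 0 := by
  have key : ∀ (n : ℕ) (x : Fin (n + 1) → X), bd k (bd k (single ⟨n, x⟩ (1 : k))) = 0 := by
    intro n
    induction n with
    | zero => intro x; simp [bdT]
    | succ n ih =>
      intro x
      rw [tuple_eq_cone, bd_cone, map_sub, map_sub, bd_cone, ih, aug_bd]
      simp [bdT]
  induction c using Finsupp.induction_linear with
  | zero => simp
  | add f g hf hg => simp only [map_add, hf, hg, add_zero]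
  | single t r =>
    obtain ⟨n, x⟩ := t
    have : (single ⟨n, x⟩ r : Ch k X) = r • single ⟨n, x⟩ 1 := by simp
    rw [this, _root_.map_smul, _root_.map_smul, key, smul_zero]

/-- evaluation of a cochain on chains -/
noncomputable def ev (φ : Co k X) : Ch k X →ₗ[k] k := Finsupp.linearCombination k φ

@[simp] theorem ev_single (φ : Co k X) (t : Tp X) (r : k) : ev φ (single t r) = r * φ t := by
  simp [ev]

/-- operator on cochains given by a chain valued function on tuples -/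
noncomputable def op (T : Tp X → Ch k Y) : Co k Y →ₗ[k] Co k X where
  toFun φ t := ev φ (T t)
  map_add' φ ψ := by
    funext t
    simp [ev, Finsupp.linearCombination_apply, mul_add, Finsupp.sum_add]
  map_smul' r φ := by
    funext t
    simp [ev, Finsupp.linearCombination_apply, Finsupp.mul_sum, mul_left_comm]

theorem op_apply (T : Tp X → Ch k Y) (φ : Co k Y) (t : Tp X) : op T φ t = ev φ (T t) := rfl

theorem ev_op (T : Tp X → Ch k Y) (φ : Co k Y) (c : Ch k X) :
    ev (op T φ) c = ev φ (Finsupp.linearCombination k T c) := by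
  induction c using Finsupp.induction_linear with
  | zero => simp
  | add f g hf hg => simp only [map_add, hf, hg]
  | single t r => simp [op_apply]

variable (k X) in
/-- the differential of cochains -/
noncomputable def dl : Co k X →ₗ[k] Co k X := op (bdT k)

theorem dl_zero (φ : Co k X) (x : Fin 1 → X) : dl k X φ ⟨0, x⟩ = 0 := by
  simp [dl, op_apply, bdT]

theorem dl_succ (φ : Co k X) (n : ℕ) (x : Fin (n + 2) → X) :
    dl k X φ ⟨n + 1, x⟩ = ∑ i : Fin (n + 2), (-1) ^ (i : ℕ) * φ ⟨n, x ∘ i.succAbove⟩ := by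
  simp [dl, op_apply, bdT]

theorem dl_dl (φ : Co k X) : dl k X (dl k X φ) = 0 := by
  funext t
  change ev (op (bdT k) φ) (bdT k t) = 0
  rw [ev_op]
  have := bd_bd (single t (1 : k))
  rw [bd_single, one_smul] at this
  change ev φ (bd k (bdT k t)) = 0
  rw [this, map_zero]

/-- pull back of cochains along an arbitrary function -/
def pull (f : X → Y) : Co k Y →ₗ[k] Co k X where
  toFun φ t := φ ⟨t.1, f ∘ t.2⟩
  map_add' _ _ := rfl
  map_smul' _ _ := rfl

@[simp] theorem pull_apply (f : X → Y) (φ : Co k Y) (t : Tp X) :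
    pull f φ t = φ ⟨t.1, f ∘ t.2⟩ := rfl

theorem dl_pull (f : X → Y) (φ : Co k Y) : dl k X (pull f φ) = pull f (dl k Y φ) := by
  funext ⟨n, x⟩
  rcases n with _ | n
  · rw [pull_apply, dl_zero, dl_zero]
  · rw [pull_apply, dl_succ, dl_succ]
    rfl

end chains

/-! ## small tuples and supports -/

section supports

variable {k : Type v} [CommRing k] {X : Type u} {Y : Type w} [TopologicalSpace X]
  [TopologicalSpace Y]

/-- `W`-small tuples -/
def Near (W : Set (X × X)) (t : Tp X) : Prop := ∀ i j, (t.2 i, t.2 j) ∈ W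

variable (k X) in
/-- cochains with support off `A`: zero on small tuples close to `A` -/
def Spp (A : Set X) : Submodule k (Co k X) where
  carrier := {φ | ∃ W ∈ 𝓝ˢ (diagonal X), ∃ N ∈ 𝓝ˢ A, ∀ t : Tp X, Near W t →
    (∀ i, t.2 i ∈ N) → φ t = 0}
  zero_mem' := ⟨univ, univ_mem, univ, univ_mem, fun _ _ _ => rfl⟩
  add_mem' := by
    rintro φ ψ ⟨W, hW, N, hN, h⟩ ⟨W', hW', N', hN', h'⟩
    refine ⟨W ∩ W', inter_mem hW hW', N ∩ N', inter_mem hN hN', fun t ht htN => ?_⟩
    rw [Pi.add_apply, h t (fun i j => (ht i j).1) (fun i => (htN i).1),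
      h' t (fun i j => (ht i j).2) (fun i => (htN i).2), add_zero]
  smul_mem' := by
    rintro r φ ⟨W, hW, N, hN, h⟩
    exact ⟨W, hW, N, hN, fun t ht htN => by rw [Pi.smul_apply, h t ht htN, smul_zero]⟩

variable (k X) in
/-- locally zero cochains -/
abbrev Zc : Submodule k (Co k X) := Spp k X univ

theorem mem_Spp {A : Set X} {φ : Co k X} : φ ∈ Spp k X A ↔ ∃ W ∈ 𝓝ˢ (diagonal X), ∃ N ∈ 𝓝ˢ A,
    ∀ t : Tp X, Near W t → (∀ i, t.2 i ∈ N) → φ t = 0 := Iff.rfl

theorem mem_Zc {φ : Co k X} : φ ∈ Zc k X ↔ ∃ W ∈ 𝓝ˢ (diagonal X),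
    ∀ t : Tp X, Near W t → φ t = 0 := by
  rw [mem_Spp]
  constructor
  · rintro ⟨W, hW, N, hN, h⟩
    refine ⟨W, hW, fun t ht => h t ht fun i => ?_⟩
    exact subset_of_mem_nhdsSet hN (mem_univ _)
  · rintro ⟨W, hW, h⟩
    exact ⟨W, hW, univ, univ_mem, fun t ht _ => h t ht⟩

theorem diag_nhds {W : Set (X × X)} (hW : W ∈ 𝓝ˢ (diagonal X)) (x : X) :
    ∃ N ∈ 𝓝 x, ∀ a ∈ N, ∀ b ∈ N, (a, b) ∈ W := by
  have h : W ∈ 𝓝 (x, x) := mem_nhdsSet_iff_forall.1 hW (x, x) rfl
  rw [nhds_prod_eq] at h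
  obtain ⟨N, hN, N', hN', h⟩ := Filter.mem_prod_iff.1 h
  exact ⟨N ∩ N', inter_mem hN hN', fun a ha b hb => h ⟨ha.1, hb.2⟩⟩

/-- support off one point -/
theorem mem_Spp_singleton {a : X} {φ : Co k X} : φ ∈ Spp k X {a} ↔ ∃ N ∈ 𝓝 a,
    ∀ t : Tp X, (∀ i, t.2 i ∈ N) → φ t = 0 := by
  rw [mem_Spp]
  constructor
  · rintro ⟨W, hW, N, hN, h⟩
    obtain ⟨N', hN', h'⟩ := diag_nhds hW a
    rw [nhdsSet_singleton] at hN
    exact ⟨N ∩ N', inter_mem hN hN', fun t ht =>
      h t (fun i j => h' _ (ht i).2 _ (ht j).2) fun i => (ht i).1⟩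
  · rintro ⟨N, hN, h⟩
    exact ⟨univ, univ_mem, N, by rwa [nhdsSet_singleton], fun t _ ht => h t ht⟩

theorem Spp_anti {A B : Set X} (h : A ⊆ B) : Spp k X B ≤ Spp k X A := by
  rintro φ ⟨W, hW, N, hN, h'⟩
  exact ⟨W, hW, N, nhdsSet_mono h hN, h'⟩

theorem Zc_le {A : Set X} : Zc k X ≤ Spp k X A := Spp_anti (subset_univ A)

theorem dl_mem_Spp {A : Set X} {φ : Co k X} (h : φ ∈ Spp k X A) : dl k X φ ∈ Spp k X A := by
  obtain ⟨W, hW, N, hN, h⟩ := h
  refine ⟨W, hW, N, hN, fun t ht htN => ?_⟩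
  obtain ⟨n, x⟩ := t
  rcases n with _ | n
  · exact dl_zero _ _
  · rw [dl_succ]
    refine Finset.sum_eq_zero fun i _ => ?_
    rw [h ⟨n, x ∘ i.succAbove⟩ (fun a b => ht _ _) (fun a => htN _), mul_zero]

theorem pull_mem_Spp {f : X → Y} (hf : Continuous f) {A : Set X} {B : Set Y} (hAB : MapsTo f A B)
    {φ : Co k Y} (h : φ ∈ Spp k Y B) : pull f φ ∈ Spp k X A := by
  obtain ⟨W, hW, N, hN, h⟩ := h
  have h1 : Tendsto (Prod.map f f) (𝓝ˢ (diagonal X)) (𝓝ˢ (diagonal Y)) := by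
    refine (hf.prodMap hf).tendsto_nhdsSet ?_
    rintro ⟨a, b⟩ hab
    simp only [mem_diagonal_iff] at hab ⊢
    simp [hab]
  have h2 : Tendsto f (𝓝ˢ A) (𝓝ˢ B) := hf.tendsto_nhdsSet hAB
  exact ⟨_, h1 hW, _, h2 hN, fun t ht htN => h _ (fun i j => ht i j) fun i => htN i⟩

variable (k X) in
/-- Alexander-Spanier cohomology of `X` with supports off `A`
(for `X` compact Hausdorff: cohomology of `X ∖ A` with compact supports) -/
abbrev AS (A : Set X) : Type (max u v) := SQ (dl k X) (Spp k X A) (Zc k X)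

/-- the map induced by a continuous map of pairs -/
theorem ok_pull {f : X → Y} (hf : Continuous f) {A : Set X} {B : Set Y} (hAB : MapsTo f A B) :
    SQ.Ok (dl k Y) (Spp k Y B) (Zc k Y) (dl k X) (Spp k X A) (Zc k X) (pull f) where
  hM _ h := pull_mem_Spp hf hAB h
  hZ _ h := pull_mem_Spp hf (mapsTo_univ _ _) h
  hd φ _ := by rw [dl_pull, sub_self]; exact zero_mem _

variable (k) in
/-- functoriality -/
def ASmap {f : X → Y} (hf : Continuous f) {A : Set X} {B : Set Y} (hAB : MapsTo f A B) :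
    AS k Y B →ₗ[k] AS k X A := SQ.map (pull f) (ok_pull hf hAB)

theorem ASmap_mk {f : X → Y} (hf : Continuous f) {A : Set X} {B : Set Y} (hAB : MapsTo f A B)
    (φ : Co k Y) (h1 : φ ∈ Spp k Y B) (h2 : dl k Y φ ∈ Zc k Y) :
    ASmap k hf hAB (SQ.mk φ h1 h2) = SQ.mk (pull f φ) (pull_mem_Spp hf hAB h1)
      (by rw [dl_pull]; exact pull_mem_Spp hf (mapsTo_univ _ _) h2) := rfl

/-! ### local characterisation -/

theorem exists_lebesgue [CompactSpace X] [T2Space X] {A : Set X} (hA : IsClosed A)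
    (N : X → Set X) (hN : ∀ a ∈ A, N a ∈ 𝓝 a) :
    ∃ W ∈ 𝓝ˢ (diagonal X), ∃ M ∈ 𝓝ˢ A, ∀ x ∈ M, ∃ a ∈ A, ∀ y, (x, y) ∈ W → y ∈ N a := by
  let _ := uniformSpaceOfCompactR1 (γ := X)
  have hU : uniformity X = 𝓝ˢ (diagonal X) := nhdsSet_diagonal_eq_uniformity.symm
  obtain ⟨V, hV, h⟩ := lebesgue_number_lemma_nhds' (K := A) hA.isCompact
    (U := fun x _ => N x) (fun x hx => hN x hx)
  obtain ⟨V', hV', hs, hc⟩ := comp_symm_mem_uniformity_sets hV
  refine ⟨V', hU ▸ hV', ⋃ a ∈ A, UniformSpace.ball a V', ?_, ?_⟩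
  · rw [mem_nhdsSet_iff_forall]
    intro a ha
    exact mem_of_superset (UniformSpace.ball_mem_nhds a hV')
      (subset_biUnion_of_mem (u := fun a => UniformSpace.ball a V') ha)
  · intro x hx
    simp only [mem_iUnion, exists_prop] at hx
    obtain ⟨a, ha, hx⟩ := hx
    obtain ⟨⟨b, hb⟩, hab⟩ := h a ha
    refine ⟨b, hb, fun y hy => hab ?_⟩
    exact hc (SetRel.prodMk_mem_comp hx hy)

/-- **local characterisation of supports** -/
theorem mem_Spp_loc [CompactSpace X] [T2Space X] {A : Set X} (hA : IsClosed A) {φ : Co k X} :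
    φ ∈ Spp k X A ↔ ∀ a ∈ A, ∃ N ∈ 𝓝 a, ∀ t : Tp X, (∀ i, t.2 i ∈ N) → φ t = 0 := by
  constructor
  · intro h a ha
    exact mem_Spp_singleton.1 (Spp_anti (singleton_subset_iff.2 ha) h)
  · intro h
    choose! N hN hN' using h
    obtain ⟨W, hW, M, hM, h⟩ := exists_lebesgue hA N hN
    refine ⟨W, hW, M, hM, fun t ht htM => ?_⟩
    obtain ⟨a, ha, h'⟩ := h (t.2 0) (htM 0)
    exact hN' a ha t fun i => h' _ (ht 0 i)

theorem Spp_union [CompactSpace X] [T2Space X] {A B : Set X} (hA : IsClosed A) (hB : IsClosed B)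
    {φ : Co k X} : φ ∈ Spp k X (A ∪ B) ↔ φ ∈ Spp k X A ∧ φ ∈ Spp k X B := by
  rw [mem_Spp_loc hA, mem_Spp_loc hB, mem_Spp_loc (hA.union hB)]
  constructor
  · intro h
    exact ⟨fun a ha => h a (Or.inl ha), fun a ha => h a (Or.inr ha)⟩
  · rintro ⟨h1, h2⟩ a (ha | ha)
    exacts [h1 a ha, h2 a ha]

end supports

/-! ## the functor `RH` -/

section RH

variable (k : Type v) [CommRing k] (U : Type u) [TopologicalSpace U]

/-- cohomology with compact supports of `U` = reduced cohomology of `OnePoint U`, all degrees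
together -/
abbrev RH : Type (max u v) := AS k (OnePoint U) {(∞ : OnePoint U)}

variable {U} {V : Type w} [TopologicalSpace V] {W : Type x} [TopologicalSpace W]

/-- functoriality on pointed maps -/
def RH.map (f : PMap U V) : RH k V →ₗ[k] RH k U :=
  ASmap k f.cont (by rw [mapsTo_singleton]; exact f.map_inf)

theorem RH.map_id (a : RH k U) : RH.map k (PMap.id U) a = a := by
  obtain ⟨φ, h1, h2, rfl⟩ := SQ.mk_surj a
  rfl

theorem RH.map_comp (g : PMap V W) (f : PMap U V) (a : RH k W) :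
    RH.map k (g.comp f) a = RH.map k f (RH.map k g a) := by
  obtain ⟨φ, h1, h2, rfl⟩ := SQ.mk_surj a
  rfl

theorem RH.map_zero (a : RH k V) : RH.map k (PMap.zero U V) a = 0 := by
  obtain ⟨φ, h1, h2, rfl⟩ := SQ.mk_surj a
  rw [RH.map, ASmap_mk, SQ.mk_eq_zero]
  refine ⟨0, zero_mem _, ?_⟩
  rw [_root_.map_zero, sub_zero]
  obtain ⟨N, hN, h⟩ := mem_Spp_singleton.1 h1
  exact mem_Zc.2 ⟨univ, univ_mem, fun t _ => h _ fun i => mem_of_mem_nhds hN⟩

end RH

/-! ## acyclic carriers -/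

section carrier

variable {k : Type v} [CommRing k] {X : Type u} {Y : Type w}

variable (k) in
/-- chains on tuples with entries in `A` -/
def CS (A : Set Y) : Submodule k (Ch k Y) := Finsupp.supported k k {s : Tp Y | ∀ i, s.2 i ∈ A}

theorem CS_mono {A B : Set Y} (h : A ⊆ B) : CS k A ≤ CS k B :=
  Finsupp.supported_mono fun _ hs i => h (hs i)

theorem single_mem_CS {A : Set Y} {t : Tp Y} (h : ∀ i, t.2 i ∈ A) (r : k) :
    (single t r : Ch k Y) ∈ CS k A := Finsupp.single_mem_supported k r h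

theorem cone_mem_CS {A : Set Y} {a : Y} (ha : a ∈ A) {c : Ch k Y} (hc : c ∈ CS k A) :
    cone k a c ∈ CS k A := by
  rw [cone, Finsupp.linearCombination_apply]
  refine Submodule.sum_mem _ fun t ht => Submodule.smul_mem _ _ ?_
  refine single_mem_CS (fun i => ?_) _
  have ht' : ∀ i, t.2 i ∈ A := (Finsupp.mem_supported k c).1 hc ht
  refine Fin.cases ?_ (fun j => ?_) i
  · exact ha
  · simpa using ht' j

theorem ev_eq_zero {φ : Co k Y} {c : Ch k Y} {A : Set Y} (hc : c ∈ CS k A)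
    (h : ∀ s : Tp Y, (∀ i, s.2 i ∈ A) → φ s = 0) : ev φ c = 0 := by
  rw [ev, Finsupp.linearCombination_apply]
  refine Finset.sum_eq_zero fun t ht => ?_
  change c t • φ t = 0
  rw [h t ((Finsupp.mem_supported k c).1 hc ht), smul_zero]

/-- the homotopy -/
def htpF (S T : Tp X → Ch k Y) (c : Tp X → Y) : (n : ℕ) → (Fin (n + 1) → X) → Ch k Y
  | 0, x => cone k (c ⟨0, x⟩) (T ⟨0, x⟩ - S ⟨0, x⟩)
  | n + 1, x => cone k (c ⟨n + 1, x⟩) (T ⟨n + 1, x⟩ - S ⟨n + 1, x⟩ -
      ∑ i : Fin (n + 2), (-1 : k) ^ (i : ℕ) • htpF S T c n (x ∘ i.succAbove))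

/-- the homotopy on tuples -/
def htp (S T : Tp X → Ch k Y) (c : Tp X → Y) (t : Tp X) : Ch k Y := htpF S T c t.1 t.2

/-- linear extension -/
abbrev lin (T : Tp X → Ch k Y) : Ch k X →ₗ[k] Ch k Y := Finsupp.linearCombination k T

theorem htp_eq (S T : Tp X → Ch k Y) (c : Tp X → Y) (t : Tp X) :
    htp S T c t = cone k (c t) (T t - S t - lin (htp S T c) (bdT k t)) := by
  obtain ⟨n, x⟩ := t
  rcases n with _ | n
  · simp [htp, htpF, bdT]
  · simp [htp, htpF, bdT]

theorem aug_cone (a : Y) (c : Ch k Y) : aug k (cone k a c) = 0 := by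
  induction c using Finsupp.induction_linear with
  | zero => simp
  | add f g hf hg => simp only [map_add, hf, hg, add_zero]
  | single t r => simp [augT]

theorem aug_lin_htp (S T : Tp X → Ch k Y) (c : Tp X → Y) (z : Ch k X) :
    aug k (lin (htp S T c) z) = 0 := by
  induction z using Finsupp.induction_linear with
  | zero => simp
  | add f g hf hg => simp only [map_add, hf, hg, add_zero]
  | single t r => simp [htp_eq, aug_cone]

/-- chain map on tuples -/
def IsCM (T : Tp X → Ch k Y) : Prop := ∀ t, lin T (bdT k t) = bd k (T t)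

theorem IsCM.lin_bd {T : Tp X → Ch k Y} (h : IsCM T) (c : Ch k X) :
    lin T (bd k c) = bd k (lin T c) := by
  induction c using Finsupp.induction_linear with
  | zero => simp
  | add f g hf hg => simp only [map_add, hf, hg]
  | single t r => simp [h t]

theorem bd_bdT (t : Tp X) : bd k (bdT k t) = 0 := by
  have := bd_bd (single t (1 : k))
  rwa [bd_single, one_smul] at this

/-- **acyclic carrier homotopy** -/
theorem htp_spec {S T : Tp X → Ch k Y} (hS : IsCM S) (hT : IsCM T)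
    (ha : ∀ t, aug k (T t) = aug k (S t)) (c : Tp X → Y) (t : Tp X) :
    bd k (htp S T c t) + lin (htp S T c) (bdT k t) = T t - S t := by
  obtain ⟨n, x⟩ := t
  induction n with
  | zero =>
    rw [htp_eq, bd_cone]
    have h1 : lin (htp S T c) (bdT k (⟨0, x⟩ : Tp X)) = 0 := by simp [bdT]
    have h2 : bd k (T (⟨0, x⟩ : Tp X)) = 0 := by rw [← hT]; simp [bdT]
    have h3 : bd k (S (⟨0, x⟩ : Tp X)) = 0 := by rw [← hS]; simp [bdT]
    rw [h1, sub_zero, map_sub, map_sub, h2, h3, ha]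
    simp
  | succ n ih =>
    rw [htp_eq, bd_cone, map_sub, map_sub, ha, aug_lin_htp, sub_self, sub_zero, zero_smul,
      sub_zero]
    have key : bd k (T (⟨n + 1, x⟩ : Tp X) - S ⟨n + 1, x⟩ -
        lin (htp S T c) (bdT k ⟨n + 1, x⟩)) = 0 := by
      rw [map_sub, map_sub, ← hT, ← hS]
      have h4 : ∀ z : Ch k X, z ∈ Submodule.span k {z | ∃ y : Fin (n + 1) → X,
          z = single ⟨n, y⟩ 1} → bd k (lin (htp S T c) z) =
            lin T z - lin S z - lin (htp S T c) (bd k z) := by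
        intro z hz
        refine Submodule.span_induction ?_ ?_ ?_ ?_ hz
        · rintro _ ⟨y, rfl⟩
          have := ih y
          rw [← eq_sub_iff_add_eq] at this
          simpa using this
        · simp
        · intro a b _ _ h1 h2
          simp only [map_add, h1, h2]
          abel
        · intro r a _ h1
          simp only [_root_.map_smul, h1, smul_sub]
      rw [h4, bd_bdT]
      · simp
      · rw [bdT]
        refine Submodule.sum_mem _ fun i _ => ?_
        have : (single (⟨n, x ∘ i.succAbove⟩ : Tp X) ((-1 : k) ^ (i : ℕ)) : Ch k X) =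
            (-1 : k) ^ (i : ℕ) • single ⟨n, x ∘ i.succAbove⟩ 1 := by simp
        rw [this]
        exact Submodule.smul_mem _ _ (Submodule.subset_span ⟨_, rfl⟩)
    rw [key, map_zero, sub_zero, sub_add_cancel]

/-- the homotopy is carried -/
theorem htp_mem {S T : Tp X → Ch k Y} {c : Tp X → Y} {C : Tp X → Set Y}
    (hS : ∀ t, S t ∈ CS k (C t)) (hT : ∀ t, T t ∈ CS k (C t)) (hc : ∀ t, c t ∈ C t)
    (hC : ∀ (n : ℕ) (x : Fin (n + 2) → X) (i : Fin (n + 2)),
      C ⟨n, x ∘ i.succAbove⟩ ⊆ C ⟨n + 1, x⟩) (t : Tp X) : htp S T c t ∈ CS k (C t) := by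
  obtain ⟨n, x⟩ := t
  induction n with
  | zero =>
    rw [htp_eq]
    refine cone_mem_CS (hc _) (sub_mem (sub_mem (hT _) (hS _)) ?_)
    simp [bdT]
  | succ n ih =>
    rw [htp_eq]
    refine cone_mem_CS (hc _) (sub_mem (sub_mem (hT _) (hS _)) ?_)
    rw [bdT, map_sum]
    refine Submodule.sum_mem _ fun i _ => ?_
    rw [Finsupp.linearCombination_single]
    exact Submodule.smul_mem _ _ (CS_mono (hC n x i) (ih _))

/-- homotopy formula for cochains -/
theorem op_sub_op {S T : Tp X → Ch k Y} (hS : IsCM S) (hT : IsCM T)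
    (ha : ∀ t, aug k (T t) = aug k (S t)) (c : Tp X → Y) (φ : Co k Y) :
    op T φ - op S φ = dl k X (op (htp S T c) φ) + op (htp S T c) (dl k Y φ) := by
  funext t
  have h := htp_spec hS hT ha c t
  have h1 : dl k X (op (htp S T c) φ) t = ev φ (lin (htp S T c) (bdT k t)) := by
    change ev (op (htp S T c) φ) (bdT k t) = _
    rw [ev_op]
  have h2 : op (htp S T c) (dl k Y φ) t = ev φ (bd k (htp S T c t)) := by
    change ev (op (bdT k) φ) (htp S T c t) = _
    rw [ev_op]
    rfl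
  rw [Pi.add_apply, h1, h2, ← map_add, add_comm, h, map_sub]
  rfl

end carrier

end Crest.Agent.R090.AS412

end
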