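import Crest.Agent.R090.AS1_58

/-!
# Row 90, block HOM (helper58): Alexander-Spanier cohomology of pairs, definitions

`LZ F X`   : locally zero cochains (zero on lists whose pairs lie in a neighbourhood of the diagonal)
`Sp F A`   : cochains which are zero on small lists near `A`
`Hc F A`   : cohomology of the pair `(X, A)`;  `Hc.mk`, `Hc.map`, parity `Hc.ev`, homotopy invariance
-/

set_option autoImplicit false
set_option linter.unusedSectionVars false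
set_option linter.style.haveILetI false

open Filter Topology Set

namespace Crest.Agent.R090.AS58

/-! ## small lists -/

/-- all pairs of entries lie in `W` -/
def Sm {X : Type} (W : Set (X × X)) (l : List X) : Prop := ∀ x ∈ l, ∀ y ∈ l, (x, y) ∈ W

/-- all entries lie in `N` -/
def Inn {X : Type} (N : Set X) (l : List X) : Prop := ∀ x ∈ l, x ∈ N

theorem Sm.mono {X : Type} {W W' : Set (X × X)} (h : W ⊆ W') {l : List X} (hl : Sm W l) :
    Sm W' l := fun x hx y hy => h (hl x hx y hy)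

theorem Sm.sub {X : Type} {W : Set (X × X)} {l m : List X} (hl : Sm W l) (h : m ⊆ l) :
    Sm W m := fun x hx y hy => hl x (h hx) y (h hy)

theorem Inn.mono {X : Type} {N N' : Set X} (h : N ⊆ N') {l : List X} (hl : Inn N l) :
    Inn N' l := fun x hx => h (hl x hx)

theorem Inn.sub {X : Type} {N : Set X} {l m : List X} (hl : Inn N l) (h : m ⊆ l) :
    Inn N m := fun x hx => hl x (h hx)

theorem Inn.map {X Y : Type} {N : Set X} {N' : Set Y} {f : X → Y} (h : ∀ x ∈ N, f x ∈ N')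
    {l : List X} (hl : Inn N l) : Inn N' (l.map f) := by
  intro y hy
  obtain ⟨x, hx, rfl⟩ := List.mem_map.1 hy
  exact h x (hl x hx)

theorem Sm.map {X Y : Type} {W : Set (X × X)} {W' : Set (Y × Y)} {f : X → Y}
    (h : ∀ x y, (x, y) ∈ W → (f x, f y) ∈ W') {l : List X} (hl : Sm W l) : Sm W' (l.map f) := by
  intro a ha b hb
  obtain ⟨x, hx, rfl⟩ := List.mem_map.1 ha
  obtain ⟨y, hy, rfl⟩ := List.mem_map.1 hb
  exact h x y (hl x hx y hy)

section defs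

variable (F : Type) [CommRing F] (X : Type) [TopologicalSpace X]

/-- locally zero cochains -/
def LZ : Submodule F (List X → F) where
  carrier := {φ | ∃ W ∈ 𝓝ˢ (diagonal X), ∀ l, Sm W l → φ l = 0}
  add_mem' := by
    rintro φ ψ ⟨W, hW, h⟩ ⟨W', hW', h'⟩
    refine ⟨W ∩ W', inter_mem hW hW', fun l hl => ?_⟩
    rw [Pi.add_apply, h l (hl.mono inter_subset_left), h' l (hl.mono inter_subset_right), add_zero]
  zero_mem' := ⟨univ, univ_mem, fun _ _ => rfl⟩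
  smul_mem' := by
    rintro c φ ⟨W, hW, h⟩
    exact ⟨W, hW, fun l hl => by rw [Pi.smul_apply, h l hl, smul_zero]⟩

variable {X}

/-- cochains supported away from `A` -/
def Sp (A : Set X) : Submodule F (List X → F) where
  carrier := {φ | ∃ N ∈ 𝓝ˢ A, ∃ W ∈ 𝓝ˢ (diagonal X), ∀ l, Inn N l → Sm W l → φ l = 0}
  add_mem' := by
    rintro φ ψ ⟨N, hN, W, hW, h⟩ ⟨N', hN', W', hW', h'⟩
    refine ⟨N ∩ N', inter_mem hN hN', W ∩ W', inter_mem hW hW', fun l hl hl' => ?_⟩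
    rw [Pi.add_apply, h l (hl.mono inter_subset_left) (hl'.mono inter_subset_left),
      h' l (hl.mono inter_subset_right) (hl'.mono inter_subset_right), add_zero]
  zero_mem' := ⟨univ, univ_mem, univ, univ_mem, fun _ _ _ => rfl⟩
  smul_mem' := by
    rintro c φ ⟨N, hN, W, hW, h⟩
    exact ⟨N, hN, W, hW, fun l hl hl' => by rw [Pi.smul_apply, h l hl hl', smul_zero]⟩

variable {F}

theorem mem_LZ {φ : List X → F} : φ ∈ LZ F X ↔ ∃ W ∈ 𝓝ˢ (diagonal X), ∀ l, Sm W l → φ l = 0 :=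
  Iff.rfl

theorem mem_Sp {A : Set X} {φ : List X → F} :
    φ ∈ Sp F A ↔ ∃ N ∈ 𝓝ˢ A, ∃ W ∈ 𝓝ˢ (diagonal X), ∀ l, Inn N l → Sm W l → φ l = 0 :=
  Iff.rfl

theorem LZ_le_Sp (A : Set X) : LZ F X ≤ Sp F A := by
  rintro φ ⟨W, hW, h⟩
  exact ⟨univ, univ_mem, W, hW, fun l _ hl => h l hl⟩

theorem Sp_anti {A B : Set X} (h : A ⊆ B) : Sp F B ≤ Sp F A := by
  rintro φ ⟨N, hN, W, hW, h'⟩
  exact ⟨N, nhdsSet_mono h hN, W, hW, h'⟩

theorem mem_Sp_singleton {x0 : X} {φ : List X → F} :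
    φ ∈ Sp F ({x0} : Set X) ↔ ∃ N ∈ 𝓝 x0, ∀ l, Inn N l → φ l = 0 := by
  constructor
  · rintro ⟨N, hN, W, hW, h⟩
    rw [nhdsSet_singleton] at hN
    have h1 : W ∈ 𝓝 (x0, x0) := nhds_le_nhdsSet (mem_diagonal x0) hW
    rw [nhds_prod_eq, mem_prod_self_iff] at h1
    obtain ⟨t, ht, ht'⟩ := h1
    exact ⟨N ∩ t, inter_mem hN ht, fun l hl => h l (hl.mono inter_subset_left)
      (fun x hx y hy => ht' ⟨(hl x hx).2, (hl y hy).2⟩)⟩
  · rintro ⟨N, hN, h⟩
    exact ⟨N, by rwa [nhdsSet_singleton], univ, univ_mem, fun l hl _ => h l hl⟩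

theorem Sp_nil {A : Set X} {φ : List X → F} (h : φ ∈ Sp F A) : φ [] = 0 := by
  obtain ⟨N, _, W, _, h⟩ := h
  exact h [] (fun _ hx => absurd hx List.not_mem_nil) (fun _ hx => absurd hx List.not_mem_nil)

theorem LZ_nil {φ : List X → F} (h : φ ∈ LZ F X) : φ [] = 0 := by
  obtain ⟨W, _, h⟩ := h
  exact h [] (fun _ hx => absurd hx List.not_mem_nil)

theorem d_mem_LZ {φ : List X → F} (h : φ ∈ LZ F X) : d φ ∈ LZ F X := by
  obtain ⟨W, hW, h⟩ := h
  exact ⟨W, hW, fun l hl => d_eq_zero fun m hm => h m (hl.sub hm)⟩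

theorem d_mem_Sp {A : Set X} {φ : List X → F} (h : φ ∈ Sp F A) : d φ ∈ Sp F A := by
  obtain ⟨N, hN, W, hW, h⟩ := h
  exact ⟨N, hN, W, hW, fun l hl hl' => d_eq_zero fun m hm => h m (hl.sub hm) (hl'.sub hm)⟩

theorem ev_mem_LZ {φ : List X → F} (h : φ ∈ LZ F X) : ev φ ∈ LZ F X := by
  obtain ⟨W, hW, h⟩ := h
  exact ⟨W, hW, fun l hl => by rw [ev_apply, h l hl]; simp⟩

theorem ev_mem_Sp {A : Set X} {φ : List X → F} (h : φ ∈ Sp F A) : ev φ ∈ Sp F A := by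
  obtain ⟨N, hN, W, hW, h⟩ := h
  exact ⟨N, hN, W, hW, fun l hl hl' => by rw [ev_apply, h l hl hl']; simp⟩

variable (F)

/-- cocycles of the pair -/
def Zc (A : Set X) : Submodule F (List X → F) := Sp F A ⊓ (LZ F X).comap d

/-- coboundaries of the pair -/
def Bc (A : Set X) : Submodule F (List X → F) := (Sp F A).map d ⊔ LZ F X

variable {F}

theorem mem_Bc {A : Set X} {φ : List X → F} :
    φ ∈ Bc F A ↔ ∃ ψ ∈ Sp F A, φ - d ψ ∈ LZ F X := by
  constructor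
  · intro h
    obtain ⟨_, ⟨ψ, hψ, rfl⟩, b, hb, rfl⟩ := Submodule.mem_sup.1 h
    exact ⟨ψ, hψ, by simpa using hb⟩
  · rintro ⟨ψ, hψ, h⟩
    exact Submodule.mem_sup.2 ⟨d ψ, ⟨ψ, hψ, rfl⟩, φ - d ψ, h, by abel⟩

theorem LZ_le_Bc (A : Set X) : LZ F X ≤ Bc F A := le_sup_right

theorem d_mem_Bc {A : Set X} {ψ : List X → F} (h : ψ ∈ Sp F A) : d ψ ∈ Bc F A :=
  Submodule.mem_sup_left ⟨ψ, h, rfl⟩

theorem Bc_le_Zc (A : Set X) : Bc F A ≤ Zc F A := by
  refine sup_le ?_ ?_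
  · rintro _ ⟨ψ, hψ, rfl⟩
    refine ⟨d_mem_Sp hψ, ?_⟩
    simp only [SetLike.mem_coe, Submodule.mem_comap, d_d]
    exact Submodule.zero_mem _
  · intro φ h
    exact ⟨LZ_le_Sp A h, d_mem_LZ h⟩

variable (F)

/-- Alexander-Spanier cohomology of the pair `(X, A)` (all degrees together) -/
abbrev Hc (A : Set X) : Type := Zc F A ⧸ (Bc F A).comap (Zc F A).subtype

variable {F}

namespace Hc

/-- class of a cocycle -/
def mk {A : Set X} (φ : List X → F) (h : φ ∈ Zc F A) : Hc F A :=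
  Submodule.Quotient.mk ⟨φ, h⟩

theorem mk_surj {A : Set X} (x : Hc F A) : ∃ φ, ∃ h : φ ∈ Zc F A, x = mk φ h := by
  obtain ⟨⟨φ, h⟩, rfl⟩ := Submodule.Quotient.mk_surjective _ x
  exact ⟨φ, h, rfl⟩

theorem mk_eq_zero {A : Set X} {φ : List X → F} {h : φ ∈ Zc F A} :
    mk φ h = 0 ↔ φ ∈ Bc F A := by
  unfold mk
  rw [Submodule.Quotient.mk_eq_zero, Submodule.mem_comap]; rfl

theorem mk_eq_mk {A : Set X} {φ ψ : List X → F} {h : φ ∈ Zc F A} {h' : ψ ∈ Zc F A} :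
    mk φ h = mk ψ h' ↔ φ - ψ ∈ Bc F A := by
  unfold mk
  rw [Submodule.Quotient.eq, Submodule.mem_comap]
  rfl

theorem mk_add {A : Set X} {φ ψ : List X → F} (h : φ ∈ Zc F A) (h' : ψ ∈ Zc F A) :
    mk φ h + mk ψ h' = mk (φ + ψ) ((Zc F A).add_mem h h') := rfl

theorem mk_smul {A : Set X} (c : F) {φ : List X → F} (h : φ ∈ Zc F A) :
    c • mk φ h = mk (c • φ) ((Zc F A).smul_mem c h) := rfl

/-- map induced by a linear map on cochains -/
def lift {Y : Type} [TopologicalSpace Y] {A : Set X} {B : Set Y}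
    (f : (List X → F) →ₗ[F] (List Y → F)) (hZ : ∀ φ ∈ Zc F A, f φ ∈ Zc F B)
    (hB : ∀ φ ∈ Bc F A, f φ ∈ Bc F B) : Hc F A →ₗ[F] Hc F B :=
  Submodule.mapQ _ _ (f.restrict hZ) (by
    rintro ⟨φ, h⟩ hφ
    exact hB φ hφ)

@[simp] theorem lift_mk {Y : Type} [TopologicalSpace Y] {A : Set X} {B : Set Y}
    (f : (List X → F) →ₗ[F] (List Y → F)) (hZ : ∀ φ ∈ Zc F A, f φ ∈ Zc F B)
    (hB : ∀ φ ∈ Bc F A, f φ ∈ Bc F B) (φ : List X → F) (h : φ ∈ Zc F A) :
    lift f hZ hB (mk φ h) = mk (f φ) (hZ φ h) := rfl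

end Hc

/-! ### pull back along continuous maps of pairs -/

variable {Y : Type} [TopologicalSpace Y] {Z : Type} [TopologicalSpace Z]

theorem preimage_diag {f : X → Y} (hf : Continuous f) {W : Set (Y × Y)}
    (hW : W ∈ 𝓝ˢ (diagonal Y)) : (Prod.map f f) ⁻¹' W ∈ 𝓝ˢ (diagonal X) := by
  have h : Tendsto (Prod.map f f) (𝓝ˢ (diagonal X)) (𝓝ˢ (diagonal Y)) :=
    (hf.prodMap hf).tendsto_nhdsSet (by
      rintro ⟨x, y⟩ h
      simp only [mem_diagonal_iff] at h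
      simp [h])
  exact h hW

theorem pull_mem_LZ {f : X → Y} (hf : Continuous f) {φ : List Y → F} (h : φ ∈ LZ F Y) :
    pull f φ ∈ LZ F X := by
  obtain ⟨W, hW, h⟩ := h
  exact ⟨_, preimage_diag hf hW, fun l hl => h _ (Sm.map (f := f) (fun x y hxy => hxy) hl)⟩

theorem pull_mem_Sp {f : X → Y} (hf : Continuous f) {A : Set X} {B : Set Y} (hAB : MapsTo f A B)
    {φ : List Y → F} (h : φ ∈ Sp F B) : pull f φ ∈ Sp F A := by
  obtain ⟨N, hN, W, hW, h⟩ := h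
  refine ⟨f ⁻¹' N, hf.tendsto_nhdsSet hAB hN, _, preimage_diag hf hW, fun l hl hl' => ?_⟩
  exact h _ (Inn.map (f := f) (fun x hx => hx) hl) (Sm.map (f := f) (fun x y hxy => hxy) hl')

theorem pull_mem_Zc {f : X → Y} (hf : Continuous f) {A : Set X} {B : Set Y} (hAB : MapsTo f A B)
    {φ : List Y → F} (h : φ ∈ Zc F B) : pull f φ ∈ Zc F A := by
  refine ⟨pull_mem_Sp hf hAB h.1, ?_⟩
  simp only [SetLike.mem_coe, Submodule.mem_comap, d_pull]
  exact pull_mem_LZ hf h.2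

theorem pull_mem_Bc {f : X → Y} (hf : Continuous f) {A : Set X} {B : Set Y} (hAB : MapsTo f A B)
    {φ : List Y → F} (h : φ ∈ Bc F B) : pull f φ ∈ Bc F A := by
  rw [mem_Bc] at h ⊢
  obtain ⟨ψ, hψ, h⟩ := h
  refine ⟨pull f ψ, pull_mem_Sp hf hAB hψ, ?_⟩
  rw [d_pull, ← map_sub]
  exact pull_mem_LZ hf h

variable (F) in
/-- functoriality -/
def Hc.map (f : X → Y) (hf : Continuous f) {A : Set X} {B : Set Y} (hAB : MapsTo f A B) :
    Hc F B →ₗ[F] Hc F A :=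
  Hc.lift (pull f) (fun _ h => pull_mem_Zc hf hAB h) (fun _ h => pull_mem_Bc hf hAB h)

@[simp] theorem Hc.map_mk (f : X → Y) (hf : Continuous f) {A : Set X} {B : Set Y}
    (hAB : MapsTo f A B) (φ : List Y → F) (h : φ ∈ Zc F B) :
    Hc.map F f hf hAB (Hc.mk φ h) = Hc.mk (pull f φ) (pull_mem_Zc hf hAB h) := rfl

theorem Hc.map_id {A : Set X} (h : MapsTo (id : X → X) A A) (x : Hc F A) :
    Hc.map F id continuous_id h x = x := by
  obtain ⟨φ, hφ, rfl⟩ := Hc.mk_surj x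
  rw [Hc.map_mk]
  congr 1
  exact pull_id φ

theorem Hc.map_comp {f : X → Y} {g : Y → Z} (hf : Continuous f) (hg : Continuous g)
    {A : Set X} {B : Set Y} {C : Set Z} (hAB : MapsTo f A B) (hBC : MapsTo g B C) (x : Hc F C) :
    Hc.map F (g ∘ f) (hg.comp hf) (hBC.comp hAB) x = Hc.map F f hf hAB (Hc.map F g hg hBC x) := by
  obtain ⟨φ, hφ, rfl⟩ := Hc.mk_surj x
  rw [Hc.map_mk, Hc.map_mk, Hc.map_mk]
  congr 1
  exact pull_comp f g φ

/-! ### parity -/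

theorem ev_mem_Zc {A : Set X} {φ : List X → F} (h : φ ∈ Zc F A) : ev φ ∈ Zc F A := by
  refine ⟨ev_mem_Sp h.1, ?_⟩
  simp only [SetLike.mem_coe, Submodule.mem_comap, d_ev]
  exact Submodule.neg_mem _ (ev_mem_LZ h.2)

theorem ev_mem_Bc {A : Set X} {φ : List X → F} (h : φ ∈ Bc F A) : ev φ ∈ Bc F A := by
  rw [mem_Bc] at h ⊢
  obtain ⟨ψ, hψ, h⟩ := h
  refine ⟨-ev ψ, Submodule.neg_mem _ (ev_mem_Sp hψ), ?_⟩
  rw [map_neg, d_ev, neg_neg, ← map_sub]
  exact ev_mem_LZ h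

variable (F) in
/-- parity involution `(-1)^degree` -/
def Hc.ev (A : Set X) : Hc F A →ₗ[F] Hc F A :=
  Hc.lift AS58.ev (fun _ h => ev_mem_Zc h) (fun _ h => ev_mem_Bc h)

@[simp] theorem Hc.ev_mk {A : Set X} (φ : List X → F) (h : φ ∈ Zc F A) :
    Hc.ev F A (Hc.mk φ h) = Hc.mk (AS58.ev φ) (ev_mem_Zc h) := rfl

theorem Hc.ev_ev {A : Set X} (x : Hc F A) : Hc.ev F A (Hc.ev F A x) = x := by
  obtain ⟨φ, hφ, rfl⟩ := Hc.mk_surj x
  rw [Hc.ev_mk, Hc.ev_mk]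
  congr 1
  exact AS58.ev_ev φ

theorem Hc.ev_map {f : X → Y} (hf : Continuous f) {A : Set X} {B : Set Y} (hAB : MapsTo f A B)
    (x : Hc F B) : Hc.ev F A (Hc.map F f hf hAB x) = Hc.map F f hf hAB (Hc.ev F B x) := by
  obtain ⟨φ, hφ, rfl⟩ := Hc.mk_surj x
  rw [Hc.map_mk, Hc.ev_mk, Hc.ev_mk, Hc.map_mk]
  congr 1
  exact ev_pull f φ

/-! ### contiguous maps -/

/-- Two (possibly discontinuous) functions which are close to each other pull a cocycle back to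
cohomologous cochains. -/
theorem contig {f g : X → Y} {A : Set X} {N : Set Y} {W : Set (Y × Y)} {φ : List Y → F}
    {W' : Set (X × X)} (hW' : W' ∈ 𝓝ˢ (diagonal X))
    (hs : ∀ x y, (x, y) ∈ W' → (f x, f y) ∈ W ∧ (f x, g y) ∈ W ∧ (g x, f y) ∈ W ∧ (g x, g y) ∈ W)
    {N' : Set X} (hN' : N' ∈ 𝓝ˢ A) (hn : ∀ x ∈ N', f x ∈ N ∧ g x ∈ N)
    (h1 : ∀ l, Inn N l → Sm W l → φ l = 0) (h2 : ∀ l, Sm W l → d φ l = 0) :
    pr f g φ ∈ Sp F A ∧ pull g φ - pull f φ - d (pr f g φ) ∈ LZ F X := by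
  have hsm : ∀ l, Sm W' l → Sm W (l.map f ++ l.map g) := by
    intro l hl a ha b hb
    rw [List.mem_append, List.mem_map, List.mem_map] at ha hb
    rcases ha with ⟨x, hx, rfl⟩ | ⟨x, hx, rfl⟩ <;> rcases hb with ⟨y, hy, rfl⟩ | ⟨y, hy, rfl⟩
    · exact (hs x y (hl x hx y hy)).1
    · exact (hs x y (hl x hx y hy)).2.1
    · exact (hs x y (hl x hx y hy)).2.2.1
    · exact (hs x y (hl x hx y hy)).2.2.2
  have hin : ∀ l, Inn N' l → Inn N (l.map f ++ l.map g) := by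
    intro l hl a ha
    rw [List.mem_append, List.mem_map, List.mem_map] at ha
    rcases ha with ⟨x, hx, rfl⟩ | ⟨x, hx, rfl⟩
    · exact (hn x (hl x hx)).1
    · exact (hn x (hl x hx)).2
  refine ⟨⟨N', hN', W', hW', fun l hl hl' => ?_⟩, W', hW', fun l hl => ?_⟩
  · exact pr_eq_zero fun m hm => h1 m ((hin l hl).sub hm) ((hsm l hl').sub hm)
  · have e := congrFun (prism f g φ) l
    simp only [Pi.sub_apply, Pi.add_apply] at e ⊢
    rw [e, pr_eq_zero (f := f) (g := g) (φ := d φ) (l := l)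
      fun m hm => h2 m ((hsm l hl).sub hm)]
    ring

end defs

/-! ### homotopy invariance -/

section homotopy

variable {F : Type} [CommRing F] {X Y : Type} [TopologicalSpace X] [TopologicalSpace Y]
  [CompactSpace X] [T2Space X]

open unitInterval in
theorem Hc.map_homotopy {A : Set X} {B : Set Y} (H : X × I → Y) (hH : Continuous H)
    (hAB : ∀ t, MapsTo (fun x => H (x, t)) A B) (hc : ∀ t, Continuous fun x => H (x, t))
    (s t : I) (x : Hc F B) :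
    Hc.map F (fun x => H (x, s)) (hc s) (hAB s) x = Hc.map F (fun x => H (x, t)) (hc t) (hAB t) x := by
  let _ : UniformSpace X := uniformSpaceOfCompactR1
  obtain ⟨φ, hφ, rfl⟩ := Hc.mk_surj x
  obtain ⟨⟨N, hN, W1, hW1, h1⟩, W2, hW2, h2⟩ := hφ
  set W := W1 ∩ W2 with hWdef
  have hW : W ∈ 𝓝ˢ (diagonal Y) := inter_mem hW1 hW2
  -- the neighbourhood of A
  have hN' : {x | ∀ t, H (x, t) ∈ N} ∈ 𝓝ˢ A := by
    rw [mem_nhdsSet_iff_forall]
    intro a ha
    have h3 := isCompact_univ.eventually_forall_of_forall_eventually (x₀ := a)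
      (K := (univ : Set I)) (P := fun x t => H (x, t) ∈ N) (fun t ht => by
        have hc : ContinuousAt (fun p : X × I => H p) (a, t) := by fun_prop
        exact hc (mem_nhdsSet_iff_forall.1 hN _ (hAB t ha)))
    filter_upwards [h3] with x hx t
    exact hx t trivial
  -- the entourage
  have hE : (Prod.map H H) ⁻¹' W ∈ uniformity (X × I) := by
    rw [← nhdsSet_diagonal_eq_uniformity]
    exact preimage_diag hH hW
  rw [uniformity_prod_eq_comap_prod, mem_comap] at hE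
  obtain ⟨T, hT, hTE⟩ := hE
  rw [mem_prod_iff] at hT
  obtain ⟨E1, hE1, E2, hE2, hE12⟩ := hT
  have hE1' : E1 ∈ 𝓝ˢ (diagonal X) := by rw [nhdsSet_diagonal_eq_uniformity]; exact hE1
  have key : ∀ x y : X, (x, y) ∈ E1 → ∀ s t : I, (s, t) ∈ E2 → (H (x, s), H (y, t)) ∈ W := by
    intro x y hxy s t hst
    have : ((x, s), (y, t)) ∈ (fun p : (X × I) × X × I => ((p.1.1, p.2.1), p.1.2, p.2.2)) ⁻¹' T :=
      hE12 ⟨hxy, hst⟩
    exact hTE this
  obtain ⟨E3, hE3, hsym, h33⟩ := symm_of_uniformity hE2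
  have hZ : φ ∈ Zc F B := ⟨⟨N, hN, W1, hW1, h1⟩, W2, hW2, h2⟩
  have hloc : ∀ s t : I, (s, t) ∈ E3 →
      Hc.map F (fun x => H (x, s)) (hc s) (hAB s) (Hc.mk φ hZ) =
      Hc.map F (fun x => H (x, t)) (hc t) (hAB t) (Hc.mk φ hZ) := by
    intro s t hst
    rw [Hc.map_mk, Hc.map_mk, Hc.mk_eq_mk, mem_Bc]
    have h4 := contig (F := F) (f := fun x => H (x, t)) (g := fun x => H (x, s)) (A := A) (N := N)
      (W := W) (φ := φ) hE1' (fun x y hxy =>
        ⟨key x y hxy t t (refl_mem_uniformity hE2), key x y hxy t s (h33 (hsym.symm _ _ hst)),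
          key x y hxy s t (h33 hst), key x y hxy s s (refl_mem_uniformity hE2)⟩) hN'
      (fun x hx => ⟨hx t, hx s⟩) (fun l hl hl' => h1 l hl (hl'.mono inter_subset_left))
      (fun l hl => h2 l (hl.mono inter_subset_right))
    exact ⟨_, h4.1, h4.2⟩
  have hlc : IsLocallyConstant
      (fun s => Hc.map F (fun x => H (x, s)) (hc s) (hAB s) (Hc.mk φ hZ)) := by
    rw [IsLocallyConstant.iff_eventually_eq]
    intro t
    have : {s | (s, t) ∈ E3} ∈ 𝓝 t := mem_nhds_right t hE3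
    filter_upwards [this] with s hs
    exact hloc s t hs
  exact hlc.apply_eq_of_preconnectedSpace s t

end homotopy

end Crest.Agent.R090.AS58
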