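import Crest.Agent.R090.Sp_962

/-!
# Row 90, T1: pointed homotopies (owner helper962)
-/

set_option autoImplicit false

open Topology Filter Set

namespace Crest.Agent.R090.Sp962

open OnePoint
open scoped unitInterval

universe u v w x

namespace PMap

variable {U : Type u} {V : Type v} {W : Type w} {X : Type x}
variable [TopologicalSpace U] [TopologicalSpace V] [TopologicalSpace W] [TopologicalSpace X]

/-- pointed homotopy -/
def Homotopic (f g : PMap U V) : Prop := ContinuousMap.HomotopicRel f.toC g.toC {∞}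

/-- constructor: a homotopy on `I × OnePoint U` -/
theorem Homotopic.of {f g : PMap U V} (H : I × OnePoint U → OnePoint V) (hH : Continuous H)
    (h0 : ∀ x : U, H (0, x) = f x) (h1 : ∀ x : U, H (1, x) = g x) (hi : ∀ t, H (t, ∞) = ∞) :
    f.Homotopic g := by
  have e0 : ∀ x, H (0, x) = f.toC x := by
    intro x
    induction x using OnePoint.rec with
    | infty => rw [hi]; exact f.map_inf.symm
    | coe x => exact h0 x
  have e1 : ∀ x, H (1, x) = g.toC x := by
    intro x
    induction x using OnePoint.rec with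
    | infty => rw [hi]; exact g.map_inf.symm
    | coe x => exact h1 x
  refine ⟨⟨⟨⟨H, hH⟩, e0, e1⟩, ?_⟩⟩
  intro t x hx
  rw [mem_singleton_iff] at hx
  subst hx
  change H (t, ∞) = f ∞
  rw [hi, f.map_inf]

/-- destructor -/
theorem Homotopic.exists {f g : PMap U V} (h : f.Homotopic g) :
    ∃ H : I × OnePoint U → OnePoint V, Continuous H ∧ (∀ x, H (0, x) = f x) ∧
      (∀ x, H (1, x) = g x) ∧ ∀ t, H (t, ∞) = ∞ := by
  obtain ⟨F⟩ := h
  refine ⟨fun p => F p, F.continuous, fun x => F.apply_zero x, fun x => F.apply_one x,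
    fun t => ?_⟩
  have := F.eq_fst t (mem_singleton (∞ : OnePoint U))
  exact this.trans f.map_inf

@[refl] theorem Homotopic.refl (f : PMap U V) : f.Homotopic f := ContinuousMap.HomotopicRel.refl _

@[symm] theorem Homotopic.symm {f g : PMap U V} (h : f.Homotopic g) : g.Homotopic f :=
  ContinuousMap.HomotopicRel.symm h

@[trans] theorem Homotopic.trans {f g h : PMap U V} (h₁ : f.Homotopic g) (h₂ : g.Homotopic h) :
    f.Homotopic h := ContinuousMap.HomotopicRel.trans h₁ h₂

theorem Homotopic.of_eq {f g : PMap U V} (h : f = g) : f.Homotopic g := h ▸ Homotopic.refl f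

theorem homotopic_equivalence : Equivalence (Homotopic (U := U) (V := V)) :=
  ⟨Homotopic.refl, Homotopic.symm, Homotopic.trans⟩

theorem Homotopic.comp {f f' : PMap U V} {g g' : PMap V W} (hg : g.Homotopic g')
    (hf : f.Homotopic f') : (g.comp f).Homotopic (g'.comp f') := by
  obtain ⟨F, hF, F0, F1, Fi⟩ := hf.exists
  obtain ⟨G, hG, G0, G1, Gi⟩ := hg.exists
  refine Homotopic.of (fun p => G (p.1, F p)) (hG.comp (continuous_fst.prodMk hF)) ?_ ?_ ?_
  · intro x
    change G (0, F (0, x)) = g (f x)
    rw [F0, G0]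
  · intro x
    change G (1, F (1, x)) = g' (f' x)
    rw [F1, G1]
  · intro t
    change G (t, F (t, ∞)) = ∞
    rw [Fi, Gi]

theorem Homotopic.comp_left {f f' : PMap U V} (g : PMap V W) (hf : f.Homotopic f') :
    (g.comp f).Homotopic (g.comp f') := (Homotopic.refl g).comp hf

theorem Homotopic.comp_right {g g' : PMap V W} (hg : g.Homotopic g') (f : PMap U V) :
    (g.comp f).Homotopic (g'.comp f) := hg.comp (Homotopic.refl f)

/-- null homotopic -/
def Null (f : PMap U V) : Prop := f.Homotopic (zero U V)

theorem Null.comp_left {f : PMap U V} (hf : f.Null) (g : PMap V W) : (g.comp f).Null :=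
  (Homotopic.comp_left g hf).trans (.of_eq (PMap.ext fun x => by simp))

theorem Null.comp_right {g : PMap V W} (hg : g.Null) (f : PMap U V) : (g.comp f).Null :=
  (Homotopic.comp_right hg f).trans (.of_eq (PMap.ext fun x => by simp))

section smash

variable {U' : Type*} {V' : Type*}
  [TopologicalSpace U'] [TopologicalSpace V']
  [T2Space U] [LocallyCompactSpace U] [T2Space V]
  [T2Space U'] [LocallyCompactSpace U'] [T2Space V']

theorem Homotopic.smash {f f' : PMap U V} {g g' : PMap U' V'} (hf : f.Homotopic f')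
    (hg : g.Homotopic g') : (f.smash g).Homotopic (f'.smash g') := by
  obtain ⟨F, hF, F0, F1, Fi⟩ := hf.exists
  obtain ⟨G, hG, G0, G1, Gi⟩ := hg.exists
  refine Homotopic.of (fun p => p.2.elim ∞ fun q => sm (F (p.1, q.1)) (G (p.1, q.2))) ?_ ?_ ?_ ?_
  · refine continuous_of_sm' ?_
    have : (fun p : I × (OnePoint U × OnePoint U') =>
        (sm p.2.1 p.2.2).elim ∞ fun q => sm (F (p.1, q.1)) (G (p.1, q.2))) =
        fun p => sm (F (p.1, p.2.1)) (G (p.1, p.2.2)) := by
      funext p
      obtain ⟨t, a, b⟩ := p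
      induction a using OnePoint.rec with
      | infty => simp [Fi]
      | coe a =>
        induction b using OnePoint.rec with
        | infty => simp [Gi]
        | coe b => rfl
    change Continuous (fun p : I × (OnePoint U × OnePoint U') =>
        (sm p.2.1 p.2.2).elim ∞ fun q => sm (F (p.1, q.1)) (G (p.1, q.2)))
    rw [this]
    exact (hF.comp (by fun_prop)).sm962 (hG.comp (by fun_prop))
  · rintro ⟨a, b⟩
    change sm (F (0, a)) (G (0, b)) = sm (f a) (g b)
    rw [F0, G0]
  · rintro ⟨a, b⟩
    change sm (F (1, a)) (G (1, b)) = sm (f' a) (g' b)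
    rw [F1, G1]
  · intro t; rfl

theorem Null.smash_left {f : PMap U V} (hf : f.Null) (g : PMap U' V') : (f.smash g).Null :=
  (Homotopic.smash hf (Homotopic.refl g)).trans (.of_eq (smash_zero_left g))

theorem Null.smash_right (f : PMap U V) {g : PMap U' V'} (hg : g.Null) : (f.smash g).Null :=
  (Homotopic.smash (Homotopic.refl f) hg).trans (.of_eq (smash_zero_right f))

end smash

end PMap

/-- pointed homotopy classes -/
def HC (U : Type u) (V : Type v) [TopologicalSpace U] [TopologicalSpace V] : Type (max u v) :=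
  Quot (PMap.Homotopic (U := U) (V := V))

namespace HC

variable {U : Type u} {V : Type v} {W : Type w} {X : Type x}
variable [TopologicalSpace U] [TopologicalSpace V] [TopologicalSpace W] [TopologicalSpace X]

/-- the class of a map -/
def mk (f : PMap U V) : HC U V := Quot.mk _ f

theorem mk_surj (a : HC U V) : ∃ f, mk f = a := Quot.exists_rep a

theorem mk_eq {f g : PMap U V} : mk f = mk g ↔ f.Homotopic g :=
  Equivalence.quot_mk_eq_iff PMap.homotopic_equivalence f g

theorem sound {f g : PMap U V} (h : f.Homotopic g) : mk f = mk g := Quot.sound h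

/-- composition of classes -/
def comp (b : HC V W) (a : HC U V) : HC U W :=
  Quot.map₂ PMap.comp (fun _ _ _ h => h.comp_left _) (fun _ _ _ h => h.comp_right _) b a

@[simp] theorem comp_mk (g : PMap V W) (f : PMap U V) : comp (mk g) (mk f) = mk (g.comp f) := rfl

theorem comp_assoc (c : HC W X) (b : HC V W) (a : HC U V) :
    (c.comp b).comp a = c.comp (b.comp a) := by
  obtain ⟨a, rfl⟩ := mk_surj a
  obtain ⟨b, rfl⟩ := mk_surj b
  obtain ⟨c, rfl⟩ := mk_surj c
  rfl

@[simp] theorem comp_id (a : HC U V) : a.comp (mk (PMap.id U)) = a := by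
  obtain ⟨a, rfl⟩ := mk_surj a
  rfl

@[simp] theorem id_comp (a : HC U V) : (mk (PMap.id V)).comp a = a := by
  obtain ⟨a, rfl⟩ := mk_surj a
  rfl

section smash

variable {U' : Type*} {V' : Type*} {W' : Type*}
  [TopologicalSpace U'] [TopologicalSpace V'] [TopologicalSpace W']
  [T2Space U] [LocallyCompactSpace U] [T2Space V] [T2Space W]
  [T2Space U'] [LocallyCompactSpace U'] [T2Space V'] [T2Space W']

/-- smash product of classes -/
def smash (a : HC U V) (b : HC U' V') : HC (U × U') (V × V') :=
  Quot.map₂ PMap.smash (fun _ _ _ h => (PMap.Homotopic.refl _).smash h)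
    (fun _ _ _ h => h.smash (PMap.Homotopic.refl _)) a b

@[simp] theorem smash_mk (f : PMap U V) (g : PMap U' V') :
    smash (mk f) (mk g) = mk (f.smash g) := rfl

theorem smash_comp [LocallyCompactSpace V] [LocallyCompactSpace V'] (a : HC U V) (b : HC U' V')
    (a' : HC V W) (b' : HC V' W') :
    (a'.smash b').comp (a.smash b) = (a'.comp a).smash (b'.comp b) := by
  obtain ⟨a, rfl⟩ := mk_surj a
  obtain ⟨b, rfl⟩ := mk_surj b
  obtain ⟨a', rfl⟩ := mk_surj a'
  obtain ⟨b', rfl⟩ := mk_surj b'
  simp only [smash_mk, comp_mk, PMap.smash_comp]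

@[simp] theorem smash_id : (mk (PMap.id U)).smash (mk (PMap.id U')) = mk (PMap.id (U × U')) := by
  simp

end smash

end HC

end Crest.Agent.R090.Sp962
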