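import Crest.Agent.R090.AS2_58
import Crest.Agent.R090.Ho_962

/-!
# Row 90, block HOM (helper58): `hU F U = Hc F {∞}` on the pointed spaces `OnePoint U` of Sp_962

The first half of the fields of 253's `Coh`: `hmap`, `hmap_id`, `hmap_comp`, `hmap_zero`, `heps`,
`heps_heps`, `heps_hmap`, and homotopy invariance `hmap_eq`.
-/

set_option autoImplicit false

open Filter Topology Set Crest.Agent.R090.Sp962

namespace Crest.Agent.R090.AS58

open OnePoint

variable (F : Type) [CommRing F]

/-- Alexander-Spanier cohomology with compact supports of `U` -/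
abbrev hU (U : Type) [TopologicalSpace U] : Type := Hc F ({(∞ : OnePoint U)} : Set (OnePoint U))

variable {U V W : Type} [TopologicalSpace U] [TopologicalSpace V] [TopologicalSpace W]

theorem pm_maps (f : PMap U V) : MapsTo f ({(∞ : OnePoint U)} : Set (OnePoint U)) {∞} := by
  intro x hx
  rw [mem_singleton_iff] at hx ⊢
  rw [hx, f.map_inf]

/-- functoriality on pointed maps -/
def hmap (f : PMap U V) : hU F V →ₗ[F] hU F U := Hc.map F f f.cont (pm_maps f)

theorem hmap_mk (f : PMap U V) (φ : List (OnePoint V) → F) (h : φ ∈ Zc F {(∞ : OnePoint V)}) :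
    hmap F f (Hc.mk φ h) = Hc.mk (pull f φ) (pull_mem_Zc f.cont (pm_maps f) h) := rfl

theorem hmap_id (U : Type) [TopologicalSpace U] (x : hU F U) : hmap F (PMap.id U) x = x :=
  Hc.map_id _ x

theorem hmap_comp (g : PMap V W) (f : PMap U V) (x : hU F W) :
    hmap F (g.comp f) x = hmap F f (hmap F g x) := Hc.map_comp f.cont g.cont _ _ x

theorem hmap_zero (x : hU F V) : hmap F (PMap.zero U V) x = 0 := by
  obtain ⟨φ, hφ, rfl⟩ := Hc.mk_surj x
  rw [hmap_mk, Hc.mk_eq_zero]
  have : pull (PMap.zero U V) φ = 0 := by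
    funext l
    obtain ⟨N, hN, h⟩ := mem_Sp_singleton.1 hφ.1
    rw [pull_apply, h]
    · rfl
    · intro x hx
      obtain ⟨y, _, rfl⟩ := List.mem_map.1 hx
      exact mem_of_mem_nhds hN
  rw [this]
  exact Submodule.zero_mem _

/-- parity -/
def heps (U : Type) [TopologicalSpace U] : hU F U →ₗ[F] hU F U := Hc.ev F _

theorem heps_heps (U : Type) [TopologicalSpace U] (x : hU F U) : heps F U (heps F U x) = x :=
  Hc.ev_ev x

theorem heps_hmap (f : PMap U V) (x : hU F V) :
    heps F U (hmap F f x) = hmap F f (heps F V x) := Hc.ev_map _ _ x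

variable {F}

/-- homotopy invariance -/
theorem hmap_eq [T2Space U] [LocallyCompactSpace U] {f g : PMap U V} (h : f.Homotopic g)
    (x : hU F V) : hmap F f x = hmap F g x := by
  obtain ⟨H, hH, h0, h1, hi⟩ := h.exists
  have hc : ∀ t : unitInterval, Continuous fun x : OnePoint U => H (t, x) := fun t =>
    hH.comp (by fun_prop)
  have hm : ∀ t : unitInterval, MapsTo (fun x : OnePoint U => H (t, x))
      ({(∞ : OnePoint U)} : Set (OnePoint U)) ({(∞ : OnePoint V)} : Set (OnePoint V)) := by
    intro t x hx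
    rw [mem_singleton_iff] at hx ⊢
    rw [hx]; exact hi t
  obtain ⟨φ, hφ, rfl⟩ := Hc.mk_surj x
  have key : pull (fun x => H (0, x)) φ - pull (fun x => H (1, x)) φ ∈
      Bc F ({(∞ : OnePoint U)} : Set (OnePoint U)) :=
    Hc.mk_eq_mk.1 (Hc.map_homotopy (F := F) (fun p : OnePoint U × unitInterval => H (p.2, p.1))
      (hH.comp (by fun_prop)) hm hc 0 1 (Hc.mk φ hφ))
  have e0 : (fun x => H (0, x)) = f := funext h0
  have e1 : (fun x => H (1, x)) = g := funext h1
  rw [e0, e1] at key
  rw [hmap_mk, hmap_mk, Hc.mk_eq_mk]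
  exact key

end Crest.Agent.R090.AS58
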