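import Crest.Agent.R090.AS2_58

/-!
# Row 90, block HOM (helper58): the Koszul swap on cochains

`rc_of_even`, `rc_of_odd`: the signed opposite product for homogeneous cochains;
`c1_comm`: `cr φ ψ - rc φ ψ` is a coboundary up to terms in `dφ`, `dψ`.
-/

set_option autoImplicit false

open Filter Topology Set

namespace Crest.Agent.R090.AS58

variable {F : Type} [CommRing F] {X Y : Type}

theorem rc_of_even (l : List (X × Y)) : ∀ (φ : List X → F) (ψ : List Y → F), ev φ = φ →
    rc φ ψ l = cr ψ φ (l.map Prod.swap) := by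
  induction l with
  | nil => intro φ ψ _; rfl
  | cons z l ih =>
    intro φ ψ h
    obtain ⟨x, y⟩ := z
    rw [rc_cons, List.map_cons, cr_cons, h, ih φ _ h]
    simp only [Prod.swap_prod_mk, List.map_map]
    rfl

theorem rc_of_odd (l : List (X × Y)) : ∀ (φ : List X → F) (ψ : List Y → F), ev φ = -φ →
    rc φ ψ l = cr (ev ψ) φ (l.map Prod.swap) := by
  induction l with
  | nil => intro φ ψ _; rfl
  | cons z l ih =>
    intro φ ψ h
    obtain ⟨x, y⟩ := z
    rw [rc_cons, List.map_cons, cr_cons, h, rc_neg_left, ih φ _ h]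
    simp only [Prod.swap_prod_mk, List.map_map, cs_ev, cr_neg_left, Pi.neg_apply]
    have : ev ψ [y] = ψ [y] := by simp [ev_apply]
    rw [this]
    rfl

/-- the even part of a cochain is even -/
theorem ev_half_add (φ : List X → F) : ev (φ + ev φ) = φ + ev φ := by
  rw [map_add, ev_ev, add_comm]

theorem ev_half_sub (φ : List X → F) : ev (φ - ev φ) = -(φ - ev φ) := by
  rw [map_sub, ev_ev, neg_sub]

/-- value of the homotopy on a list on which `dφ` and `dψ` vanish -/
theorem c1_comm {l : List (X × Y)} {φ : List X → F} {ψ : List Y → F}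
    (h1 : ∀ m : List X, m ⊆ l.map Prod.fst → d φ m = 0)
    (h2 : ∀ m : List Y, m ⊆ l.map Prod.snd → d ψ m = 0) :
    cr φ ψ l - rc φ ψ l = d (c1 φ ψ) l := by
  have e := c1_homotopy_apply l φ ψ
  have e1 : c1 (d φ) ψ l = 0 := by
    rw [c1_congr l (d φ) 0 ψ ψ (fun m hm => by rw [h1 m hm]; rfl) (fun _ _ => rfl)]
    have := c1_smul_left l (0 : F) (0 : List X → F) ψ
    simpa using this
  have e2 : c1 (ev φ) (d ψ) l = 0 := by
    rw [c1_congr l (ev φ) (ev φ) (d ψ) 0 (fun _ _ => rfl) (fun m hm => by rw [h2 m hm]; rfl)]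
    have key : ∀ (l : List (X × Y)) (φ : List X → F), c1 φ (0 : List Y → F) l = 0 := by
      intro l
      induction l with
      | nil => intro φ; rfl
      | cons z l ih =>
        intro φ
        rw [c1_cons, ih, map_zero]
        have := rc_smul_right l (0 : F) (ev (cs z.1 φ)) (0 : List Y → F)
        rw [zero_smul, zero_mul] at this
        rw [this]; ring
    exact key l _
  rw [← e, e1, e2]; ring

/-- Leibniz rule on a list on which `dφ` and `dψ` vanish -/
theorem cr_cocycle {l : List (X × Y)} {φ : List X → F} {ψ : List Y → F} (h0 : φ [] = 0)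
    (h0' : ψ [] = 0) (h1 : ∀ m : List X, m ⊆ l.map Prod.fst → d φ m = 0)
    (h2 : ∀ m : List Y, m ⊆ l.map Prod.snd → d ψ m = 0) : d (cr φ ψ) l = 0 := by
  rw [cr_leibniz h0 h0', Pi.add_apply,
    cr_congr l (d φ) 0 ψ ψ (fun m hm => by rw [h1 m hm]; rfl) (fun _ _ => rfl),
    cr_congr l (ev φ) (ev φ) (d ψ) 0 (fun _ _ => rfl) (fun m hm => by rw [h2 m hm]; rfl),
    cr_zero_left, cr_zero_right]
  simp

end Crest.Agent.R090.AS58
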