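import Mathlib

/-!
# Row 90, HOM/AS5 (helper314), point set part

`p : X → Y` the orbit map of a finite group acting on a compact Hausdorff space `X`, free off a
fixed base point `b`.

* `exists_lift_nhds`: small tuples of `Y` lift to small tuples of `X`;
* `exists_uniq_nhds`: two small lifts of one tuple differ by ONE group element, or both are
  contained in a prescribed neighbourhood of the base point.
-/

set_option autoImplicit false

open Topology Filter Set

namespace Crest.Agent.R090.AS5Top314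

variable {X Y : Type*} [TopologicalSpace X] [TopologicalSpace Y]

/-- Lebesgue number for sets which are small in the sense of a neighbourhood of the diagonal. -/
theorem exists_lebesgue [CompactSpace Y] [T2Space Y] {ι : Type*} {U : ι → Set Y}
    (hU : ∀ i, IsOpen (U i)) (hc : ∀ y, ∃ i, y ∈ U i) :
    ∃ V ∈ 𝓝ˢ (diagonal Y), ∀ y : Y, ∃ i, ∀ z, (y, z) ∈ V → z ∈ U i := by
  let _ : UniformSpace Y := uniformSpaceOfCompactR1
  obtain ⟨V, hV, h⟩ := lebesgue_number_lemma (K := univ) isCompact_univ hU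
    (fun y _ => mem_iUnion.2 (hc y))
  refine ⟨V, ?_, fun y => ?_⟩
  · rw [nhdsSet_diagonal_eq_uniformity]; exact hV
  · obtain ⟨i, hi⟩ := h y (mem_univ y)
    exact ⟨i, fun z hz => hi hz⟩

/-- small tuples lift along an open surjection of compact spaces -/
theorem exists_lift_nhds [CompactSpace Y] [T2Space Y] {p : X → Y}
    (ho : IsOpenMap p) (hs : Function.Surjective p) {W : Set (X × X)}
    (hW : W ∈ 𝓝ˢ (diagonal X)) :
    ∃ V ∈ 𝓝ˢ (diagonal Y), ∀ {ι : Type} (t : ι → Y), (∀ i j, (t i, t j) ∈ V) →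
      ∃ s : ι → X, (∀ i j, (s i, s j) ∈ W) ∧ ∀ i, p (s i) = t i := by
  have h1 : ∀ x : X, ∃ A : Set X, IsOpen A ∧ x ∈ A ∧ A ×ˢ A ⊆ W := by
    intro x
    have : W ∈ 𝓝 (x, x) := (mem_nhdsSet_iff_forall.1 hW) (x, x) (mem_diagonal x)
    rw [nhds_prod_eq] at this
    obtain ⟨B, hB, C, hC, hBC⟩ := Filter.mem_prod_iff.1 this
    obtain ⟨A, hA, hAo, hxA⟩ := mem_nhds_iff.1 (inter_mem hB hC)
    exact ⟨A, hAo, hxA, fun q hq => hBC ⟨(hA hq.1).1, (hA hq.2).2⟩⟩
  choose A hAo hxA hAW using h1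
  obtain ⟨V, hV, h⟩ := exists_lebesgue (U := fun x : X => p '' A x) (fun x => ho _ (hAo x))
    (fun y => by obtain ⟨x, rfl⟩ := hs y; exact ⟨x, mem_image_of_mem p (hxA x)⟩)
  refine ⟨V, hV, fun {ι} t ht => ?_⟩
  rcases isEmpty_or_nonempty ι with hι | ⟨⟨i0⟩⟩
  · exact ⟨fun i => (IsEmpty.false i).elim, fun i => (IsEmpty.false i).elim,
      fun i => (IsEmpty.false i).elim⟩
  · obtain ⟨x, hx⟩ := h (t i0)
    have h2 : ∀ i, ∃ a ∈ A x, p a = t i := fun i => hx _ (ht i0 i)
    choose s hs1 hs2 using h2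
    exact ⟨s, fun i j => hAW x ⟨hs1 i, hs1 j⟩, hs2⟩

section group

variable {G : Type*} [Group G] [Finite G] [MulAction G X] [ContinuousConstSMul G X]

/-- `W` can be made `G`-invariant -/
theorem exists_inv_diag {W : Set (X × X)} (hW : W ∈ 𝓝ˢ (diagonal X)) :
    ∃ V ∈ 𝓝ˢ (diagonal X), V ⊆ W ∧ ∀ (g : G) (x y : X), (x, y) ∈ V → (g • x, g • y) ∈ V := by
  refine ⟨⋂ g : G, (fun q : X × X => (g • q.1, g • q.2)) ⁻¹' W, ?_, ?_, ?_⟩
  · rw [Filter.iInter_mem]
    intro g
    have hc : Continuous (fun q : X × X => (g • q.1, g • q.2)) := by fun_prop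
    rw [mem_nhdsSet_iff_forall]
    rintro ⟨x, y⟩ (rfl : x = y)
    exact hc.continuousAt.preimage_mem_nhds ((mem_nhdsSet_iff_forall.1 hW) (g • x, g • x) rfl)
  · intro q hq
    have := mem_iInter.1 hq 1
    simpa using this
  · intro g x y h
    refine mem_iInter.2 fun g' => ?_
    have := mem_iInter.1 h (g' * g)
    simpa [mul_smul] using this

/-- neighbourhoods of the base point can be made `G`-invariant -/
theorem exists_inv_nhds {b : X} (hb : ∀ g : G, g • b = b) {N : Set X} (hN : N ∈ 𝓝 b) :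
    ∃ N' ∈ 𝓝 b, N' ⊆ N ∧ ∀ (g : G) (x : X), x ∈ N' → g • x ∈ N' := by
  refine ⟨⋂ g : G, (fun x : X => g • x) ⁻¹' N, ?_, ?_, ?_⟩
  · rw [Filter.iInter_mem]
    intro g
    have hc : Continuous (fun x : X => g • x) := continuous_const_smul g
    exact hc.continuousAt.preimage_mem_nhds (by rw [hb g]; exact hN)
  · intro q hq
    have := mem_iInter.1 hq 1
    simpa using this
  · intro g x h
    refine mem_iInter.2 fun g' => ?_
    have := mem_iInter.1 h (g' * g)
    simpa [mul_smul] using this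

variable [CompactSpace X] [T2Space X]

/-- a small tuple which meets a small neighbourhood of `b` is contained in a given one -/
theorem exists_near (b : X) {N : Set X} (hN : N ∈ 𝓝 b) :
    ∃ N' ∈ 𝓝 b, ∃ W ∈ 𝓝ˢ (diagonal X), ∀ x y, x ∈ N' → (x, y) ∈ W → y ∈ N := by
  let _ : UniformSpace X := uniformSpaceOfCompactR1
  obtain ⟨U, hU, hUN⟩ := UniformSpace.mem_nhds_iff.1 hN
  obtain ⟨V, hV, hVs, hVU⟩ := comp_symm_mem_uniformity_sets hU
  refine ⟨UniformSpace.ball b V, UniformSpace.ball_mem_nhds b hV, V, ?_, fun x y hx hy => ?_⟩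
  · rw [nhdsSet_diagonal_eq_uniformity]; exact hV
  · exact hUN (hVU ⟨x, hx, hy⟩)

/-- off a neighbourhood of the base point `x` and `g • x` are not close -/
theorem exists_sep {b : X} (hf : ∀ (g : G) (x : X), g • x = x → g = 1 ∨ x = b)
    {N : Set X} (hN : N ∈ 𝓝 b) :
    ∃ W ∈ 𝓝ˢ (diagonal X), ∀ (g : G) (x y : X), g ≠ 1 → (x, y) ∈ W → (x, g • y) ∈ W →
      y ∈ N := by
  let _ : UniformSpace X := uniformSpaceOfCompactR1
  -- for every `g ≠ 1` an entourage `V g` with `(y, g y) ∉ V g` for `y ∉ interior N`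
  have h1 : ∀ g : G, ∃ V ∈ uniformity X, g ≠ 1 → ∀ y, (y, g • y) ∈ V → y ∈ N := by
    intro g
    by_cases hg : g = 1
    · exact ⟨univ, univ_mem, fun h => (h hg).elim⟩
    · -- the open set `{(y, z) | z ≠ g y or y ∈ interior N}` contains the diagonal
      have ho : IsOpen {q : X × X | q.2 ≠ g • q.1 ∨ q.1 ∈ interior N} := by
        have : IsOpen {q : X × X | q.2 ≠ g • q.1} :=
          isOpen_ne_fun continuous_snd ((continuous_const_smul g).comp continuous_fst)
        exact this.union (isOpen_interior.preimage continuous_fst)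
      have hd : diagonal X ⊆ {q : X × X | q.2 ≠ g • q.1 ∨ q.1 ∈ interior N} := by
        rintro ⟨x, y⟩ (rfl : x = y)
        by_cases h : g • x = x
        · rcases hf g x h with h | h
          · exact (hg h).elim
          · right
            rw [h]
            exact mem_interior_iff_mem_nhds.2 hN
        · left
          exact fun h' => h h'.symm
      refine ⟨{q : X × X | q.2 ≠ g • q.1 ∨ q.1 ∈ interior N}, ?_, fun _ y hy => ?_⟩
      · rw [← nhdsSet_diagonal_eq_uniformity]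
        exact ho.mem_nhdsSet.2 hd
      · rcases hy with hy | hy
        · exact (hy rfl).elim
        · exact interior_subset hy
  choose V hV hVg using h1
  have h2 : (⋂ g : G, V g) ∈ uniformity X := by
    rw [Filter.iInter_mem]; exact hV
  obtain ⟨W, hW, hWs, hWV⟩ := comp_symm_mem_uniformity_sets h2
  refine ⟨W, ?_, fun g x y hg h3 h4 => ?_⟩
  · rw [nhdsSet_diagonal_eq_uniformity]; exact hW
  · refine hVg g hg y ?_
    have : (y, g • y) ∈ ⋂ g : G, V g := hWV ⟨x, hWs.symm _ _ h3, h4⟩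
    exact mem_iInter.1 this g

/-- **uniqueness of small lifts** -/
theorem exists_uniq_nhds {b : X} (hb : ∀ g : G, g • b = b)
    (hf : ∀ (g : G) (x : X), g • x = x → g = 1 ∨ x = b)
    {N : Set X} (hN : N ∈ 𝓝 b) :
    ∃ W ∈ 𝓝ˢ (diagonal X), ∀ {ι : Type} (t s : ι → X), (∀ i j, (t i, t j) ∈ W) →
      (∀ i j, (s i, s j) ∈ W) → (∀ i, ∃ g : G, s i = g • t i) →
      (∃ g : G, ∀ i, s i = g • t i) ∨ ((∀ i, t i ∈ N) ∧ ∀ i, s i ∈ N) := by
  obtain ⟨N1, hN1, W1, hW1, hnear⟩ := exists_near b hN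
  obtain ⟨N2, hN2, hN21, hinv2⟩ := exists_inv_nhds hb hN1
  obtain ⟨W2, hW2, hsep⟩ := exists_sep hf hN2
  obtain ⟨W, hW, hWsub, hinv⟩ := exists_inv_diag (G := G) (inter_mem hW1 hW2)
  refine ⟨W, hW, fun {ι} t s ht hs hts => ?_⟩
  choose h hh using hts
  by_cases hcase : ∃ i, t i ∈ N2
  · right
    obtain ⟨i, hi⟩ := hcase
    have hi' : s i ∈ N2 := by rw [hh i]; exact hinv2 _ _ hi
    exact ⟨fun j => hnear _ _ (hN21 hi) (hWsub (ht i j)).1,
      fun j => hnear _ _ (hN21 hi') (hWsub (hs i j)).1⟩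
  · left
    rcases isEmpty_or_nonempty ι with hι | ⟨⟨i0⟩⟩
    · exact ⟨1, fun i => (IsEmpty.false i).elim⟩
    · refine ⟨h i0, fun i => ?_⟩
      by_contra hne
      have h3 : (h i0)⁻¹ * h i ≠ 1 := by
        intro he
        apply hne
        have : h i = h i0 := by
          rw [inv_mul_eq_one] at he
          exact he.symm
        rw [hh i, this]
      have h4 : (t i0, ((h i0)⁻¹ * h i) • t i) ∈ W := by
        have := hinv (h i0)⁻¹ _ _ (hs i0 i)
        rw [hh i0, hh i] at this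
        simpa [mul_smul] using this
      exact hcase ⟨i, hsep _ _ _ h3 (hWsub (ht i0 i)).2 (hWsub h4).2⟩

end group

end Crest.Agent.R090.AS5Top314
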