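/-
Row 90 (S0119), block (A), algebra of traces (helper673).

* `trace_of_exact`  : traces are additive on short exact sequences with endomorphisms;
* `les_trace`       : Lefschetz numbers are additive in a bounded long exact sequence
                      `A_n → B_n → C_n → A_{n-1}`;
* `alt_trace`       : alternating trace of a bounded exact sequence is 0;
* `trace_coinv`     : trace on coinvariants = average of the traces `g T`;
* `trace_inv`       : the same for invariants.
-/
import Mathlib

set_option autoImplicit false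
set_option linter.unusedSectionVars false

namespace Crest.Agent.R090.TrAlg673

open Module

universe u v w

section ses

variable {K : Type*} [Field K] {V' V V'' : Type*} [AddCommGroup V'] [Module K V']
  [AddCommGroup V] [Module K V] [AddCommGroup V''] [Module K V''] [FiniteDimensional K V]

/-- **Additivity of the trace** on short exact sequences (from R188.Chr1, helper365). -/
theorem trace_of_exact (i : V' →ₗ[K] V) (p : V →ₗ[K] V'') (hi : Function.Injective i)
    (hp : Function.Surjective p) (h : Function.Exact i p) (f' : Module.End K V')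
    (f : Module.End K V) (f'' : Module.End K V'') (h1 : ∀ x, i (f' x) = f (i x))
    (h2 : ∀ x, p (f x) = f'' (p x)) :
    LinearMap.trace K V f = LinearMap.trace K V' f' + LinearMap.trace K V'' f'' := by
  have : FiniteDimensional K V' := FiniteDimensional.of_injective i hi
  have : FiniteDimensional K V'' := Module.Finite.of_surjective p hp
  obtain ⟨s, hs⟩ := LinearMap.exists_rightInverse_of_surjective p (LinearMap.range_eq_top.2 hp)
  have hs' : ∀ y, p (s y) = y := fun y => LinearMap.congr_fun hs y
  -- the retraction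
  have hrange : ∀ x, x - s (p x) ∈ LinearMap.range i := by
    intro x
    have : p (x - s (p x)) = 0 := by rw [map_sub, hs', sub_self]
    exact (h _).1 this
  let e := LinearEquiv.ofInjective i hi
  let q : V →ₗ[K] LinearMap.range i :=
    LinearMap.codRestrict (LinearMap.range i) (LinearMap.id - s ∘ₗ p) (by
      intro x; exact hrange x)
  let r : V →ₗ[K] V' := e.symm.toLinearMap ∘ₗ q
  have hir : ∀ x, i (r x) = x - s (p x) := by
    intro x
    have h3 : e (r x) = q x := e.apply_symm_apply _
    have h4 : (e (r x) : V) = i (r x) := LinearEquiv.ofInjective_apply i (r x)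
    rw [← h4, h3]
    rfl
  have hri : ∀ x, r (i x) = x := by
    intro x
    apply hi
    rw [hir, h.apply_apply_eq_zero, map_zero, sub_zero]
  have h3 : f = (i ∘ₗ (r ∘ₗ f)) + (s ∘ₗ (p ∘ₗ f)) := by
    ext x
    simp only [LinearMap.add_apply, LinearMap.comp_apply]
    rw [hir]; abel
  rw [h3, map_add, LinearMap.trace_comp_comm' , LinearMap.trace_comp_comm' (p ∘ₗ f) s]
  congr 1
  · congr 1
    ext x
    simp only [LinearMap.comp_apply]
    rw [← h1, hri]
  · congr 1
    ext x
    simp only [LinearMap.comp_apply]
    rw [h2, hs']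

end ses

section les

variable {K : Type*} [Field K]

/-- trace of an endomorphism restricted to a (stable) subspace -/
noncomputable def trr {V : Type*} [AddCommGroup V] [Module K V] (f : Module.End K V)
    (S : Submodule K V) : K :=
  open Classical in
  if h : ∀ x ∈ S, f x ∈ S then LinearMap.trace K S (f.restrict h) else 0

theorem trr_eq {V : Type*} [AddCommGroup V] [Module K V] (f : Module.End K V)
    (S : Submodule K V) (h : ∀ x ∈ S, f x ∈ S) :
    trr f S = LinearMap.trace K S (f.restrict h) := by
  rw [trr, dif_pos h]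

theorem trr_bot {V : Type*} [AddCommGroup V] [Module K V] (f : Module.End K V)
    (S : Submodule K V) (h : S = ⊥) : trr f S = 0 := by
  subst h
  rw [trr_eq f ⊥ (by intro x hx; rw [Submodule.mem_bot] at hx ⊢; rw [hx, map_zero])]
  have : ∀ g : Module.End K (⊥ : Submodule K V), LinearMap.trace K _ g = 0 := by
    intro g
    have : g = 0 := Subsingleton.elim _ _
    rw [this, map_zero]
  exact this _

theorem trr_top {V : Type*} [AddCommGroup V] [Module K V] [FiniteDimensional K V]
    (f : Module.End K V) (S : Submodule K V) (h : S = ⊤) :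
    trr f S = LinearMap.trace K V f := by
  subst h
  rw [trr_eq f ⊤ (by intro x _; trivial)]
  have e : LinearMap.trace K (⊤ : Submodule K V) (f.restrict (p := ⊤) (q := ⊤) (by intro x _; trivial))
      = LinearMap.trace K V ((Submodule.topEquiv (R := K) (M := V)).conj
        (f.restrict (p := ⊤) (q := ⊤) (by intro x _; trivial))) :=
    (LinearMap.trace_conj' _ _).symm
  rw [e]
  congr 1

/-- splitting of the trace at an exact spot of a long exact sequence -/
theorem trace_split {U V W : Type*} [AddCommGroup U] [Module K U] [AddCommGroup V] [Module K V]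
    [FiniteDimensional K V] [AddCommGroup W] [Module K W]
    (α : U →ₗ[K] V) (β : V →ₗ[K] W) (h : Function.Exact α β)
    (fU : Module.End K U) (fV : Module.End K V) (fW : Module.End K W)
    (h1 : ∀ x, α (fU x) = fV (α x)) (h2 : ∀ x, β (fV x) = fW (β x)) :
    LinearMap.trace K V fV = trr fV (LinearMap.range α) + trr fW (LinearMap.range β) := by
  have s1 : ∀ x ∈ LinearMap.range α, fV x ∈ LinearMap.range α := by
    rintro _ ⟨x, rfl⟩
    exact ⟨fU x, h1 x⟩
  have s2 : ∀ x ∈ LinearMap.range β, fW x ∈ LinearMap.range β := by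
    rintro _ ⟨x, rfl⟩
    exact ⟨fV x, h2 x⟩
  rw [trr_eq _ _ s1, trr_eq _ _ s2]
  refine trace_of_exact (LinearMap.range α).subtype β.rangeRestrict
    (Submodule.subtype_injective _) (LinearMap.surjective_rangeRestrict β) ?_ _ _ _ ?_ ?_
  · intro x
    constructor
    · intro hx
      have : β x = 0 := by
        have := congrArg Subtype.val hx
        simpa using this
      obtain ⟨y, hy⟩ := (h x).1 this
      exact ⟨⟨x, ⟨y, hy⟩⟩, rfl⟩
    · rintro ⟨⟨y, ⟨z, hz⟩⟩, rfl⟩
      apply Subtype.ext
      simp only [LinearMap.codRestrict_apply, LinearMap.rangeRestrict, Submodule.subtype_apply,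
        ZeroMemClass.coe_zero]
      rw [← hz]
      exact h.apply_apply_eq_zero z
  · intro x
    rfl
  · intro x
    apply Subtype.ext
    simp only [LinearMap.codRestrict_apply, LinearMap.rangeRestrict, LinearMap.coe_restrict_apply]
    exact h2 x

/-- **Lefschetz numbers are additive in a long exact sequence** (`ℕ`-indexed homology). -/
theorem les_trace {A B C : ℕ → Type*} [∀ n, AddCommGroup (A n)] [∀ n, Module K (A n)]
    [∀ n, FiniteDimensional K (A n)] [∀ n, AddCommGroup (B n)] [∀ n, Module K (B n)]
    [∀ n, FiniteDimensional K (B n)] [∀ n, AddCommGroup (C n)] [∀ n, Module K (C n)]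
    [∀ n, FiniteDimensional K (C n)]
    (i : ∀ n, A n →ₗ[K] B n) (p : ∀ n, B n →ₗ[K] C n) (δ : ∀ n, C (n + 1) →ₗ[K] A n)
    (hA : ∀ n, Function.Exact (δ n) (i n)) (hB : ∀ n, Function.Exact (i n) (p n))
    (hC : ∀ n, Function.Exact (p (n + 1)) (δ n)) (hC0 : Function.Surjective (p 0))
    (a : ∀ n, Module.End K (A n)) (b : ∀ n, Module.End K (B n)) (c : ∀ n, Module.End K (C n))
    (hi : ∀ n x, i n (a n x) = b n (i n x)) (hp : ∀ n x, p n (b n x) = c n (p n x))
    (hδ : ∀ n x, δ n (c (n + 1) x) = a n (δ n x))
    (N : ℕ) (hN : Subsingleton (C N)) :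
    ∑ n ∈ Finset.range N, (-1) ^ n * LinearMap.trace K (B n) (b n) =
      ∑ n ∈ Finset.range N, (-1) ^ n * LinearMap.trace K (A n) (a n) +
        ∑ n ∈ Finset.range N, (-1) ^ n * LinearMap.trace K (C n) (c n) := by
  have eA : ∀ n, LinearMap.trace K (A n) (a n) =
      trr (a n) (LinearMap.range (δ n)) + trr (b n) (LinearMap.range (i n)) := fun n =>
    trace_split (δ n) (i n) (hA n) (c (n + 1)) (a n) (b n) (hδ n) (hi n)
  have eB : ∀ n, LinearMap.trace K (B n) (b n) =
      trr (b n) (LinearMap.range (i n)) + trr (c n) (LinearMap.range (p n)) := fun n =>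
    trace_split (i n) (p n) (hB n) (a n) (b n) (c n) (hi n) (hp n)
  have eC : ∀ n, LinearMap.trace K (C (n + 1)) (c (n + 1)) =
      trr (c (n + 1)) (LinearMap.range (p (n + 1))) + trr (a n) (LinearMap.range (δ n)) := fun n =>
    trace_split (p (n + 1)) (δ n) (hC n) (b (n + 1)) (c (n + 1)) (a n) (hp (n + 1)) (hδ n)
  have eC0 : LinearMap.trace K (C 0) (c 0) = trr (c 0) (LinearMap.range (p 0)) :=
    (trr_top (c 0) _ (LinearMap.range_eq_top.2 hC0)).symm
  -- the partial sums
  have key : ∀ M : ℕ, ∑ n ∈ Finset.range (M + 1), (-1) ^ n * LinearMap.trace K (A n) (a n) +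
        ∑ n ∈ Finset.range (M + 1), (-1) ^ n * LinearMap.trace K (C n) (c n) =
      ∑ n ∈ Finset.range (M + 1), (-1) ^ n * LinearMap.trace K (B n) (b n) +
        (-1) ^ M * trr (a M) (LinearMap.range (δ M)) := by
    intro M
    induction M with
    | zero =>
      simp only [zero_add, Finset.range_one, Finset.sum_singleton, pow_zero, one_mul]
      rw [eA, eB, eC0]; ring
    | succ M ih =>
      rw [Finset.sum_range_succ, Finset.sum_range_succ _ (M + 1), Finset.sum_range_succ _ (M + 1)]
      have : ∀ s t s' t' : K, s + s' + (t + t') = s + t + (s' + t') := by intros; ring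
      rw [this, ih, eA (M + 1), eB (M + 1), eC M, pow_succ]
      ring
  cases N with
  | zero => simp
  | succ N =>
    rw [key N]
    have : LinearMap.range (δ N) = ⊥ := by
      rw [LinearMap.range_eq_bot]
      ext x
      have : x = 0 := Subsingleton.elim _ _
      rw [this, map_zero, map_zero]
    rw [trr_bot _ _ this, mul_zero, add_zero]

/-- **alternating trace of a bounded exact sequence** `… → E 2 → E 1 → E 0 → 0`. -/
theorem alt_trace {E : ℕ → Type*} [∀ n, AddCommGroup (E n)] [∀ n, Module K (E n)]
    [∀ n, FiniteDimensional K (E n)] (d : ∀ n, E (n + 1) →ₗ[K] E n)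
    (hd : ∀ n, Function.Exact (d (n + 1)) (d n)) (h0 : Function.Surjective (d 0))
    (f : ∀ n, Module.End K (E n)) (hf : ∀ n x, d n (f (n + 1) x) = f n (d n x))
    (N : ℕ) (hN : Subsingleton (E N)) :
    ∑ n ∈ Finset.range N, (-1) ^ n * LinearMap.trace K (E n) (f n) = 0 := by
  have e : ∀ n, LinearMap.trace K (E (n + 1)) (f (n + 1)) =
      trr (f (n + 1)) (LinearMap.range (d (n + 1))) + trr (f n) (LinearMap.range (d n)) := fun n =>
    trace_split (d (n + 1)) (d n) (hd n) (f (n + 2)) (f (n + 1)) (f n) (hf (n + 1)) (hf n)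
  have e0 : LinearMap.trace K (E 0) (f 0) = trr (f 0) (LinearMap.range (d 0)) :=
    (trr_top (f 0) _ (LinearMap.range_eq_top.2 h0)).symm
  have key : ∀ M : ℕ, ∑ n ∈ Finset.range (M + 1), (-1) ^ n * LinearMap.trace K (E n) (f n) =
        (-1) ^ M * trr (f M) (LinearMap.range (d M)) := by
    intro M
    induction M with
    | zero => simp [e0]
    | succ M ih =>
      rw [Finset.sum_range_succ, ih, e M, pow_succ]
      ring
  cases N with
  | zero => simp
  | succ N =>
    rw [key N]
    have : LinearMap.range (d N) = ⊥ := by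
      rw [LinearMap.range_eq_bot]
      ext x
      have : x = 0 := Subsingleton.elim _ _
      rw [this, map_zero, map_zero]
    rw [trr_bot _ _ this, mul_zero]

end les

section coinv

variable {K : Type*} [Field K] {G : Type*} [Group G] [Fintype G]
  {V W : Type*} [AddCommGroup V] [Module K V] [FiniteDimensional K V]
  [AddCommGroup W] [Module K W]

/-- **trace on coinvariants**: `p : V → W` surjective with kernel spanned by `g v - v`. -/
theorem trace_coinv (hG : (Fintype.card G : K) ≠ 0) (ρ : G →* Module.End K V)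
    (T : Module.End K V) (hT : ∀ g v, T (ρ g v) = ρ g (T v))
    (p : V →ₗ[K] W) (hp : Function.Surjective p) (hpg : ∀ g v, p (ρ g v) = p v)
    (hker : ∀ v, p v = 0 → v ∈ Submodule.span K {x | ∃ g y, x = ρ g y - y})
    (T' : Module.End K W) (hT' : ∀ v, p (T v) = T' (p v)) :
    LinearMap.trace K W T' = (Fintype.card G : K)⁻¹ * ∑ g, LinearMap.trace K V (ρ g * T) := by
  classical
  have : FiniteDimensional K W := Module.Finite.of_surjective p hp
  -- the averaging operator
  let e : Module.End K V := (Fintype.card G : K)⁻¹ • ∑ g, ρ g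
  have he : ∀ v, e v = (Fintype.card G : K)⁻¹ • ∑ g, ρ g v := by
    intro v
    simp [e, LinearMap.sum_apply]
  have heg : ∀ g v, e (ρ g v) = e v := by
    intro g v
    rw [he, he]
    congr 1
    have := Equiv.sum_comp (Equiv.mulRight g) (fun h => ρ h v)
    rw [← this]
    apply Finset.sum_congr rfl
    intro h _
    simp [map_mul]
  have hpe : ∀ v, p (e v) = p v := by
    intro v
    rw [he, map_smul, map_sum]
    simp only [hpg]
    rw [Finset.sum_const, Finset.card_univ, ← Nat.cast_smul_eq_nsmul K, smul_smul,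
      inv_mul_cancel₀ hG, one_smul]
  have hek : ∀ v, p v = 0 → e v = 0 := by
    intro v hv
    have hv' := hker v hv
    clear hv
    induction hv' using Submodule.span_induction with
    | mem x hx =>
      obtain ⟨g, y, rfl⟩ := hx
      rw [map_sub, heg, sub_self]
    | zero => exact map_zero _
    | add x y _ _ hx hy => rw [map_add, hx, hy, add_zero]
    | smul a x _ hx => rw [map_smul, hx, smul_zero]
  -- the section
  obtain ⟨s0, hs0⟩ := LinearMap.exists_rightInverse_of_surjective p (LinearMap.range_eq_top.2 hp)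
  have hs0' : ∀ y, p (s0 y) = y := fun y => LinearMap.congr_fun hs0 y
  let s : W →ₗ[K] V := e ∘ₗ s0
  have hsp : ∀ v, s (p v) = e v := by
    intro v
    have : e (s0 (p v) - v) = 0 := hek _ (by rw [map_sub, hs0', sub_self])
    rw [map_sub, sub_eq_zero] at this
    exact this
  have hps : ∀ w, p (s w) = w := by
    intro w
    show p (e (s0 w)) = w
    rw [hpe, hs0']
  have h1 : T' = p ∘ₗ (T ∘ₗ s) := by
    ext w
    simp only [LinearMap.comp_apply]
    rw [hT', hps]
  have h2 : (T ∘ₗ s) ∘ₗ p = (Fintype.card G : K)⁻¹ • ∑ g, ρ g * T := by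
    ext v
    simp only [LinearMap.comp_apply]
    rw [hsp, he, map_smul, map_sum]
    simp only [hT, LinearMap.smul_apply, LinearMap.sum_apply, Module.End.mul_apply]
  rw [h1, LinearMap.trace_comp_comm', h2, map_smul, map_sum, smul_eq_mul]

/-- **trace on invariants**. -/
theorem trace_inv (hG : (Fintype.card G : K) ≠ 0) (ρ : G →* Module.End K V)
    (T : Module.End K V) (hT : ∀ g v, T (ρ g v) = ρ g (T v))
    (ι : W →ₗ[K] V) (hι : Function.Injective ι) (hιg : ∀ g w, ρ g (ι w) = ι w)
    (hinv : ∀ v, (∀ g, ρ g v = v) → v ∈ LinearMap.range ι)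
    (T' : Module.End K W) (hT' : ∀ w, T (ι w) = ι (T' w)) :
    LinearMap.trace K W T' = (Fintype.card G : K)⁻¹ * ∑ g, LinearMap.trace K V (ρ g * T) := by
  classical
  have : FiniteDimensional K W := FiniteDimensional.of_injective ι hι
  let e : Module.End K V := (Fintype.card G : K)⁻¹ • ∑ g, ρ g
  have he : ∀ v, e v = (Fintype.card G : K)⁻¹ • ∑ g, ρ g v := by
    intro v
    simp [e, LinearMap.sum_apply]
  have heg : ∀ g v, ρ g (e v) = e v := by
    intro g v
    rw [he, map_smul, map_sum]
    congr 1
    have := Equiv.sum_comp (Equiv.mulLeft g) (fun h => ρ h v)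
    rw [← this]
    apply Finset.sum_congr rfl
    intro h _
    simp [map_mul]
  have heι : ∀ w, e (ι w) = ι w := by
    intro w
    rw [he]
    simp only [hιg]
    rw [Finset.sum_const, Finset.card_univ, ← Nat.cast_smul_eq_nsmul K, smul_smul,
      inv_mul_cancel₀ hG, one_smul]
  obtain ⟨r, hr⟩ := ι.exists_leftInverse_of_injective (LinearMap.ker_eq_bot.2 hι)
  have hr' : ∀ w, r (ι w) = w := fun w => LinearMap.congr_fun hr w
  have hire : ∀ v, ι (r (e v)) = e v := by
    intro v
    obtain ⟨w, hw⟩ := hinv (e v) (fun g => heg g v)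
    rw [← hw, hr']
  have h1 : T' = (r ∘ₗ e) ∘ₗ (T ∘ₗ ι) := by
    ext w
    simp only [LinearMap.comp_apply]
    rw [hT', heι, hr']
  have h2 : (T ∘ₗ ι) ∘ₗ (r ∘ₗ e) = (Fintype.card G : K)⁻¹ • ∑ g, ρ g * T := by
    ext v
    simp only [LinearMap.comp_apply]
    rw [hire, he, map_smul, map_sum]
    simp only [hT, LinearMap.smul_apply, LinearMap.sum_apply, Module.End.mul_apply]
  rw [h1, LinearMap.trace_comp_comm', h2, map_smul, map_sum, smul_eq_mul]

end coinv

end Crest.Agent.R090.TrAlg673
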