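import Crest.Agent.R090.St2_528
import Crest.Agent.R090.CohT_253

/-!
# Row 90, block HOM, leaf AS7 (owner helper811): a cohomology theory on stable maps

* `CohS F` : 253's `Coh F` together with homotopy invariance, additivity for 528's `padd`, cross
  product and an even generator `u ∈ h ℂ` with `x ↦ x × u` bijective;
* `CohS.Sig n : h U ≃ h (U × ℂⁿ)`;
* `CohS.hst : St X Y → h Y →ₗ h X` : functor, additive, `hst_smR`, `hst_smL`;
* `CohS.Lst : St X X → F` : Lefschetz numbers of stable maps.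
-/

set_option autoImplicit false
set_option linter.unusedSectionVars false
set_option linter.checkUnivs false

namespace Crest.Agent.R090.AS7_811

open Topology Set Crest.Agent.R090.Sp962 Crest.Agent.R090.CohT253 Crest.Agent.R090.Grp528
  Crest.Agent.R090.St528

universe v w

/-- cohomology theory with cross product -/
structure CohS (F : Type w) [Field F] extends Coh.{0, v, w} F where
  map_hom : ∀ {U V : Type} [TopologicalSpace U] [TopologicalSpace V] [T2Space U]
    [LocallyCompactSpace U] [T2Space V] [LocallyCompactSpace V] {f g : PMap U V},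
    f.Homotopic g → ∀ x : h V, map f x = map g x
  map_padd : ∀ {U V : Type} [TopologicalSpace U] [TopologicalSpace V] [T2Space U]
    [LocallyCompactSpace U] [T2Space V] [LocallyCompactSpace V] (f g : PMap (U × Io) V) (x : h V),
    map (padd f g) x = map f x + map g x
  cr : ∀ (U V : Type) [TopologicalSpace U] [TopologicalSpace V] [T2Space U]
    [LocallyCompactSpace U] [T2Space V] [LocallyCompactSpace V], h U →ₗ[F] h V →ₗ[F] h (U × V)
  cr_nat : ∀ {U V U' V' : Type} [TopologicalSpace U] [TopologicalSpace V] [T2Space U]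
    [LocallyCompactSpace U] [T2Space V] [LocallyCompactSpace V] [TopologicalSpace U']
    [TopologicalSpace V'] [T2Space U'] [LocallyCompactSpace U'] [T2Space V']
    [LocallyCompactSpace V'] (f : PMap U U') (g : PMap V V') (x : h U') (y : h V'),
    map (f.smash g) (cr U' V' x y) = cr U V (map f x) (map g y)
  cr_eps : ∀ {U V : Type} [TopologicalSpace U] [TopologicalSpace V] [T2Space U]
    [LocallyCompactSpace U] [T2Space V] [LocallyCompactSpace V] (x : h U) (y : h V),
    eps (U × V) (cr U V x y) = cr U V (eps U x) (eps V y)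
  cr_assoc : ∀ {U V W : Type} [TopologicalSpace U] [TopologicalSpace V] [TopologicalSpace W]
    [T2Space U] [LocallyCompactSpace U] [T2Space V] [LocallyCompactSpace V] [T2Space W]
    [LocallyCompactSpace W] (x : h U) (y : h V) (z : h W),
    map (PMap.ofHomeo (Homeomorph.prodAssoc U V W)) (cr U (V × W) x (cr V W y z)) =
      cr (U × V) W (cr U V x y) z
  /-- commutativity with an even class -/
  cr_comm : ∀ {U V : Type} [TopologicalSpace U] [TopologicalSpace V] [T2Space U]
    [LocallyCompactSpace U] [T2Space V] [LocallyCompactSpace V] (x : h U) (y : h V),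
    eps V y = y →
    map (PMap.ofHomeo (Homeomorph.prodComm U V)) (cr V U y x) = cr U V x y
  u : h ℂ
  u_even : eps ℂ u = u
  u_bij : ∀ (U : Type) [TopologicalSpace U] [T2Space U] [LocallyCompactSpace U],
    Function.Bijective (fun x : h U => cr U ℂ x u)

namespace CohS

variable {F : Type w} [Field F] (H : CohS.{v, w} F)

section basic

variable {U V W X : Type} [TopologicalSpace U] [TopologicalSpace V] [TopologicalSpace W]
  [TopologicalSpace X]
variable [T2Space U] [LocallyCompactSpace U] [T2Space V] [LocallyCompactSpace V]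
  [T2Space W] [LocallyCompactSpace W] [T2Space X] [LocallyCompactSpace X]

/-- action of homotopy classes -/
def hc (a : HC U V) : H.h V →ₗ[F] H.h U :=
  Quot.lift H.map (fun _ _ e => LinearMap.ext (H.map_hom e)) a

@[simp] theorem hc_mk (f : PMap U V) : H.hc (HC.mk f) = H.map f := rfl

@[simp] theorem hc_hh (e : U ≃ₜ V) : H.hc (hh e) = H.map (PMap.ofHomeo e) := rfl

theorem hc_comp (b : HC V W) (a : HC U V) (x : H.h W) : H.hc (b.comp a) x = H.hc a (H.hc b x) := by
  obtain ⟨f, rfl⟩ := HC.mk_surj a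
  obtain ⟨g, rfl⟩ := HC.mk_surj b
  exact H.map_comp g f x

@[simp] theorem hc_h1 (x : H.h U) : H.hc (h1 U) x = x := H.map_id U x

@[simp] theorem hc_hzero (x : H.h V) : H.hc (hzero U V) x = 0 := H.map_zero' x

theorem hc_eps (a : HC U V) (x : H.h V) : H.eps U (H.hc a x) = H.hc a (H.eps V x) := by
  obtain ⟨f, rfl⟩ := HC.mk_surj a
  exact H.eps_map f x

theorem hc_hadd (a b : HC (U × Io) V) (x : H.h V) :
    H.hc (hadd a b) x = H.hc a x + H.hc b x := by
  obtain ⟨f, rfl⟩ := HC.mk_surj a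
  obtain ⟨g, rfl⟩ := HC.mk_surj b
  exact H.map_padd f g x

theorem hc_gadd (e : U ≃ₜ V × Io) (a b : HC U W) (x : H.h W) :
    H.hc (gadd e a b) x = H.hc a x + H.hc b x := by
  rw [gadd, hc_comp, hc_hadd, map_add, ← hc_comp, ← hc_comp, HC.comp_assoc, HC.comp_assoc,
    hh_symm_comp, comp_h1, comp_h1]

/-- a homeomorphism acts by an isomorphism -/
def mapEquiv (e : U ≃ₜ V) : H.h V ≃ₗ[F] H.h U :=
  LinearEquiv.ofLinearMap (H.map (PMap.ofHomeo e)) (H.map (PMap.ofHomeo e.symm))
    (by
      ext x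
      rw [LinearMap.comp_apply, ← H.map_comp, PMap.ofHomeo_symm_comp, H.map_id]; rfl)
    (by
      ext x
      rw [LinearMap.comp_apply, ← H.map_comp, PMap.ofHomeo_comp_symm, H.map_id]; rfl)

@[simp] theorem mapEquiv_apply (e : U ≃ₜ V) (x : H.h V) :
    H.mapEquiv e x = H.map (PMap.ofHomeo e) x := rfl

theorem cr_hc {U' V' : Type} [TopologicalSpace U'] [TopologicalSpace V'] [T2Space U']
    [LocallyCompactSpace U'] [T2Space V'] [LocallyCompactSpace V'] (a : HC U U') (b : HC V V')
    (x : H.h U') (y : H.h V') :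
    H.hc (a.smash b) (H.cr U' V' x y) = H.cr U V (H.hc a x) (H.hc b y) := by
  obtain ⟨f, rfl⟩ := HC.mk_surj a
  obtain ⟨g, rfl⟩ := HC.mk_surj b
  exact H.cr_nat f g x y

end basic

/-! ## suspension isomorphisms -/

section sig

variable {X Y Z W : Type} [TopologicalSpace X] [TopologicalSpace Y] [TopologicalSpace Z]
  [TopologicalSpace W]
variable [T2Space X] [LocallyCompactSpace X] [T2Space Y] [LocallyCompactSpace Y]
  [T2Space Z] [LocallyCompactSpace Z] [T2Space W] [LocallyCompactSpace W]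

/-- `x ↦ x × u` -/
noncomputable def su (U : Type) [TopologicalSpace U] [T2Space U] [LocallyCompactSpace U] :
    H.h U ≃ₗ[F] H.h (U × ℂ) :=
  LinearEquiv.ofBijective ((H.cr U ℂ).flip H.u) (H.u_bij U)

@[simp] theorem su_apply (U : Type) [TopologicalSpace U] [T2Space U] [LocallyCompactSpace U]
    (x : H.h U) : H.su U x = H.cr U ℂ x H.u := rfl

/-- `X ≃ₜ X × ℂ⁰` -/
def e0 (X : Type) [TopologicalSpace X] : S X 0 ≃ₜ X where
  toFun p := p.1
  invFun x := (x, fun i => i.elim0)
  left_inv p := by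
    obtain ⟨x, v⟩ := p
    exact Prod.ext rfl (Subsingleton.elim _ _)
  right_inv _ := rfl
  continuous_toFun := continuous_fst
  continuous_invFun := by fun_prop

/-- `h X ≃ h (X × ℂⁿ)` -/
noncomputable def Sig (X : Type) [TopologicalSpace X] [T2Space X] [LocallyCompactSpace X] :
    ∀ n : ℕ, H.h X ≃ₗ[F] H.h (S X n)
  | 0 => H.mapEquiv (e0 X)
  | n + 1 => (Sig X n).trans ((H.su (S X n)).trans (H.mapEquiv (eS X n)))

theorem Sig_zero (x : H.h X) : H.Sig X 0 x = H.map (PMap.ofHomeo (e0 X)) x := rfl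

theorem Sig_succ (n : ℕ) (x : H.h X) :
    H.Sig X (n + 1) x = H.map (PMap.ofHomeo (eS X n)) (H.cr (S X n) ℂ (H.Sig X n x) H.u) := rfl

/-- the operator of an unstable class at level `n` -/
noncomputable def hn {n : ℕ} (a : HC (S X n) (S Y n)) : H.h Y →ₗ[F] H.h X :=
  (H.Sig X n).symm.toLinearMap ∘ₗ H.hc a ∘ₗ (H.Sig Y n).toLinearMap

theorem hn_spec {n : ℕ} (a : HC (S X n) (S Y n)) (y : H.h Y) :
    H.Sig X n (H.hn a y) = H.hc a (H.Sig Y n y) := by
  simp [hn]

theorem hn_eq {n : ℕ} {a : HC (S X n) (S Y n)} {y : H.h Y} {x : H.h X}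
    (h : H.hc a (H.Sig Y n y) = H.Sig X n x) : H.hn a y = x := by
  apply (H.Sig X n).injective
  rw [hn_spec, h]

theorem hn_st {n : ℕ} (a : HC (S X n) (S Y n)) : H.hn (st a) = H.hn a := by
  ext y
  apply hn_eq
  have e1 : ∀ z, H.hc (hh (eS Y n).symm) (H.map (PMap.ofHomeo (eS Y n)) z) = z := by
    intro z
    rw [← hc_hh, ← hc_comp, hh_comp_symm, hc_h1]
  rw [Sig_succ, Sig_succ, hn_spec, st, hc_comp, e1, hc_comp, cr_hc, hc_h1, hc_hh]

theorem hn_stN {n : ℕ} (a : HC (S X n) (S Y n)) (k : ℕ) : H.hn (stN a k) = H.hn a := by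
  induction k with
  | zero => rfl
  | succ k ih => rw [stN_succ, hn_st, ih]

theorem hn_comp {n : ℕ} (b : HC (S Y n) (S Z n)) (a : HC (S X n) (S Y n)) (z : H.h Z) :
    H.hn (b.comp a) z = H.hn a (H.hn b z) := by
  apply hn_eq
  rw [hc_comp, hn_spec, hn_spec]

@[simp] theorem hn_h1 {n : ℕ} (x : H.h X) : H.hn (h1 (S X n)) x = x := by
  apply hn_eq
  rw [hc_h1]

@[simp] theorem hn_hzero {n : ℕ} (y : H.h Y) : H.hn (hzero (S X n) (S Y n)) y = 0 := by
  apply hn_eq
  rw [hc_hzero, map_zero]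

theorem hn_sadd {n : ℕ} (a b : HC (S X (n + 1)) (S Y (n + 1))) :
    H.hn (sadd a b) = H.hn a + H.hn b := by
  ext y
  apply hn_eq
  rw [LinearMap.add_apply, map_add, hn_spec, hn_spec, sadd, hc_gadd]

/-! ### parity -/

theorem eps_Sig (n : ℕ) (x : H.h X) : H.eps (S X n) (H.Sig X n x) = H.Sig X n (H.eps X x) := by
  induction n with
  | zero => rw [Sig_zero, Sig_zero, H.eps_map]
  | succ n ih => rw [Sig_succ, Sig_succ, H.eps_map, H.cr_eps, ih, H.u_even]

theorem hn_eps {n : ℕ} (a : HC (S X n) (S Y n)) (y : H.h Y) :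
    H.eps X (H.hn a y) = H.hn a (H.eps Y y) := by
  symm
  apply hn_eq
  rw [← eps_Sig, ← eps_Sig, ← hc_eps, hn_spec]

/-! ### naturality of the suspension isomorphism -/

theorem Sig_hc (a : HC X Y) (n : ℕ) (y : H.h Y) :
    H.hc (a.smash (h1 (Fin n → ℂ))) (H.Sig Y n y) = H.Sig X n (H.hc a y) := by
  induction n with
  | zero =>
    rw [Sig_zero, Sig_zero, ← hc_hh, ← hc_hh, ← hc_comp, ← hc_comp]
    congr 2
    obtain ⟨f, rfl⟩ := HC.mk_surj a
    refine congrArg HC.mk (PMap.ext fun p => ?_)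
    obtain ⟨x, v⟩ := p
    change (PMap.ofHomeo (e0 Y)) (sm (f x) (v : OnePoint (Fin 0 → ℂ))) = f x
    generalize f x = y
    induction y using OnePoint.rec with
    | infty => simp
    | coe y => rfl
  | succ n ih =>
    rw [← smash_level, ← hn_spec, hn_st]
    congr 1
    exact hn_eq H ih

theorem hn_smash (a : HC X Y) (n : ℕ) (y : H.h Y) :
    H.hn (n := n) (a.smash (h1 (Fin n → ℂ))) y = H.hc a y := hn_eq H (H.Sig_hc a n y)

/-! ## stable maps -/

/-- **the action of stable maps on cohomology** -/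
noncomputable def hst (s : St X Y) : H.h Y →ₗ[F] H.h X :=
  Quotient.lift (fun p : Pre X Y => H.hn (p.seq p.ev.choose)) (by
    have key : ∀ (p : Pre X Y) (n : ℕ), p.ev.choose ≤ n → H.hn (p.seq n) = H.hn (p.seq p.ev.choose) := by
      intro p n hn
      obtain ⟨k, rfl⟩ := Nat.exists_eq_add_of_le hn
      rw [p.seq_add p.ev.choose_spec le_rfl, hn_stN]
    rintro p p' ⟨N, hN⟩
    rw [← key p (max N (max p.ev.choose p'.ev.choose)) (by omega),
      ← key p' (max N (max p.ev.choose p'.ev.choose)) (by omega), hN _ (by omega)]) s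

theorem hst_mk (p : Pre X Y) {n : ℕ} (hn : p.ev.choose ≤ n) :
    H.hst (Quotient.mk _ p : St X Y) = H.hn (p.seq n) := by
  obtain ⟨k, rfl⟩ := Nat.exists_eq_add_of_le hn
  rw [p.seq_add p.ev.choose_spec le_rfl, hn_stN]
  rfl

@[simp] theorem hst_of {n : ℕ} (a : HC (S X n) (S Y n)) : H.hst (St.of n a) = H.hn a := by
  have h := hst_mk H (⟨gen n a, n, fun m hm => gen_succ n a m hm⟩ : Pre X Y)
    (n := n + (⟨gen n a, n, fun m hm => gen_succ n a m hm⟩ : Pre X Y).ev.choose) (by omega)
  rw [St.of, h]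
  change H.hn (gen n a _) = _
  rw [gen_add, hn_stN]

@[simp] theorem hst_comp (t : St Y Z) (s : St X Y) (z : H.h Z) :
    H.hst (t.comp s) z = H.hst s (H.hst t z) := by
  obtain ⟨n, -, ⟨a, rfl⟩, ⟨b, rfl⟩⟩ := St.exists_of₂ s t 0
  rw [St.of_comp_of, hst_of, hst_of, hst_of, hn_comp]

@[simp] theorem hst_id (x : H.h X) : H.hst (St.id X) x = x := by
  rw [← St.of_h1 0, hst_of, hn_h1]

theorem hst_add (s t : St X Y) : H.hst (s + t) = H.hst s + H.hst t := by
  obtain ⟨n, ⟨a, rfl⟩, ⟨b, rfl⟩⟩ := St.exists_of_succ₂ s t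
  rw [St.of_add_of, hst_of, hst_of, hst_of, hn_sadd]

/-- additive version -/
noncomputable def hstHom (X Y : Type) [TopologicalSpace X] [TopologicalSpace Y]
    [T2Space X] [LocallyCompactSpace X] [T2Space Y] [LocallyCompactSpace Y] :
    St X Y →+ (H.h Y →ₗ[F] H.h X) := AddMonoidHom.mk' H.hst H.hst_add

@[simp] theorem hst_zero : H.hst (0 : St X Y) = 0 := (H.hstHom X Y).map_zero

@[simp] theorem hst_neg (s : St X Y) : H.hst (-s) = -H.hst s := (H.hstHom X Y).map_neg s

theorem hst_sub (s t : St X Y) : H.hst (s - t) = H.hst s - H.hst t := (H.hstHom X Y).map_sub s t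

theorem hst_nsmul (n : ℕ) (s : St X Y) : H.hst (n • s) = n • H.hst s :=
  (H.hstHom X Y).map_nsmul n s

theorem hst_zsmul (n : ℤ) (s : St X Y) : H.hst (n • s) = n • H.hst s :=
  (H.hstHom X Y).map_zsmul n s

theorem hst_sum {ι : Type*} (J : Finset ι) (s : ι → St X Y) :
    H.hst (∑ i ∈ J, s i) = ∑ i ∈ J, H.hst (s i) := map_sum (H.hstHom X Y) s J

theorem hst_eps (s : St X Y) (y : H.h Y) : H.eps X (H.hst s y) = H.hst s (H.eps Y y) := by
  obtain ⟨N, h⟩ := s.exists_of
  obtain ⟨a, rfl⟩ := h N le_rfl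
  rw [hst_of, hn_eps]

@[simp] theorem hst_map (a : HC X Y) : H.hst (St.map a) = H.hc a := by
  ext y
  rw [St.map_eq_of a 0, hst_of, hn_smash]

@[simp] theorem hst_ofP (f : PMap X Y) : H.hst (St.ofP f) = H.map f := H.hst_map _

/-- action of a map given at level `n` -/
theorem hst_level {n : ℕ} (f : PMap (S X n) (S Y n)) (y : H.h Y) :
    H.Sig X n (H.hst (St.mk n f) y) = H.map f (H.Sig Y n y) := by
  rw [St.mk, hst_of, hn_spec, hc_mk]

end sig

end CohS

end Crest.Agent.R090.AS7_811
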