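import Crest.Agent.R090.ASQuotP_149
import Crest.Agent.R090.AS2_58

/-!
# Row 90, AS5, part 3: binding to helper58's `Hc` (owner helper149)

For a finite group acting on a compact Hausdorff space, fixing `pt` and freely elsewhere, and `p` the
orbit map: `Hc.map p` is injective and its image consists of the invariant classes.
-/

set_option autoImplicit false
set_option linter.unusedSectionVars false

open Topology Filter Set

namespace Crest.Agent.R090.ASQuotH_149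

open Crest.Agent.R090

section bridge

variable {F : Type} [Field F] {X Y : Type}

theorem d_eq (φ : List X → F) : ASQuot_149.d φ = AS58.d φ := by
  funext l
  induction l generalizing φ with
  | nil => rfl
  | cons x l ih =>
    rw [ASQuot_149.d_cons, AS58.d_cons, ih]
    rfl

theorem pull_eq (p : X → Y) (φ : List Y → F) : ASQuot_149.pull F p φ = AS58.pull p φ := rfl

variable [TopologicalSpace X] [TopologicalSpace Y]

theorem LZ_iff {φ : List X → F} : φ ∈ ASQuot_149.LZ F X ↔ φ ∈ AS58.LZ F X := by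
  rw [ASQuot_149.mem_LZ, AS58.mem_LZ]
  constructor
  · rintro ⟨W, hW, h⟩
    refine ⟨W, mem_nhdsSet_iff_forall.2 ?_, h⟩
    rintro ⟨x, y⟩ hxy
    rw [mem_diagonal_iff] at hxy
    dsimp only at hxy
    subst hxy
    exact hW x
  · rintro ⟨W, hW, h⟩
    exact ⟨W, fun x => mem_nhdsSet_iff_forall.1 hW (x, x) (mem_diagonal x), h⟩

theorem S_iff {pt : X} {φ : List X → F} :
    φ ∈ ASQuot_149.S F pt ↔ φ ∈ AS58.Sp F ({pt} : Set X) := by
  rw [ASQuot_149.mem_S, AS58.mem_Sp_singleton]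
  rfl

end bridge

section main

variable {F : Type} [Field F] {G : Type*} [Group G] [Finite G] {X Y : Type}
  [TopologicalSpace X] [TopologicalSpace Y] {A : ASQuot_149.Act G X} {p : X → Y}
  [CompactSpace X] [T2Space X] [T2Space Y]

theorem Hc_inj (hq : ASQuot_149.IsQuo A p) {pt : X} (hfix : ∀ g, A.a g pt = pt)
    (hfree : ∀ g x, x ≠ pt → A.a g x = x → g = 1) (hG : (Nat.card G : F) ≠ 0)
    {q : Y} (hpt : p pt = q) (hm : MapsTo p {pt} {q}) :
    Function.Injective (AS58.Hc.map F p hq.cont hm) := by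
  subst hpt
  rw [injective_iff_map_eq_zero]
  intro x hx
  obtain ⟨f, hf, rfl⟩ := AS58.Hc.mk_surj x
  rw [AS58.Hc.map_mk, AS58.Hc.mk_eq_zero, AS58.mem_Bc] at hx
  obtain ⟨ψ, hψ, h⟩ := hx
  obtain ⟨χ, hχ, h'⟩ := ASQuot_149.quot_inj (k := F) (f := f) hq hfix hfree hG
    ⟨ψ, S_iff.2 hψ, by rw [d_eq]; exact LZ_iff.2 h⟩
  rw [AS58.Hc.mk_eq_zero, AS58.mem_Bc]
  exact ⟨χ, S_iff.1 hχ, by rw [← d_eq]; exact LZ_iff.1 h'⟩

theorem Hc_surj (hq : ASQuot_149.IsQuo A p) {pt : X} (hfix : ∀ g, A.a g pt = pt)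
    (hfree : ∀ g x, x ≠ pt → A.a g x = x → g = 1) (hG : (Nat.card G : F) ≠ 0)
    {q : Y} (hpt : p pt = q) (hm : MapsTo p {pt} {q})
    (hmg : ∀ g, MapsTo (A.a g) {pt} {pt}) (x : AS58.Hc F ({pt} : Set X))
    (hx : ∀ g, AS58.Hc.map F (A.a g) (A.cont g) (hmg g) x = x) :
    ∃ y, AS58.Hc.map F p hq.cont hm y = x := by
  subst hpt
  obtain ⟨φ, hφ, rfl⟩ := AS58.Hc.mk_surj x
  obtain ⟨f, hf, hdf, ψ, hψ, h⟩ := ASQuot_149.quot_surj (k := F) (F := φ) hq hfix hfree hG
    (S_iff.2 hφ.1) (by rw [d_eq]; exact LZ_iff.2 hφ.2) (fun g => by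
      have h1 := hx g
      rw [AS58.Hc.map_mk, AS58.Hc.mk_eq_mk, AS58.mem_Bc] at h1
      obtain ⟨ψ, hψ, h⟩ := h1
      exact ⟨ψ, S_iff.2 hψ, by rw [d_eq]; exact LZ_iff.2 h⟩)
  refine ⟨AS58.Hc.mk f ⟨S_iff.1 hf, ?_⟩, ?_⟩
  · rw [d_eq] at hdf
    exact LZ_iff.1 hdf
  · rw [AS58.Hc.map_mk, AS58.Hc.mk_eq_mk, AS58.mem_Bc]
    exact ⟨ψ, S_iff.1 hψ, by rw [← d_eq]; exact LZ_iff.1 h⟩

end main

/-! ### the form on `OnePoint` -/

section orb

open OnePoint Crest.Agent.R090.Sp962 Crest.Agent.R090.Orb389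

variable {F : Type} [Field F]

theorem mapsTo_inf {U V : Type} [TopologicalSpace U] [TopologicalSpace V] (f : PMap U V) :
    MapsTo f ({∞} : Set (OnePoint U)) ({∞} : Set (OnePoint V)) := by
  intro x hx
  rw [mem_singleton_iff] at hx ⊢
  rw [hx, f.map_inf]

variable {G : Type} [Group G] [Finite G]
variable {W : Type} [TopologicalSpace W] [MulAction G W] [ContinuousConstSMul G W]
  [T2Space W] [LocallyCompactSpace W]

theorem orb_inj (hfree : ∀ (g : G) (x : W), g • x = x → g = 1) (hG : (Nat.card G : F) ≠ 0) :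
    Function.Injective (AS58.Hc.map F (Orb.pr G W) (Orb.pr G W).cont (mapsTo_inf _)) :=
  Hc_inj ASQuotP_149.isQuo_pr ASQuotP_149.actO_fix (ASQuotP_149.actO_free hfree) hG
    (Orb.pr G W).map_inf _

theorem orb_surj (hfree : ∀ (g : G) (x : W), g • x = x → g = 1) (hG : (Nat.card G : F) ≠ 0)
    (x : AS58.Hc F ({∞} : Set (OnePoint W)))
    (hx : ∀ g : G, AS58.Hc.map F (actP g W) (actP g W).cont (mapsTo_inf _) x = x) :
    ∃ y, AS58.Hc.map F (Orb.pr G W) (Orb.pr G W).cont (mapsTo_inf _) y = x :=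
  Hc_surj ASQuotP_149.isQuo_pr ASQuotP_149.actO_fix (ASQuotP_149.actO_free hfree) hG
    (Orb.pr G W).map_inf _ (fun g => mapsTo_inf (actP g W)) x hx

end orb

end Crest.Agent.R090.ASQuotH_149
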