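import Crest.Agent.R090.ASQuot_149
import Crest.Agent.R090.Orb_389

/-!
# Row 90, AS5, part 2: the orbit map of a free action in 962's / 389's model (owner helper149)
-/

set_option autoImplicit false
set_option linter.unusedSectionVars false

open Topology Filter Set

namespace Crest.Agent.R090.ASQuotP_149

open OnePoint Crest.Agent.R090.Sp962 Crest.Agent.R090.Orb389 Crest.Agent.R090.ASQuot_149

universe u v

variable {G : Type u} [Group G] [Finite G]
variable {W : Type v} [TopologicalSpace W] [MulAction G W] [ContinuousConstSMul G W]

/-- the action on the one point compactification as `ASQuot_149.Act` -/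
def actO (G : Type u) [Group G] [Finite G] (W : Type v) [TopologicalSpace W] [MulAction G W]
    [ContinuousConstSMul G W] : Act G (OnePoint W) where
  a g := actP g W
  one x := by rw [actP_one]; rfl
  mul g h x := by rw [actP_mul]; rfl
  cont g := (actP g W).cont

@[simp] theorem actO_a (g : G) (x : OnePoint W) : (actO G W).a g x = actP g W x := rfl

theorem isQuo_pr : IsQuo (actO G W) (Orb.pr G W) where
  cont := (Orb.pr G W).cont
  surj := Orb.pr_surj
  fib x x' := by
    rw [eq_comm, Orb.pr_eq]
    rfl

theorem actO_fix (g : G) : (actO G W).a g ∞ = ∞ := (actP g W).map_inf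

theorem actO_free (hfree : ∀ (g : G) (x : W), g • x = x → g = 1) (g : G) (x : OnePoint W)
    (hx : x ≠ ∞) (h : (actO G W).a g x = x) : g = 1 := by
  induction x using OnePoint.rec with
  | infty => exact absurd rfl hx
  | coe x =>
    apply hfree g x
    rw [actO_a, actP_coe] at h
    exact OnePoint.coe_injective h

end Crest.Agent.R090.ASQuotP_149
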