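import Mathlib

/-!
# Row 90, AS5: Alexander-Spanier cochains and a finite group acting freely off the base point
(owner helper149; definitions are the literal ones of helper58's message #20343)

`X`, `Y` compact Hausdorff, `a : G → X → X` an action of a finite group fixing the point `pt` and
free elsewhere, `p : X → Y` continuous surjective with fibres the orbits.

* `Q1` : if `p^# f` vanishes near the diagonal then so does `f`;
* `Q2` : an exactly invariant cochain of `X` which vanishes near `pt` is, modulo cochains which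
  vanish near the diagonal, the pull back of a cochain of `Y` which vanishes near `p pt`;
* `quot_surj`, `quot_inj` : `h (Y) ≃ h (X)^G` on the level of representatives.
-/

set_option autoImplicit false

open Topology Filter Set

namespace Crest.Agent.R090.ASQuot_149

universe u v w

section defs

variable {k : Type u} [Field k] {X : Type v} {Y : Type w}

/-- the differential of list cochains -/
def d : (List X → k) → List X → k
  | _, [] => 0
  | φ, x :: l => φ l - d (fun m => φ (x :: m)) l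

@[simp] theorem d_nil (φ : List X → k) : d φ [] = 0 := rfl

theorem d_cons (φ : List X → k) (x : X) (l : List X) :
    d φ (x :: l) = φ l - d (fun m => φ (x :: m)) l := rfl

theorem d_add (φ ψ : List X → k) (l : List X) : d (φ + ψ) l = d φ l + d ψ l := by
  induction l generalizing φ ψ with
  | nil => simp
  | cons x l ih =>
    rw [d_cons, d_cons, d_cons, Pi.add_apply]
    have := ih (fun m => φ (x :: m)) (fun m => ψ (x :: m))
    have e : (fun m => (φ + ψ) (x :: m)) = (fun m => φ (x :: m)) + (fun m => ψ (x :: m)) := rfl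
    rw [e, this]
    ring

theorem d_smul (c : k) (φ : List X → k) (l : List X) : d (c • φ) l = c * d φ l := by
  induction l generalizing φ with
  | nil => simp
  | cons x l ih =>
    rw [d_cons, d_cons, Pi.smul_apply]
    have := ih (fun m => φ (x :: m))
    have e : (fun m => (c • φ) (x :: m)) = c • (fun m => φ (x :: m)) := rfl
    rw [e, this, smul_eq_mul]
    ring

/-- `d` as a linear map -/
def dL (k : Type u) [Field k] (X : Type v) : (List X → k) →ₗ[k] (List X → k) where
  toFun φ := d φ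
  map_add' φ ψ := funext fun l => d_add φ ψ l
  map_smul' c φ := funext fun l => by
    rw [d_smul, RingHom.id_apply, Pi.smul_apply, smul_eq_mul]

@[simp] theorem dL_apply (φ : List X → k) : dL k X φ = d φ := rfl

theorem d_map (p : X → Y) (φ : List Y → k) (l : List X) :
    d (fun m => φ (m.map p)) l = d φ (l.map p) := by
  induction l generalizing φ with
  | nil => simp
  | cons x l ih =>
    rw [List.map_cons, d_cons, d_cons, ← ih (fun m => φ (p x :: m))]
    simp only [List.map_cons]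

/-- pull back of cochains -/
def pull (k : Type u) [Field k] (p : X → Y) : (List Y → k) →ₗ[k] (List X → k) where
  toFun φ := fun m => φ (m.map p)
  map_add' _ _ := rfl
  map_smul' _ _ := rfl

@[simp] theorem pull_apply (p : X → Y) (φ : List Y → k) (m : List X) :
    pull k p φ m = φ (m.map p) := rfl

theorem d_pull (p : X → Y) (φ : List Y → k) : d (pull k p φ) = pull k p (d φ) :=
  funext fun l => d_map p φ l

/-- locality of `d` -/
theorem d_eq_zero_of {φ : List X → k} {l : List X} (h : ∀ m : List X, (∀ x ∈ m, x ∈ l) → φ m = 0) :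
    d φ l = 0 := by
  induction l generalizing φ with
  | nil => rfl
  | cons x l ih =>
    rw [d_cons, h l (fun y hy => List.mem_cons_of_mem _ hy), ih, sub_zero]
    intro m hm
    apply h
    intro y hy
    rcases List.mem_cons.1 hy with rfl | hy
    · exact List.mem_cons_self
    · exact List.mem_cons_of_mem _ (hm y hy)

variable [TopologicalSpace X] [TopologicalSpace Y]

/-- cochains vanishing near the base point -/
def S (k : Type u) [Field k] (pt : X) : Submodule k (List X → k) where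
  carrier := {φ | ∃ N ∈ 𝓝 pt, ∀ l : List X, (∀ x ∈ l, x ∈ N) → φ l = 0}
  zero_mem' := ⟨univ, univ_mem, fun _ _ => rfl⟩
  add_mem' := by
    rintro φ ψ ⟨N, hN, h⟩ ⟨N', hN', h'⟩
    refine ⟨N ∩ N', inter_mem hN hN', fun l hl => ?_⟩
    rw [Pi.add_apply, h l fun x hx => (hl x hx).1, h' l fun x hx => (hl x hx).2, add_zero]
  smul_mem' := by
    rintro c φ ⟨N, hN, h⟩
    refine ⟨N, hN, fun l hl => ?_⟩
    rw [Pi.smul_apply, h l hl, smul_zero]

/-- cochains vanishing near the diagonal -/
def LZ (k : Type u) [Field k] (X : Type v) [TopologicalSpace X] : Submodule k (List X → k) where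
  carrier := {φ | ∃ W : Set (X × X), (∀ x, W ∈ 𝓝 (x, x)) ∧
    ∀ l : List X, (∀ x ∈ l, ∀ y ∈ l, (x, y) ∈ W) → φ l = 0}
  zero_mem' := ⟨univ, fun _ => univ_mem, fun _ _ => rfl⟩
  add_mem' := by
    rintro φ ψ ⟨N, hN, h⟩ ⟨N', hN', h'⟩
    refine ⟨N ∩ N', fun x => inter_mem (hN x) (hN' x), fun l hl => ?_⟩
    rw [Pi.add_apply, h l fun x hx y hy => (hl x hx y hy).1,
      h' l fun x hx y hy => (hl x hx y hy).2, add_zero]
  smul_mem' := by
    rintro c φ ⟨N, hN, h⟩
    refine ⟨N, hN, fun l hl => ?_⟩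
    rw [Pi.smul_apply, h l hl, smul_zero]

theorem mem_S {pt : X} {φ : List X → k} :
    φ ∈ S k pt ↔ ∃ N ∈ 𝓝 pt, ∀ l : List X, (∀ x ∈ l, x ∈ N) → φ l = 0 := Iff.rfl

theorem mem_LZ {φ : List X → k} :
    φ ∈ LZ k X ↔ ∃ W : Set (X × X), (∀ x, W ∈ 𝓝 (x, x)) ∧
      ∀ l : List X, (∀ x ∈ l, ∀ y ∈ l, (x, y) ∈ W) → φ l = 0 := Iff.rfl

theorem d_mem_S {pt : X} {φ : List X → k} (h : φ ∈ S k pt) : d φ ∈ S k pt := by
  obtain ⟨N, hN, h⟩ := h
  exact ⟨N, hN, fun l hl => d_eq_zero_of fun m hm => h m fun x hx => hl x (hm x hx)⟩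

theorem d_mem_LZ {φ : List X → k} (h : φ ∈ LZ k X) : d φ ∈ LZ k X := by
  obtain ⟨N, hN, h⟩ := h
  exact ⟨N, hN, fun l hl => d_eq_zero_of fun m hm => h m fun x hx y hy =>
    hl x (hm x hx) y (hm y hy)⟩

theorem pull_mem_S {p : X → Y} {pt : X} (hp : ContinuousAt p pt) {φ : List Y → k}
    (h : φ ∈ S k (p pt)) : pull k p φ ∈ S k pt := by
  obtain ⟨N, hN, h⟩ := h
  refine ⟨p ⁻¹' N, hp hN, fun l hl => h _ fun y hy => ?_⟩
  obtain ⟨x, hx, rfl⟩ := List.mem_map.1 hy
  exact hl x hx

theorem pull_mem_LZ {p : X → Y} (hp : Continuous p) {φ : List Y → k}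
    (h : φ ∈ LZ k Y) : pull k p φ ∈ LZ k X := by
  obtain ⟨N, hN, h⟩ := h
  refine ⟨(Prod.map p p) ⁻¹' N, fun x => ?_, fun l hl => h _ fun y hy z hz => ?_⟩
  · exact (hp.prodMap hp).continuousAt.preimage_mem_nhds (hN (p x))
  · obtain ⟨x, hx, rfl⟩ := List.mem_map.1 hy
    obtain ⟨x', hx', rfl⟩ := List.mem_map.1 hz
    exact hl x hx x' hx'

end defs

/-! ## the quotient by a finite group acting freely off the base point -/

/-- action data -/
structure Act (G : Type*) [Group G] (X : Type*) [TopologicalSpace X] where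
  /-- the action -/
  a : G → X → X
  one : ∀ x, a 1 x = x
  mul : ∀ g h x, a (g * h) x = a g (a h x)
  cont : ∀ g, Continuous (a g)

/-- quotient data: `p` is the orbit map -/
structure IsQuo {G : Type*} [Group G] {X Y : Type*} [TopologicalSpace X] [TopologicalSpace Y]
    (A : Act G X) (p : X → Y) : Prop where
  cont : Continuous p
  surj : Function.Surjective p
  fib : ∀ x x', p x = p x' ↔ ∃ g : G, A.a g x = x'

section main

variable {G : Type*} [Group G] [Finite G] {X Y : Type*} [TopologicalSpace X] [TopologicalSpace Y]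
  {A : Act G X} {p : X → Y}

omit [Finite G] in
theorem Act.inv_left (A : Act G X) (g : G) (x : X) : A.a g⁻¹ (A.a g x) = x := by
  rw [← A.mul, inv_mul_cancel, A.one]

omit [Finite G] in
theorem Act.inv_right (A : Act G X) (g : G) (x : X) : A.a g (A.a g⁻¹ x) = x := by
  rw [← A.mul, mul_inv_cancel, A.one]

theorem Act.exists_nhds (A : Act G X) {pt : X} (hfix : ∀ g, A.a g pt = pt) {N : Set X}
    (hN : N ∈ 𝓝 pt) : ∃ N' ⊆ N, IsOpen N' ∧ pt ∈ N' ∧ ∀ g, ∀ x ∈ N', A.a g x ∈ N' := by
  obtain ⟨O, hO, hOo, hpO⟩ := mem_nhds_iff.1 hN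
  refine ⟨⋂ g, A.a g ⁻¹' O, ?_, isOpen_iInter_of_finite fun g => hOo.preimage (A.cont g), ?_, ?_⟩
  · intro x hx
    have := mem_iInter.1 hx 1
    rw [mem_preimage, A.one] at this
    exact hO this
  · exact mem_iInter.2 fun g => by rw [mem_preimage, hfix]; exact hpO
  · intro g x hx
    refine mem_iInter.2 fun h => ?_
    rw [mem_preimage, ← A.mul]
    exact mem_iInter.1 hx (h * g)

variable [CompactSpace X] [T2Space X] [T2Space Y]

theorem Act.exists_entourage (A : Act G X) {W : Set (X × X)} (hW : ∀ x, W ∈ 𝓝 (x, x)) :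
    ∃ E : Set (X × X), (∀ x, E ∈ 𝓝 (x, x)) ∧ (∀ x y, (x, y) ∈ E → (y, x) ∈ E) ∧
      (∀ x y z, (x, y) ∈ E → (y, z) ∈ E → (x, z) ∈ W) ∧
      (∀ g x y, (x, y) ∈ E → (A.a g x, A.a g y) ∈ E) := by
  let _ : UniformSpace X := uniformSpaceOfCompactR1
  have hWU : W ∈ uniformity X := by
    rw [compactSpace_uniformity]
    exact mem_iSup.2 fun x => hW x
  obtain ⟨E0, hE0, hsym, hcomp⟩ := comp_symm_mem_uniformity_sets hWU
  refine ⟨⋂ g, (Prod.map (A.a g) (A.a g)) ⁻¹' E0, fun x => ?_, ?_, ?_, ?_⟩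
  · refine (iInter_mem.2 fun g => ?_)
    have h1 : E0 ∈ 𝓝 (A.a g x, A.a g x) := by
      have : 𝓝 (A.a g x, A.a g x) ≤ uniformity X := by
        rw [compactSpace_uniformity]; exact le_iSup (fun x : X => 𝓝 (x, x)) _
      exact this hE0
    exact ((A.cont g).prodMap (A.cont g)).continuousAt.preimage_mem_nhds h1
  · intro x y h
    refine mem_iInter.2 fun g => ?_
    have := mem_iInter.1 h g
    exact hsym.symm _ _ this
  · intro x y z h h'
    have h1 := mem_iInter.1 h 1
    have h2 := mem_iInter.1 h' 1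
    rw [mem_preimage, Prod.map_apply, A.one, A.one] at h1 h2
    exact hcomp ⟨y, h1, h2⟩
  · intro g x y h
    refine mem_iInter.2 fun g' => ?_
    have := mem_iInter.1 h (g' * g)
    rw [mem_preimage, Prod.map_apply] at this ⊢
    rwa [← A.mul, ← A.mul]

omit [Finite G] [T2Space X] in
theorem IsQuo.isOpenMap (hq : IsQuo A p) : IsOpenMap p := by
  intro O hO
  have hQ : IsQuotientMap p := hq.cont.isClosedMap.isQuotientMap hq.cont hq.surj
  rw [← hQ.isOpen_preimage]
  have : p ⁻¹' (p '' O) = ⋃ g, A.a g ⁻¹' O := by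
    ext x
    constructor
    · rintro ⟨y, hy, hyx⟩
      obtain ⟨g, hg⟩ := (hq.fib x y).1 hyx.symm
      exact mem_iUnion.2 ⟨g, by rw [mem_preimage, hg]; exact hy⟩
    · intro hx
      obtain ⟨g, hg⟩ := mem_iUnion.1 hx
      exact ⟨A.a g x, hg, ((hq.fib x _).2 ⟨g, rfl⟩).symm⟩
  rw [this]
  exact isOpen_iUnion fun g => hO.preimage (A.cont g)

variable {k : Type*} [Field k]

/-- (Q1) -/
theorem Q1 (hq : IsQuo A p) {f : List Y → k} (h : pull k p f ∈ LZ k X) : f ∈ LZ k Y := by
  obtain ⟨W, hW, h⟩ := h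
  obtain ⟨E, hE, hsym, hcomp, hinv⟩ := A.exists_entourage hW
  refine ⟨Prod.map p p '' E, fun y => ?_, fun l hl => ?_⟩
  · obtain ⟨x, rfl⟩ := hq.surj y
    exact (hq.isOpenMap.prodMap hq.isOpenMap).image_mem_nhds (hE x)
  · cases l with
    | nil => exact h [] (by simp)
    | cons y0 l' =>
      obtain ⟨x0, hx0⟩ := hq.surj y0
      have key : ∀ y, ∃ x, y ∈ (y0 :: l') → p x = y ∧ (x0, x) ∈ E := by
        intro y
        by_cases hy : y ∈ (y0 :: l')
        · obtain ⟨⟨x1, x2⟩, hx, he⟩ := hl y0 List.mem_cons_self y hy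
          have he1 : p x1 = y0 := congrArg Prod.fst he
          have he2 : p x2 = y := congrArg Prod.snd he
          obtain ⟨g, hg⟩ := (hq.fib x1 x0).1 (he1.trans hx0.symm)
          refine ⟨A.a g x2, fun _ => ⟨?_, ?_⟩⟩
          · rw [← he2]; exact ((hq.fib x2 _).2 ⟨g, rfl⟩).symm
          · rw [← hg]; exact hinv g _ _ hx
        · exact ⟨x0, fun h => absurd h hy⟩
      choose s hs using key
      have hmap : ((y0 :: l').map s).map p = y0 :: l' := by
        rw [List.map_map]
        conv_rhs => rw [← List.map_id (y0 :: l')]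
        exact List.map_congr_left fun y hy => (hs y hy).1
      have h2 := h ((y0 :: l').map s) ?_
      · rw [pull_apply, hmap] at h2
        exact h2
      · intro x hx x' hx'
        obtain ⟨y, hy, rfl⟩ := List.mem_map.1 hx
        obtain ⟨y', hy', rfl⟩ := List.mem_map.1 hx'
        exact hcomp _ _ _ (hsym _ _ (hs y hy).2) (hs y' hy').2

/-- exactly invariant cochains -/
def Inv (A : Act G X) (φ : List X → k) : Prop := ∀ g, ∀ l : List X, φ (l.map (A.a g)) = φ l

/-- (Q2) -/
theorem Q2 (hq : IsQuo A p) {pt : X} (hfix : ∀ g, A.a g pt = pt)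
    (hfree : ∀ g x, x ≠ pt → A.a g x = x → g = 1) {F : List X → k} (hF : F ∈ S k pt)
    (hinvF : Inv A F) : ∃ f ∈ S k (p pt), pull k p f - F ∈ LZ k X := by
  classical
  obtain ⟨N0, hN0, hF0⟩ := hF
  obtain ⟨N, hNN, hNo, hptN, hNinv⟩ := A.exists_nhds hfix hN0
  have hF1 : ∀ l : List X, (∀ x ∈ l, x ∈ N) → F l = 0 := fun l hl =>
    hF0 l fun x hx => hNN (hl x hx)
  have hKinv : ∀ g x, x ∈ Nᶜ → A.a g x ∈ Nᶜ := by
    intro g x hx hx'
    apply hx
    have := hNinv g⁻¹ _ hx'
    rwa [A.inv_left] at this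
  -- the bad set
  set D : Set (X × X) := ⋂ h : G, {q : X × X | h ≠ 1 → q ∉ (fun u => (u, A.a h u)) '' Nᶜ} with hD
  have hDn : ∀ x, D ∈ 𝓝 (x, x) := by
    intro x
    refine iInter_mem.2 fun h => ?_
    by_cases hh : h = 1
    · refine univ_mem' fun q h1 => absurd hh h1
    · have hc : IsCompact ((fun u => (u, A.a h u)) '' Nᶜ) :=
        (hNo.isClosed_compl.isCompact).image (continuous_id.prodMk (A.cont h))
      have hx : (x, x) ∈ ((fun u => (u, A.a h u)) '' Nᶜ)ᶜ := by
        rintro ⟨u, hu, he⟩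
        have h1 : u = x := congrArg Prod.fst he
        have h2 : A.a h u = x := congrArg Prod.snd he
        refine hh (hfree h u ?_ (h2.trans h1.symm))
        rintro rfl
        exact hu hptN
      filter_upwards [hc.isClosed.isOpen_compl.mem_nhds hx] with q hq' _ using hq'
  obtain ⟨E, hE, hsym, hcomp, hinv⟩ := A.exists_entourage hDn
  have hkey : ∀ u h, u ∈ Nᶜ → (u, A.a h u) ∈ D → h = 1 := by
    intro u h hu hd
    by_contra hh
    exact mem_iInter.1 hd h hh ⟨u, hu, rfl⟩
  -- good lifts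
  let Good : List Y → List X → Prop := fun l L =>
    L.map p = l ∧ (∀ x ∈ L, ∀ y ∈ L, (x, y) ∈ E) ∧ ∃ x ∈ L, x ∈ Nᶜ
  have huniq : ∀ l L L', Good l L → Good l L' → F L' = F L := by
    rintro l L L' ⟨h1, h2, x, hx, hxK⟩ ⟨h1', h2', -⟩
    have hlen : L.length = L'.length := by
      have := congrArg List.length (h1.trans h1'.symm)
      simpa using this
    obtain ⟨i, hi, hxi⟩ := List.mem_iff_getElem.1 hx
    have hp : ∀ (j : ℕ) (hj : j < L.length) (hj' : j < L'.length), p L[j] = p L'[j] := by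
      intro j hj hj'
      have e : (L.map p)[j]'(by simpa using hj) = (L'.map p)[j]'(by simpa using hj') := by
        simp only [h1, h1']
      simpa using e
    obtain ⟨g, hg⟩ := (hq.fib _ _).1 (hp i hi (hlen ▸ hi))
    have hLL : L' = L.map (A.a g) := by
      apply List.ext_getElem
      · simp [hlen]
      · intro j hj hj2
        have hjL : j < L.length := hlen ▸ hj
        rw [List.getElem_map]
        obtain ⟨g', hg'⟩ := (hq.fib _ _).1 (hp j hjL hj)
        -- u = g x_i, z = g x_j, h z = g' x_j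
        have hu : A.a g L[i] ∈ Nᶜ := hKinv g _ (by rw [hxi]; exact hxK)
        have e1 : (A.a g L[i], A.a g L[j]) ∈ E :=
          hinv g _ _ (h2 _ (List.getElem_mem hi) _ (List.getElem_mem hjL))
        have e2 : (A.a g L[i], L'[j]) ∈ E := by
          rw [hg]
          exact h2' _ (List.getElem_mem _) _ (List.getElem_mem hj)
        have e3 : A.a (g' * g⁻¹) (A.a g L[j]) = L'[j] := by
          rw [A.mul, A.inv_left, hg']
        have e4 : (A.a (g' * g⁻¹) (A.a g L[i]), L'[j]) ∈ E := by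
          rw [← e3]; exact hinv _ _ _ e1
        have e5 := hcomp _ _ _ e2 (hsym _ _ e4)
        have e6 := hkey _ _ hu e5
        rw [← e3, e6, A.one]
    rw [hLL]
    exact hinvF g L
  let f : List Y → k := fun l => if h : ∃ L, Good l L then F (Classical.choose h) else 0
  have hf1 : ∀ l L, Good l L → f l = F L := by
    intro l L hL
    have h : ∃ L, Good l L := ⟨L, hL⟩
    have : f l = F (Classical.choose h) := dif_pos h
    rw [this]
    exact huniq l L _ hL (Classical.choose_spec h)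
  have hf0 : ∀ l, (¬ ∃ L, Good l L) → f l = 0 := fun l h => dif_neg h
  refine ⟨f, ⟨p '' N, ?_, ?_⟩, ⟨E, hE, ?_⟩⟩
  · exact hq.isOpenMap.image_mem_nhds (hNo.mem_nhds hptN)
  · intro l hl
    apply hf0
    rintro ⟨L, hL1, -, x, hx, hxK⟩
    have : p x ∈ l := by rw [← hL1]; exact List.mem_map_of_mem hx
    obtain ⟨x', hx', he⟩ := hl _ this
    obtain ⟨g, hg⟩ := (hq.fib _ _).1 he
    exact hxK (hg ▸ hNinv g x' hx')
  · intro L hL
    rw [Pi.sub_apply, pull_apply]
    by_cases h : ∃ x ∈ L, x ∈ Nᶜ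
    · rw [hf1 (L.map p) L ⟨rfl, hL, h⟩, sub_self]
    · have hLN : ∀ x ∈ L, x ∈ N := by
        intro x hx
        by_contra hxN
        exact h ⟨x, hx, hxN⟩
      rw [hF1 L hLN, sub_zero]
      apply hf0
      rintro ⟨L', hL1, -, x, hx, hxK⟩
      have h1 : p x ∈ L.map p := by rw [← hL1]; exact List.mem_map_of_mem hx
      obtain ⟨x', hx', he⟩ := List.mem_map.1 h1
      obtain ⟨g, hg⟩ := (hq.fib _ _).1 he
      exact hxK (hg ▸ hNinv g x' (hLN x' hx'))

/-! ### averaging -/

omit [Finite G] [CompactSpace X] [T2Space X] [T2Space Y] in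
theorem pull_inv (hq : IsQuo A p) (f : List Y → k) : Inv A (pull k p f) := by
  intro g l
  rw [pull_apply, pull_apply, List.map_map]
  congr 1
  exact List.map_congr_left fun x _ => ((hq.fib x _).2 ⟨g, rfl⟩).symm

/-- the average of a cochain over the group -/
def avg (k : Type*) [Field k] [Fintype G] (A : Act G X) : (List X → k) →ₗ[k] (List X → k) :=
  (Fintype.card G : k)⁻¹ • ∑ g : G, pull k (A.a g)

omit [Finite G] [CompactSpace X] [T2Space X] in
theorem avg_apply [Fintype G] (φ : List X → k) (l : List X) :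
    avg k A φ l = (Fintype.card G : k)⁻¹ * ∑ g : G, φ (l.map (A.a g)) := by
  simp [avg]

omit [Finite G] [CompactSpace X] [T2Space X] in
theorem avg_inv [Fintype G] (φ : List X → k) : Inv A (avg k A φ) := by
  intro g l
  rw [avg_apply, avg_apply]
  congr 1
  rw [← Equiv.sum_comp (Equiv.mulRight g) (fun h => φ (l.map (A.a h)))]
  refine Finset.sum_congr rfl fun h _ => ?_
  rw [List.map_map]
  congr 1
  exact List.map_congr_left fun x _ => (A.mul h g x).symm

omit [Finite G] [CompactSpace X] [T2Space X] in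
theorem avg_of_inv [Fintype G] (hG : (Fintype.card G : k) ≠ 0) {φ : List X → k} (h : Inv A φ) :
    avg k A φ = φ := by
  funext l
  rw [avg_apply]
  have : ∑ g : G, φ (l.map (A.a g)) = (Fintype.card G : k) * φ l := by
    rw [Finset.sum_congr rfl (fun g _ => h g l), Finset.sum_const, Finset.card_univ, nsmul_eq_mul]
  rw [this, inv_mul_cancel_left₀ hG]

omit [Finite G] [CompactSpace X] [T2Space X] in
theorem d_avg [Fintype G] (φ : List X → k) : d (avg k A φ) = avg k A (d φ) := by
  have h : (dL k X) (avg k A φ) = avg k A (dL k X φ) := by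
    rw [avg, LinearMap.smul_apply, LinearMap.smul_apply, map_smul, LinearMap.sum_apply,
      LinearMap.sum_apply, map_sum]
    congr 1
    refine Finset.sum_congr rfl fun g _ => ?_
    exact d_pull _ _
  exact h

omit [Finite G] [CompactSpace X] [T2Space X] in
theorem avg_mem [Fintype G] {M : Submodule k (List X → k)}
    (hM : ∀ g, ∀ φ ∈ M, pull k (A.a g) φ ∈ M) {φ : List X → k} (h : φ ∈ M) :
    avg k A φ ∈ M := by
  rw [avg, LinearMap.smul_apply, LinearMap.sum_apply]
  exact M.smul_mem _ (M.sum_mem fun g _ => hM g φ h)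

omit [Finite G] [CompactSpace X] [T2Space X] in
theorem avg_mem_S [Fintype G] {pt : X} (hfix : ∀ g, A.a g pt = pt) {φ : List X → k}
    (h : φ ∈ S k pt) : avg k A φ ∈ S k pt := by
  refine avg_mem (fun g φ hφ => pull_mem_S (A.cont g).continuousAt ?_) h
  rw [hfix]; exact hφ

omit [Finite G] [CompactSpace X] [T2Space X] in
theorem avg_mem_LZ [Fintype G] {φ : List X → k} (h : φ ∈ LZ k X) : avg k A φ ∈ LZ k X :=
  avg_mem (fun g _ hφ => pull_mem_LZ (A.cont g) hφ) h

/-- surjectivity of `h Y → (h X)^G` on representatives -/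
theorem quot_surj (hq : IsQuo A p) {pt : X} (hfix : ∀ g, A.a g pt = pt)
    (hfree : ∀ g x, x ≠ pt → A.a g x = x → g = 1) (hG : (Nat.card G : k) ≠ 0)
    {F : List X → k} (hF : F ∈ S k pt) (hdF : d F ∈ LZ k X)
    (hinv : ∀ g, ∃ ψ ∈ S k pt, pull k (A.a g) F - F - d ψ ∈ LZ k X) :
    ∃ f ∈ S k (p pt), d f ∈ LZ k Y ∧ ∃ ψ ∈ S k pt, pull k p f - F - d ψ ∈ LZ k X := by
  classical
  cases nonempty_fintype G
  rw [Nat.card_eq_fintype_card] at hG
  obtain ⟨f, hf, hfF⟩ := Q2 hq hfix hfree (avg_mem_S hfix hF) (avg_inv F)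
  choose ψ hψ hψ' using hinv
  refine ⟨f, hf, Q1 hq ?_, (Fintype.card G : k)⁻¹ • ∑ g : G, ψ g,
    Submodule.smul_mem _ _ (Submodule.sum_mem _ fun g _ => hψ g), ?_⟩
  · rw [← d_pull]
    have e : d (pull k p f) = d (pull k p f - avg k A F) + avg k A (d F) := by
      rw [← d_avg, ← dL_apply, ← dL_apply, ← dL_apply, ← map_add, sub_add_cancel]
    rw [e]
    exact (LZ k X).add_mem (d_mem_LZ hfF) (avg_mem_LZ hdF)
  · have e : pull k p f - F - d ((Fintype.card G : k)⁻¹ • ∑ g : G, ψ g) =
        (pull k p f - avg k A F) +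
          (Fintype.card G : k)⁻¹ • ∑ g : G, (pull k (A.a g) F - F - d (ψ g)) := by
      rw [← dL_apply, map_smul, map_sum, Finset.sum_sub_distrib, Finset.sum_sub_distrib,
        Finset.sum_const, Finset.card_univ, smul_sub, smul_sub, avg, LinearMap.smul_apply,
        LinearMap.sum_apply, ← Nat.cast_smul_eq_nsmul k, smul_smul, inv_mul_cancel₀ hG, one_smul]
      simp only [dL_apply]
      abel
    rw [e]
    exact (LZ k X).add_mem hfF (Submodule.smul_mem _ _ (Submodule.sum_mem _ fun g _ => hψ' g))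

/-- injectivity of `h Y → h X` on representatives -/
theorem quot_inj (hq : IsQuo A p) {pt : X} (hfix : ∀ g, A.a g pt = pt)
    (hfree : ∀ g x, x ≠ pt → A.a g x = x → g = 1) (hG : (Nat.card G : k) ≠ 0)
    {f : List Y → k}
    (h : ∃ ψ ∈ S k pt, pull k p f - d ψ ∈ LZ k X) :
    ∃ χ ∈ S k (p pt), f - d χ ∈ LZ k Y := by
  classical
  cases nonempty_fintype G
  rw [Nat.card_eq_fintype_card] at hG
  obtain ⟨ψ, hψ, hfψ⟩ := h
  obtain ⟨χ, hχ, hχψ⟩ := Q2 hq hfix hfree (avg_mem_S hfix hψ) (avg_inv ψ)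
  refine ⟨χ, hχ, Q1 hq ?_⟩
  have e : pull k p (f - d χ) =
      avg k A (pull k p f - d ψ) - d (pull k p χ - avg k A ψ) := by
    rw [map_sub, ← d_pull, map_sub, avg_of_inv hG (pull_inv hq f), ← d_avg, ← dL_apply,
      ← dL_apply, ← dL_apply, map_sub]
    abel
  rw [e]
  exact (LZ k X).sub_mem (avg_mem_LZ hfψ) (d_mem_LZ hχψ)

end main

end Crest.Agent.R090.ASQuot_149
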