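import Crest.Agent.R090.Start5_902
import Crest.Agent.R090.Prod_202

/-!
# Row 90, A-START (owner helper902), part 6: the starting object of block (A)

* `snull_left`, `snull_right`, `snull_smR`, `idQ_left`, `idQ_smR` : closure of `SNull`, `IdQ`;
* `start` : for `HasCells V D`, `c + 1` prime, there are a level `n` and a pointed map
  `φ : PMap (V^r × ℂ^n) (V^r × ℂ^n)`, `r = yr D c`, which represents the Young element, is in every
  ideal `IdQ (c+1) Z` which contains the Young element, and has `L (φ^j) = M^j k`, `j ≥ 1`, `k > 0`;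
* `start_lim` : so `j ↦ L (φ^j)` is a sequence of integers with the `(c+1)`-adic limit `k ≠ 0`.
-/

set_option autoImplicit false
set_option linter.unusedSectionVars false

open Topology Filter Set OnePoint
open Crest.Agent.R090.Sp962

namespace Crest.Agent.R090.Start902

open Crest.Agent.R090.F0_933 (HasCells)
open Crest.Agent.R090.CohT253 Crest.Agent.R090.HSt285 Crest.Agent.R090.Kun493
open Crest.Agent.R090.St528 Crest.Agent.R090.Spine Crest.Agent.R090.Sm202
open Crest.Agent.R090.Dens255 (iter iter_succ)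
open Crest.Agent.R090.Young152 (yr yF)

/-! ## closure properties of `SNull` and `IdQ` -/

section closure

variable {X Y Z X' Y' : Type} [TopologicalSpace X] [T2Space X] [LocallyCompactSpace X]
  [TopologicalSpace Y] [T2Space Y] [LocallyCompactSpace Y]
  [TopologicalSpace Z] [T2Space Z] [LocallyCompactSpace Z]
  [TopologicalSpace X'] [T2Space X'] [LocallyCompactSpace X']
  [TopologicalSpace Y'] [T2Space Y'] [LocallyCompactSpace Y']

theorem snull_left (u : St Y Z) {x : St X Y} (h : SNull x) : SNull (u.comp x) := by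
  intro T _ _ _ j g
  rw [smR_comp, ← St.comp_assoc]
  exact h T j (g.comp (u.smR T))

theorem snull_right {x : St Y Z} (h : SNull x) (v : St X Y) : SNull (x.comp v) := by
  intro T _ _ _ j g
  rw [smR_comp, ← St.comp_assoc, h T j g, St.zero_comp]

theorem snull_smR {x : St X Y} (h : SNull x) (W : Type) [TopologicalSpace W] [T2Space W]
    [LocallyCompactSpace W] : SNull (x.smR W) := by
  intro T _ _ _ j g
  have e : (x.smR W).smR T =
      (sh (asC Y W T).symm).comp ((x.smR (W × T)).comp (sh (asC X W T))) := by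
    rw [SmIso528.smR_smR, SmIso528.cj]
    simp only [St.comp_assoc, sh_symm_comp, St.comp_id, sh_symm_comp_assoc]
  rw [e, ← St.comp_assoc, ← St.comp_assoc, h (W × T) j, St.zero_comp]

theorem tens_eq_prod (a : St X X') (b : St Y Y') : tens a b = a.prod b := rfl

theorem tens_smR (a : St X X') (b : St Y Y') (W : Type) [TopologicalSpace W] [T2Space W]
    [LocallyCompactSpace W] :
    tens a (b.smR W) = (sh (asC X' Y' W)).comp (((tens a b).smR W).comp (sh (asC X Y W).symm)) := by
  rw [tens_eq_prod, tens_eq_prod, ← prod_id_right b W, ← prod_id_right (a.prod b) W, Sm202.prod_assoc]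

theorem tens_comp_right (a : St X X') (b : St Y Z) (b' : St Y' Y) :
    tens a (b.comp b') = (b.smL X').comp (tens a b') := by
  rw [tens_eq_prod, tens_eq_prod, ← prod_id_left b X', ← prod_comp, St.id_comp]

theorem tens_comp_right' (a : St X X') (b : St Y Z) (b' : St Y' Y) :
    tens a (b.comp b') = (tens a b).comp (b'.smL X) := by
  rw [tens_eq_prod, tens_eq_prod, ← prod_id_left b' X, ← prod_comp, St.comp_id]

variable {M : Type} [TopologicalSpace M] [T2Space M] [LocallyCompactSpace M] {q : ℕ} {S₀ : Set M}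
  [Fact (IsClosed S₀)]

theorem idQ_left (u : St Y Z) {g : St X Y} (h : IdQ q S₀ g) : IdQ q S₀ (u.comp g) := by
  obtain ⟨l, hl⟩ := h
  refine ⟨l, fun K s => ?_⟩
  obtain ⟨n, hn, hx⟩ := hl K s
  refine ⟨n, hn, ?_⟩
  rw [tens_comp_right, ← St.comp_nsmul]
  exact snull_left _ hx

theorem idQ_right {g : St Y Z} (h : IdQ q S₀ g) (v : St X Y) : IdQ q S₀ (g.comp v) := by
  obtain ⟨l, hl⟩ := h
  refine ⟨l, fun K s => ?_⟩
  obtain ⟨n, hn, hx⟩ := hl K s
  refine ⟨n, hn, ?_⟩
  rw [tens_comp_right', ← St.nsmul_comp]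
  exact snull_right hx _

theorem idQ_smR {g : St X Y} (h : IdQ q S₀ g) (W : Type) [TopologicalSpace W] [T2Space W]
    [LocallyCompactSpace W] : IdQ q S₀ (g.smR W) := by
  obtain ⟨l, hl⟩ := h
  refine ⟨l, fun K s => ?_⟩
  obtain ⟨n, hn, hx⟩ := hl K s
  refine ⟨n, hn, ?_⟩
  rw [tens_smR, ← St.comp_nsmul, ← St.nsmul_comp, ← smR_nsmul]
  exact snull_left _ (snull_right (snull_smR hx W) _)

end closure

/-! ## START -/

section start

variable {F : Type} [Field F] {H : CohX F} (K : KX H)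
include K

/-- **A-START** -/
theorem start {c D : ℕ} (hq : (c + 1).Prime) (V : Type) [TopologicalSpace V]
    [T2Space V] [LocallyCompactSpace V] (hV : HasCells V D) :
    ∃ (n : ℕ) (φ : PMap ((Fin (yr D c) → V) × (Fin n → ℂ)) ((Fin (yr D c) → V) × (Fin n → ℂ))),
      St.mk n φ = permSt V (yF D c) ∧
      (permSt V (yF D c)).smR (Fin n → ℂ) = St.ofP φ ∧
      H.toCoh.Fin (Fin (yr D c) → V) ∧
      H.toCoh.Fin ((Fin (yr D c) → V) × (Fin n → ℂ)) ∧
      ∃ k : ℕ, 0 < k ∧ ∀ j : ℕ, H.toCoh.L (iter φ (j + 1)) =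
        ((Young152.M D c ^ (j + 1) * k : ℤ) : F) := by
  obtain ⟨Λ⟩ := exists_lab hV
  obtain ⟨n, φ, hφ⟩ := St.mk_surj (permSt V (yF D c))
  obtain ⟨hfin, k, hk, htr⟩ := yE_trace H.toCoh Λ (fun h => hhom' H h) (fun U => hemp' H U)
    (hcell' K) (hL' K) hq le_rfl
  refine ⟨n, φ, hφ.symm, ?_, hfin, fin_level H hfin n, k, hk, fun j => ?_⟩
  · rw [hφ]
    exact SmIso528.mk_smR_level n φ
  · rw [L_iter_level, ← hφ, hst_permSt]
    exact htr j

/-- **A-START, `q`-adic form** -/
theorem start_lim {c D : ℕ} (hq : (c + 1).Prime) (V : Type) [TopologicalSpace V]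
    [T2Space V] [LocallyCompactSpace V] (hV : HasCells V D) :
    ∃ (n : ℕ) (φ : PMap ((Fin (yr D c) → V) × (Fin n → ℂ)) ((Fin (yr D c) → V) × (Fin n → ℂ))),
      (permSt V (yF D c)).smR (Fin n → ℂ) = St.ofP φ ∧
      (∀ (M : Type) [TopologicalSpace M] [T2Space M] [LocallyCompactSpace M] (Z : Set M)
        [Fact (IsClosed Z)] (q : ℕ), IdQ q Z (permSt V (yF D c)) → IdQ q Z (St.ofP φ)) ∧
      ∃ (a : ℕ → ℤ) (d : ℤ), (∀ j : ℕ, 1 ≤ j → (a j : F) = H.toCoh.L (iter φ j)) ∧ d ≠ 0 ∧
        PowA253.Lim (c + 1) a d := by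
  obtain ⟨n, φ, -, h2, -, -, k, hk, hL⟩ := start K hq V hV
  refine ⟨n, φ, h2, ?_, fun j => Young152.M D c ^ j * k, k, ?_, by exact_mod_cast hk.ne',
    PowA253.Lim.pow hq (Young152.not_dvd_M hq)⟩
  · intro M _ _ _ Z _ q h
    rw [← h2]
    exact idQ_smR h _
  · intro j hj
    obtain ⟨j, rfl⟩ : ∃ i, j = i + 1 := ⟨j - 1, by omega⟩
    exact (hL j).symm

end start

end Crest.Agent.R090.Start902
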