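import Crest.Agent.R090.AAsm_923
import Crest.Agent.R090.Good_812
import Crest.Agent.R090.Start6_902

/-!
# Row 90, block (A): `StartStmt` for the class `Good812.Good` (owner helper923)
-/

set_option autoImplicit false
set_option linter.unusedSectionVars false

open Topology Filter Set

namespace Crest.Agent.R090.AAsm923

open OnePoint Crest.Agent.R090.Sp962 Crest.Agent.R090.St528 Crest.Agent.R090.Spine
open Crest.Agent.R090.F0_933 Crest.Agent.R090.Young152 Crest.Agent.R090.AClass923
open Crest.Agent.R090.Dens255 (iter)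
open Crest.Agent.R090.AAsm542 (LFun)
open Crest.Agent.R090.HSt285 Crest.Agent.R090.Kun493

/-- the Lefschetz number of the theory `H` -/
noncomputable def lef (H : CohX ℚ) : LFun := fun _ _ _ _ φ => H.toCoh.L φ

/-- the class of good spaces -/
def goodP (H : CohX ℚ) : SpPred := fun U _ _ _ => Good812.Good H U

/-- **START** [902, 812] -/
theorem startStmt {H : CohX ℚ} (K : KX H) : StartStmt (goodP H) (lef H) := by
  intro c D hq hD V _ _ _ hV
  obtain ⟨n, φ, -, h2, -, -, k, hk, hL⟩ := Start902.start K hq V hV
  refine ⟨_, inferInstance, inferInstance, inferInstance,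
    Good812.good_pow_hasCells K hV (Fin (yr D c)) n, φ, Young152.M D c, k, Young152.not_dvd_M hq,
    by exact_mod_cast hk.ne', fun j hj => ?_, fun M _ _ _ Z _ h => ?_⟩
  · obtain ⟨j, rfl⟩ : ∃ i, j = i + 1 := ⟨j - 1, by omega⟩
    have := hL j
    rw [lef, this]
    push_cast
    rfl
  · rw [← h2]
    exact Start902.idQ_smR h _

end Crest.Agent.R090.AAsm923
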