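import Crest.Agent.R090.Pi_568

/-!
# Row 90, leaf A-INJ: spaces whose one point compactification injects in a euclidean space
(owner helper812)

`Inj U` : `OnePoint U` has an injective continuous map to some `Fin k → ℝ`.
The class is closed under closed and open subspaces, products, finite powers and quotients by
finite groups.
-/

set_option autoImplicit false

open Topology Filter Set

namespace Crest.Agent.R090.Inj812

open OnePoint
open Crest.Agent.R090.Sp962
open Crest.Agent.R090.Pi568

universe u v w x

/-- `U⁺` injects continuously in a euclidean space -/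
def Inj (U : Type u) [TopologicalSpace U] : Prop :=
  ∃ (k : ℕ) (j : OnePoint U → (Fin k → ℝ)), Continuous j ∧ Function.Injective j

section basic

variable {U : Type u} {V : Type v} {W : Type w}
variable [TopologicalSpace U] [TopologicalSpace V] [TopologicalSpace W]

/-- the target may be any finite dimensional normed space -/
theorem Inj.of_fd {E : Type*} [NormedAddCommGroup E] [NormedSpace ℝ E] [FiniteDimensional ℝ E]
    (j : OnePoint U → E) (hj : Continuous j) (hi : Function.Injective j) : Inj U := by
  have e : E ≃L[ℝ] (Fin (Module.finrank ℝ E) → ℝ) :=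
    ContinuousLinearEquiv.ofFinrankEq (by simp)
  exact ⟨_, fun a => e (j a), e.continuous.comp hj, e.injective.comp hi⟩

theorem Inj.of_finite {κ : Type*} [Finite κ] (j : OnePoint U → (κ → ℝ)) (hj : Continuous j)
    (hi : Function.Injective j) : Inj U := by
  have := Fintype.ofFinite κ
  exact Inj.of_fd j hj hi

/-- precomposition with a continuous injection -/
theorem Inj.of_injective (h : Inj V) (f : OnePoint U → OnePoint V) (hf : Continuous f)
    (hi : Function.Injective f) : Inj U := by
  obtain ⟨k, j, hj, hji⟩ := h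
  exact ⟨k, j ∘ f, hj.comp hf, hji.comp hi⟩

theorem Inj.homeo (h : Inj V) (e : U ≃ₜ V) : Inj U :=
  h.of_injective (PMap.ofHomeo e) (PMap.ofHomeo e).cont (e.onePointCongr.injective)

/-- closed subspaces -/
theorem Inj.closed (h : Inj V) (e : U → V) (he : IsClosedEmbedding e) : Inj U :=
  h.of_injective (PMap.ofClosed e he) (PMap.ofClosed e he).cont (by
    intro a b hab
    induction a using OnePoint.rec with
    | infty =>
      induction b using OnePoint.rec with
      | infty => rfl
      | coe b =>
        rw [PMap.map_inf, PMap.ofClosed_coe] at hab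
        exact absurd hab.symm (coe_ne_infty _)
    | coe a =>
      induction b using OnePoint.rec with
      | infty =>
        rw [PMap.map_inf, PMap.ofClosed_coe] at hab
        exact absurd hab (coe_ne_infty _)
      | coe b =>
        rw [PMap.ofClosed_coe, PMap.ofClosed_coe, coe_eq_coe] at hab
        rw [he.injective hab])

theorem Inj.closed_set (h : Inj U) {F : Set U} (hF : IsClosed F) : Inj F :=
  h.closed _ hF.isClosedEmbedding_subtypeVal

/-- **scaling lemma**: descend along a surjection `π : A → W⁺` from a compact space -/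
theorem Inj.of_scaled {A : Type*} [TopologicalSpace A] [CompactSpace A]
    [T2Space W] [LocallyCompactSpace W] {π : A → OnePoint W} (hπ : Continuous π)
    (hs : Function.Surjective π) {ρ : A → ℝ} (hρ : Continuous ρ) (h0 : ∀ a, ρ a = 0 ↔ π a = ∞)
    (hρπ : ∀ a b, π a = π b → ρ a = ρ b)
    {E : Type*} [NormedAddCommGroup E] [NormedSpace ℝ E] [FiniteDimensional ℝ E]
    {f : A → E} (hf : Continuous f)
    (hfπ : ∀ a b, π a ≠ ∞ → π b ≠ ∞ → (f a = f b ↔ π a = π b)) : Inj W := by
  have hq : IsQuotientMap π := hπ.isClosedMap.isQuotientMap hπ hs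
  have hwd : ∀ a b, π a = π b → (ρ a, ρ a • f a) = (ρ b, ρ b • f b) := by
    intro a b hab
    by_cases ha : π a = ∞
    · rw [(h0 a).2 ha, (h0 b).2 (hab ▸ ha)]
      simp
    · have hb : π b ≠ ∞ := hab ▸ ha
      rw [(hfπ a b ha hb).2 hab, hρπ a b hab]
  choose s hsec using hs
  refine Inj.of_fd (E := ℝ × E) (fun w => (ρ (s w), ρ (s w) • f (s w))) ?_ ?_
  · rw [hq.continuous_iff]
    have e : (fun w => (ρ (s w), ρ (s w) • f (s w))) ∘ π = fun a => (ρ a, ρ a • f a) := by
      funext a
      exact hwd _ _ (hsec (π a))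
    rw [e]
    exact hρ.prodMk (hρ.smul hf)
  · intro w w' h
    have h1 : ρ (s w) = ρ (s w') := congrArg Prod.fst h
    have h2 : ρ (s w) • f (s w) = ρ (s w') • f (s w') := congrArg Prod.snd h
    by_cases hw : ρ (s w) = 0
    · have a1 := (h0 _).1 hw
      have a2 := (h0 _).1 (h1 ▸ hw)
      rw [hsec] at a1 a2
      rw [a1, a2]
    · have hw' : ρ (s w') ≠ 0 := h1 ▸ hw
      rw [h1] at h2
      have h3 : f (s w) = f (s w') := smul_right_injective _ hw' h2
      have h4 := (hfπ _ _ (fun hc => hw ((h0 _).2 hc)) (fun hc => hw' ((h0 _).2 hc))).1 h3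
      rwa [hsec, hsec] at h4

/-- open subspaces -/
theorem Inj.open_emb [T2Space V] [LocallyCompactSpace V] [T2Space U] [LocallyCompactSpace U]
    (h : Inj V) (e : U → V) (he : IsOpenEmbedding e) : Inj U := by
  obtain ⟨k, j, hj, hji⟩ := h
  let C : Set (OnePoint V) := (PMap.ofOpen e he) ⁻¹' {∞}
  have hC : IsCompact C := (isClosed_infty.preimage (PMap.ofOpen e he).cont).isCompact
  have hCne : (j '' C).Nonempty := ⟨j ∞, ∞, (PMap.ofOpen e he).map_inf, rfl⟩
  have hCc : IsClosed (j '' C) := (hC.image hj).isClosed
  have h0 : ∀ a, Metric.infDist (j a) (j '' C) = 0 ↔ (PMap.ofOpen e he) a = ∞ := by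
    intro a
    rw [← hCc.mem_iff_infDist_zero hCne]
    constructor
    · rintro ⟨b, hb, hab⟩
      rw [← hji hab]; exact hb
    · intro ha
      exact ⟨a, ha, rfl⟩
  have hinj : ∀ a b, (PMap.ofOpen e he) a ≠ ∞ → (PMap.ofOpen e he) a = (PMap.ofOpen e he) b →
      a = b := by
    intro a b ha hab
    obtain ⟨x, hx⟩ := ne_infty_iff_exists.1 ha
    have h1 := (PMap.collapse_eq_coe e he).1 hx.symm
    have h2 := (PMap.collapse_eq_coe e he).1 (hab ▸ hx.symm)
    rw [h1, h2]
  refine Inj.of_scaled (π := PMap.ofOpen e he) (PMap.ofOpen e he).cont ?_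
    (ρ := fun a => Metric.infDist (j a) (j '' C)) ((Metric.continuous_infDist_pt _).comp hj) h0 ?_
    (f := j) hj ?_
  · intro x
    induction x using OnePoint.rec with
    | infty => exact ⟨∞, (PMap.ofOpen e he).map_inf⟩
    | coe x => exact ⟨_, PMap.ofOpen_coe e he x⟩
  · intro a b hab
    by_cases ha : (PMap.ofOpen e he) a = ∞
    · show Metric.infDist (j a) (j '' C) = Metric.infDist (j b) (j '' C)
      rw [(h0 a).2 ha, (h0 b).2 (hab ▸ ha)]
    · rw [hinj a b ha hab]
  · intro a b ha _
    exact ⟨fun h => by rw [hji h], fun h => by rw [hinj a b ha h]⟩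

theorem Inj.open_set [T2Space U] [LocallyCompactSpace U] (h : Inj U) {O : Set U} (hO : IsOpen O) :
    Inj O := by
  have : LocallyCompactSpace O := hO.locallyCompactSpace
  exact h.open_emb _ hO.isOpenEmbedding_subtypeVal

/-- products -/
theorem Inj.prod [T2Space U] [LocallyCompactSpace U] [T2Space V] [LocallyCompactSpace V]
    (h : Inj U) (h' : Inj V) : Inj (U × V) := by
  obtain ⟨k, j, hj, hji⟩ := h
  obtain ⟨k', j', hj', hji'⟩ := h'
  refine Inj.of_scaled (π := fun p : OnePoint U × OnePoint V => sm p.1 p.2) continuous_sm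
    sm_surjective (ρ := fun p => ‖j p.1 - j ∞‖ * ‖j' p.2 - j' ∞‖) ?_ ?_ ?_
    (f := fun p => (j p.1, j' p.2)) ?_ ?_
  · fun_prop
  · intro a
    rw [mul_eq_zero, norm_eq_zero, norm_eq_zero, sub_eq_zero, sub_eq_zero, sm_eq_inf,
      hji.eq_iff, hji'.eq_iff]
  · rintro ⟨a, b⟩ ⟨a', b'⟩ hab
    dsimp only at hab ⊢
    by_cases h1 : sm a b = ∞
    · have h2 : sm a' b' = ∞ := hab ▸ h1
      rw [sm_eq_inf] at h1 h2
      have e1 : ‖j a - j ∞‖ * ‖j' b - j' ∞‖ = 0 := by
        rcases h1 with rfl | rfl <;> simp
      have e2 : ‖j a' - j ∞‖ * ‖j' b' - j' ∞‖ = 0 := by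
        rcases h2 with rfl | rfl <;> simp
      rw [e1, e2]
    · obtain ⟨q, hq⟩ := ne_infty_iff_exists.1 h1
      have h3 := sm_eq_coe.1 hq.symm
      have h4 := sm_eq_coe.1 (hab ▸ hq.symm)
      rw [h3.1, h3.2, h4.1, h4.2]
  · fun_prop
  · rintro ⟨a, b⟩ ⟨a', b'⟩ h1 h2
    dsimp only at h1 h2 ⊢
    constructor
    · intro h
      rw [hji (congrArg Prod.fst h), hji' (congrArg Prod.snd h)]
    · intro hab
      obtain ⟨q, hq⟩ := ne_infty_iff_exists.1 h1
      have h3 := sm_eq_coe.1 hq.symm
      have h4 := sm_eq_coe.1 (hab ▸ hq.symm)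
      rw [h3.1, h3.2, h4.1, h4.2]

end basic

section pi

variable {ι : Type u} [Finite ι] {U : ι → Type v} [∀ i, TopologicalSpace (U i)]
  [∀ i, T2Space (U i)] [∀ i, LocallyCompactSpace (U i)]

/-- finite products -/
theorem Inj.pi (h : ∀ i, Inj (U i)) : Inj (∀ i, U i) := by
  have := Fintype.ofFinite ι
  cases isEmpty_or_nonempty ι with
  | inl hι =>
    refine Inj.of_fd (E := ℝ) (fun a => a.elim 0 fun _ => 1) ?_ ?_
    · rw [OnePoint.continuous_iff]
      constructor
      · have : coclosedCompact (∀ i, U i) = ⊥ := by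
          rw [coclosedCompact_eq_cocompact, cocompact_eq_bot]
        rw [this]
        exact tendsto_bot
      · exact continuous_const
    · intro a b hab
      induction a using OnePoint.rec with
      | infty =>
        induction b using OnePoint.rec with
        | infty => rfl
        | coe b => exact absurd hab (by simp [OnePoint.elim_infty, OnePoint.elim_some])
      | coe a =>
        induction b using OnePoint.rec with
        | infty => exact absurd hab (by simp [OnePoint.elim_infty, OnePoint.elim_some])
        | coe b => rw [Subsingleton.elim a b]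
  | inr hι =>
    choose k j hj hji using h
    have hcoe : ∀ x : ∀ i, OnePoint (U i), smPi x ≠ ∞ → ∀ y, smPi x = smPi y → x = y := by
      intro x h1 y hxy
      obtain ⟨q, hq⟩ := ne_infty_iff_exists.1 h1
      have h3 := smPi_eq_coe.1 hq.symm
      have h4 := smPi_eq_coe.1 (hxy ▸ hq.symm)
      funext i
      rw [h3 i, h4 i]
    refine Inj.of_scaled (π := fun x : ∀ i, OnePoint (U i) => smPi x) continuous_smPi
      (fun q => smPi_surj q) (ρ := fun x => ∏ i, ‖j i (x i) - j i ∞‖) ?_ ?_ ?_
      (E := ∀ i, Fin (k i) → ℝ) (f := fun x i => j i (x i)) ?_ ?_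
    · exact continuous_finsetProd _ fun i _ =>
        (((hj i).comp (continuous_apply i)).sub continuous_const).norm
    · intro a
      rw [Finset.prod_eq_zero_iff, smPi_eq_inf]
      simp only [Finset.mem_univ, true_and, norm_eq_zero, sub_eq_zero]
      exact exists_congr fun i => (hji i).eq_iff
    · intro x y hxy
      by_cases h1 : smPi x = ∞
      · have h2 : smPi y = ∞ := hxy ▸ h1
        obtain ⟨i, hi⟩ := smPi_eq_inf.1 h1
        obtain ⟨i', hi'⟩ := smPi_eq_inf.1 h2
        rw [Finset.prod_eq_zero (Finset.mem_univ i) (by rw [hi]; simp),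
          Finset.prod_eq_zero (Finset.mem_univ i') (by rw [hi']; simp)]
      · rw [hcoe x h1 y hxy]
    · exact continuous_pi fun i => (hj i).comp (continuous_apply i)
    · intro x y h1 _
      constructor
      · intro h
        have : x = y := funext fun i => hji i (congrFun h i)
        rw [this]
      · intro h
        rw [hcoe x h1 y h]

end pi

section start

variable {U : Type u} [TopologicalSpace U]

/-- closed subsets of a finite dimensional space -/
theorem Inj.of_closedEmbedding {E : Type*} [NormedAddCommGroup E] [NormedSpace ℝ E]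
    [FiniteDimensional ℝ E] (e : U → E) (he : IsClosedEmbedding e) : Inj U := by
  set F : E → ℝ × E := fun x => ((1 + ‖x‖ ^ 2)⁻¹, (1 + ‖x‖ ^ 2)⁻¹ • x) with hF
  have hpos : ∀ x : E, 0 < 1 + ‖x‖ ^ 2 := fun x => by positivity
  have hFc : Continuous F := by
    have : Continuous fun x : E => (1 + ‖x‖ ^ 2)⁻¹ :=
      Continuous.inv₀ (by fun_prop) fun x => (hpos x).ne'
    exact this.prodMk (this.smul continuous_id)
  have hlim : Tendsto F (cocompact E) (𝓝 0) := by
    have h1 : Tendsto (fun x : E => ‖x‖) (cocompact E) atTop := tendsto_norm_cocompact_atTop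
    have h2 : Tendsto (fun t : ℝ => (1 + t ^ 2)⁻¹) atTop (𝓝 0) :=
      tendsto_inv_atTop_zero.comp (tendsto_atTop_add_const_left _ _
        (tendsto_pow_atTop (by norm_num)))
    have h3 : Tendsto (fun t : ℝ => (1 + t ^ 2)⁻¹ * t) atTop (𝓝 0) := by
      refine squeeze_zero' (g := fun t : ℝ => t⁻¹) ?_ ?_ tendsto_inv_atTop_zero
      · filter_upwards [eventually_ge_atTop 0] with t ht
        positivity
      · filter_upwards [eventually_gt_atTop 0] with t ht
        rw [inv_mul_eq_div, div_le_iff₀ (by positivity)]
        rw [inv_mul_eq_div, le_div_iff₀ ht]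
        nlinarith
    refine (Prod.tendsto_iff _ _).2 ⟨h2.comp h1, ?_⟩
    refine tendsto_zero_iff_norm_tendsto_zero.2 ?_
    refine (h3.comp h1).congr fun x => ?_
    simp only [Function.comp, hF]
    rw [norm_smul, Real.norm_of_nonneg (inv_nonneg.2 (hpos x).le)]
  refine Inj.of_fd (E := ℝ × E) (fun a => a.elim 0 fun x => F (e x)) ?_ ?_
  · rw [OnePoint.continuous_iff]
    refine ⟨?_, hFc.comp he.continuous⟩
    have h4 : Tendsto e (coclosedCompact U) (cocompact E) := by
      rw [← coclosedCompact_eq_cocompact]
      rw [hasBasis_coclosedCompact.tendsto_iff hasBasis_coclosedCompact]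
      rintro K ⟨hK, hK'⟩
      exact ⟨e ⁻¹' K, ⟨hK.preimage he.continuous, he.isCompact_preimage hK'⟩, fun x hx => hx⟩
    exact hlim.comp h4
  · have hF0 : ∀ x, F x ≠ 0 := fun x h => (inv_pos.2 (hpos x)).ne' (congrArg Prod.fst h)
    have hFi : Function.Injective F := by
      intro x y h
      have h1 : (1 + ‖x‖ ^ 2)⁻¹ = (1 + ‖y‖ ^ 2)⁻¹ := congrArg Prod.fst h
      have h2 : (1 + ‖x‖ ^ 2)⁻¹ • x = (1 + ‖y‖ ^ 2)⁻¹ • y := congrArg Prod.snd h
      rw [h1] at h2
      exact smul_right_injective _ (inv_pos.2 (hpos y)).ne' h2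
    intro a b hab
    induction a using OnePoint.rec with
    | infty =>
      induction b using OnePoint.rec with
      | infty => rfl
      | coe b => exact absurd hab.symm (hF0 _)
    | coe a =>
      induction b using OnePoint.rec with
      | infty => exact absurd hab (hF0 _)
      | coe b => rw [he.injective (hFi hab)]

theorem Inj.fd (E : Type*) [NormedAddCommGroup E] [NormedSpace ℝ E] [FiniteDimensional ℝ E] :
    Inj E := Inj.of_closedEmbedding id IsClosedEmbedding.id

/-- the normalised form: an injective map with `j ∞ = 0` -/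
theorem Inj.exists_zero (h : Inj U) : ∃ (k : ℕ) (j : OnePoint U → (Fin k → ℝ)),
    Continuous j ∧ Function.Injective j ∧ j ∞ = 0 := by
  obtain ⟨k, j, hj, hji⟩ := h
  exact ⟨k, fun a => j a - j ∞, hj.sub continuous_const,
    fun a b hab => hji (sub_left_injective hab), sub_self _⟩

end start

section quot

variable {Z : Type u} [TopologicalSpace Z] {W : Type v} [TopologicalSpace W]

/-- the polynomial with coefficients `v` -/
noncomputable def qp {m : ℕ} (v : Fin m → ℝ) : Polynomial ℝ :=
  ∑ i, Polynomial.C (v i) * Polynomial.X ^ (i : ℕ)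

theorem qp_eval {m : ℕ} (v : Fin m → ℝ) (s : ℝ) : (qp v).eval s = ∑ i, v i * s ^ (i : ℕ) := by
  simp [qp, Polynomial.eval_finsetSum]

theorem qp_coeff {m : ℕ} (v : Fin m → ℝ) (i : Fin m) : (qp v).coeff i = v i := by
  simp [qp, Polynomial.coeff_C_mul, Polynomial.coeff_X_pow, Fin.val_inj]

theorem qp_injective {m : ℕ} : Function.Injective (qp : (Fin m → ℝ) → Polynomial ℝ) := by
  intro v w h
  funext i
  rw [← qp_coeff v i, ← qp_coeff w i, h]

theorem qp_natDegree {m : ℕ} (v : Fin m → ℝ) : (qp v).natDegree ≤ m := by
  refine Polynomial.natDegree_sum_le_of_forall_le _ _ fun i _ => ?_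
  exact (Polynomial.natDegree_C_mul_X_pow_le _ _).trans i.2.le

/-- two monic products with the same values at `0, …, n` are equal -/
theorem prod_eq_of_values {G : Type*} [Fintype G] (c d : G → ℝ)
    (h : ∀ t : Fin (Fintype.card G + 1), ∏ g, ((t : ℝ) - c g) = ∏ g, ((t : ℝ) - d g)) (x : ℝ) :
    ∏ g, (x - c g) = ∏ g, (x - d g) := by
  set P : Polynomial ℝ := ∏ g, (Polynomial.X - Polynomial.C (c g)) with hP
  set Q : Polynomial ℝ := ∏ g, (Polynomial.X - Polynomial.C (d g)) with hQ
  have hPd : P.natDegree = Fintype.card G := by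
    rw [hP, Polynomial.natDegree_prod_of_monic _ _ fun g _ => Polynomial.monic_X_sub_C _]
    simp
  have hQd : Q.natDegree = Fintype.card G := by
    rw [hQ, Polynomial.natDegree_prod_of_monic _ _ fun g _ => Polynomial.monic_X_sub_C _]
    simp
  have hPQ : P - Q = 0 := by
    refine Polynomial.eq_zero_of_natDegree_lt_card_of_eval_eq_zero (P - Q)
      (f := fun t : Fin (Fintype.card G + 1) => (t : ℝ)) ?_ ?_ ?_
    · intro a b hab
      exact Fin.ext (Nat.cast_injective hab)
    · intro t
      have := h t
      simp only [hP, hQ, Polynomial.eval_sub, Polynomial.eval_prod, Polynomial.eval_X,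
        Polynomial.eval_C]
      rw [this, sub_self]
    · rw [Fintype.card_fin]
      refine lt_of_le_of_lt (Polynomial.natDegree_sub_le _ _) ?_
      rw [hPd, hQd, max_self]
      exact Nat.lt_succ_self _
  have h2 := congrArg (Polynomial.eval x) (sub_eq_zero.1 hPQ)
  simpa only [hP, hQ, Polynomial.eval_prod, Polynomial.eval_sub, Polynomial.eval_X,
    Polynomial.eval_C] using h2

variable {G : Type w} [Group G] [MulAction G Z] [ContinuousConstSMul G Z]

/-- the action on `Z⁺` -/
def act (g : G) : PMap Z Z := PMap.ofHomeo (Homeomorph.smul g)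

@[simp] theorem act_coe (g : G) (z : Z) : act g (z : OnePoint Z) = ((g • z : Z) : OnePoint Z) :=
  rfl

@[simp] theorem act_inf (g : G) : act g (∞ : OnePoint Z) = ∞ := rfl

/-- quotients by finite groups, general form -/
theorem Inj.quot_of [Finite G] [T2Space W] [LocallyCompactSpace W] (h : Inj Z) (p : Z → W)
    (hp : Continuous p) (hs : Function.Surjective p)
    (hprop : Tendsto p (coclosedCompact Z) (coclosedCompact W))
    (hfib : ∀ x y, p x = p y ↔ ∃ g : G, g • x = y) : Inj W := by
  have := Fintype.ofFinite G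
  obtain ⟨m, j, hj, hji⟩ := h
  set n := Fintype.card G with hn
  set N := n * m with hN
  set F : OnePoint Z → (Fin (N + 1) × Fin (n + 1) → ℝ) := fun a st =>
    ∏ g : G, ((st.2 : ℝ) - ∑ i, j (act g a) i * (st.1 : ℝ) ^ (i : ℕ)) with hF
  have hFc : Continuous F := by
    refine continuous_pi fun st => continuous_finsetProd _ fun g _ => ?_
    refine continuous_const.sub (continuous_finsetSum _ fun i _ => ?_)
    exact ((continuous_apply i).comp (hj.comp (act g).cont)).mul continuous_const
  have hFsep : ∀ a b, F a = F b → ∃ g : G, act g a = b := by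
    intro a b hab
    have h1 : ∀ s : Fin (N + 1), ∀ x : ℝ,
        ∏ g : G, (x - ∑ i, j (act g a) i * (s : ℝ) ^ (i : ℕ)) =
          ∏ g : G, (x - ∑ i, j (act g b) i * (s : ℝ) ^ (i : ℕ)) := by
      intro s x
      refine prod_eq_of_values _ _ (fun t => ?_) x
      exact congrFun hab (s, t)
    have h2 : ∀ s : Fin (N + 1),
        (∏ g : G, (qp (j b) - qp (j (act g a)))).eval (s : ℝ) = 0 := by
      intro s
      rw [Polynomial.eval_prod]
      have h3 := h1 s ((qp (j b)).eval (s : ℝ))
      have h4 : ∏ g : G, ((qp (j b)).eval (s : ℝ) -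
          ∑ i, j (act g b) i * (s : ℝ) ^ (i : ℕ)) = 0 := by
        refine Finset.prod_eq_zero (Finset.mem_univ 1) ?_
        rw [qp_eval, sub_eq_zero]
        have : act (1 : G) b = b := by
          induction b using OnePoint.rec with
          | infty => rfl
          | coe b => rw [act_coe, one_smul]
        rw [this]
      rw [h4] at h3
      rw [← h3]
      refine Finset.prod_congr rfl fun g _ => ?_
      rw [Polynomial.eval_sub, qp_eval (j (act g a))]
    have h5 : (∏ g : G, (qp (j b) - qp (j (act g a)))) = 0 := by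
      refine Polynomial.eq_zero_of_natDegree_lt_card_of_eval_eq_zero _
        (f := fun t : Fin (N + 1) => (t : ℝ)) ?_ h2 ?_
      · intro a b hab
        exact Fin.ext (Nat.cast_injective hab)
      · rw [Fintype.card_fin]
        refine lt_of_le_of_lt (Polynomial.natDegree_prod_le _ _) ?_
        refine lt_of_le_of_lt (Finset.sum_le_card_nsmul _ _ m fun g _ => ?_) ?_
        · exact (Polynomial.natDegree_sub_le _ _).trans (max_le (qp_natDegree _) (qp_natDegree _))
        · rw [Finset.card_univ, smul_eq_mul]
          exact Nat.lt_succ_self _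
    obtain ⟨g, _, hg⟩ := Finset.prod_eq_zero_iff.1 h5
    exact ⟨g, (hji (qp_injective (sub_eq_zero.1 hg))).symm⟩
  have hFinv : ∀ (g : G) a, F (act g a) = F a := by
    intro g a
    funext st
    simp only [hF]
    refine Fintype.prod_equiv (Equiv.mulRight g) _ _ fun g' => ?_
    have : act g' (act g a) = act (g' * g) a := by
      induction a using OnePoint.rec with
      | infty => rfl
      | coe a => rw [act_coe, act_coe, act_coe, mul_smul]
    rw [this]
    rfl
  set π : OnePoint Z → OnePoint W := OnePoint.map p with hπ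
  have hπc : Continuous π := OnePoint.continuous_map hp hprop
  have hπs : Function.Surjective π := by
    intro w
    induction w using OnePoint.rec with
    | infty => exact ⟨∞, rfl⟩
    | coe w =>
      obtain ⟨z, hz⟩ := hs w
      exact ⟨z, by rw [hπ, OnePoint.map_some, hz]⟩
  have hfib' : ∀ a b, π a = π b ↔ ∃ g : G, act g a = b := by
    intro a b
    induction a using OnePoint.rec with
    | infty =>
      induction b using OnePoint.rec with
      | infty => exact ⟨fun _ => ⟨1, rfl⟩, fun _ => rfl⟩
      | coe b =>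
        constructor
        · intro h
          exact absurd h.symm (coe_ne_infty _)
        · rintro ⟨g, hg⟩
          exact absurd hg.symm (coe_ne_infty _)
    | coe a =>
      induction b using OnePoint.rec with
      | infty =>
        constructor
        · intro h
          exact absurd h (coe_ne_infty _)
        · rintro ⟨g, hg⟩
          exact absurd hg (coe_ne_infty _)
      | coe b =>
        rw [hπ, OnePoint.map_some, OnePoint.map_some, coe_eq_coe, hfib]
        simp only [act_coe, coe_eq_coe]
  have hq : IsQuotientMap π := hπc.isClosedMap.isQuotientMap hπc hπs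
  choose s hsec using hπs
  have hwd : ∀ a b, π a = π b → F a = F b := by
    intro a b hab
    obtain ⟨g, rfl⟩ := (hfib' a b).1 hab
    exact (hFinv g a).symm
  refine Inj.of_finite (fun w => F (s w)) ?_ ?_
  · rw [hq.continuous_iff]
    have e : (fun w => F (s w)) ∘ π = F := by
      funext a
      exact hwd _ _ (hsec (π a))
    rw [e]
    exact hFc
  · intro w w' h
    have h1 := (hfib' _ _).2 (hFsep _ _ h)
    rwa [hsec, hsec] at h1

/-- the projection to the orbit space of a finite group is proper -/
theorem isProperMap_quot [Finite G] :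
    IsProperMap (Quotient.mk (MulAction.orbitRel G Z)) := by
  rw [isProperMap_iff_isClosedMap_and_compact_fibers]
  refine ⟨continuous_quot_mk, ?_, ?_⟩
  · intro F hF
    rw [← (MulAction.isOpenQuotientMap_quotientMk (Γ := G) (T := Z)).isQuotientMap.isClosed_preimage]
    have e : Quotient.mk (MulAction.orbitRel G Z) ⁻¹' (Quotient.mk (MulAction.orbitRel G Z) '' F) =
        ⋃ g : G, (fun x : Z => g • x) ⁻¹' F := by
      ext x
      simp only [mem_preimage, mem_image, mem_iUnion]
      constructor
      · rintro ⟨y, hy, hxy⟩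
        obtain ⟨g, hg⟩ := (MulAction.orbitRel_apply.1 (Quotient.exact hxy) : y ∈ MulAction.orbit G x)
        exact ⟨g, by rw [show g • x = y from hg]; exact hy⟩
      · rintro ⟨g, hg⟩
        exact ⟨g • x, hg, Quotient.sound (MulAction.orbitRel_apply.2 ⟨g, rfl⟩)⟩
    rw [e]
    exact isClosed_iUnion_of_finite fun g => hF.preimage (continuous_const_smul g)
  · intro y
    obtain ⟨x, rfl⟩ := Quotient.exists_rep y
    have e : Quotient.mk (MulAction.orbitRel G Z) ⁻¹' {Quotient.mk (MulAction.orbitRel G Z) x} =
        range (fun g : G => g • x) := by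
      ext y
      simp only [mem_preimage, mem_singleton_iff, mem_range]
      constructor
      · intro h
        exact (MulAction.orbitRel_apply.1 (Quotient.exact h) : y ∈ MulAction.orbit G x)
      · rintro ⟨g, rfl⟩
        exact Quotient.sound (MulAction.orbitRel_apply.2 ⟨g, rfl⟩)
    rw [e]
    exact (finite_range _).isCompact

/-- the orbit space of a finite group acting on a locally compact Hausdorff space is locally
compact -/
theorem locallyCompact_quot [LocallyCompactSpace Z] :
    LocallyCompactSpace (Quotient (MulAction.orbitRel G Z)) :=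
  (MulAction.isOpenQuotientMap_quotientMk (Γ := G) (T := Z)).locallyCompactSpace

theorem tendsto_of_isProperMap [T2Space W] {p : Z → W} (hp : IsProperMap p) :
    Tendsto p (coclosedCompact Z) (coclosedCompact W) := by
  rw [hasBasis_coclosedCompact.tendsto_iff hasBasis_coclosedCompact]
  rintro K ⟨hK, hK'⟩
  exact ⟨p ⁻¹' K, ⟨hK.preimage hp.continuous, hp.isCompact_preimage hK'⟩, fun x hx => hx⟩

/-- proper form of `Inj.quot_of` -/
theorem Inj.quot_proper [Finite G] [T2Space W] [LocallyCompactSpace W] (h : Inj Z) (p : Z → W)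
    (hp : IsProperMap p) (hs : Function.Surjective p)
    (hfib : ∀ x y, p x = p y ↔ ∃ g : G, g • x = y) : Inj W :=
  h.quot_of p hp.continuous hs (tendsto_of_isProperMap hp) hfib

/-- **quotients by finite groups** -/
theorem Inj.quot [Finite G] [T2Space Z] [LocallyCompactSpace Z] (h : Inj Z) :
    Inj (Quotient (MulAction.orbitRel G Z)) := by
  have := locallyCompact_quot (G := G) (Z := Z)
  refine h.quot_proper (G := G) _ (isProperMap_quot (G := G) (Z := Z)) Quotient.mk_surjective ?_
  intro x y
  constructor
  · intro hxy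
    exact (MulAction.orbitRel_apply.1 (Quotient.exact hxy.symm) : y ∈ MulAction.orbit G x)
  · rintro ⟨g, rfl⟩
    exact (Quotient.sound (MulAction.orbitRel_apply.2 ⟨g, rfl⟩)).symm

end quot

section pow

variable {U : Type u} [TopologicalSpace U] [T2Space U] [LocallyCompactSpace U]
variable {ι : Type v} [Finite ι]

omit [LocallyCompactSpace U] [Finite ι] in
theorem isOpen_nonconst : IsOpen {x : ι → U | ∃ i j, x i ≠ x j} := by
  have e : {x : ι → U | ∃ i j, x i ≠ x j} = ⋃ i, ⋃ j, {x : ι → U | x i ≠ x j} := by
    ext x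
    simp
  rw [e]
  exact isOpen_iUnion fun i => isOpen_iUnion fun j =>
    isOpen_ne_fun (continuous_apply i) (continuous_apply j)

/-- powers -/
theorem Inj.pow (h : Inj U) (ι : Type v) [Finite ι] : Inj (ι → U) := Inj.pi fun _ => h

/-- nonconstant tuples -/
theorem Inj.nonconst (h : Inj U) (ι : Type v) [Finite ι] :
    Inj {x : ι → U | ∃ i j, x i ≠ x j} := (h.pow ι).open_set isOpen_nonconst

/-- nonconstant tuples times a compact (closed) subset of a finite dimensional space -/
theorem Inj.nonconst_prod (h : Inj U) (ι : Type v) [Finite ι] {E : Type w} [NormedAddCommGroup E]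
    [NormedSpace ℝ E] [FiniteDimensional ℝ E] {S : Set E} (hS : IsClosed S) :
    Inj ({x : ι → U | ∃ i j, x i ≠ x j} × S) := by
  have : LocallyCompactSpace {x : ι → U | ∃ i j, x i ≠ x j} :=
    (isOpen_nonconst (U := U) (ι := ι)).locallyCompactSpace
  have : ProperSpace E := FiniteDimensional.proper ℝ E
  have : LocallyCompactSpace S := hS.locallyCompactSpace
  exact (h.nonconst ι).prod (Inj.of_closedEmbedding _ hS.isClosedEmbedding_subtypeVal)

end pow

section complex

variable {U : Type u} [TopologicalSpace U]

/-- complex form -/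
theorem inj_iff_complex : Inj U ↔
    ∃ (k : ℕ) (j : OnePoint U → (Fin k → ℂ)), Continuous j ∧ Function.Injective j := by
  constructor
  · rintro ⟨k, j, hj, hji⟩
    refine ⟨k, fun a i => (j a i : ℂ), ?_, ?_⟩
    · exact continuous_pi fun i => Complex.continuous_ofReal.comp ((continuous_apply i).comp hj)
    · intro a b hab
      exact hji (funext fun i => Complex.ofReal_injective (congrFun hab i))
  · rintro ⟨k, j, hj, hji⟩
    exact Inj.of_fd j hj hji

/-- complex form, normalised at infinity -/
theorem Inj.exists_zero_complex (h : Inj U) : ∃ (k : ℕ) (j : OnePoint U → (Fin k → ℂ)),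
    Continuous j ∧ Function.Injective j ∧ j ∞ = 0 := by
  obtain ⟨k, j, hj, hji⟩ := inj_iff_complex.1 h
  exact ⟨k, fun a => j a - j ∞, hj.sub continuous_const,
    fun a b hab => hji (sub_left_injective hab), sub_self _⟩

/-- a space with one point compactification injecting in any finite dimensional space,
restated for continuous maps out of `U⁺` -/
theorem Inj.of_complex (h : ∃ (k : ℕ) (j : OnePoint U → (Fin k → ℂ)),
    Continuous j ∧ Function.Injective j) : Inj U := inj_iff_complex.2 h

end complex

end Crest.Agent.R090.Inj812
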