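import Crest.Agent.R090.Sph_389
import Crest.Agent.R090.Inj_812

/-!
# Row 90, leaf A-POW (5): the power construction `RU = (QU × S)/C_q` and the self map `pw φ`
(helper389)

For `U` locally compact Hausdorff with an injective continuous `j : OnePoint U → (Fin k → ℂ)`:

* `cmap j : QU q U → Sph q (mm q k) (ww q k)` equivariant (normalised Fourier coefficients);
* `RU q k U = Bal (Cq q) (QU q U) (Sph ..)`;
* `eR : Orb QU → RU`, `pR : RU → Orb QU`, `pR ∘ eR = 1`;
* `Psi φ = (QU.map φ ∧ 1)/C_q`, `pw φ = eR ∘ (QU.map φ)/C_q ∘ pR`, with all identities.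
-/

set_option autoImplicit false
set_option linter.unusedSectionVars false

open Topology Filter Set

namespace Crest.Agent.R090.PowR389

open OnePoint Crest.Agent.R090.Sp962 Crest.Agent.R090.Orb389 Crest.Agent.R090.GSp389
open Crest.Agent.R090.Sph389 Crest.Agent.R090.QU389 Crest.Agent.R090.Pi568

/-! ## homeomorphic cells and the real form of the induction principle -/

section real

variable {G : Type} [Group G] [Finite G] [TopologicalSpace G] [DiscreteTopology G]

/-- homeomorphic cells give a (trivial) pair -/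
noncomputable def cellPair {L L' : Type} [TopologicalSpace L] [T2Space L] [LocallyCompactSpace L]
    [TopologicalSpace L'] [T2Space L'] [LocallyCompactSpace L'] (e : L ≃ₜ L') :
    GPair (cellG G L) (cellG G L') (cellG G Empty) where
  i := cellMap (T := cellG G L') (fun y => Cell.mk 1 (e y))
  j p := (p.2 : Empty).elim
  ic := by
    refine isClosedEmbedding_cellMap (T := cellG G L') ?_ ?_
    · have h1 : IsClosedEmbedding (fun y : L' => ((1, y) : G × L')) := by
        have h : Function.LeftInverse (Prod.snd : G × L' → L') (fun y => ((1 : G), y)) :=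
          fun y => rfl
        exact h.isClosedEmbedding continuous_snd (continuous_const.prodMk continuous_id)
      exact h1.comp e.isClosedEmbedding
    · intro g x y h
      have h1 : g * 1 = 1 := congrArg (fun p : Cell G L' => p.1) h
      rwa [mul_one] at h1
  jo := by
    refine .of_continuous_injective_isOpenMap ?_ ?_ ?_
    · refine continuous_iff_continuousAt.2 fun p => (p.2 : Empty).elim
    · intro p
      exact (p.2 : Empty).elim
    · intro s _
      have : s = ∅ := by
        ext p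
        exact (p.2 : Empty).elim
      rw [this, image_empty]
      exact isOpen_empty
  ie g x := cellMap_smul _ g x
  je _ p := (p.2 : Empty).elim
  compl := by
    ext p
    constructor
    · rintro ⟨x, -⟩
      exact (x.2 : Empty).elim
    · intro hn
      obtain ⟨g, y⟩ := p
      exact absurd ((range_cellMap (T := cellG G L') (fun y => Cell.mk 1 (e y)) (g, y)).2
        ⟨g, e.symm y, Prod.ext (mul_one g) (e.apply_symm_apply y)⟩) hn

theorem cell_congr {P : GSp G → Prop} (hempty : ∀ T : GSp G, IsEmpty T.X → P T)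
    (hpair : ∀ {F T O : GSp G}, GPair F T O → P F → P O → P T)
    {L L' : Type} [TopologicalSpace L] [T2Space L] [LocallyCompactSpace L]
    [TopologicalSpace L'] [T2Space L'] [LocallyCompactSpace L'] (e : L ≃ₜ L')
    (h : P (cellG G L)) : P (cellG G L') :=
  hpair (cellPair e) h (hempty _ ⟨fun p => (p.2 : Empty).elim⟩)

/-- `ℝ ≃ₜ (0,1)` -/
theorem exists_homeo_Io : Nonempty (ℝ ≃ₜ Io) := by
  have hpi := Real.pi_pos
  let f : Ioo (-(Real.pi / 2)) (Real.pi / 2) ≃ₜ ℝ := Real.tanOrderIso.toHomeomorph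
  let g : Ioo (-(Real.pi / 2)) (Real.pi / 2) ≃ₜ Io :=
    { toFun := fun x => ⟨x / Real.pi + 1 / 2, by
        have := x.2.1
        have := x.2.2
        constructor
        · have : -(Real.pi / 2) / Real.pi < x / Real.pi := by gcongr
          have h2 : -(Real.pi / 2) / Real.pi = -(1 / 2) := by field_simp
          linarith
        · have : x / Real.pi < (Real.pi / 2) / Real.pi := by gcongr
          have h2 : (Real.pi / 2) / Real.pi = 1 / 2 := by field_simp
          linarith⟩
      invFun := fun t => ⟨Real.pi * (t - 1 / 2), by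
        have h1 := t.2.1
        have h2 := t.2.2
        constructor <;> nlinarith⟩
      left_inv := fun x => Subtype.ext (by
        change Real.pi * (x / Real.pi + 1 / 2 - 1 / 2) = x
        field_simp
        ring)
      right_inv := fun t => Subtype.ext (by
        change Real.pi * (t - 1 / 2) / Real.pi + 1 / 2 = t
        field_simp
        ring)
      continuous_toFun := by
        refine Continuous.subtype_mk ?_ _
        fun_prop
      continuous_invFun := by
        refine Continuous.subtype_mk ?_ _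
        fun_prop }
  exact ⟨f.symm.trans g⟩

theorem exists_homeo_C (m : ℕ) : Nonempty ((Fin (2 * m) → ℝ) ≃ₜ (Fin m → ℂ)) := by
  have h : Module.finrank ℝ (Fin (2 * m) → ℝ) = Module.finrank ℝ (Fin m → ℂ) := by
    rw [Module.finrank_fin_fun, Module.finrank_pi_fintype]
    simp [Complex.finrank_real_complex, mul_comm]
  exact ⟨(ContinuousLinearEquiv.ofFinrankEq h).toHomeomorph⟩

theorem exists_homeo_CI (m : ℕ) :
    Nonempty ((Fin (2 * m + 1) → ℝ) ≃ₜ ((Fin m → ℂ) × Io)) := by
  obtain ⟨e⟩ := exists_homeo_C m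
  obtain ⟨e'⟩ := exists_homeo_Io
  have h : Module.finrank ℝ (Fin (2 * m + 1) → ℝ) =
      Module.finrank ℝ ((Fin (2 * m) → ℝ) × ℝ) := by simp
  exact ⟨(ContinuousLinearEquiv.ofFinrankEq h).toHomeomorph.trans (e.prodCongr e')⟩

/-- the induction principle with real cells -/
theorem sph_induction' (q : ℕ) [Fact q.Prime] (P : GSp (Cq q) → Prop)
    (hempty : ∀ T : GSp (Cq q), IsEmpty T.X → P T)
    (hcell : ∀ n : ℕ, P (cellG (Cq q) (Fin n → ℝ)))
    (hpair : ∀ {F T O : GSp (Cq q)}, GPair F T O → P F → P O → P T)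
    (m : ℕ) (w : Fin m → ZMod q) (hw : ∀ i, w i ≠ 0) : P (sphG q m w hw) :=
  sph_induction q P hempty
    (fun m => by
      obtain ⟨e⟩ := exists_homeo_C m
      exact cell_congr hempty hpair e (hcell _))
    (fun m => by
      obtain ⟨e⟩ := exists_homeo_CI m
      exact cell_congr hempty hpair e (hcell _))
    hpair m w hw

end real

/-! ## the equivariant map to the sphere -/

section cmap

variable (q : ℕ) [Fact q.Prime] (k : ℕ)

/-- index type of the Fourier coefficients -/
abbrev FI : Type := {a : ZMod q // a ≠ 0} × Fin k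

/-- number of coordinates -/
noncomputable def mm : ℕ := Fintype.card (FI q k)

/-- enumeration of the coordinates -/
noncomputable def ff : Fin (mm q k) ≃ FI q k := (Fintype.equivFin (FI q k)).symm

/-- the weights -/
noncomputable def ww (i : Fin (mm q k)) : ZMod q := (ff q k i).1.1

theorem ww_ne (i : Fin (mm q k)) : ww q k i ≠ 0 := (ff q k i).1.2

variable {q k}
variable {U : Type} [TopologicalSpace U]

/-- Fourier coefficient of the family `j (x i)` -/
noncomputable def fc (j : OnePoint U → (Fin k → ℂ)) (x : QU q U) (i : Fin (mm q k)) : ℂ :=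
  ∑ s : ZMod q, ZMod.stdAddChar (-(s * (ff q k i).1.1)) * j (QU.inc q U x s) (ff q k i).2

theorem fc_smul (j : OnePoint U → (Fin k → ℂ)) (g : Cq q) (x : QU q U) (i : Fin (mm q k)) :
    fc j (g • x) i = (chi (ww q k i) g : ℂ) * fc j x i := by
  unfold fc
  rw [Finset.mul_sum]
  refine Fintype.sum_equiv (Equiv.addRight (Multiplicative.toAdd g)) _ _ fun s => ?_
  rw [QU.inc_smul, Equiv.coe_addRight, ← mul_assoc, chi, ← ZMod.stdAddChar_apply,
    ← AddChar.map_add_eq_mul]
  congr 2
  rw [ww]
  ring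

theorem exists_fc_ne (j : OnePoint U → (Fin k → ℂ)) (hj : Function.Injective j) (x : QU q U) :
    ∃ i, fc j x i ≠ 0 := by
  by_contra hn
  push Not at hn
  obtain ⟨s, t, hst⟩ := x.2
  apply hst
  apply coe_injective
  apply hj
  funext κ
  set Φ : ZMod q → ℂ := fun s => j (QU.inc q U x s) κ with hΦ
  have h0 : ∀ a : ZMod q, a ≠ 0 → ZMod.dft Φ a = 0 := by
    intro a ha
    have := hn ((ff q k).symm (⟨a, ha⟩, κ))
    rw [ZMod.dft_apply]
    simpa [fc, hΦ] using this
  have h1 : ∀ s, Φ s = (q : ℂ)⁻¹ • ZMod.dft Φ 0 := by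
    intro s
    have h2 : Φ s = (ZMod.dft.symm (ZMod.dft Φ)) s := by rw [LinearEquiv.symm_apply_apply]
    rw [h2, ZMod.invDFT_apply, Finset.sum_eq_single 0]
    · simp
    · intro b _ hb
      rw [h0 b hb, smul_zero]
    · intro h; exact absurd (Finset.mem_univ _) h
  exact (h1 s).trans (h1 t).symm

/-- the norm of the vector of Fourier coefficients -/
noncomputable def fn (j : OnePoint U → (Fin k → ℂ)) (x : QU q U) : ℝ :=
  Real.sqrt (∑ i, ‖fc j x i‖ ^ 2)

theorem fn_pos (j : OnePoint U → (Fin k → ℂ)) (hj : Function.Injective j) (x : QU q U) :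
    0 < fn j x := by
  obtain ⟨i, hi⟩ := exists_fc_ne j hj x
  refine Real.sqrt_pos.2 ?_
  refine Finset.sum_pos' (fun _ _ => by positivity) ⟨i, Finset.mem_univ _, ?_⟩
  have := norm_pos_iff.2 hi
  positivity

theorem fn_sq (j : OnePoint U → (Fin k → ℂ)) (x : QU q U) :
    fn j x ^ 2 = ∑ i, ‖fc j x i‖ ^ 2 := Real.sq_sqrt (by positivity)

theorem fn_smul (j : OnePoint U → (Fin k → ℂ)) (g : Cq q) (x : QU q U) :
    fn j (g • x) = fn j x := by
  unfold fn
  congr 1
  refine Finset.sum_congr rfl fun i _ => ?_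
  rw [fc_smul, norm_mul, Circle.norm_coe, one_mul]

/-- the equivariant map `QU q U → S` -/
noncomputable def cmap (j : OnePoint U → (Fin k → ℂ)) (hj : Function.Injective j) (x : QU q U) :
    Sph q (mm q k) (ww q k) :=
  ⟨fun i => (((fn j x)⁻¹ : ℝ) : ℂ) * fc j x i, by
    have hr := fn_pos j hj x
    simp only [norm_mul, Complex.norm_real, norm_inv, Real.norm_of_nonneg hr.le, mul_pow]
    rw [← Finset.mul_sum, ← fn_sq, inv_pow, inv_mul_cancel₀ (by positivity)]⟩

theorem cmap_smul (j : OnePoint U → (Fin k → ℂ)) (hj : Function.Injective j) (g : Cq q)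
    (x : QU q U) : cmap j hj (g • x) = g • cmap j hj x := by
  refine Subtype.ext (funext fun i => ?_)
  rw [Sph.smul_val]
  change (((fn j (g • x))⁻¹ : ℝ) : ℂ) * fc j (g • x) i =
    (chi (ww q k i) g : ℂ) * ((((fn j x)⁻¹ : ℝ) : ℂ) * fc j x i)
  rw [fn_smul, fc_smul]
  ring

theorem continuous_fc (j : OnePoint U → (Fin k → ℂ)) (hjc : Continuous j) (i : Fin (mm q k)) :
    Continuous (fun x : QU q U => fc j x i) := by
  unfold fc
  refine continuous_finsetSum _ fun s _ => continuous_const.mul ?_
  exact (continuous_apply _).comp (hjc.comp (continuous_coe.comp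
    ((continuous_apply s).comp QU.continuous_inc)))

theorem continuous_fn (j : OnePoint U → (Fin k → ℂ)) (hjc : Continuous j) :
    Continuous (fun x : QU q U => fn j x) := by
  unfold fn
  refine Real.continuous_sqrt.comp (continuous_finsetSum _ fun i _ => ?_)
  exact (continuous_fc j hjc i).norm.pow 2

theorem continuous_cmap (j : OnePoint U → (Fin k → ℂ)) (hj : Function.Injective j)
    (hjc : Continuous j) : Continuous (cmap (q := q) j hj) := by
  rw [Sph.isEmbedding_val.continuous_iff]
  refine continuous_pi fun i => ?_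
  have h1 := (continuous_fn (q := q) j hjc).inv₀ fun x => (fn_pos j hj x).ne'
  exact (Complex.continuous_ofReal.comp h1).mul (continuous_fc j hjc i)

end cmap

/-! ## the power construction -/

/-- embedding data -/
structure Emb (k : ℕ) (U : Type) [TopologicalSpace U] where
  /-- the embedding -/
  j : OnePoint U → (Fin k → ℂ)
  cont : Continuous j
  inj : Function.Injective j

theorem exists_emb {U : Type} [TopologicalSpace U] (h : Inj812.Inj U) :
    ∃ k, Nonempty (Emb k U) := by
  obtain ⟨k, j, hj, hi⟩ := h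
  refine ⟨k, ⟨⟨fun x i => (j x i : ℂ), ?_, ?_⟩⟩⟩
  · exact continuous_pi fun i => Complex.continuous_ofReal.comp ((continuous_apply i).comp hj)
  · intro x y hxy
    refine hi (funext fun i => ?_)
    exact Complex.ofReal_injective (congrFun hxy i)

section ru

/-- the sphere of the construction -/
abbrev SS (q k : ℕ) [Fact q.Prime] : Type := Sph q (mm q k) (ww q k)

/-- the power construction -/
abbrev RU (q k : ℕ) [Fact q.Prime] (U : Type) : Type := Bal (Cq q) (QU q U) (SS q k)

variable {q : ℕ} [Fact q.Prime] {k : ℕ}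
variable {U : Type} [TopologicalSpace U] [T2Space U] [LocallyCompactSpace U]
variable {V : Type} [TopologicalSpace V] [T2Space V] [LocallyCompactSpace V]
variable {W : Type} [TopologicalSpace W] [T2Space W] [LocallyCompactSpace W]

example : T2Space (RU q k U) := inferInstance
example : LocallyCompactSpace (RU q k U) := inferInstance

/-- the projection `QU × S → QU` -/
noncomputable def fstP (q k : ℕ) [Fact q.Prime] (U : Type) [TopologicalSpace U] :
    PMap (QU q U × SS q k) (QU q U) :=
  ofProper Prod.fst isProperMap_fst_of_compactSpace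

@[simp] theorem fstP_coe (p : QU q U × SS q k) :
    fstP q k U (p : OnePoint (QU q U × SS q k)) = (p.1 : OnePoint (QU q U)) := rfl

theorem fstP_equi : Equi (Cq q) (fstP q k U) := fun _ => PMap.ext fun _ => rfl

theorem isClosedEmbedding_sec (E : Emb k U) :
    IsClosedEmbedding (fun x : QU q U => ((x, cmap E.j E.inj x) : QU q U × SS q k)) := by
  have h : Function.LeftInverse (Prod.fst : QU q U × SS q k → QU q U)
      (fun x : QU q U => ((x, cmap E.j E.inj x) : QU q U × SS q k)) := fun x => rfl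
  exact h.isClosedEmbedding continuous_fst
    (continuous_id.prodMk (continuous_cmap E.j E.inj E.cont))

/-- the section `x ↦ (x, c x)` -/
noncomputable def sec (E : Emb k U) : PMap (QU q U) (QU q U × SS q k) :=
  PMap.ofClosed _ (isClosedEmbedding_sec E)

@[simp] theorem sec_coe (E : Emb k U) (x : QU q U) :
    sec E (x : OnePoint (QU q U)) =
      (((x, cmap E.j E.inj x) : QU q U × SS q k) : OnePoint (QU q U × SS q k)) := rfl

theorem sec_equi (E : Emb k U) : Equi (Cq q) (sec (q := q) E) := by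
  intro g
  refine PMap.ext fun x => ?_
  rw [PMap.comp_apply, PMap.comp_apply, actP_coe, sec_coe, sec_coe, actP_coe, cmap_smul]
  rfl

theorem fstP_sec (E : Emb k U) : (fstP q k U).comp (sec E) = PMap.id _ := PMap.ext fun _ => rfl

/-- `fst ∘ g ∘ sec = g` -/
theorem fstP_actP_sec (E : Emb k U) (g : Cq q) :
    (fstP q k U).comp ((actP g (QU q U × SS q k)).comp (sec E)) = actP g (QU q U) :=
  PMap.ext fun _ => rfl

/-- the inclusion `[x] ↦ [x, c x]` -/
noncomputable def eR (E : Emb k U) : PMap (Orb (Cq q) (QU q U)) (RU q k U) :=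
  Orb.map (sec E) (sec_equi E)

/-- the projection `[x, v] ↦ [x]` -/
noncomputable def pR (q k : ℕ) [Fact q.Prime] (U : Type) [TopologicalSpace U] [T2Space U]
    [LocallyCompactSpace U] : PMap (RU q k U) (Orb (Cq q) (QU q U)) :=
  Orb.map (fstP q k U) fstP_equi

theorem eR_pr (E : Emb k U) :
    (eR E).comp (Orb.pr (Cq q) (QU q U)) = (Orb.pr (Cq q) (QU q U × SS q k)).comp (sec E) :=
  Orb.map_pr _ _

theorem pR_pr :
    (pR q k U).comp (Orb.pr (Cq q) (QU q U × SS q k)) =
      (Orb.pr (Cq q) (QU q U)).comp (fstP q k U) := Orb.map_pr _ _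

theorem pR_eR (E : Emb k U) : (pR q k U).comp (eR E) = PMap.id _ := by
  refine Orb.hom_ext ?_
  rw [PMap.comp_assoc, eR_pr, ← PMap.comp_assoc, pR_pr, PMap.comp_assoc, fstP_sec]
  rfl

/-- the map induced on `QU / C_q` -/
noncomputable def Qo (q : ℕ) [Fact q.Prime] (φ : PMap U V) :
    PMap (Orb (Cq q) (QU q U)) (Orb (Cq q) (QU q V)) :=
  Orb.map (QU.map q φ) (QU.map_equi φ)

theorem Qo_pr (φ : PMap U V) :
    (Qo q φ).comp (Orb.pr (Cq q) (QU q U)) = (Orb.pr (Cq q) (QU q V)).comp (QU.map q φ) :=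
  Orb.map_pr _ _

theorem Qo_comp (ψ : PMap V W) (φ : PMap U V) : Qo q (ψ.comp φ) = (Qo q ψ).comp (Qo q φ) := by
  refine Orb.hom_ext ?_
  rw [Qo_pr, PMap.comp_assoc, Qo_pr, ← PMap.comp_assoc, Qo_pr, PMap.comp_assoc, QU.map_comp]

theorem Qo_id : Qo q (PMap.id U) = PMap.id _ := by
  refine Orb.hom_ext ?_
  rw [Qo_pr, QU.map_id]
  rfl

/-- `[x, v] ↦ [φ x, v]` -/
noncomputable def Psi (q k : ℕ) [Fact q.Prime] (φ : PMap U V) : PMap (RU q k U) (RU q k V) :=
  Bal.map (QU.map_equi φ) (SS q k)

theorem Psi_pr (φ : PMap U V) :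
    (Psi q k φ).comp (Orb.pr (Cq q) (QU q U × SS q k)) =
      (Orb.pr (Cq q) (QU q V × SS q k)).comp ((QU.map q φ).smash (PMap.id (SS q k))) :=
  Bal.map_pr _ _

theorem Psi_comp (ψ : PMap V W) (φ : PMap U V) :
    Psi q k (ψ.comp φ) = (Psi q k ψ).comp (Psi q k φ) := by
  refine Orb.hom_ext ?_
  rw [Psi_pr, PMap.comp_assoc, Psi_pr, ← PMap.comp_assoc, Psi_pr, PMap.comp_assoc,
    PMap.smash_comp, QU.map_comp]
  rfl

theorem Psi_id : Psi q k (PMap.id U) = PMap.id _ := by
  refine Orb.hom_ext ?_
  rw [Psi_pr, QU.map_id, PMap.smash_id]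
  rfl

theorem fstP_smash (φ : PMap U V) :
    (fstP q k V).comp ((QU.map q φ).smash (PMap.id (SS q k))) =
      (QU.map q φ).comp (fstP q k U) := by
  refine PMap.ext fun x => ?_
  obtain ⟨x, v⟩ := x
  rw [PMap.comp_apply, PMap.comp_apply, PMap.smash_coe, fstP_coe]
  generalize QU.map q φ (x : OnePoint (QU q U)) = y
  induction y using OnePoint.rec with
  | infty => rfl
  | coe y => rfl

theorem pR_Psi (φ : PMap U V) :
    (pR q k V).comp (Psi q k φ) = (Qo q φ).comp (pR q k U) := by
  refine Orb.hom_ext ?_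
  rw [PMap.comp_assoc, Psi_pr, ← PMap.comp_assoc, pR_pr, PMap.comp_assoc, fstP_smash,
    PMap.comp_assoc, pR_pr, ← PMap.comp_assoc (Qo q φ), Qo_pr, PMap.comp_assoc]

/-- **the power operation** on self maps: `[x, v] ↦ [φ x, c (φ x)]` -/
noncomputable def pw (q : ℕ) [Fact q.Prime] {k : ℕ} (E : Emb k U) (φ : PMap U U) :
    PMap (RU q k U) (RU q k U) := (eR E).comp ((Qo q φ).comp (pR q k U))

theorem pw_comp (E : Emb k U) (ψ φ : PMap U U) :
    pw q E (ψ.comp φ) = (pw q E ψ).comp (pw q E φ) := by
  have key : ∀ y, pR q k U (eR E y) = y :=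
    fun y => congrArg (fun f : PMap (Orb (Cq q) (QU q U)) (Orb (Cq q) (QU q U)) => f y) (pR_eR E)
  unfold pw
  rw [Qo_comp]
  refine PMap.ext fun x => ?_
  simp only [PMap.comp_apply, key]

/-- the idempotent `[x, v] ↦ [x, c x]` -/
noncomputable def eps (q : ℕ) [Fact q.Prime] {k : ℕ} (E : Emb k U) : PMap (RU q k U) (RU q k U) :=
  (eR E).comp (pR q k U)

theorem pw_id (E : Emb k U) : pw q E (PMap.id U) = eps q E := by
  unfold pw eps
  rw [Qo_id, PMap.id_comp]

theorem pw_eq (E : Emb k U) (φ : PMap U U) : pw q E φ = (eps q E).comp (Psi q k φ) := by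
  unfold pw eps
  rw [PMap.comp_assoc, pR_Psi]

theorem eps_eps (E : Emb k U) : (eps q E).comp (eps q E) = eps q E := by
  unfold eps
  rw [PMap.comp_assoc, ← PMap.comp_assoc (pR q k U), pR_eR, PMap.id_comp]

theorem eps_Psi_eps (E : Emb k U) (φ : PMap U U) :
    (eps q E).comp ((Psi q k φ).comp (eps q E)) = (eps q E).comp (Psi q k φ) := by
  unfold eps
  rw [PMap.comp_assoc (eR E), PMap.comp_assoc (eR E), ← PMap.comp_assoc (pR q k U), pR_Psi,
    PMap.comp_assoc (Qo q φ), ← PMap.comp_assoc (pR q k U) (eR E), pR_eR, PMap.id_comp]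

theorem eps_pw (E : Emb k U) (φ : PMap U U) : (eps q E).comp (pw q E φ) = pw q E φ := by
  rw [pw_eq, ← PMap.comp_assoc, eps_eps]

theorem pw_eps (E : Emb k U) (φ : PMap U U) : (pw q E φ).comp (eps q E) = pw q E φ := by
  rw [pw_eq, PMap.comp_assoc, eps_Psi_eps]

/-- the covering self map `(x, v) ↦ (φ x, c (φ x))` of `QU × S` -/
noncomputable def Et (q : ℕ) [Fact q.Prime] {k : ℕ} (E : Emb k U) (φ : PMap U U) :
    PMap (QU q U × SS q k) (QU q U × SS q k) :=
  (sec E).comp ((QU.map q φ).comp (fstP q k U))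

theorem Et_equi (E : Emb k U) (φ : PMap U U) : Equi (Cq q) (Et q E φ) :=
  (sec_equi E).comp ((QU.map_equi φ).comp fstP_equi)

/-- `pw φ` is covered by `Et φ` -/
theorem pw_pr (E : Emb k U) (φ : PMap U U) :
    (pw q E φ).comp (Orb.pr (Cq q) (QU q U × SS q k)) =
      (Orb.pr (Cq q) (QU q U × SS q k)).comp (Et q E φ) := by
  unfold pw Et
  rw [PMap.comp_assoc, PMap.comp_assoc, pR_pr, ← PMap.comp_assoc (Qo q φ), Qo_pr,
    PMap.comp_assoc, ← PMap.comp_assoc (eR E), eR_pr, PMap.comp_assoc]

theorem pw_eq_map (E : Emb k U) (φ : PMap U U) : pw q E φ = Orb.map (Et q E φ) (Et_equi E φ) :=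
  Orb.hom_ext (by rw [pw_pr, Orb.map_pr])

/-- rotation followed by `Et`, conjugated to `QU`: the trace of `g ∘ Et φ` on `QU × S` is the trace
of `g ∘ QU.map φ` on `QU` (cyclic permutation of `sec ∘ (QU.map φ) ∘ fst`) -/
theorem fstP_actP_Et (E : Emb k U) (φ : PMap U U) (g : Cq q) :
    (fstP q k U).comp ((actP g (QU q U × SS q k)).comp (Et q E φ)) =
      (actP g (QU q U)).comp ((QU.map q φ).comp (fstP q k U)) := by
  unfold Et
  rw [← PMap.comp_assoc, ← PMap.comp_assoc, PMap.comp_assoc (fstP q k U), fstP_actP_sec]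

end ru

end Crest.Agent.R090.PowR389
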