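import Crest.Agent.R090.CrossX_253
import Crest.Agent.R090.PowR_389
import Crest.Agent.R090.Kun2_493
import Crest.Agent.R090.Dens_255

/-!
# Row 90, leaf A-TRACE: the literal trace formula for 389's `pw` (owner helper253)

`q L(pw φ) = L(φ)^q - L(φ) + (q-1) (L(φ^q) - L(φ))`  for `pw φ : PMap (RU q k U) (RU q k U)`.
-/

set_option autoImplicit false
set_option linter.unusedSectionVars false

namespace Crest.Agent.R090.ATraceR253

open Topology Set Crest.Agent.R090.Sp962 Crest.Agent.R090.Pi568 Crest.Agent.R090.Orb389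
open Crest.Agent.R090.QU389 Crest.Agent.R090.HSt285 Crest.Agent.R090.Kun493
open Crest.Agent.R090.CohT253 Crest.Agent.R090.GSp389 Crest.Agent.R090.Sph389
open Crest.Agent.R090.PowR389 Crest.Agent.R090.AClass923

variable {F : Type} [Field F] {H : CohX F} (X : KX H)
include X

/-- `ι × U` for a finite discrete `ι` -/
theorem cc_disc {ι : Type} [Finite ι] [TopologicalSpace ι] [DiscreteTopology ι] {U : Type}
    [TopologicalSpace U] [T2Space U] [LocallyCompactSpace U] (hU : CC H U) : CC H (ι × U) := by
  obtain ⟨n, ⟨e⟩⟩ := Finite.exists_equiv_fin ι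
  have h1 : CC H (Fin n × U) := (cls_CC X).sigma_fin hU n
  refine CC.of_homeo ?_ h1
  exact
    { toEquiv := e.prodCongr (Equiv.refl U)
      continuous_toFun :=
        (continuous_of_discreteTopology.comp continuous_fst).prodMk continuous_snd
      continuous_invFun :=
        (continuous_of_discreteTopology.comp continuous_fst).prodMk continuous_snd }

/-- the free spheres -/
theorem cc_sph (q : ℕ) [Fact q.Prime] (m : ℕ) (w : Fin m → ZMod q) (hw : ∀ i, w i ≠ 0) :
    CC H (sphG q m w hw).X :=
  sph_induction' q (fun T => CC H T.X)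
    (fun T hT => by
      have := hT
      exact CC.of_isEmpty)
    (fun n => cc_disc X (CC.fin_pow X (CC.real X) n))
    (fun {F T O} p hF hO => CC.of_dec X ⟨p.i, p.ic, p.j, p.jo, p.compl⟩ hF hO)
    m w hw

variable {q : ℕ} [Fact q.Prime] {k : ℕ}
variable {U : Type} [TopologicalSpace U] [T2Space U] [LocallyCompactSpace U]

theorem cc_QU (hU : CC H U) : CC H (QU q U) :=
  CC.open_of_dec X (decQ q U) hU (CC.pi X hU)

theorem cc_E (hU : CC H U) : CC H (QU q U × SS q k) :=
  (cc_QU X hU).prod (cc_sph X q (mm q k) (ww q k) (ww_ne q k))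

/-- **the trace formula**, from the quotient theorem `hQ` (149's `qinv_orb`) -/
theorem L_pw (h2 : (2 : F) ≠ 0) (hq0 : (q : F) ≠ 0) (hU : CC H U)
    (hQ : H.QInv (actA (Cq q) (QU q U × SS q k)) (Orb.pr (Cq q) (QU q U × SS q k)))
    (E : Emb k U) (φ : PMap U U) :
    (q : F) * H.L (pw q E φ) =
      H.L φ ^ q - H.L φ + ((q : F) - 1) * (H.L (Dens255.iter φ q) - H.L φ) := by
  have h := trace_formula (crossOf H) h2 hq0 (fun n => kue_of_KU hU.ku) hU.fin hQ
    (cc_E X hU).fin (fstP q k U) (sec E) (fstP_sec E) fstP_equi (sec_equi E) φ (pw q E φ)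
    (pw_pr E φ)
  have e : Dens255.iter φ q = Cross.iter φ q := by
    clear h hQ
    generalize q = n
    induction n with
    | zero => rfl
    | succ n ih => rw [Dens255.iter, ih, Cross.iter]
  rw [h, e]
  ring

end Crest.Agent.R090.ATraceR253
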