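import Crest.Agent.R090.Good_812
import Crest.Agent.R090.PowR_389

/-!
# Row 90, block (A): the power construction stays in the class `Good` (helper812)

* `bal_ind` : for every class `P` (923's `Cls`) with `P A`, `P (Bal (Cq q) A (Sph ..))`;
* `good_RU : Good H U → Good H (RU q k U)`, `good_QUS : Good H (QU q U × SS q k)`, `good_SS`.
-/

set_option autoImplicit false
set_option linter.unusedSectionVars false

open Topology Filter Set

namespace Crest.Agent.R090.GoodR812

open OnePoint Crest.Agent.R090.Sp962 Crest.Agent.R090.Orb389 Crest.Agent.R090.GSp389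
open Crest.Agent.R090.QU389 Crest.Agent.R090.Sph389 Crest.Agent.R090.PowR389
open Crest.Agent.R090.AClass923 Crest.Agent.R090.Good812 Crest.Agent.R090.HSt285
open Crest.Agent.R090.Kun493

variable {P : SpPred} (h : Cls P) {q : ℕ} [Fact q.Prime]
include h

/-- balanced products with a free sphere -/
theorem bal_ind {A : Type} [TopologicalSpace A] [T2Space A] [LocallyCompactSpace A]
    [MulAction (Cq q) A] [ContinuousConstSMul (Cq q) A] (hA : P A) (m : ℕ) (w : Fin m → ZMod q)
    (hw : ∀ i, w i ≠ 0) : P (Bal (Cq q) A (sphG q m w hw).X) := by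
  refine sph_induction' q (fun T => P (Bal (Cq q) A T.X)) ?_ ?_ ?_ m w hw
  · intro T hT
    have : IsEmpty (Bal (Cq q) A T.X) := ⟨fun y => by
      obtain ⟨⟨a, t⟩, _⟩ := Orb.mk_surj (G := Cq q) y
      exact hT.false t⟩
    exact h.empty _ this
  · intro n
    exact h.homeo (Bal.cell A (Fin n → ℝ)) (h.prod hA (h.cell n))
  · intro F T O p hF hO
    have hoc : OC (Bal.incl A p.ie) (Bal.incl A p.je) :=
      ⟨Bal.isClosedEmbedding_incl p.ie p.ic, Bal.isOpenEmbedding_incl p.je p.jo,
        Bal.range_compl A p⟩
    exact h.total hoc hF hO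

/-- free spheres -/
theorem sph_ind (m : ℕ) (w : Fin m → ZMod q) (hw : ∀ i, w i ≠ 0) : P (sphG q m w hw).X := by
  refine sph_induction' q (fun T => P T.X) ?_ ?_ ?_ m w hw
  · intro T hT
    exact h.empty _ hT
  · intro n
    have : Finite (Cq q) := inferInstance
    obtain ⟨k, ⟨e⟩⟩ := Finite.exists_equiv_fin (Cq q)
    have he : Fin k ≃ₜ Cq q :=
      { toEquiv := e.symm
        continuous_toFun := continuous_of_discreteTopology
        continuous_invFun := continuous_of_discreteTopology }
    exact h.homeo (he.prodCongr (Homeomorph.refl (Fin n → ℝ))) (h.sigma_fin (h.cell n) k)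
  · intro F T O p hF hO
    exact h.total (⟨p.ic, p.jo, p.compl⟩ : OC p.i p.j) hF hO

end Crest.Agent.R090.GoodR812

namespace Crest.Agent.R090.GoodR812

open OnePoint Crest.Agent.R090.Sp962 Crest.Agent.R090.Orb389 Crest.Agent.R090.GSp389
open Crest.Agent.R090.QU389 Crest.Agent.R090.Sph389 Crest.Agent.R090.PowR389
open Crest.Agent.R090.AClass923 Crest.Agent.R090.Good812 Crest.Agent.R090.HSt285
open Crest.Agent.R090.Kun493

variable {F : Type} [Field F] {H : CohX F} {q : ℕ} [Fact q.Prime]

/-- **the power construction stays in the class** -/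
theorem good_RU (X : KX H) {U : Type} [TopologicalSpace U] [T2Space U] [LocallyCompactSpace U]
    (h : Good H U) (k : ℕ) : Good H (RU q k U) :=
  bal_ind (goodCls X) (good_QU X q h) (mm q k) (ww q k) (ww_ne q k)

theorem good_SS (X : KX H) (k : ℕ) : Good H (SS q k) :=
  sph_ind (goodCls X) (mm q k) (ww q k) (ww_ne q k)

theorem good_QUS (X : KX H) {U : Type} [TopologicalSpace U] [T2Space U] [LocallyCompactSpace U]
    (h : Good H U) (k : ℕ) : Good H (QU q U × SS q k) :=
  (good_QU X q h).prod X (good_SS X k)

end Crest.Agent.R090.GoodR812
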