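import Crest.Agent.R090.Puppe_962

/-!
# Row 90, T1: closed subspaces with a deformation (NDR) (owner helper962)

`Z ⊆ M` closed, `phi : M → ℝ`, `h : I × M⁺ → M⁺` a pointed homotopy starting at the identity, keeping
`Z` in `Z ∪ {∞}`, and moving `{phi ≤ 1/2}` into `Z ∪ {∞}` at time `1` (helper255's `Ndr`, hypotheses
spelled out).  Then the collapse `MC (Z → M) → M \ Z` is a pointed homotopy equivalence, and
`[M \ Z, W] → [M, W] → [Z, W]` is exact.
-/

set_option autoImplicit false
set_option linter.unusedSectionVars false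

open Topology Filter Set

namespace Crest.Agent.R090.Sp962

open OnePoint
open scoped unitInterval

universe u v w x

/-- a map from a product with a compact factor, constant on `{x₀} × K`, is uniformly continuous
there: moving `k` arbitrarily does not matter -/
theorem tendsto_of_const {A K Y T : Type*} [TopologicalSpace A] [TopologicalSpace K] [CompactSpace K]
    [TopologicalSpace Y] {F : A × K → Y} (hF : Continuous F) {a₀ : A} {y₀ : Y}
    (h : ∀ k, F (a₀, k) = y₀) {l : Filter T} {g : T → A} (hg : Tendsto g l (𝓝 a₀)) (s : T → K) :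
    Tendsto (fun t => F (g t, s t)) l (𝓝 y₀) := by
  rw [tendsto_def]
  intro N hN
  have h1 : ∀ᶠ a in 𝓝 a₀, ∀ k ∈ (univ : Set K), F (a, k) ∈ N := by
    refine isCompact_univ.eventually_forall_of_forall_eventually ?_
    intro k _
    have : Tendsto F (𝓝 (a₀, k)) (𝓝 y₀) := by
      have := hF.tendsto (a₀, k)
      rwa [h k] at this
    exact this hN
  filter_upwards [hg h1] with t ht
  exact ht (s t) (mem_univ _)

/-- continuity of a map on `K × OnePoint M` -/
theorem continuous_onePoint {K M Y : Type*} [TopologicalSpace K] [TopologicalSpace M]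
    [TopologicalSpace Y] {g : K × OnePoint M → Y}
    (h1 : Continuous (fun p : K × M => g (p.1, (p.2 : OnePoint M))))
    (h2 : ∀ k, ContinuousAt g (k, ∞)) : Continuous g := by
  rw [continuous_iff_continuousAt]
  rintro ⟨k, m⟩
  induction m using OnePoint.rec with
  | infty => exact h2 k
  | coe m =>
    have he : IsOpenEmbedding (Prod.map (id : K → K) ((↑) : M → OnePoint M)) :=
      IsOpenEmbedding.id.prodMap isOpenEmbedding_coe
    have : ContinuousAt (g ∘ Prod.map (id : K → K) ((↑) : M → OnePoint M)) (k, m) :=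
      h1.continuousAt
    exact he.continuousAt_iff.1 this

section

variable {M : Type u} [TopologicalSpace M] [T2Space M] [LocallyCompactSpace M]
variable {Z : Set M}

/-- inclusion of a closed subspace -/
def incl (hZ : IsClosed Z) : PMap Z M := PMap.ofClosed Subtype.val hZ.isClosedEmbedding_subtypeVal

@[simp] theorem incl_coe (hZ : IsClosed Z) (z : Z) :
    incl hZ (z : OnePoint Z) = ((z : M) : OnePoint M) := rfl

/-- collapse onto the open complement -/
noncomputable def col (hZ : IsClosed Z) : PMap M (Zᶜ : Set M) :=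
  PMap.ofOpen Subtype.val hZ.isOpen_compl.isOpenEmbedding_subtypeVal

theorem col_coe (hZ : IsClosed Z) (x : (Zᶜ : Set M)) :
    col hZ ((x : M) : OnePoint M) = (x : OnePoint (Zᶜ : Set M)) := PMap.ofOpen_coe _ _ x

theorem col_mem (hZ : IsClosed Z) {x : M} (hx : x ∈ Z) : col hZ (x : OnePoint M) = ∞ :=
  PMap.ofOpen_of_notMem _ _ (by rintro ⟨y, rfl⟩; exact y.2 hx)

theorem col_incl (hZ : IsClosed Z) (z : OnePoint Z) : col hZ (incl hZ z) = ∞ := by
  induction z using OnePoint.rec with
  | infty => rw [(incl hZ).map_inf, (col hZ).map_inf]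
  | coe z => exact col_mem hZ z.2

theorem col_surjective (hZ : IsClosed Z) : Function.Surjective (col hZ) := by
  intro y
  induction y using OnePoint.rec with
  | infty => exact ⟨∞, (col hZ).map_inf⟩
  | coe y => exact ⟨((y : M) : OnePoint M), col_coe hZ y⟩

theorem col_eq (hZ : IsClosed Z) {x y : OnePoint M} (h : col hZ x = col hZ y) :
    x = y ∨ (x ∈ range (incl hZ) ∧ y ∈ range (incl hZ)) := by
  have key : ∀ x : OnePoint M, x ∈ range (incl hZ) ∨ ∃ c : (Zᶜ : Set M), x = ((c : M) : OnePoint M) := by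
    intro x
    induction x using OnePoint.rec with
    | infty => exact Or.inl ⟨∞, rfl⟩
    | coe x =>
      by_cases hx : x ∈ Z
      · exact Or.inl ⟨((⟨x, hx⟩ : Z) : OnePoint Z), rfl⟩
      · exact Or.inr ⟨⟨x, hx⟩, rfl⟩
  rcases key x with ⟨a, ha⟩ | ⟨c, hc⟩
  · rcases key y with ⟨b, hb⟩ | ⟨d, hd⟩
    · exact Or.inr ⟨⟨a, ha⟩, ⟨b, hb⟩⟩
    · rw [← ha, col_incl, hd, col_coe] at h
      exact absurd h (infty_ne_coe _)
  · rcases key y with ⟨b, hb⟩ | ⟨d, hd⟩
    · rw [← hb, col_incl, hc, col_coe] at h
      exact absurd h (coe_ne_infty _)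
    · rw [hc, hd, col_coe, col_coe] at h
      left
      rw [hc, hd, coe_injective h]

theorem mem_range_incl (hZ : IsClosed Z) {x : OnePoint M} :
    x ∈ range (incl hZ) ↔ x = ∞ ∨ ∃ z ∈ Z, x = (z : OnePoint M) := by
  constructor
  · rintro ⟨a, rfl⟩
    induction a using OnePoint.rec with
    | infty => exact Or.inl rfl
    | coe a => exact Or.inr ⟨a, a.2, rfl⟩
  · rintro (rfl | ⟨z, hz, rfl⟩)
    · exact ⟨∞, rfl⟩
    · exact ⟨((⟨z, hz⟩ : Z) : OnePoint Z), rfl⟩

theorem incl_injective (hZ : IsClosed Z) : Function.Injective (incl hZ) := by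
  intro a b h
  induction a using OnePoint.rec with
  | infty =>
    induction b using OnePoint.rec with
    | infty => rfl
    | coe b => exact absurd h (infty_ne_coe _)
  | coe a =>
    induction b using OnePoint.rec with
    | infty => exact absurd h (coe_ne_infty _)
    | coe b =>
      have := coe_injective (show ((a : M) : OnePoint M) = ((b : M) : OnePoint M) from h)
      rw [Subtype.ext this]

theorem isClosedEmbedding_incl (hZ : IsClosed Z) : IsClosedEmbedding (incl hZ) :=
  haveI : LocallyCompactSpace Z := hZ.isClosedEmbedding_subtypeVal.locallyCompactSpace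
  (incl hZ).cont.isClosedEmbedding (incl_injective hZ)

open Classical in
/-- partial inverse of the inclusion -/
noncomputable def rz (hZ : IsClosed Z) (x : OnePoint M) : OnePoint Z :=
  if h : x ∈ range (incl hZ) then h.choose else ∞

theorem incl_rz (hZ : IsClosed Z) {x : OnePoint M} (h : x ∈ range (incl hZ)) :
    incl hZ (rz hZ x) = x := by
  rw [rz, dif_pos h]
  exact h.choose_spec

@[simp] theorem rz_incl (hZ : IsClosed Z) (z : OnePoint Z) : rz hZ (incl hZ z) = z :=
  incl_injective hZ (incl_rz hZ ⟨z, rfl⟩)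

theorem continuous_rz (hZ : IsClosed Z) {T : Type*} [TopologicalSpace T] {g : T → OnePoint M}
    (hg : Continuous g) (h : ∀ t, g t ∈ range (incl hZ)) : Continuous (fun t => rz hZ (g t)) := by
  rw [(isClosedEmbedding_incl hZ).isInducing.continuous_iff]
  have : (incl hZ) ∘ (fun t => rz hZ (g t)) = g := funext fun t => incl_rz hZ (h t)
  rw [this]; exact hg

/-- homotopies on `M` which are constant on `Z` descend to the complement -/
theorem homotopic_of_col (hZ : IsClosed Z) {W : Type*} [TopologicalSpace W]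
    {f g : PMap (Zᶜ : Set M) W} (H : I × OnePoint M → OnePoint W) (hH : Continuous H)
    (h0 : ∀ x, H (0, x) = f (col hZ x)) (h1 : ∀ x, H (1, x) = g (col hZ x))
    (hz : ∀ t, ∀ x ∈ range (incl hZ), H (t, x) = ∞) : f.Homotopic g := by
  haveI : LocallyCompactSpace (Zᶜ : Set M) := hZ.isOpen_compl.locallyCompactSpace
  let φ : I × OnePoint M → I × OnePoint (Zᶜ : Set M) := fun p => (p.1, col hZ p.2)
  have hφ : Continuous φ := continuous_fst.prodMk ((col hZ).cont.comp continuous_snd)
  have hs : Function.Surjective φ := by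
    rintro ⟨t, y⟩
    obtain ⟨x, hx⟩ := col_surjective hZ y
    exact ⟨(t, x), Prod.ext rfl hx⟩
  have hq := hφ.isClosedMap.isQuotientMap hφ hs
  choose s hs' using col_surjective hZ
  have key : ∀ t x, H (t, s (col hZ x)) = H (t, x) := by
    intro t x
    rcases col_eq hZ (hs' (col hZ x)) with h | ⟨h, h'⟩
    · rw [h]
    · rw [hz t _ h, hz t _ h']
  refine PMap.Homotopic.of (fun p => H (p.1, s p.2)) ?_ ?_ ?_ ?_
  · refine hq.continuous_iff.2 ?_
    have : (fun p : I × OnePoint (Zᶜ : Set M) => H (p.1, s p.2)) ∘ φ = H := by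
      funext p
      exact key p.1 p.2
    rw [this]; exact hH
  · intro y
    change H (0, s y) = f y
    rw [h0, hs']
  · intro y
    change H (1, s y) = g y
    rw [h1, hs']
  · intro t
    have : col hZ (s ∞) = ∞ := hs' ∞
    rcases col_eq hZ (this.trans (col hZ).map_inf.symm) with h | ⟨h, _⟩
    · change H (t, s ∞) = ∞
      rw [h]; exact hz t _ ⟨∞, rfl⟩
    · exact hz t _ h

variable [LocallyCompactSpace Z]

/-- collapse of the cone -/
noncomputable def kap (hZ : IsClosed Z) : PMap (MC (incl hZ)) (Zᶜ : Set M) :=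
  MC.desc (incl hZ) (col hZ) (fun _ _ => ∞) continuous_const (fun _ => rfl) (fun _ => rfl)
    (fun a => (col_incl hZ a).symm)

@[simp] theorem kap_i (hZ : IsClosed Z) (x : OnePoint M) :
    kap hZ (MC.i (incl hZ) x) = col hZ x := MC.desc_i _ _ _ _ _ _ _ _

theorem kap_comp_i (hZ : IsClosed Z) : (kap hZ).comp (MC.i (incl hZ)) = col hZ :=
  PMap.ext fun x => kap_i hZ x

theorem kap_q (hZ : IsClosed Z) (a : OnePoint Z) {t : ℝ} (ht : t ∈ Icc (0 : ℝ) 1) :
    kap hZ (MC.q (incl hZ) a t) = ∞ := MC.desc_q _ _ _ _ _ _ _ _ ht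

/-- **main theorem**: for an NDR pair the collapse of the cone is a homotopy equivalence -/
theorem exists_kap_inv (hZ : IsClosed Z) (phi : M → ℝ) (hphi : Continuous phi)
    (hphi0 : ∀ x ∈ Z, phi x ≤ 0)
    (h : I × OnePoint M → OnePoint M) (hc : Continuous h) (h0 : ∀ x, h (0, x) = x)
    (hinf : ∀ t, h (t, ∞) = ∞) (hzz : ∀ t, ∀ x ∈ range (incl hZ), h (t, x) ∈ range (incl hZ))
    (h1 : ∀ x : M, phi x ≤ 1 / 2 → h (1, x) ∈ range (incl hZ)) :
    ∃ k : PMap (Zᶜ : Set M) (MC (incl hZ)),
      ((kap hZ).comp k).Homotopic (PMap.id _) ∧ (k.comp (kap hZ)).Homotopic (PMap.id _) ∧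
      (k.comp (col hZ)).Homotopic (MC.i (incl hZ)) := by
  classical
  haveI : LocallyCompactSpace (Zᶜ : Set M) := hZ.isOpen_compl.locallyCompactSpace
  let ι := incl hZ
  let C := MC ι
  have h1i : ∀ x ∈ range (incl hZ), h (1, x) ∈ range (incl hZ) := hzz 1
  -- second homotopy, on `M`
  let c : ℝ → ℝ := fun s => max 0 (min s 1)
  have hcc : Continuous c := by fun_prop
  have hc0 : ∀ s, s ≤ 0 → c s = 0 := fun s hs => by
    simp only [c]; rw [min_eq_left (by linarith), max_eq_left hs]
  have hcm : ∀ s, c s ∈ Icc (0 : ℝ) 1 := fun s =>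
    ⟨le_max_left _ _, max_le zero_le_one (min_le_right _ _)⟩
  let B : I → M → OnePoint C := fun t m =>
    if phi m ≤ 1 / 2 then MC.q ι (rz hZ (h (1, m))) (1 - t * c (1 - 2 * phi m))
    else MC.i ι (h (1, m))
  have hBmem : ∀ (t : I) (m : M), 1 - (t : ℝ) * c (1 - 2 * phi m) ∈ Icc (0 : ℝ) 1 := by
    intro t m
    have := hcm (1 - 2 * phi m)
    have ht := t.2
    constructor
    · nlinarith [this.1, this.2, ht.1, ht.2]
    · nlinarith [this.1, this.2, ht.1, ht.2]
  have hB : Continuous (fun p : I × M => B p.1 p.2) := by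
    -- use the closed cover
    have hcl1 : IsClosed {p : I × M | phi p.2 ≤ 1 / 2} :=
      isClosed_le (hphi.comp continuous_snd) continuous_const
    have hcl2 : IsClosed {p : I × M | 1 / 2 ≤ phi p.2} :=
      isClosed_le continuous_const (hphi.comp continuous_snd)
    have hun : {p : I × M | phi p.2 ≤ 1 / 2} ∪ {p : I × M | 1 / 2 ≤ phi p.2} = univ := by
      ext p; simpa using le_total _ _
    have hh1 : Continuous (fun p : I × M => h (1, (p.2 : OnePoint M))) :=
      hc.comp (continuous_const.prodMk (continuous_coe.comp continuous_snd))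
    rw [← continuousOn_univ, ← hun]
    refine ContinuousOn.union_of_isClosed ?_ ?_ hcl1 hcl2
    · rw [continuousOn_iff_continuous_domRestrict]
      have : ({p : I × M | phi p.2 ≤ 1 / 2}).domRestrict (fun p : I × M => B p.1 p.2) =
          fun p : {p : I × M | phi p.2 ≤ 1 / 2} =>
            MC.q ι (rz hZ (h (1, p.1.2))) (1 - p.1.1 * c (1 - 2 * phi p.1.2)) := by
        funext p
        exact if_pos p.2
      rw [this]
      refine (MC.continuous_q ι).comp (Continuous.prodMk ?_ ?_)
      · exact continuous_rz hZ (hh1.comp continuous_subtype_val) fun p => h1 _ p.2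
      · have := hcc.comp (continuous_const.sub (continuous_const.mul
          (hphi.comp (continuous_snd.comp (continuous_subtype_val
            (p := fun p : I × M => p ∈ {p : I × M | phi p.2 ≤ 1 / 2})))))
              : Continuous fun p : {p : I × M | phi p.2 ≤ 1 / 2} => (1 : ℝ) - 2 * phi p.1.2)
        exact continuous_const.sub ((by fun_prop : Continuous
          fun p : {p : I × M | phi p.2 ≤ 1 / 2} => ((p.1.1 : I) : ℝ)).mul this)
    · rw [continuousOn_iff_continuous_domRestrict]
      have : ({p : I × M | 1 / 2 ≤ phi p.2}).domRestrict (fun p : I × M => B p.1 p.2) =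
          fun p : {p : I × M | 1 / 2 ≤ phi p.2} => MC.i ι (h (1, p.1.2)) := by
        funext p
        have hp : 1 / 2 ≤ phi p.1.2 := p.2
        change (if phi p.1.2 ≤ 1 / 2 then _ else _) = _
        split_ifs with h'
        · have : phi p.1.2 = 1 / 2 := le_antisymm h' hp
          rw [this, hc0 _ (by norm_num), mul_zero, sub_zero, MC.q_one, incl_rz hZ (h1 _ h')]
        · rfl
      rw [this]
      exact (MC.i ι).cont.comp (hh1.comp continuous_subtype_val)
  let A2 : I × OnePoint M → OnePoint C := fun p => p.2.elim ∞ (B p.1)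
  have hA2 : Continuous A2 := by
    refine continuous_onePoint hB ?_
    intro t
    -- tube argument
    have hT : Tendsto (fun p : I × OnePoint M => h (1, p.2)) (𝓝 (t, ∞)) (𝓝 ∞) := by
      have : Continuous (fun p : I × OnePoint M => h (1, p.2)) := by fun_prop
      have := this.tendsto (t, ∞)
      rwa [hinf] at this
    rw [ContinuousAt]
    have e : A2 (t, ∞) = ∞ := rfl
    rw [e, tendsto_def]
    intro N hN
    have t1 : Tendsto (fun p : I × OnePoint M => MC.i ι (h (1, p.2))) (𝓝 (t, ∞)) (𝓝 ∞) := by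
      have := ((MC.i ι).cont.tendsto ∞).comp hT
      rwa [(MC.i ι).map_inf] at this
    -- neighbourhood for the cone part
    have h2 : ∀ᶠ a in 𝓝 (∞ : OnePoint Z), ∀ k ∈ (univ : Set I), MC.q ι a (k : ℝ) ∈ N := by
      refine isCompact_univ.eventually_forall_of_forall_eventually ?_
      intro k _
      have hq : Continuous (fun p : OnePoint Z × I => MC.q ι p.1 (p.2 : ℝ)) :=
        (MC.continuous_q ι).comp (continuous_fst.prodMk (continuous_subtype_val.comp continuous_snd))
      have := hq.tendsto (∞, k)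
      simp only [MC.q_inf] at this
      exact this hN
    have h3 : ∀ᶠ y in 𝓝 (∞ : OnePoint M), y ∈ range (incl hZ) →
        ∀ k ∈ (univ : Set I), MC.q ι (rz hZ y) (k : ℝ) ∈ N := by
      have hcomap := (isClosedEmbedding_incl hZ).isInducing.nhds_eq_comap (∞ : OnePoint Z)
      rw [hcomap, (incl hZ).map_inf, eventually_comap] at h2
      filter_upwards [h2] with y hy hyr
      obtain ⟨a, rfl⟩ := hyr
      rw [rz_incl]
      exact hy a rfl
    filter_upwards [t1 hN, hT h3] with p hp1 hp2
    obtain ⟨s, m⟩ := p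
    change (OnePoint.elim m ∞ (B s)) ∈ N
    induction m using OnePoint.rec with
    | infty => exact mem_of_mem_nhds hN
    | coe m =>
      change B s m ∈ N
      simp only [B]
      split_ifs with hm
      · exact hp2 (h1 m hm) ⟨_, hBmem s m⟩ (mem_univ _)
      · exact hp1
  -- values of `A2`
  have A2z : ∀ (t : I) (z : OnePoint Z), A2 (t, incl hZ z) = MC.q ι (rz hZ (h (1, incl hZ z))) (1 - t) := by
    intro t z
    induction z using OnePoint.rec with
    | infty =>
      rw [(incl hZ).map_inf, hinf]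
      have : rz hZ (∞ : OnePoint M) = ∞ := by
        have := rz_incl hZ ∞
        rwa [(incl hZ).map_inf] at this
      rw [this, MC.q_inf]; rfl
    | coe z =>
      have hz0 := hphi0 z z.2
      change B t (z : M) = _
      simp only [B]
      rw [if_pos (by linarith)]
      have : c (1 - 2 * phi (z : M)) = 1 := by
        simp only [c]; rw [min_eq_right (by linarith), max_eq_right zero_le_one]
      rw [this, mul_one]; rfl
  have A20 : ∀ x, A2 (0, x) = MC.i ι (h (1, x)) := by
    intro x
    induction x using OnePoint.rec with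
    | infty => rw [hinf]; rfl
    | coe x =>
      change B 0 x = _
      simp only [B]
      split_ifs with hx
      · rw [Set.Icc.coe_zero, zero_mul, sub_zero, MC.q_one, incl_rz hZ (h1 _ hx)]
      · rfl
  -- the map which is `∞` on `Z`
  let k1 : PMap M C := ⟨fun x => A2 (1, x), hA2.comp (continuous_const.prodMk continuous_id), rfl⟩
  have k1z : ∀ z, k1 (incl hZ z) = ∞ := by
    intro z
    change A2 (1, incl hZ z) = ∞
    rw [A2z, Set.Icc.coe_one, sub_self, MC.q_zero]
  obtain ⟨k, hk⟩ := PMap.exists_factor (col hZ) (col_surjective hZ) k1 (by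
    intro x y hxy
    rcases col_eq hZ hxy with h' | ⟨⟨a, rfl⟩, ⟨b, rfl⟩⟩
    · rw [h']
    · rw [k1z, k1z])
  have hkc : ∀ x, k (col hZ x) = A2 (1, x) := fun x => by
    have := congrArg (fun g : PMap M C => g x) hk
    exact this
  -- first homotopy: `i ∘ h_t`
  let A1 : I × OnePoint M → OnePoint C := fun p => MC.i ι (h p)
  have hA1 : Continuous A1 := (MC.i ι).cont.comp hc
  let hh : PMap M M := ⟨fun x => h (1, x), hc.comp (continuous_const.prodMk continuous_id), hinf 1⟩
  refine ⟨k, ?_, ?_, ?_⟩
  · -- `kap ∘ k ≃ id`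
    have s1 : ((kap hZ).comp k).Homotopic ((kap hZ).comp k) := .refl _
    -- descend `col ∘ h_1`
    obtain ⟨g1, hg1⟩ := PMap.exists_factor (col hZ) (col_surjective hZ) ((col hZ).comp hh) (by
      intro x y hxy
      rcases col_eq hZ hxy with h' | ⟨hx, hy⟩
      · rw [h']
      · obtain ⟨a, ha⟩ := h1i x hx
        obtain ⟨b, hb⟩ := h1i y hy
        change col hZ (h (1, x)) = col hZ (h (1, y))
        rw [← ha, ← hb, col_incl, col_incl])
    have hg1c : ∀ x, g1 (col hZ x) = col hZ (h (1, x)) := fun x => by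
      have := congrArg (fun g : PMap M (Zᶜ : Set M) => g x) hg1
      exact this
    have e1 : (PMap.id (Zᶜ : Set M)).Homotopic g1 := by
      refine homotopic_of_col hZ (fun p => col hZ (h p)) ((col hZ).cont.comp hc) ?_ ?_ ?_
      · intro x
        change col hZ (h (0, x)) = col hZ x
        rw [h0]
      · intro x
        exact (hg1c x).symm
      · intro t x hx
        obtain ⟨a, ha⟩ := hzz t x hx
        change col hZ (h (t, x)) = ∞
        rw [← ha, col_incl]
    have e2 : g1.Homotopic ((kap hZ).comp k) := by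
      refine homotopic_of_col hZ (fun p => kap hZ (A2 p)) ((kap hZ).cont.comp hA2) ?_ ?_ ?_
      · intro x
        change kap hZ (A2 (0, x)) = g1 (col hZ x)
        rw [A20, hg1c]
        exact kap_i hZ _
      · intro x
        change kap hZ (A2 (1, x)) = kap hZ (k (col hZ x))
        rw [hkc]
      · rintro t x ⟨z, rfl⟩
        change kap hZ (A2 (t, incl hZ z)) = ∞
        rw [A2z]
        have := t.2
        exact kap_q hZ _ ⟨by linarith [this.2], by linarith [this.1]⟩
    exact (e1.trans e2).symm
  · -- `k ∘ kap ≃ id`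
    let Φ1 : I → OnePoint C → OnePoint C := fun t =>
      MC.lift ι (fun a s => MC.q ι (rz hZ (h (t, incl hZ a))) s) (fun x => MC.i ι (h (t, x)))
    have hrz : ∀ t, rz hZ (h (t, (∞ : OnePoint M))) = ∞ := fun t => by
      rw [hinf]
      have := rz_incl hZ ∞
      rwa [(incl hZ).map_inf] at this
    have p1 : ∀ (t : I) (s : ℝ), MC.q ι (rz hZ (h (t, incl hZ ∞))) s = MC.i ι (h (t, ∞)) := by
      intro t s
      rw [(incl hZ).map_inf, hrz, MC.q_inf, hinf, (MC.i ι).map_inf]
    have p2 : ∀ (t : I) (a : OnePoint Z), MC.q ι (rz hZ (h (t, incl hZ a))) 0 = MC.i ι (h (t, ∞)) := by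
      intro t a
      rw [MC.q_zero, hinf, (MC.i ι).map_inf]
    have p3 : ∀ (t : I) (a : OnePoint Z), MC.q ι (rz hZ (h (t, incl hZ a))) 1 =
        MC.i ι (h (t, ι a)) := by
      intro t a
      rw [MC.q_one]
      exact congrArg _ (incl_rz hZ (hzz t _ ⟨a, rfl⟩))
    have hΦ1 : Continuous (fun p : I × OnePoint C => Φ1 p.1 p.2) := by
      refine MC.continuous_of ι ?_ ?_
      · have : (fun p : I × (OnePoint Z × I) => Φ1 p.1 (MC.q ι p.2.1 p.2.2)) =
            fun p => MC.q ι (rz hZ (h (p.1, incl hZ p.2.1))) p.2.2 := by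
          funext p
          exact MC.lift_q ι _ _ (p1 p.1) (p2 p.1) (p3 p.1) p.2.1 p.2.2.2
        simp only
        rw [this]
        refine (MC.continuous_q ι).comp (Continuous.prodMk ?_ (by fun_prop))
        refine continuous_rz hZ (g := fun p : I × (OnePoint Z × I) => h (p.1, incl hZ p.2.1)) ?_
          fun p => hzz p.1 _ ⟨_, rfl⟩
        exact hc.comp (continuous_fst.prodMk ((incl hZ).cont.comp (by fun_prop)))
      · have : (fun p : I × OnePoint M => Φ1 p.1 (MC.i ι p.2)) = fun p => MC.i ι (h p) := by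
          funext p
          exact MC.lift_i ι _ _ p.2
        simp only
        rw [this]
        exact (MC.i ι).cont.comp hc
    let m1 : PMap C C := ⟨Φ1 1, hΦ1.comp (continuous_const.prodMk continuous_id), by
      change MC.i ι (h (1, ∞)) = ∞
      rw [hinf, (MC.i ι).map_inf]⟩
    have e1 : (PMap.id C).Homotopic m1 := by
      refine PMap.Homotopic.of (fun p => Φ1 p.1 p.2) hΦ1 ?_ ?_ ?_
      · intro z
        change Φ1 0 (z : OnePoint C) = z
        generalize (z : OnePoint C) = z'
        refine MC.cases ι (P := fun z' => Φ1 0 z' = z') ?_ ?_ z'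
        · intro a s hs
          change MC.lift ι _ _ (MC.q ι a s) = _
          rw [MC.lift_q ι _ _ (p1 0) (p2 0) (p3 0) a hs, h0, rz_incl]
        · intro y
          change MC.lift ι _ _ (MC.i ι y) = _
          rw [MC.lift_i, h0]
      · intro z; rfl
      · intro t
        change MC.i ι (h (t, ∞)) = ∞
        rw [hinf, (MC.i ι).map_inf]
    let Φ2 : I → OnePoint C → OnePoint C := fun t =>
      MC.lift ι (fun a s => MC.q ι (rz hZ (h (1, incl hZ a))) (s * (1 - t))) (fun x => A2 (t, x))
    have r1 : ∀ (t : I) (s : ℝ), MC.q ι (rz hZ (h (1, incl hZ ∞))) (s * (1 - t)) = A2 (t, ∞) := by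
      intro t s
      rw [(incl hZ).map_inf, hrz, MC.q_inf]; rfl
    have r2 : ∀ (t : I) (a : OnePoint Z),
        MC.q ι (rz hZ (h (1, incl hZ a))) (0 * (1 - t)) = A2 (t, ∞) := by
      intro t a
      rw [zero_mul, MC.q_zero]; rfl
    have r3 : ∀ (t : I) (a : OnePoint Z), MC.q ι (rz hZ (h (1, incl hZ a))) (1 * (1 - t)) =
        A2 (t, ι a) := by
      intro t a
      rw [one_mul]
      exact (A2z t a).symm
    have hΦ2 : Continuous (fun p : I × OnePoint C => Φ2 p.1 p.2) := by
      refine MC.continuous_of ι ?_ ?_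
      · have : (fun p : I × (OnePoint Z × I) => Φ2 p.1 (MC.q ι p.2.1 p.2.2)) =
            fun p => MC.q ι (rz hZ (h (1, incl hZ p.2.1))) (p.2.2 * (1 - p.1)) := by
          funext p
          exact MC.lift_q ι _ _ (r1 p.1) (r2 p.1) (r3 p.1) p.2.1 p.2.2.2
        simp only
        rw [this]
        refine (MC.continuous_q ι).comp (Continuous.prodMk ?_ (by fun_prop))
        refine continuous_rz hZ (g := fun p : I × (OnePoint Z × I) => h (1, incl hZ p.2.1)) ?_
          fun p => hzz 1 _ ⟨_, rfl⟩
        exact hc.comp (continuous_const.prodMk ((incl hZ).cont.comp (by fun_prop)))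
      · have : (fun p : I × OnePoint M => Φ2 p.1 (MC.i ι p.2)) = fun p => A2 p := by
          funext p
          exact MC.lift_i ι _ _ p.2
        simp only
        rw [this]
        exact hA2
    have e2 : m1.Homotopic (k.comp (kap hZ)) := by
      refine PMap.Homotopic.of (fun p => Φ2 p.1 p.2) hΦ2 ?_ ?_ ?_
      · intro z
        change Φ2 0 (z : OnePoint C) = Φ1 1 (z : OnePoint C)
        generalize (z : OnePoint C) = z'
        refine MC.cases ι (P := fun z' => Φ2 0 z' = Φ1 1 z') ?_ ?_ z'
        · intro a s hs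
          change MC.lift ι _ _ (MC.q ι a s) = MC.lift ι _ _ (MC.q ι a s)
          rw [MC.lift_q ι _ _ (r1 0) (r2 0) (r3 0) a hs, MC.lift_q ι _ _ (p1 1) (p2 1) (p3 1) a hs,
            Set.Icc.coe_zero, sub_zero, mul_one]
        · intro y
          change MC.lift ι _ _ (MC.i ι y) = MC.lift ι _ _ (MC.i ι y)
          rw [MC.lift_i, MC.lift_i, A20]
      · intro z
        change Φ2 1 (z : OnePoint C) = k (kap hZ (z : OnePoint C))
        generalize (z : OnePoint C) = z'
        refine MC.cases ι (P := fun z' => Φ2 1 z' = k (kap hZ z')) ?_ ?_ z'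
        · intro a s hs
          change MC.lift ι _ _ (MC.q ι a s) = _
          rw [MC.lift_q ι _ _ (r1 1) (r2 1) (r3 1) a hs, kap_q hZ a hs, k.map_inf,
            Set.Icc.coe_one, sub_self, mul_zero, MC.q_zero]
        · intro y
          change MC.lift ι _ _ (MC.i ι y) = _
          rw [MC.lift_i, kap_i, hkc]
      · intro t; rfl
    exact (e1.trans e2).symm
  · -- `k ∘ col ≃ i`
    have e1 : (MC.i ι).Homotopic ((MC.i ι).comp hh) := by
      refine PMap.Homotopic.of A1 hA1 ?_ ?_ ?_
      · intro x
        change MC.i ι (h (0, x)) = _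
        rw [h0]
      · intro x; rfl
      · intro t
        change MC.i ι (h (t, ∞)) = ∞
        rw [hinf, (MC.i ι).map_inf]
    have e2 : ((MC.i ι).comp hh).Homotopic (k.comp (col hZ)) := by
      refine PMap.Homotopic.of A2 hA2 ?_ ?_ ?_
      · intro x; exact A20 x
      · intro x; exact (hkc x).symm
      · intro t; rfl
    exact (e1.trans e2).symm

/-- exactness `[M \ Z, W] → [M, W] → [Z, W]` for an NDR pair -/
theorem exists_col (hZ : IsClosed Z) (phi : M → ℝ) (hphi : Continuous phi)
    (hphi0 : ∀ x ∈ Z, phi x ≤ 0)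
    (h : I × OnePoint M → OnePoint M) (hc : Continuous h) (h0 : ∀ x, h (0, x) = x)
    (hinf : ∀ t, h (t, ∞) = ∞) (hzz : ∀ t, ∀ x ∈ range (incl hZ), h (t, x) ∈ range (incl hZ))
    (h1 : ∀ x : M, phi x ≤ 1 / 2 → h (1, x) ∈ range (incl hZ))
    {W : Type w} [TopologicalSpace W] (g : PMap M W) (hg : (g.comp (incl hZ)).Null) :
    ∃ g' : PMap (Zᶜ : Set M) W, g.Homotopic (g'.comp (col hZ)) := by
  obtain ⟨k, _, _, hk⟩ := exists_kap_inv hZ phi hphi hphi0 h hc h0 hinf hzz h1
  obtain ⟨g1, hg1⟩ := MC.exists_desc (incl hZ) g hg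
  refine ⟨g1.comp k, ?_⟩
  have : (g1.comp (k.comp (col hZ))).Homotopic (g1.comp (MC.i (incl hZ))) :=
    PMap.Homotopic.comp_left g1 hk
  rw [hg1] at this
  exact this.symm

end

end Crest.Agent.R090.Sp962
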