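import Crest.Agent.R090.ExcSt_503
import Crest.Agent.R090.Sm_202
import Crest.Agent.R090.Cof_962

/-!
# Row 90, A-IDEAL (helper503, for 669): Borsuk exactness with a parameter space

`exPair_oc`, `exPair_MC`, `exPair_closed`: middle exactness for sphere targets, any parameter `B`;
`eInj_c`: `c : MC incl → O` is injective on classes with sphere target, any parameter;
`mc_square_c`, `mc_square_p`: strict maps of pairs.
-/

set_option autoImplicit false
set_option linter.unusedSectionVars false
set_option linter.unusedVariables false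

open Topology Filter Set

namespace Crest.Agent.R090.Exc503

open OnePoint Crest.Agent.R090.Sp962 Crest.R090.Hep865
open Crest.Agent.R090.Grp528 Crest.Agent.R090.St528 Crest.Agent.R090.Sm202
open scoped unitInterval

variable {F U O : Type}
variable [TopologicalSpace F] [TopologicalSpace U] [TopologicalSpace O]
variable [T2Space F] [T2Space U] [T2Space O]
variable [LocallyCompactSpace F] [LocallyCompactSpace U] [LocallyCompactSpace O]
variable {i : F → U} {e : O → U}

/-- middle exactness, with a parameter, any sphere target -/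
theorem exPair_oc' {E : Type} [TopologicalSpace E] [T2Space E] [LocallyCompactSpace E]
    (hE : SphT.{0} E) (h : OC i e) (B : Type) [TopologicalSpace B] [T2Space B]
    [LocallyCompactSpace B] (y : St (U × B) E) (hy : y.comp ((St.ofP h.incl).smR B) = 0) :
    ∃ z : St (O × B) E, y = z.comp ((St.ofP h.coll).smR B) := by
  rw [smR_ofP, ← h.prodRight_incl] at hy
  obtain ⟨z, hz⟩ := (h.prodRight B).st_exists_coll hE y hy
  refine ⟨z, ?_⟩
  rw [smR_ofP, ← h.prodRight_coll]
  exact hz

/-- **(a)** -/
theorem exPair_oc (h : OC i e) (B : Type) [TopologicalSpace B] [T2Space B]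
    [LocallyCompactSpace B] (N : ℕ) (y : St (U × B) (Fin N → ℝ))
    (hy : y.comp ((St.ofP h.incl).smR B) = 0) :
    ∃ z : St (O × B) (Fin N → ℝ), y = z.comp ((St.ofP h.coll).smR B) :=
  exPair_oc' (SphT.fd _) h B y hy

/-- **(b)** -/
theorem exPair_MC (f : PMap F U) (B : Type) [TopologicalSpace B] [T2Space B]
    [LocallyCompactSpace B] (N : ℕ) (y : St (MC f × B) (Fin N → ℝ))
    (hy : y.comp ((St.ofP (MC.i f)).smR B) = 0) :
    ∃ z : St ((F × Io) × B) (Fin N → ℝ), y = z.comp ((St.ofP (MC.p f)).smR B) := by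
  rw [← OC.ofMC_incl] at hy
  obtain ⟨z, hz⟩ := exPair_oc (OC.ofMC f) B N y hy
  refine ⟨z, ?_⟩
  rw [OC.ofMC_coll] at hz
  exact hz

/-- **(c)** -/
theorem eInj_c' {E : Type} [TopologicalSpace E] [T2Space E] [LocallyCompactSpace E]
    (hE : SphT.{0} E) (h : OC i e) (B : Type) [TopologicalSpace B] [T2Space B]
    [LocallyCompactSpace B] (y : St (O × B) E) (hy : y.comp ((St.ofP h.c).smR B) = 0) :
    y = 0 := by
  have hn : (PMap.id ((F × Ic) × B)).Null := by
    rw [← PMap.smash_id]
    exact (null_cone F).smash_left _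
  refine (h.cone.prodRight B).st_collapse_inj hE hn ?_
  rw [h.cone.prodRight_coll, ← smR_ofP]
  exact hy

/-- **(c)** -/
theorem eInj_c (h : OC i e) (B : Type) [TopologicalSpace B] [T2Space B]
    [LocallyCompactSpace B] (N : ℕ) (y : St (O × B) (Fin N → ℝ))
    (hy : y.comp ((St.ofP h.c).smR B) = 0) : y = 0 := eInj_c' (SphT.fd _) h B y hy

theorem ofClosed_incl {A : Set U} (hA : IsClosed A) : (OC.of_isClosed hA).incl = Sp962.incl hA :=
  rfl

theorem of_isClosed_coll {A : Set U} (hA : IsClosed A) : (OC.of_isClosed hA).coll = Sp962.col hA :=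
  rfl

/-- **(d)** -/
theorem exPair_closed {A : Set U} (hA : IsClosed A) [LocallyCompactSpace A]
    [LocallyCompactSpace (Aᶜ : Set U)] (B : Type) [TopologicalSpace B] [T2Space B]
    [LocallyCompactSpace B] (N : ℕ) (y : St (U × B) (Fin N → ℝ))
    (hy : y.comp ((St.ofP (Sp962.incl hA)).smR B) = 0) :
    ∃ z : St ((Aᶜ : Set U) × B) (Fin N → ℝ), y = z.comp ((St.ofP (Sp962.col hA)).smR B) :=
  exPair_oc (OC.of_isClosed hA) B N y hy

/-- the contractible closed subset form of (c) -/
theorem eInj_coll (h : OC i e) (hF : (PMap.id F).Null) (B : Type) [TopologicalSpace B] [T2Space B]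
    [LocallyCompactSpace B] (N : ℕ) (y : St (O × B) (Fin N → ℝ))
    (hy : y.comp ((St.ofP h.coll).smR B) = 0) : y = 0 := by
  have hn : (PMap.id (F × B)).Null := by
    rw [← PMap.smash_id]
    exact hF.smash_left _
  refine (h.prodRight B).st_collapse_inj (SphT.fd _) hn ?_
  rw [h.prodRight_coll, ← smR_ofP]
  exact hy

section map

variable {F' U' O' : Type}
variable [TopologicalSpace F'] [TopologicalSpace U'] [TopologicalSpace O']
variable [T2Space F'] [T2Space U'] [T2Space O']
variable [LocallyCompactSpace F'] [LocallyCompactSpace U'] [LocallyCompactSpace O']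
variable {i' : F' → U'} {e' : O' → U'}

/-- **(e1)** -/
theorem mc_square_c (h : OC i e) (h' : OC i' e') (φ : PMap F F')
    (ψ : PMap U U') (χ : PMap O O') (hsq : ψ.comp h.incl = h'.incl.comp φ)
    (hsq' : h'.coll.comp ψ = χ.comp h.coll) :
    (St.ofP h'.c).comp (St.ofP (mcMap φ ψ hsq)) = (St.ofP χ).comp (St.ofP h.c) := by
  rw [← St.ofP_comp, ← St.ofP_comp, OC.c_comp_mcMap h h' φ ψ χ hsq hsq']

/-- **(e2)** -/
theorem mc_square_p {f : PMap F U} {f' : PMap F' U'} (φ : PMap F F')
    (ψ : PMap U U') (hsq : ψ.comp f = f'.comp φ) :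
    (St.ofP (MC.p f')).comp (St.ofP (mcMap φ ψ hsq)) =
      ((St.ofP φ).smR Io).comp (St.ofP (MC.p f)) := by
  rw [smR_ofP, ← St.ofP_comp, ← St.ofP_comp, p_comp_mcMap]

/-- **(e3)** -/
theorem mc_square_i {f : PMap F U} {f' : PMap F' U'} (φ : PMap F F')
    (ψ : PMap U U') (hsq : ψ.comp f = f'.comp φ) :
    (St.ofP (mcMap φ ψ hsq)).comp (St.ofP (MC.i f)) =
      (St.ofP (MC.i f')).comp (St.ofP ψ) := by
  rw [← St.ofP_comp, ← St.ofP_comp, mcMap_comp_i]

end map

end Crest.Agent.R090.Exc503
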