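import Crest.Agent.R090.IdQ_669
import Crest.Agent.R090.IdEx_503
import Crest.Agent.R090.AIPow_542

/-!
# Row 90, A-IDEAL: the instance `PId` of 542 for the ideal `Spine.IdQ` (owner helper669)
-/

set_option autoImplicit false
set_option linter.unusedSectionVars false

open Topology Filter Set

noncomputable section

namespace Crest.Agent.R090.IdS669

open OnePoint Crest.Agent.R090.Sp962 Crest.Agent.R090.St528 Crest.Agent.R090.Dens255
  Crest.Agent.R090.Sm202 Crest.Agent.R090.SmX669 Crest.Agent.R090.Spine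

/-! ## bindings to 503's exactness -/

section bind

variable {F U O : Type}
variable [TopologicalSpace F] [TopologicalSpace U] [TopologicalSpace O]
variable [T2Space F] [T2Space U] [T2Space O]
variable [LocallyCompactSpace F] [LocallyCompactSpace U] [LocallyCompactSpace O]
variable {i : F → U} {e : O → U}

theorem exPair_oc (h : Exc503.OC i e) : ExPair (St.ofP h.incl) (St.ofP h.coll) :=
  fun B _ _ _ N y hy => Exc503.exPair_oc h B N y hy

theorem exPair_MC (f : PMap F U) : ExPair (St.ofP (MC.i f)) (St.ofP (MC.p f)) :=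
  fun B _ _ _ N y hy => Exc503.exPair_MC f B N y hy

theorem exPair_closed {A : Set U} (hA : IsClosed A) [LocallyCompactSpace A]
    [LocallyCompactSpace (Aᶜ : Set U)] :
    ExPair (St.ofP (Sp962.incl hA)) (St.ofP (Sp962.col hA)) :=
  fun B _ _ _ N y hy => Exc503.exPair_closed hA B N y hy

theorem eInj_c (h : Exc503.OC i e) : EInj (St.ofP h.c) :=
  fun B _ _ _ N y hy => Exc503.eInj_c h B N y hy

theorem eInj_coll (h : Exc503.OC i e) (hF : (PMap.id F).Null) : EInj (St.ofP h.coll) :=
  fun B _ _ _ N y hy => Exc503.eInj_coll h hF B N y hy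

end bind

section pid

variable {M : Type} [TopologicalSpace M] [T2Space M] [LocallyCompactSpace M]
variable {q : ℕ} {Z : Set M} [hZ : Fact (IsClosed Z)]

variable {F U O : Type}
variable [TopologicalSpace F] [TopologicalSpace U] [TopologicalSpace O]
variable [T2Space F] [T2Space U] [T2Space O]
variable [LocallyCompactSpace F] [LocallyCompactSpace U] [LocallyCompactSpace O]
variable {i : F → U} {e : O → U}

/-- closed rule for strict maps of a closed/open pair -/
theorem idQ_total (hq : q.Prime) (h : Exc503.OC i e) {fF : PMap F F} {fU : PMap U U}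
    {fO : PMap O O} (h1 : fU.comp h.incl = h.incl.comp fF) (h2 : h.coll.comp fU = fO.comp h.coll)
    (hF : IdQ q Z (St.ofP fF)) (hO : IdQ q Z (St.ofP fO)) :
    IdQ q Z (St.ofP (fU.comp fU)) := by
  rw [St.ofP_comp]
  refine (exPair_oc h).idQ_sq hq ?_ ?_ hF hO
  · rw [← St.ofP_comp, ← St.ofP_comp, h1]
  · rw [← St.ofP_comp, ← St.ofP_comp, h2]

/-- open rule for strict maps of a closed/open pair -/
theorem idQ_rot (hq : q.Prime) (h : Exc503.OC i e) {fF : PMap F F} {fU : PMap U U}
    {fO : PMap O O} (h1 : fU.comp h.incl = h.incl.comp fF) (h2 : h.coll.comp fU = fO.comp h.coll)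
    (hF : IdQ q Z (St.ofP fF)) (hU : IdQ q Z (St.ofP fU)) :
    IdQ q Z (St.ofP (fO.comp fO)) := by
  rw [St.ofP_comp]
  refine (exPair_MC h.incl).idQ_open hq (r := St.ofP h.c) (eInj_c h) (c := St.ofP h.coll)
    (φC := St.ofP (Exc503.mcMap fF fU h1)) (φA := (St.ofP fF).smR Io) ?_ ?_ ?_ ?_ (hF.smR Io) hU
  · rw [← St.ofP_comp, h.c_comp_i]
  · rw [← St.ofP_comp, ← St.ofP_comp, h2]
  · exact Exc503.mc_square_c h h fF fU fO h1 h2
  · exact Exc503.mc_square_p fF fU h1

/-- **542's hypothesis on the ideal** -/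
theorem pid (hq : q.Prime) : AIPow542.PId (fun f => IdQ q Z (St.ofP f)) where
  left g f hf := by
    rw [St.ofP_comp]; exact hf.comp_left _
  right f g hf := by
    rw [St.ofP_comp]; exact hf.comp_right _
  smash f hf W _ _ _ := by
    rw [← smR_ofP]; exact hf.smR W
  empty f := by
    have : f = PMap.zero _ _ := PMap.ext fun x => isEmptyElim x
    rw [this, St.ofP_zero]
    exact IdQ.zero hq.ne_one
  total i hi e he h fF fU fO h1 h2 hF hO := idQ_total hq ⟨hi, he, h⟩ h1 h2 hF hO
  rot i hi e he h fF fU fO h1 h2 hF hU := idQ_rot hq ⟨hi, he, h⟩ h1 h2 hF hU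

end pid

end Crest.Agent.R090.IdS669
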