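import Crest.Agent.R090.AIPow_542
import Crest.Agent.R090.PId_669
import Crest.Agent.R090.PowR_389
import Crest.Agent.R090.GoodR_812
import Crest.Agent.R090.ATraceR_253
import Crest.Agent.R090.AAsm_923

/-!
# Row 90, block (A), A-IPOW + STEP (helper542): the literal `PowStmt` of `AAsm_923`

* `PId.pw` : `J φ → ∃ k ≥ 1, J (iter (pw q E φ) k)` (389's `pw`);
* `powStmt` : `PowStmt (Good H) L`, from 253's trace formula, 812's class, 669's ideal.
-/

set_option autoImplicit false
set_option linter.unusedSectionVars false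

open Topology Filter Set

namespace Crest.Agent.R090.AStep542

open OnePoint Crest.Agent.R090.Sp962 Crest.Agent.R090.Orb389 Crest.Agent.R090.GSp389
open Crest.Agent.R090.QU389 Crest.Agent.R090.Sph389 Crest.Agent.R090.PowR389
open Crest.Agent.R090.AIPow542 Crest.Agent.R090.Dens255

section pw

variable {J : MapPred} (h : PId J) {q : ℕ} [Fact q.Prime] {k : ℕ}
variable {U : Type} [TopologicalSpace U] [T2Space U] [LocallyCompactSpace U]
include h

theorem iter_Psi (φ : PMap U U) (n : ℕ) : Psi q k (iter φ n) = iter (Psi q k φ) n := by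
  clear h
  induction n with
  | zero => exact Psi_id
  | succ n ih => rw [iter_succ, Psi_comp, ih, iter_succ]

/-- **the ideal and the power operation** -/
theorem pw (E : Emb k U) {φ : PMap U U} (hφ : J φ) : ∃ n, 1 ≤ n ∧ J (iter (pw q E φ) n) := by
  have h1 : J (iter (QU.map q φ) 2) := h.qu hφ
  obtain ⟨n, hn⟩ := h.bal_ind (QU.map_equi φ) h1 (sphG q (mm q k) (ww q k) (ww_ne q k))
    (fun P h0 hc hp => sph_induction' q P h0 hc hp (mm q k) (ww q k) (ww_ne q k))
  have h2 : J (iter (Psi q k φ) (n + 1)) := h.iter_ge (Nat.le_succ n) hn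
  refine ⟨n + 1, Nat.succ_pos n, ?_⟩
  have e : iter (PowR389.pw q E φ) (n + 1) = (eps q E).comp (iter (Psi q k φ) (n + 1)) := by
    rw [← iter_Psi h, ← pw_eq]
    exact (AAsm542.iter_mult (pw_comp E) φ (Nat.succ_pos n)).symm
  rw [e]
  exact h.left _ _ h2

end pw

open Crest.Agent.R090.HSt285 Crest.Agent.R090.Kun493 Crest.Agent.R090.Good812
open Crest.Agent.R090.CohT253

/-- Lefschetz numbers of a rational theory -/
noncomputable def LL (H : CohX ℚ) : AAsm542.LFun := fun _ _ _ _ φ => H.L φ

/-- **the power construction, literal form** -/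
theorem powStmt {H : CohX ℚ} (X : KX H)
    (hQ : ∀ (q : ℕ) [Fact q.Prime] (k : ℕ) (U : Type) [TopologicalSpace U] [T2Space U]
      [LocallyCompactSpace U],
      H.QInv (actA (Cq q) (QU q U × SS q k)) (Orb.pr (Cq q) (QU q U × SS q k))) :
    AAsm923.PowStmt (fun U _ _ _ => Good H U) (LL H) := by
  intro q hq U _ _ _ hU
  have : Fact q.Prime := ⟨hq⟩
  obtain ⟨k, ⟨E⟩⟩ := exists_emb hU.inj
  refine ⟨RU q k U, inferInstance, inferInstance, inferInstance, PowR389.pw q E,
    GoodR812.good_RU X hU k, pw_comp E, ?_, ?_⟩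
  · intro φ
    exact ATraceR253.L_pw X two_ne_zero (by exact_mod_cast hq.ne_zero) hU.cc (hQ q k U) E φ
  · intro M _ _ _ Z _ φ hφ
    exact pw (IdS669.pid hq) E hφ

end Crest.Agent.R090.AStep542
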