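import Crest.Agent.R090.St3_528
import Crest.Agent.R090.Lin_202

/-!
# Row 90, T1-ADD: the complex suspension isomorphism (owner helper528)

`St.shC : St X Y ≃+ St (X × ℂ) (Y × ℂ)` (no homotopies: the new coordinate is put in front).
-/

set_option autoImplicit false
set_option linter.unusedSectionVars false
set_option linter.unusedVariables false

open Topology Filter Set

namespace Crest.Agent.R090.St528

open OnePoint Crest.Agent.R090.Sp962 Crest.Agent.R090.Grp528
open scoped unitInterval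

universe u v w x

section

variable (X : Type u) [TopologicalSpace X]

/-- the new coordinate is put in front -/
def phC (n : ℕ) : S (X × ℂ) n ≃ₜ S X (n + 1) where
  toFun p := (p.1.1, Fin.cons (α := fun _ => ℂ) p.1.2 p.2)
  invFun q := ((q.1, q.2 0), fun i => q.2 i.succ)
  left_inv p := by
    obtain ⟨⟨x, c⟩, v⟩ := p
    simp
  right_inv q := by
    obtain ⟨x, v⟩ := q
    simp only [Prod.mk.injEq, true_and]
    exact Fin.cons_self_tail v
  continuous_toFun := by
    refine continuous_fst.fst.prodMk ?_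
    refine continuous_pi fun i => ?_
    refine Fin.cases ?_ (fun j => ?_) i
    · exact continuous_fst.snd
    · exact (continuous_apply j).comp continuous_snd
  continuous_invFun := by
    refine (continuous_fst.prodMk ((continuous_apply _).comp continuous_snd)).prodMk ?_
    exact continuous_pi fun i => (continuous_apply _).comp continuous_snd

theorem phC_eS (n : ℕ) (p : S (X × ℂ) (n + 1)) :
    eS X (n + 1) (phC X (n + 1) p) =
      (phC X n (eS (X × ℂ) n p).1, (eS (X × ℂ) n p).2) := by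
  obtain ⟨⟨x, c⟩, v⟩ := p
  refine Prod.ext (Prod.ext rfl ?_) ?_
  · funext i
    refine Fin.cases ?_ (fun j => ?_) i
    · rfl
    · rfl
  · rfl

end

variable {X : Type u} {Y : Type v} {Z : Type w}
variable [TopologicalSpace X] [TopologicalSpace Y] [TopologicalSpace Z]
variable [T2Space X] [LocallyCompactSpace X] [T2Space Y] [LocallyCompactSpace Y]
  [T2Space Z] [LocallyCompactSpace Z]

/-- shift of a class by one level -/
noncomputable def shH {n : ℕ} (b : HC (S X (n + 1)) (S Y (n + 1))) :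
    HC (S (X × ℂ) n) (S (Y × ℂ) n) :=
  (hh (phC Y n).symm).comp (b.comp (hh (phC X n)))

/-- inverse shift -/
noncomputable def unH {n : ℕ} (b : HC (S (X × ℂ) n) (S (Y × ℂ) n)) :
    HC (S X (n + 1)) (S Y (n + 1)) :=
  (hh (phC Y n)).comp (b.comp (hh (phC X n).symm))

theorem unH_shH {n : ℕ} (b : HC (S X (n + 1)) (S Y (n + 1))) : unH (shH b) = b := by
  simp only [unH, shH, HC.comp_assoc, hh_comp_symm_assoc, hh_comp_symm, comp_h1]

theorem shH_unH {n : ℕ} (b : HC (S (X × ℂ) n) (S (Y × ℂ) n)) : shH (unH b) = b := by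
  simp only [unH, shH, HC.comp_assoc, hh_symm_comp_assoc, hh_symm_comp, comp_h1]

theorem hh_phC_eS (n : ℕ) : (hh (eS X (n + 1))).comp (hh (phC X (n + 1))) =
    ((hh (phC X n)).smash (h1 ℂ)).comp (hh (eS (X × ℂ) n)) := by
  rw [hh_smash_h1, ← hh_trans, ← hh_trans]
  exact hh_ext (phC_eS X n)

theorem hh_phC_eS' (n : ℕ) : (hh (phC X (n + 1)).symm).comp (hh (eS X (n + 1)).symm) =
    (hh (eS (X × ℂ) n).symm).comp ((hh (phC X n).symm).smash (h1 ℂ)) := by
  rw [hh_smash_h1, ← hh_trans, ← hh_trans]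
  refine hh_ext fun q => ?_
  change ((phC X (n + 1)).trans (eS X (n + 1))).symm q =
    ((eS (X × ℂ) n).trans ((phC X n).prodCongr (Homeomorph.refl ℂ))).symm q
  rw [Homeomorph.symm_apply_eq]
  have h := phC_eS X n (((eS (X × ℂ) n).trans ((phC X n).prodCongr (Homeomorph.refl ℂ))).symm q)
  refine Eq.trans ?_ h.symm
  exact (((eS (X × ℂ) n).trans ((phC X n).prodCongr (Homeomorph.refl ℂ))).apply_symm_apply q).symm

/-- the shift is strictly compatible with stabilisation -/
theorem st_shH {n : ℕ} (b : HC (S X (n + 1)) (S Y (n + 1))) : st (shH b) = shH (st b) := by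
  have e1 : (shH b).smash (h1 ℂ) = ((hh (phC Y n).symm).smash (h1 ℂ)).comp
      ((b.smash (h1 ℂ)).comp ((hh (phC X n)).smash (h1 ℂ))) := by
    rw [HC.smash_comp, HC.smash_comp, comp_h1, comp_h1]; rfl
  rw [st, e1, shH, st]
  simp only [HC.comp_assoc]
  rw [← hh_phC_eS, ← HC.comp_assoc (hh (eS (Y × ℂ) n).symm), ← hh_phC_eS', HC.comp_assoc]

theorem st_unH {n : ℕ} (b : HC (S (X × ℂ) n) (S (Y × ℂ) n)) : st (unH b) = unH (st b) := by
  have h := st_shH (unH b)
  rw [shH_unH] at h
  rw [h, unH_shH]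

theorem shH_comp {n : ℕ} (b : HC (S Y (n + 1)) (S Z (n + 1))) (a : HC (S X (n + 1)) (S Y (n + 1))) :
    shH (b.comp a) = (shH b).comp (shH a) := by
  simp only [shH, HC.comp_assoc, hh_comp_symm_assoc]

theorem shH_sadd {n : ℕ} (a b : HC (S X (n + 2)) (S Y (n + 2))) :
    shH (sadd a b) = sadd (shH a) (shH b) := by
  rw [shH, sadd, gadd_hh, comp_gadd]
  refine gadd_base' (lev (X × ℂ) n) ((phC X n).prodCongr (Homeomorph.refl Io)) _ (fun p => ?_) _ _
  change cH (S X (n + 1)) (eS X (n + 1) (phC X (n + 1) p)) = _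
  rw [phC_eS]
  rfl

/-- the shift on sequences -/
noncomputable def shPre (s : Pre X Y) : Pre (X × ℂ) (Y × ℂ) :=
  ⟨fun n => shH (s.seq (n + 1)), by
    obtain ⟨N, h⟩ := s.ev
    exact ⟨N, fun n hn => by rw [st_shH, ← h (n + 1) (by omega)]⟩⟩

/-- the inverse shift on sequences -/
noncomputable def unSeq (s : ∀ n, HC (S (X × ℂ) n) (S (Y × ℂ) n)) : ∀ n, HC (S X n) (S Y n)
  | 0 => hzero _ _
  | n + 1 => unH (s n)

/-- the inverse shift on sequences -/
noncomputable def unPre (s : Pre (X × ℂ) (Y × ℂ)) : Pre X Y :=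
  ⟨unSeq s.seq, by
    obtain ⟨N, h⟩ := s.ev
    refine ⟨N + 1, fun n hn => ?_⟩
    obtain ⟨m, rfl⟩ := Nat.exists_eq_add_of_le' (show 1 ≤ n by omega)
    change unH (s.seq (m + 1)) = st (unH (s.seq m))
    rw [st_unH, h m (by omega)]⟩

/-- **complex suspension isomorphism** (new coordinate in front) -/
noncomputable def St.shC : St X Y ≃+ St (X × ℂ) (Y × ℂ) where
  toFun := Quotient.map shPre (by
    rintro s t ⟨N, h⟩
    refine ⟨N, fun n hn => ?_⟩
    change shH (s.seq (n + 1)) = shH (t.seq (n + 1))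
    rw [h (n + 1) (by omega)])
  invFun := Quotient.map unPre (by
    rintro s t ⟨N, h⟩
    refine ⟨N + 1, fun n hn => ?_⟩
    obtain ⟨m, rfl⟩ := Nat.exists_eq_add_of_le' (show 1 ≤ n by omega)
    change unH (s.seq m) = unH (t.seq m)
    rw [h m (by omega)])
  left_inv s := by
    obtain ⟨s, rfl⟩ := Quotient.exists_rep s
    exact St.ext_succ fun n => unH_shH _
  right_inv s := by
    obtain ⟨s, rfl⟩ := Quotient.exists_rep s
    exact St.ext_succ fun n => shH_unH _
  map_add' a b := by
    obtain ⟨a, rfl⟩ := Quotient.exists_rep a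
    obtain ⟨b, rfl⟩ := Quotient.exists_rep b
    exact St.ext_succ fun n => shH_sadd _ _

theorem St.shC_comp (b : St Y Z) (a : St X Y) : St.shC (b.comp a) = (St.shC b).comp (St.shC a) := by
  obtain ⟨a, rfl⟩ := Quotient.exists_rep a
  obtain ⟨b, rfl⟩ := Quotient.exists_rep b
  exact St.ext_succ fun n => shH_comp _ _

/-! ## comparison with the smash product with `ℂ` -/

/-- `(X × W) × ℂ^n ≃ₜ (X × ℂ^n) × W` -/
def swS (X : Type u) (W : Type w) [TopologicalSpace X] [TopologicalSpace W] (n : ℕ) :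
    S (X × W) n ≃ₜ S X n × W where
  toFun p := ((p.1.1, p.2), p.1.2)
  invFun q := ((q.1.1, q.2), q.1.2)
  left_inv _ := rfl
  right_inv _ := rfl
  continuous_toFun := by fun_prop
  continuous_invFun := by fun_prop

end Crest.Agent.R090.St528
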