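import Crest.Agent.R090.IdS_669
import Crest.Agent.R090.Susp_528

/-!
# Row 90, A-IDEAL: the laws of the ideal `Spine.IdQ` (owner helper669)
-/

set_option autoImplicit false
set_option linter.unusedSectionVars false

open Topology Filter Set

noncomputable section

namespace Crest.Agent.R090.IdS669

open OnePoint Crest.Agent.R090.Sp962 Crest.Agent.R090.St528 Crest.Agent.R090.Dens255
  Crest.Agent.R090.Sm202 Crest.Agent.R090.SmX669 Crest.Agent.R090.Spine

section iota

variable {M : Type} [TopologicalSpace M] [T2Space M] [LocallyCompactSpace M]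

/-- `P_{K,s'} → P_{K,s}` for `s ≤ s'` -/
def iotaS (Z : Set M) [hZ : Fact (IsClosed Z)] (K : ℕ) {s s' : ℕ} (h : s ≤ s') :
    PMap (PP Z (Fin K) s') (PP Z (Fin K) s) :=
  inclS (isClosed_PP hZ.out s') (PP_antitone Z h)

theorem iotaS_comp (Z : Set M) [hZ : Fact (IsClosed Z)] (K : ℕ) {s s' s'' : ℕ} (h : s ≤ s')
    (h' : s' ≤ s'') : (iotaS Z K h).comp (iotaS Z K h') = iotaS Z K (h.trans h') :=
  PMap.ext fun _ => rfl

theorem iotaP_eq (Z : Set M) [hZ : Fact (IsClosed Z)] (K s l : ℕ) :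
    iotaP Z K s l = iotaS Z K (Nat.le_add_right s l) := rfl

end iota

variable {M : Type} [TopologicalSpace M] [T2Space M] [LocallyCompactSpace M]
variable {q : ℕ} {Z : Set M} [hZ : Fact (IsClosed Z)]
variable {X X' X'' : Type} [TopologicalSpace X] [TopologicalSpace X'] [TopologicalSpace X'']
variable [T2Space X] [T2Space X'] [T2Space X'']
variable [LocallyCompactSpace X] [LocallyCompactSpace X'] [LocallyCompactSpace X'']

/-- the working form of `IdQ` -/
theorem idQ_iff {g : St X X'} : IdQ q Z g ↔ ∃ l : ℕ, ∀ (K s s' : ℕ) (h : s + l ≤ s'),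
    ∃ n : ℕ, ¬ q ∣ n ∧ Kill n (iotaS Z K ((Nat.le_add_right s l).trans h)) g := by
  constructor
  · rintro ⟨l, hl⟩
    refine ⟨l, fun K s s' h => ?_⟩
    obtain ⟨n, hn, H⟩ := hl K s
    refine ⟨n, hn, ?_⟩
    rw [← iotaS_comp Z K (Nat.le_add_right s l) h]
    exact (sNull_iff_kill.1 H).comp_ι _
  · rintro ⟨l, hl⟩
    refine ⟨l, fun K s => ?_⟩
    obtain ⟨n, hn, H⟩ := hl K s (s + l) le_rfl
    exact ⟨n, hn, sNull_iff_kill.2 H⟩

theorem _root_.Crest.Agent.R090.Spine.IdQ.zero (hq : q ≠ 1) : IdQ q Z (0 : St X X') :=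
  idQ_iff.2 ⟨0, fun _ _ _ _ => ⟨1, fun h => hq (Nat.dvd_one.1 h), Kill.zero _ _⟩⟩

theorem _root_.Crest.Agent.R090.Spine.IdQ.comp_left {g : St X X'} (h : IdQ q Z g)
    (f : St X' X'') : IdQ q Z (f.comp g) := by
  obtain ⟨l, hl⟩ := idQ_iff.1 h
  refine idQ_iff.2 ⟨l, fun K s s' h => ?_⟩
  obtain ⟨n, hn, H⟩ := hl K s s' h
  exact ⟨n, hn, H.comp_left f⟩

theorem _root_.Crest.Agent.R090.Spine.IdQ.comp_right {g : St X' X''} (h : IdQ q Z g)
    (f : St X X') : IdQ q Z (g.comp f) := by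
  obtain ⟨l, hl⟩ := idQ_iff.1 h
  refine idQ_iff.2 ⟨l, fun K s s' h => ?_⟩
  obtain ⟨n, hn, H⟩ := hl K s s' h
  exact ⟨n, hn, H.comp_right f⟩

theorem _root_.Crest.Agent.R090.Spine.IdQ.neg {g : St X X'} (h : IdQ q Z g) : IdQ q Z (-g) := by
  obtain ⟨l, hl⟩ := idQ_iff.1 h
  refine idQ_iff.2 ⟨l, fun K s s' h => ?_⟩
  obtain ⟨n, hn, H⟩ := hl K s s' h
  exact ⟨n, hn, H.neg⟩

theorem _root_.Crest.Agent.R090.Spine.IdQ.nsmul {g : St X X'} (h : IdQ q Z g) (m : ℕ) :
    IdQ q Z (m • g) := by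
  obtain ⟨l, hl⟩ := idQ_iff.1 h
  refine idQ_iff.2 ⟨l, fun K s s' h => ?_⟩
  obtain ⟨n, hn, H⟩ := hl K s s' h
  exact ⟨n, hn, H.nsmul m⟩

theorem _root_.Crest.Agent.R090.Spine.IdQ.zsmul {g : St X X'} (h : IdQ q Z g) (m : ℤ) :
    IdQ q Z (m • g) := by
  obtain ⟨k, rfl | rfl⟩ := m.eq_nat_or_neg
  · rw [natCast_zsmul]; exact h.nsmul k
  · rw [neg_zsmul, natCast_zsmul]; exact (h.nsmul k).neg

theorem _root_.Crest.Agent.R090.Spine.IdQ.add (hq : q.Prime) {g g' : St X X'} (h : IdQ q Z g)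
    (h' : IdQ q Z g') : IdQ q Z (g + g') := by
  obtain ⟨l, hl⟩ := idQ_iff.1 h
  obtain ⟨l', hl'⟩ := idQ_iff.1 h'
  refine idQ_iff.2 ⟨max l l', fun K s s' hs => ?_⟩
  obtain ⟨n, hn, H⟩ := hl K s s' (by omega)
  obtain ⟨m, hm, H'⟩ := hl' K s s' (by omega)
  exact ⟨n * m, fun hd => ((hq.dvd_mul.1 hd).elim hn hm), (H.mul_right m).add (H'.mul_left n)⟩

theorem _root_.Crest.Agent.R090.Spine.IdQ.sub (hq : q.Prime) {g g' : St X X'} (h : IdQ q Z g)
    (h' : IdQ q Z g') : IdQ q Z (g - g') := by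
  rw [sub_eq_add_neg]
  exact h.add hq h'.neg

theorem idQ_sum (hq : q.Prime) {ι : Type*} (J : Finset ι) (g : ι → St X X')
    (h : ∀ i ∈ J, IdQ q Z (g i)) : IdQ q Z (∑ i ∈ J, g i) := by
  classical
  induction J using Finset.induction_on with
  | empty => rw [Finset.sum_empty]; exact IdQ.zero hq.ne_one
  | insert a J ha ih =>
    rw [Finset.sum_insert ha]
    exact (h a (Finset.mem_insert_self a J)).add hq
      (ih fun i hi => h i (Finset.mem_insert_of_mem hi))

theorem idQ_of_nsmul (hq : q.Prime) {g : St X X'} {m : ℕ} (hm : ¬ q ∣ m)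
    (h : IdQ q Z (m • g)) : IdQ q Z g := by
  obtain ⟨l, hl⟩ := idQ_iff.1 h
  refine idQ_iff.2 ⟨l, fun K s s' h => ?_⟩
  obtain ⟨n, hn, H⟩ := hl K s s' h
  exact ⟨n * m, fun hd => ((hq.dvd_mul.1 hd).elim hn hm), Kill.nsmul_iff.1 H⟩

theorem idQ_of_zsmul (hq : q.Prime) {g : St X X'} {m : ℤ} (hm : ¬ (q : ℤ) ∣ m)
    (h : IdQ q Z (m • g)) : IdQ q Z g := by
  refine idQ_of_nsmul (m := m.natAbs) hq (fun hd => hm (Int.natCast_dvd.2 hd)) ?_
  rcases Int.natAbs_eq m with e | e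
  · rw [← natCast_zsmul, ← e]; exact h
  · have := h.neg
    rwa [e, neg_zsmul, neg_neg, natCast_zsmul] at this

theorem _root_.Crest.Agent.R090.Spine.IdQ.smR {g : St X X'} (h : IdQ q Z g) (T : Type)
    [TopologicalSpace T] [T2Space T] [LocallyCompactSpace T] : IdQ q Z (g.smR T) := by
  obtain ⟨l, hl⟩ := idQ_iff.1 h
  refine idQ_iff.2 ⟨l, fun K s s' h => ?_⟩
  obtain ⟨n, hn, H⟩ := hl K s s' h
  exact ⟨n, hn, H.smR T⟩

theorem _root_.Crest.Agent.R090.Spine.IdQ.smL {g : St X X'} (h : IdQ q Z g) (T : Type)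
    [TopologicalSpace T] [T2Space T] [LocallyCompactSpace T] : IdQ q Z (g.smL T) := by
  obtain ⟨l, hl⟩ := idQ_iff.1 h
  refine idQ_iff.2 ⟨l, fun K s s' h => ?_⟩
  obtain ⟨n, hn, H⟩ := hl K s s' h
  exact ⟨n, hn, H.smL T⟩

theorem _root_.Crest.Agent.R090.Spine.IdQ.tens_left {g : St X X'} (h : IdQ q Z g) {T T' : Type}
    [TopologicalSpace T] [T2Space T] [LocallyCompactSpace T] [TopologicalSpace T'] [T2Space T']
    [LocallyCompactSpace T'] (b : St T T') : IdQ q Z (tens g b) := (h.smR T').comp_right _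

theorem _root_.Crest.Agent.R090.Spine.IdQ.tens_right {g : St X X'} (h : IdQ q Z g) {T T' : Type}
    [TopologicalSpace T] [T2Space T] [LocallyCompactSpace T] [TopologicalSpace T'] [T2Space T']
    [LocallyCompactSpace T'] (b : St T T') : IdQ q Z (tens b g) := (h.smL T).comp_left _

/-- precomposition with an `EInj` map can be cancelled -/
theorem _root_.Crest.Agent.R090.IdS669.EInj.idQ {r : St X X'} (hr : EInj r) {g : St X' X''}
    (h : IdQ q Z (g.comp r)) : IdQ q Z g := by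
  obtain ⟨l, hl⟩ := idQ_iff.1 h
  refine idQ_iff.2 ⟨l, fun K s s' h => ?_⟩
  obtain ⟨n, hn, H⟩ := hl K s s' h
  exact ⟨n, hn, hr.kill_iff.1 H⟩

/-- transfer along a model `r : X → M`: `φ~ ∘ r = r ∘ φ` -/
theorem _root_.Crest.Agent.R090.IdS669.EInj.idQ_transfer {r : St X X'} (hr : EInj r)
    {φ : St X X} {φ' : St X' X'} (hφ : φ'.comp r = r.comp φ) (h : IdQ q Z φ) : IdQ q Z φ' :=
  hr.idQ (hφ ▸ h.comp_left r)

/-- **the two step rule** -/
theorem _root_.Crest.Agent.R090.IdS669.ExPair.idQ (hq : q.Prime) {A O : Type}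
    [TopologicalSpace A] [TopologicalSpace O] [T2Space A] [T2Space O] [LocallyCompactSpace A]
    [LocallyCompactSpace O] {i : St A X} {c : St X O} (hex : ExPair i c) {f : St X X'}
    {h : St X'' X} (hf : IdQ q Z (f.comp i)) (hh : IdQ q Z (c.comp h)) :
    IdQ q Z (f.comp h) := by
  obtain ⟨l, hl⟩ := idQ_iff.1 hf
  obtain ⟨l', hl'⟩ := idQ_iff.1 hh
  refine idQ_iff.2 ⟨l + l', fun K s s' hs => ?_⟩
  obtain ⟨n, hn, H⟩ := hl K s (s + l) le_rfl
  obtain ⟨m, hm, H'⟩ := hl' K (s + l) s' (by omega)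
  refine ⟨m * n, fun hd => ((hq.dvd_mul.1 hd).elim hm hn), ?_⟩
  have := hex.kill H H'
  rwa [iotaS_comp] at this

/-- **closed rule** -/
theorem _root_.Crest.Agent.R090.IdS669.ExPair.idQ_sq (hq : q.Prime) {A O : Type}
    [TopologicalSpace A] [TopologicalSpace O] [T2Space A] [T2Space O] [LocallyCompactSpace A]
    [LocallyCompactSpace O] {i : St A X} {c : St X O} (hex : ExPair i c) {φA : St A A}
    {φ : St X X} {φO : St O O} (hi : φ.comp i = i.comp φA) (hc : c.comp φ = φO.comp c)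
    (hA : IdQ q Z φA) (hO : IdQ q Z φO) : IdQ q Z (φ.comp φ) :=
  hex.idQ hq (hi ▸ hA.comp_left i) (hc ▸ hO.comp_right c)

/-- **open rule**: from `A` and `X` to `O`; `MC` is the cone of `A → X`, `r : MC → O` -/
theorem _root_.Crest.Agent.R090.IdS669.ExPair.idQ_open (hq : q.Prime) {C A O : Type}
    [TopologicalSpace C] [TopologicalSpace A] [TopologicalSpace O] [T2Space C] [T2Space A]
    [T2Space O] [LocallyCompactSpace C] [LocallyCompactSpace A] [LocallyCompactSpace O]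
    {j : St X C} {p : St C A} (hex : ExPair j p) {r : St C O} (hr : EInj r)
    {φ : St X X} {φC : St C C} {φA : St A A} {φO : St O O} {c : St X O}
    (hj : r.comp j = c) (hc : φO.comp c = c.comp φ) (hrC : r.comp φC = φO.comp r)
    (hpC : p.comp φC = φA.comp p) (hA : IdQ q Z φA) (hX : IdQ q Z φ) :
    IdQ q Z (φO.comp φO) := by
  refine hr.idQ ?_
  rw [St.comp_assoc, ← hrC, ← St.comp_assoc]
  refine hex.idQ hq ?_ ?_
  · rw [St.comp_assoc, hj, hc]; exact hX.comp_left c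
  · rw [hpC]; exact hA.comp_right p

/-! ### powers -/

theorem npow_add (a : St X X) (m n : ℕ) : npow a (m + n) = (npow a m).comp (npow a n) := by
  induction n with
  | zero => rw [npow, St.comp_id]; rfl
  | succ n ih =>
    change (npow a (m + n)).comp a = (npow a m).comp ((npow a n).comp a)
    rw [ih, St.comp_assoc]

theorem npow_one (a : St X X) : npow a 1 = a := St.id_comp a

theorem npow_two (a : St X X) : npow a 2 = a.comp a := by
  change (npow a 1).comp a = _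
  rw [npow_one]

theorem npow_mul (a : St X X) (m n : ℕ) : npow a (m * n) = npow (npow a m) n := by
  induction n with
  | zero => rfl
  | succ n ih =>
    rw [Nat.mul_succ, npow_add, ih]; rfl

theorem comp_npow {Y : Type} [TopologicalSpace Y] [T2Space Y] [LocallyCompactSpace Y]
    {a : St X X} {b : St Y Y} {f : St X Y} (h : b.comp f = f.comp a) (n : ℕ) :
    (npow b n).comp f = f.comp (npow a n) := by
  induction n with
  | zero => exact (St.id_comp f).trans (St.comp_id f).symm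
  | succ n ih =>
    change ((npow b n).comp b).comp f = f.comp ((npow a n).comp a)
    rw [St.comp_assoc, h, ← St.comp_assoc, ih, St.comp_assoc]

theorem _root_.Crest.Agent.R090.Spine.IdQ.npow {a : St X X} (h : IdQ q Z a) {n : ℕ}
    (hn : 1 ≤ n) : IdQ q Z (npow a n) := by
  obtain ⟨m, rfl⟩ := Nat.exists_eq_add_of_le' hn
  exact h.comp_left _

/-- powers can be increased -/
theorem idQ_npow_mono {a : St X X} {m n : ℕ} (h : IdQ q Z (Spine.npow a m)) (hmn : m ≤ n) :
    IdQ q Z (Spine.npow a n) := by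
  obtain ⟨k, rfl⟩ := Nat.exists_eq_add_of_le hmn
  rw [npow_add]
  exact h.comp_right _

/-- **closed rule with powers** -/
theorem _root_.Crest.Agent.R090.IdS669.ExPair.idQ_npow (hq : q.Prime) {A O : Type}
    [TopologicalSpace A] [TopologicalSpace O] [T2Space A] [T2Space O] [LocallyCompactSpace A]
    [LocallyCompactSpace O] {i : St A X} {c : St X O} (hex : ExPair i c) {φA : St A A}
    {φ : St X X} {φO : St O O} (hi : φ.comp i = i.comp φA) (hc : φO.comp c = c.comp φ) {m n : ℕ}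
    (hA : IdQ q Z (Spine.npow φA m)) (hO : IdQ q Z (Spine.npow φO n)) :
    IdQ q Z (Spine.npow φ (m + n)) := by
  rw [npow_add]
  refine hex.idQ hq ?_ ?_
  · rw [comp_npow hi]; exact hA.comp_left i
  · rw [← comp_npow hc]; exact hO.comp_right c

/-- **open rule with powers** -/
theorem _root_.Crest.Agent.R090.IdS669.ExPair.idQ_open_npow (hq : q.Prime) {C A O : Type}
    [TopologicalSpace C] [TopologicalSpace A] [TopologicalSpace O] [T2Space C] [T2Space A]
    [T2Space O] [LocallyCompactSpace C] [LocallyCompactSpace A] [LocallyCompactSpace O]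
    {j : St X C} {p : St C A} (hex : ExPair j p) {r : St C O} (hr : EInj r)
    {φ : St X X} {φC : St C C} {φA : St A A} {φO : St O O} {c : St X O}
    (hj : r.comp j = c) (hc : φO.comp c = c.comp φ) (hrC : φO.comp r = r.comp φC)
    (hpC : φA.comp p = p.comp φC) {m n : ℕ} (hA : IdQ q Z (Spine.npow φA m))
    (hX : IdQ q Z (Spine.npow φ n)) : IdQ q Z (Spine.npow φO (n + m)) := by
  refine hr.idQ ?_
  rw [npow_add, St.comp_assoc, comp_npow hrC, ← St.comp_assoc]
  refine hex.idQ hq ?_ ?_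
  · rw [St.comp_assoc, hj, comp_npow hc]; exact hX.comp_left c
  · rw [← comp_npow hpC]; exact hA.comp_right p

/-- **closed filtrations**: `F 0 → F 1 → …` with layers `L j` -/
theorem idQ_layers (hq : q.Prime) (F L : ℕ → Type) [∀ j, TopologicalSpace (F j)]
    [∀ j, T2Space (F j)] [∀ j, LocallyCompactSpace (F j)] [∀ j, TopologicalSpace (L j)]
    [∀ j, T2Space (L j)] [∀ j, LocallyCompactSpace (L j)]
    (i : ∀ j, St (F j) (F (j + 1))) (c : ∀ j, St (F (j + 1)) (L j))
    (hex : ∀ j, ExPair (i j) (c j)) (φ : ∀ j, St (F j) (F j)) (ψ : ∀ j, St (L j) (L j))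
    (hi : ∀ j, (φ (j + 1)).comp (i j) = (i j).comp (φ j))
    (hc : ∀ j, (ψ j).comp (c j) = (c j).comp (φ (j + 1)))
    (h0 : IdQ q Z (φ 0)) (hψ : ∀ j, IdQ q Z (ψ j)) (j : ℕ) :
    IdQ q Z (Spine.npow (φ j) (j + 1)) := by
  induction j with
  | zero => rw [npow_one]; exact h0
  | succ j ih =>
    exact (hex j).idQ_npow hq (hi j) (hc j) ih (by rw [npow_one]; exact hψ j)

/-! ### extraction -/

/-- a "trace" `u ∘ s ∘ (φ ∧ 1_B) ∘ g` of an element of the ideal is in the ideal -/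
theorem idQ_trace {B S S' T : Type} [TopologicalSpace B] [T2Space B] [LocallyCompactSpace B]
    [TopologicalSpace S] [T2Space S] [LocallyCompactSpace S] [TopologicalSpace S'] [T2Space S']
    [LocallyCompactSpace S'] [TopologicalSpace T] [T2Space T] [LocallyCompactSpace T]
    {φ : St X X} (h : IdQ q Z φ) (g : St S (X × B)) (s : St (X × B) T) (u : St T S') :
    IdQ q Z (u.comp (s.comp ((φ.smR B).comp g))) :=
  (((h.smR B).comp_right g).comp_left s).comp_left u

/-- the ideal contains `1_S` if it contains `N • 1_S` with `q ∤ N` -/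
theorem idQ_id_of_zsmul (hq : q.Prime) {N : ℤ} (hN : ¬ (q : ℤ) ∣ N)
    (h : IdQ q Z (N • St.id X)) : IdQ q Z (St.id X) := idQ_of_zsmul hq hN h

end Crest.Agent.R090.IdS669
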