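import Crest.Agent.R090.IdEx_503
import Crest.Agent.R090.IdQ_669
import Crest.Agent.R090.AIPow_542

/-!
# Row 90, A-IDEAL (helper503): `ExPair`/`EInj` for closed/open pairs and the instance `PId`
-/

set_option autoImplicit false
set_option linter.unusedSectionVars false
set_option linter.unusedVariables false

open Topology Filter Set

namespace Crest.Agent.R090.Exc503

open OnePoint Crest.Agent.R090.Sp962 Crest.R090.Hep865
open Crest.Agent.R090.Grp528 Crest.Agent.R090.St528 Crest.Agent.R090.Sm202
open Crest.Agent.R090.IdS669 Crest.Agent.R090.Spine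

section pair

variable {F U O : Type}
variable [TopologicalSpace F] [TopologicalSpace U] [TopologicalSpace O]
variable [T2Space F] [T2Space U] [T2Space O]
variable [LocallyCompactSpace F] [LocallyCompactSpace U] [LocallyCompactSpace O]
variable {i : F → U} {e : O → U}

theorem OC.exPair (h : OC i e) : ExPair (St.ofP h.incl) (St.ofP h.coll) := by
  intro B _ _ _ N y hy
  exact exPair_oc h B N y hy

theorem MC.exPair (f : PMap F U) : ExPair (St.ofP (MC.i f)) (St.ofP (MC.p f)) := by
  intro B _ _ _ N y hy
  exact exPair_MC f B N y hy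

theorem OC.eInj (h : OC i e) : EInj (St.ofP h.c) := by
  intro B _ _ _ N y hy
  exact eInj_c h B N y hy

theorem exPair_of_isClosed {A : Set U} (hA : IsClosed A) [LocallyCompactSpace A]
    [LocallyCompactSpace (Aᶜ : Set U)] :
    ExPair (St.ofP (Sp962.incl hA)) (St.ofP (Sp962.col hA)) := by
  intro B _ _ _ N y hy
  exact exPair_closed hA B N y hy

end pair

/-- the instance of `PId` for the ideal `IdQ q Z` -/
theorem pid {M : Type} [TopologicalSpace M] [T2Space M] [LocallyCompactSpace M] {q : ℕ}
    (hq : q.Prime) (Z : Set M) [Fact (IsClosed Z)] :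
    AIPow542.PId (fun {U V} _ _ _ _ _ _ f => IdQ q Z (St.ofP f)) where
  left g f h := by
    rw [St.ofP_comp]
    exact h.comp_left _
  right f g h := by
    rw [St.ofP_comp]
    exact h.comp_right _
  smash f h W _ _ _ := by
    rw [← smR_ofP]
    exact h.smR W
  empty := by
    intro U V _ _ _ _ _ _ _ f
    have : f = PMap.zero U V := PMap.ext fun x => (IsEmpty.false x).elim
    rw [this, St.ofP_zero]
    exact IdQ.zero hq.one_lt.ne'
  total := by
    intro F U O _ _ _ _ _ _ _ _ _ i hi e he hc fF fU fO h1 h2 hF hO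
    have h : OC i e := ⟨hi, he, hc⟩
    rw [St.ofP_comp]
    refine h.exPair.idQ_sq hq (φA := St.ofP fF) (φO := St.ofP fO) ?_ ?_ hF hO
    · rw [← St.ofP_comp, ← St.ofP_comp]
      exact congrArg St.ofP h1
    · rw [← St.ofP_comp, ← St.ofP_comp]
      exact congrArg St.ofP h2
  rot := by
    intro F U O _ _ _ _ _ _ _ _ _ i hi e he hc fF fU fO h1 h2 hF hU
    have h : OC i e := ⟨hi, he, hc⟩
    have h1' : fU.comp h.incl = h.incl.comp fF := h1
    have h2' : h.coll.comp fU = fO.comp h.coll := h2
    rw [St.ofP_comp]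
    refine (MC.exPair h.incl).idQ_open hq h.eInj (φ := St.ofP fU)
      (φC := St.ofP (mcMap fF fU h1')) (φA := (St.ofP fF).smR Io) (φO := St.ofP fO)
      (c := St.ofP h.coll) ?_ ?_ ?_ ?_ (hF.smR Io) hU
    · exact h.ofP_c_comp_i
    · rw [← St.ofP_comp, ← St.ofP_comp]
      exact congrArg St.ofP h2'.symm
    · exact mc_square_c h h fF fU fO h1' h2'
    · exact mc_square_p fF fU h1'

end Crest.Agent.R090.Exc503
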