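import Crest.Agent.R090.ATraceR_253

/-!
# Row 90, leaf A-TRACE: `(A × S)/C_q` has the invariant cohomology, for every theory `Coh`
(owner helper253), and the trace formula without hypotheses.
-/

set_option autoImplicit false
set_option linter.unusedSectionVars false
set_option linter.checkUnivs false

namespace Crest.Agent.R090.CohT253

open Topology Set Crest.Agent.R090.Sp962 Crest.Agent.R090.Pi568 Crest.Agent.R090.Orb389
open Crest.Agent.R090.QU389 Crest.Agent.R090.GSp389 Crest.Agent.R090.Sph389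
open Crest.Agent.R090.PowR389

universe v w

variable {F : Type w} [Field F] {H : Coh.{0, v, w} F}

/-- transport of `QInv` along homeomorphisms -/
theorem Coh.QInv.of_homeo {G : Type} [Group G] [Fintype G] {U U' B B' : Type}
    [TopologicalSpace U] [TopologicalSpace U'] [TopologicalSpace B] [TopologicalSpace B']
    {A : Act G U} {A' : Act G U'} (e : U ≃ₜ U') (b : B ≃ₜ B') {p : PMap U B} {p' : PMap U' B'}
    (hp : p'.comp (PMap.ofHomeo e) = (PMap.ofHomeo b).comp p)
    (hA : ∀ g, (A'.act g).comp (PMap.ofHomeo e) = (PMap.ofHomeo e).comp (A.act g))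
    (h : H.QInv A' p') : H.QInv A p := by
  have hp2 : p = (PMap.ofHomeo b.symm).comp (p'.comp (PMap.ofHomeo e)) := by
    rw [hp, ← PMap.comp_assoc, PMap.ofHomeo_symm_comp, PMap.id_comp]
  refine ⟨fun g => ?_, ?_, ?_⟩
  · rw [hp2, PMap.comp_assoc, PMap.comp_assoc, ← hA, ← PMap.comp_assoc p', h.inv]
  · rw [hp2]
    intro x y hxy
    rw [H.map_comp, H.map_comp, H.map_comp, H.map_comp] at hxy
    have h1 := (H.equivH e).injective hxy
    have h2 := h.inj h1
    exact (H.equivH b.symm).injective h2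
  · intro x hx
    obtain ⟨y, hy⟩ := h.surj (H.map (PMap.ofHomeo e.symm) x) (fun g => by
      have h3 : (PMap.ofHomeo e.symm).comp (A'.act g) = (A.act g).comp (PMap.ofHomeo e.symm) := by
        have h4 := congrArg (fun f : PMap U U' =>
          (PMap.ofHomeo e.symm).comp (f.comp (PMap.ofHomeo e.symm))) (hA g)
        simp only [PMap.comp_assoc] at h4
        rw [PMap.ofHomeo_comp_symm, PMap.comp_id, ← PMap.comp_assoc (PMap.ofHomeo e.symm)
          (PMap.ofHomeo e), PMap.ofHomeo_symm_comp, PMap.id_comp] at h4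
        exact h4
      rw [← H.map_comp, h3, H.map_comp, hx])
    refine ⟨H.map (PMap.ofHomeo b) y, ?_⟩
    rw [← H.map_comp, ← hp, H.map_comp, hy, ← H.map_comp, PMap.ofHomeo_symm_comp, H.map_id]

section bal

variable {G : Type} [Group G] [Fintype G] [TopologicalSpace G] [DiscreteTopology G]
variable (A : Type) [TopologicalSpace A] [T2Space A] [LocallyCompactSpace A] [MulAction G A]
  [ContinuousConstSMul G A]

theorem smash_id_ofOpen {T T' : Type} [TopologicalSpace T] [T2Space T] [LocallyCompactSpace T]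
    [TopologicalSpace T'] [T2Space T'] [LocallyCompactSpace T'] (i : T → T')
    (h : IsOpenEmbedding i) : (PMap.id A).smash (PMap.ofOpen i h) =
      PMap.ofOpen (Prod.map id i) (IsOpenEmbedding.id.prodMap h) := by
  refine PMap.ext fun x => ?_
  obtain ⟨a, t⟩ := x
  rw [PMap.smash_coe]
  by_cases ht : t ∈ range i
  · obtain ⟨s, rfl⟩ := ht
    rw [PMap.ofOpen_coe]
    have : ((a, i s) : A × T') = Prod.map id i (a, s) := rfl
    rw [this, PMap.ofOpen_coe]
    rfl
  · rw [PMap.ofOpen_of_notMem _ _ ht, sm_inf_right, PMap.ofOpen_of_notMem]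
    rintro ⟨⟨b, s⟩, hb⟩
    exact ht ⟨s, congrArg Prod.snd hb⟩

theorem ofOpen_actP {O T : Type} [TopologicalSpace O] [MulAction G O] [ContinuousConstSMul G O]
    [TopologicalSpace T] [T2Space T] [MulAction G T] [ContinuousConstSMul G T] (j : O → T)
    (hj : IsOpenEmbedding j) (je : ∀ (g : G) x, j (g • x) = g • j x) (g : G) :
    (PMap.ofOpen j hj).comp (actP g T) = (actP g O).comp (PMap.ofOpen j hj) := by
  refine PMap.ext fun x => ?_
  rw [PMap.comp_apply, PMap.comp_apply, actP_coe]
  by_cases hx : x ∈ range j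
  · obtain ⟨y, rfl⟩ := hx
    rw [← je, PMap.ofOpen_coe, PMap.ofOpen_coe, actP_coe]
  · rw [PMap.ofOpen_of_notMem _ _ hx, PMap.map_inf, PMap.ofOpen_of_notMem]
    rintro ⟨y, hy⟩
    exact hx ⟨g⁻¹ • y, by rw [je, hy, inv_smul_smul]⟩

theorem ofClosed_actP {K T : Type} [TopologicalSpace K] [MulAction G K] [ContinuousConstSMul G K]
    [TopologicalSpace T] [MulAction G T] [ContinuousConstSMul G T] (i : K → T)
    (hi : IsClosedEmbedding i) (ie : ∀ (g : G) x, i (g • x) = g • i x) (g : G) :
    (actP g T).comp (PMap.ofClosed i hi) = (PMap.ofClosed i hi).comp (actP g K) := by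
  refine PMap.ext fun x => ?_
  rw [PMap.comp_apply, PMap.comp_apply, actP_coe, PMap.ofClosed_coe, PMap.ofClosed_coe, actP_coe,
    ie]

/-- `A × T` for a pair -/
def decA {F' T O : GSp G} (p : GPair F' T O) : Dec (A × F'.X) (A × T.X) (A × O.X) where
  i := Prod.map id p.i
  hi := IsClosedEmbedding.id.prodMap p.ic
  j := Prod.map id p.j
  hj := IsOpenEmbedding.id.prodMap p.jo
  compl := by
    ext ⟨a, t⟩
    have := Set.ext_iff.1 p.compl t
    simp only [mem_range, mem_compl_iff] at this
    constructor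
    · rintro ⟨⟨b, s⟩, h⟩ ⟨⟨b', s'⟩, h'⟩
      exact this.1 ⟨s, congrArg Prod.snd h⟩ ⟨s', congrArg Prod.snd h'⟩
    · intro h
      obtain ⟨s, hs⟩ := this.2 (by
        rintro ⟨s, hs⟩
        exact h ⟨(a, s), Prod.ext rfl hs⟩)
      exact ⟨(a, s), Prod.ext rfl hs⟩

/-- the quotient of `A × T` for a pair -/
def decB {F' T O : GSp G} (p : GPair F' T O) :
    Dec (Bal G A F'.X) (Bal G A T.X) (Bal G A O.X) where
  i := Bal.incl A p.ie
  hi := Bal.isClosedEmbedding_incl p.ie p.ic
  j := Bal.incl A p.je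
  hj := Bal.isOpenEmbedding_incl p.je p.jo
  compl := Bal.range_compl A p

/-- the projection is strict -/
def strPr {F' T O : GSp G} (p : GPair F' T O) : Coh.Strict (decA A p) (decB A p) where
  fK := Orb.pr G (A × F'.X)
  fU := Orb.pr G (A × T.X)
  fO := Orb.pr G (A × O.X)
  hK := PMap.ext fun _ => rfl
  hO := by
    have h := Bal.collapse_pr (G := G) (A := A) p.je p.jo
    rw [smash_id_ofOpen] at h
    exact h

/-- the action is strict -/
def strAct {F' T O : GSp G} (p : GPair F' T O) (g : G) :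
    Coh.Strict (decA A p) (decA A p) where
  fK := actP g (A × F'.X)
  fU := actP g (A × T.X)
  fO := actP g (A × O.X)
  hK := ofClosed_actP _ _ (fun g x => prodMap_smul p.ie g x) g
  hO := ofOpen_actP _ _ (fun g x => prodMap_smul p.je g x) g

theorem qinv_pair (hG : (Fintype.card G : F) ≠ 0) {F' T O : GSp G} (p : GPair F' T O)
    (hF : H.QInv (actA G (A × F'.X)) (Orb.pr G (A × F'.X)))
    (hO : H.QInv (actA G (A × O.X)) (Orb.pr G (A × O.X))) :
    H.QInv (actA G (A × T.X)) (Orb.pr G (A × T.X)) :=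
  Coh.QInv.of_dec hG (strPr A p) (strAct A p) (fun _ => rfl) (fun _ => rfl) (fun _ => rfl)
    (fun g => Orb.pr_actP g) hF hO

theorem qinv_empty (T : GSp G) (hT : IsEmpty T.X) :
    H.QInv (actA G (A × T.X)) (Orb.pr G (A × T.X)) := by
  have h1 : IsEmpty (A × T.X) := inferInstance
  have h2 : IsEmpty (Orb G (A × T.X)) := by
    refine ⟨fun x => ?_⟩
    obtain ⟨y, -⟩ := Orb.mk_surj (G := G) x
    exact isEmptyElim y
  refine ⟨fun g => Orb.pr_actP g, fun x y _ => ?_, fun x _ => ⟨0, ?_⟩⟩
  · rw [Coh.eq_zero_of_isEmpty x, Coh.eq_zero_of_isEmpty y]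
  · rw [map_zero, Coh.eq_zero_of_isEmpty x]

/-- left translations of `G × C` -/
def actL (G : Type) [Group G] [TopologicalSpace G] [DiscreteTopology G] (C : Type)
    [TopologicalSpace C] : Act G (G × C) where
  act g := PMap.ofHomeo
    { toFun := fun x => (g * x.1, x.2)
      invFun := fun x => (g⁻¹ * x.1, x.2)
      left_inv := fun x => by simp
      right_inv := fun x => by simp
      continuous_toFun :=
        (continuous_of_discreteTopology.comp continuous_fst).prodMk continuous_snd
      continuous_invFun :=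
        (continuous_of_discreteTopology.comp continuous_fst).prodMk continuous_snd }
  one := PMap.ext fun x => by simp
  mul g h := PMap.ext fun x => by simp [mul_assoc]

/-- `A × (G × L) ≃ G × (A × L)` -/
def untw (L : Type) [TopologicalSpace L] : A × Cell G L ≃ₜ G × (A × L) where
  toFun p := (p.2.1, (p.2.1⁻¹ • p.1, p.2.2))
  invFun p := (p.1 • p.2.1, (p.1, p.2.2))
  left_inv p := by
    obtain ⟨a, g, y⟩ := p
    simp
  right_inv p := by
    obtain ⟨g, a, y⟩ := p
    simp
  continuous_toFun := by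
    have h1 : Continuous (fun p : A × Cell G L => p.2.1) := continuous_fst.comp continuous_snd
    have h2 : Continuous (fun p : A × Cell G L => p.2.2) := continuous_snd.comp continuous_snd
    refine h1.prodMk (Continuous.prodMk ?_ h2)
    have h3 : Continuous (fun x : G × A => x.1⁻¹ • x.2) := by
      rw [continuous_prod_of_discrete_left]
      intro g
      exact continuous_const_smul g⁻¹
    exact h3.comp (h1.prodMk continuous_fst)
  continuous_invFun := by
    have h3 : Continuous (fun x : G × A => x.1 • x.2) := by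
      rw [continuous_prod_of_discrete_left]
      intro g
      exact continuous_const_smul g
    refine Continuous.prodMk (h3.comp (continuous_fst.prodMk
      (continuous_fst.comp continuous_snd))) ?_
    exact continuous_fst.prodMk (continuous_snd.comp continuous_snd)

theorem qinv_cell (L : Type) [TopologicalSpace L] [T2Space L] [LocallyCompactSpace L] :
    H.QInv (actA G (A × (cellG G L).X)) (Orb.pr G (A × (cellG G L).X)) := by
  have h0 : H.QInv (actL G (A × L)) (Coh.projD G (A × L)) :=
    Coh.QInv.free (A × L) _ (fun g x => rfl)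
  refine Coh.QInv.of_homeo (untw A L) (Bal.cell A L).symm ?_ ?_ h0
  · exact PMap.ext fun x => rfl
  · intro g
    refine PMap.ext fun x => ?_
    obtain ⟨a, h, y⟩ := x
    change (((g * h, (h⁻¹ • a, y)) : G × (A × L)) : OnePoint (G × (A × L))) =
      (((g * h, ((g * h)⁻¹ • g • a, y)) : G × (A × L)) : OnePoint (G × (A × L)))
    rw [mul_inv_rev, mul_smul, inv_smul_smul]

end bal

/-- **`(A × S)/C_q`** -/
theorem qinv_sph (A : Type) (q : ℕ) [Fact q.Prime] (hq0 : (q : F) ≠ 0) [TopologicalSpace A]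
    [T2Space A] [LocallyCompactSpace A] [MulAction (Cq q) A] [ContinuousConstSMul (Cq q) A]
    (m : ℕ) (w : Fin m → ZMod q) (hw : ∀ i, w i ≠ 0) :
    H.QInv (actA (Cq q) (A × (sphG q m w hw).X)) (Orb.pr (Cq q) (A × (sphG q m w hw).X)) := by
  have hG : (Fintype.card (Cq q) : F) ≠ 0 := by
    rw [Fintype.card_multiplicative, ZMod.card]; exact hq0
  exact sph_induction' q
    (fun T => H.QInv (actA (Cq q) (A × T.X)) (Orb.pr (Cq q) (A × T.X)))
    (fun T hT => qinv_empty A T hT) (fun n => qinv_cell A (Fin n → ℝ))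
    (fun p hF hO => qinv_pair A hG p hF hO) m w hw

end Crest.Agent.R090.CohT253

namespace Crest.Agent.R090.ATraceR253

open Topology Set Crest.Agent.R090.Sp962 Crest.Agent.R090.Orb389
open Crest.Agent.R090.QU389 Crest.Agent.R090.HSt285 Crest.Agent.R090.Kun493
open Crest.Agent.R090.CohT253 Crest.Agent.R090.Sph389 Crest.Agent.R090.PowR389

/-- **THE TRACE FORMULA** -/
theorem L_pw' {F : Type} [Field F] {H : CohX F} (X : KX H) {q : ℕ} [Fact q.Prime] {k : ℕ}
    {U : Type} [TopologicalSpace U] [T2Space U] [LocallyCompactSpace U]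
    (h2 : (2 : F) ≠ 0) (hq0 : (q : F) ≠ 0) (hU : CC H U) (E : Emb k U) (φ : PMap U U) :
    (q : F) * H.L (pw q E φ) =
      H.L φ ^ q - H.L φ + ((q : F) - 1) * (H.L (Dens255.iter φ q) - H.L φ) :=
  L_pw X h2 hq0 hU (qinv_sph (QU q U) q hq0 (mm q k) (ww q k) (ww_ne q k)) E φ

/-- over `ℚ` -/
theorem L_pwQ {H : CohX ℚ} (X : KX H) {q : ℕ} [hq : Fact q.Prime] {k : ℕ}
    {U : Type} [TopologicalSpace U] [T2Space U] [LocallyCompactSpace U]
    (hU : CC H U) (E : Emb k U) (φ : PMap U U) :
    (q : ℚ) * H.L (pw q E φ) =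
      H.L φ ^ q - H.L φ + ((q : ℚ) - 1) * (H.L (Dens255.iter φ q) - H.L φ) :=
  L_pw' X two_ne_zero (by exact_mod_cast hq.out.ne_zero) hU E φ

end Crest.Agent.R090.ATraceR253
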