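import Crest.Agent.R090.AStart_923
import Crest.Agent.R090.GoodR_812
import Crest.Agent.R090.QBal_253
import Crest.Agent.R090.PIdIn_503

/-!
# Row 90, block (A): `StepStmt` for the class `Good812.Good` (owner helper923)
-/

set_option autoImplicit false
set_option linter.unusedSectionVars false

open Topology Filter Set

namespace Crest.Agent.R090.AAsm923

open OnePoint Crest.Agent.R090.Sp962 Crest.Agent.R090.St528 Crest.Agent.R090.Spine
open Crest.Agent.R090.Dens255 (iter iter_zero iter_succ)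
open Crest.Agent.R090.AIPow542 (PId iter_two)
open Crest.Agent.R090.AAsm542 (iter_mult)
open Crest.Agent.R090.HSt285 Crest.Agent.R090.Kun493 Crest.Agent.R090.PowR389
open Crest.Agent.R090.QU389 Crest.Agent.R090.GSp389 Crest.Agent.R090.Sph389

section psi

variable {q : ℕ} [Fact q.Prime] {k : ℕ}
variable {U : Type} [TopologicalSpace U] [T2Space U] [LocallyCompactSpace U]

theorem Psi_iter (φ : PMap U U) (n : ℕ) : Psi q k (iter φ n) = iter (Psi q k φ) n := by
  induction n with
  | zero => exact Psi_id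
  | succ n ih => rw [iter_succ, Psi_comp, ih, iter_succ]

theorem iter_pw (E : Emb k U) (φ : PMap U U) {n : ℕ} (hn : 1 ≤ n) :
    iter (pw q E φ) n = (eps q E).comp (iter (Psi q k φ) n) := by
  rw [← iter_mult (fun φ ψ => pw_comp E φ ψ) φ hn, pw_eq, Psi_iter]

end psi

/-- **STEP** [542, 389, 253, 503, 669, 812] -/
theorem stepStmt_good {H : CohX ℚ} (K : KX H) : StepStmt (goodP H) (lef H) := by
  intro q hq M _ _ _ Z _ U
  have : Fact q.Prime := ⟨hq⟩
  have hU : Good812.Good H U.X := U.good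
  obtain ⟨k, ⟨E⟩⟩ := exists_emb hU.inj
  refine ⟨⟨RU q k U.X, GoodR812.good_RU K hU k⟩, pw q E, fun φ ψ => pw_comp E φ ψ, fun φ hφ => ?_,
    fun φ => ATraceR253.L_pwQ K hU.cc E φ⟩
  have hp := Exc503.pid hq Z
  have h2 : IdQ q Z (St.ofP (iter (QU.map q φ) 2)) := hp.qu hφ
  obtain ⟨n, hn⟩ := hp.bal_ind (QU.map_equi φ) h2
    (sphG q (mm q k) (ww q k) (ww_ne q k))
    (fun P h1 h2 h3 => sph_induction' q P h1 h2 h3 _ _ _)
  have hn' : IdQ q Z (St.ofP (iter (Psi q k φ) (n + 1))) := hp.iter_ge (Nat.le_succ n) hn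
  refine ⟨n + 1, Nat.succ_le_succ (Nat.zero_le n), ?_⟩
  change IdQ q Z (St.ofP (iter (pw q E φ) (n + 1)))
  rw [iter_pw E φ (Nat.succ_le_succ (Nat.zero_le n))]
  exact hp.left _ _ hn'

end Crest.Agent.R090.AAsm923
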