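import Crest.Agent.R090.AStep_923
import Crest.Agent.R090.Extr_285
import Crest.Agent.R090.CohAS_412

/-!
# Row 90, block (A): `Spine.AStmt` (binding; helper285)
-/

namespace Crest.Agent.R090.AStmt285

/-- **block (A)** -/
theorem aStmt : Spine.AStmt :=
  AAsm923.aStmt_of_step (Good := AAsm923.goodP (CohAS412.cohAS ℚ).toCohX)
    (L := AAsm923.lef (CohAS412.cohAS ℚ).toCohX)
    (Extr285.extractStmtY (CohAS412.cohAS ℚ))
    (AAsm923.stepStmt_good (CohAS412.cohAS ℚ).toKX) (AAsm923.startStmt (CohAS412.cohAS ℚ).toKX)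

end Crest.Agent.R090.AStmt285
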