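import Crest.Agent.R090.Pi_568

/-!
# Row 90: naturality of the standard homeomorphisms of finite products (owner helper568)
-/

set_option autoImplicit false
set_option linter.unusedSectionVars false

open Topology Filter Set

namespace Crest.Agent.R090.Pi568

open OnePoint
open Crest.Agent.R090.Sp962
open scoped unitInterval

universe u u' v w x y

/-! ## reindexing -/

section reix

variable {ι : Type u} {κ : Type u'} {U : κ → Type v} {V : κ → Type w}
variable [∀ i, TopologicalSpace (U i)] [∀ i, TopologicalSpace (V i)]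

/-- precomposition with an equivalence -/
def reix (U : κ → Type v) [∀ i, TopologicalSpace (U i)] (e : ι ≃ κ) :
    (∀ j, U j) ≃ₜ (∀ i, U (e i)) :=
  (Homeomorph.piCongrLeft (Y := U) e).symm

@[simp] theorem reix_apply (e : ι ≃ κ) (x : ∀ j, U j) (i : ι) : reix U e x i = x (e i) := rfl

theorem reix_smPi (e : ι ≃ κ) (x : ∀ j, OnePoint (U j)) :
    PMap.ofHomeo (reix U e) (smPi x) = smPi (fun i => x (e i)) := by
  by_cases h : ∃ i, x i = ∞
  · obtain ⟨i, hi⟩ := h
    rw [smPi_of_inf i hi, PMap.map_inf]
    refine (smPi_of_inf (e.symm i) ?_).symm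
    rw [e.apply_symm_apply]; exact hi
  · push Not at h
    choose p hp using fun i => ne_infty_iff_exists.1 (h i)
    have : x = fun i => (p i : OnePoint (U i)) := funext fun i => (hp i).symm
    subst this
    rw [smPi_coe, PMap.ofHomeo_coe, smPi_coe (fun i => p (e i))]
    rfl

variable [Finite ι] [Finite κ]
variable [∀ i, T2Space (U i)] [∀ i, LocallyCompactSpace (U i)] [∀ i, T2Space (V i)]

theorem reix_pi (e : ι ≃ κ) (f : ∀ j, PMap (U j) (V j)) :
    (PMap.ofHomeo (reix V e)).comp (PMap.pi f) =
      (PMap.pi (fun i => f (e i))).comp (PMap.ofHomeo (reix U e)) := by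
  refine PMap.ext fun p => ?_
  rw [PMap.comp_apply, PMap.comp_apply, pi_coe, reix_smPi, PMap.ofHomeo_coe, pi_coe]
  rfl

end reix

/-! ## constant families: permutations -/

section perm

variable {ι : Type u} {κ : Type u'} {U : Type v} {V : Type w}
variable [TopologicalSpace U] [TopologicalSpace V]

/-- `(κ → U) ≃ₜ (ι → U)`, `x ↦ x ∘ e` -/
def reixc (U : Type v) [TopologicalSpace U] (e : ι ≃ κ) : (κ → U) ≃ₜ (ι → U) :=
  reix (fun _ => U) e

@[simp] theorem reixc_apply (e : ι ≃ κ) (x : κ → U) (i : ι) : reixc U e x i = x (e i) := rfl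

theorem reixc_refl : reixc U (Equiv.refl ι) = Homeomorph.refl _ := Homeomorph.ext fun _ => rfl

theorem reixc_trans {μ : Type y} (e : ι ≃ κ) (e' : κ ≃ μ) :
    (reixc U e').trans (reixc U e) = reixc U (e.trans e') := Homeomorph.ext fun _ => rfl

theorem reixc_smPi (e : ι ≃ κ) (x : κ → OnePoint U) :
    PMap.ofHomeo (reixc U e) (smPi x) = smPi (fun i => x (e i)) := reix_smPi e x

variable [Finite ι] [Finite κ]
variable [T2Space U] [LocallyCompactSpace U] [T2Space V]

theorem reixc_pi (e : ι ≃ κ) (f : κ → PMap U V) :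
    (PMap.ofHomeo (reixc V e)).comp (PMap.pi f) =
      (PMap.pi (fun i => f (e i))).comp (PMap.ofHomeo (reixc U e)) := reix_pi e f

/-- the `ι`-fold smash power of a map -/
noncomputable def pow (ι : Type u) [Finite ι] (f : PMap U V) : PMap (ι → U) (ι → V) :=
  PMap.pi (fun _ => f)

theorem pow_coe (f : PMap U V) (p : ι → U) : pow ι f (p : OnePoint (ι → U)) = smPi (fun i => f (p i)) :=
  rfl

theorem pow_smPi (f : PMap U V) (x : ι → OnePoint U) :
    pow ι f (smPi x) = smPi (fun i => f (x i)) := pi_smPi _ x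

theorem pow_comp {W : Type x} [TopologicalSpace W] [LocallyCompactSpace V] [T2Space W]
    (g : PMap V W) (f : PMap U V) : (pow ι g).comp (pow ι f) = pow ι (g.comp f) := pi_comp _ _

theorem pow_id : pow ι (PMap.id U) = PMap.id (ι → U) := pi_id

theorem pow_homotopic {f g : PMap U V} (h : f.Homotopic g) : (pow ι f).Homotopic (pow ι g) :=
  pi_homotopic fun _ => h

theorem pow_null [Nonempty ι] {f : PMap U V} (h : f.Null) : (pow ι f).Null :=
  pi_null _ (Classical.arbitrary ι) h

/-- `pow` commutes with permutations and reindexings -/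
theorem reixc_pow (e : ι ≃ κ) (f : PMap U V) :
    (PMap.ofHomeo (reixc V e)).comp (pow κ f) =
      (pow ι f).comp (PMap.ofHomeo (reixc U e)) := reixc_pi e _

end perm

/-! ## head and tail -/

section fin

variable {n : ℕ} {U : Fin (n + 1) → Type v} {V : Fin (n + 1) → Type w}
variable [∀ i, TopologicalSpace (U i)] [∀ i, TopologicalSpace (V i)]

/-- head and tail -/
def finSucc (U : Fin (n + 1) → Type v) [∀ i, TopologicalSpace (U i)] :
    (∀ i, U i) ≃ₜ U 0 × (∀ i : Fin n, U i.succ) where
  toEquiv := (Fin.consEquiv U).symm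
  continuous_toFun := (continuous_apply 0).prodMk (continuous_pi fun i => continuous_apply i.succ)
  continuous_invFun := by
    refine continuous_pi fun i => ?_
    refine Fin.cases ?_ (fun i => ?_) i
    · exact continuous_fst
    · exact (continuous_apply i).comp continuous_snd

@[simp] theorem finSucc_apply (x : ∀ i, U i) : finSucc U x = (x 0, fun i : Fin n => x i.succ) := rfl

theorem finSucc_smPi (x : ∀ j, OnePoint (U j)) :
    PMap.ofHomeo (finSucc U) (smPi x) = sm (x 0) (smPi (fun i : Fin n => x i.succ)) := by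
  by_cases h : ∃ i, x i = ∞
  · obtain ⟨i, hi⟩ := h
    rw [smPi_of_inf i hi, PMap.map_inf]
    symm
    rw [sm_eq_inf]
    revert hi
    refine Fin.cases ?_ (fun i => ?_) i
    · intro hi; exact Or.inl hi
    · intro hi; exact Or.inr (smPi_of_inf i hi)
  · push Not at h
    choose p hp using fun i => ne_infty_iff_exists.1 (h i)
    have : x = fun i => (p i : OnePoint (U i)) := funext fun i => (hp i).symm
    subst this
    rw [smPi_coe, PMap.ofHomeo_coe, smPi_coe (fun i => p (Fin.succ i))]
    rfl

variable [∀ i, T2Space (U i)] [∀ i, LocallyCompactSpace (U i)] [∀ i, T2Space (V i)]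

theorem finSucc_pi (f : ∀ j, PMap (U j) (V j)) :
    (PMap.ofHomeo (finSucc V)).comp (PMap.pi f) =
      ((f 0).smash (PMap.pi (fun i : Fin n => f i.succ))).comp (PMap.ofHomeo (finSucc U)) := by
  refine PMap.ext fun p => ?_
  rw [PMap.comp_apply, PMap.comp_apply, pi_coe, finSucc_smPi, PMap.ofHomeo_coe, finSucc_apply,
    PMap.smash_coe, pi_coe]

end fin

/-! ## `Option` -/

section option

variable {ι : Type u} {U : Option ι → Type v} {V : Option ι → Type w}
variable [∀ i, TopologicalSpace (U i)] [∀ i, TopologicalSpace (V i)]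

/-- the point `none` and the rest -/
def optSplit (U : Option ι → Type v) [∀ i, TopologicalSpace (U i)] :
    (∀ i, U i) ≃ₜ U Option.none × (∀ i : ι, U (Option.some i)) where
  toFun x := (x Option.none, fun i => x (Option.some i))
  invFun p := fun i => match i with
    | Option.none => p.1
    | Option.some i => p.2 i
  left_inv x := by funext i; cases i <;> rfl
  right_inv p := rfl
  continuous_toFun := (continuous_apply Option.none).prodMk
    (continuous_pi fun i => continuous_apply (Option.some i))
  continuous_invFun := by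
    refine continuous_pi fun i => ?_
    cases i with
    | none => exact continuous_fst
    | some i => exact (continuous_apply i).comp continuous_snd

@[simp] theorem optSplit_apply (x : ∀ i, U i) :
    optSplit U x = (x Option.none, fun i => x (Option.some i)) := rfl

theorem optSplit_smPi (x : ∀ j, OnePoint (U j)) :
    PMap.ofHomeo (optSplit U) (smPi x) = sm (x Option.none) (smPi (fun i : ι => x (Option.some i))) := by
  by_cases h : ∃ i, x i = ∞
  · obtain ⟨i, hi⟩ := h
    rw [smPi_of_inf i hi, PMap.map_inf]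
    symm
    rw [sm_eq_inf]
    cases i with
    | none => exact Or.inl hi
    | some i => exact Or.inr (smPi_of_inf i hi)
  · push Not at h
    choose p hp using fun i => ne_infty_iff_exists.1 (h i)
    have : x = fun i => (p i : OnePoint (U i)) := funext fun i => (hp i).symm
    subst this
    rw [smPi_coe, PMap.ofHomeo_coe, smPi_coe (fun i => p (Option.some i))]
    rfl

variable [Finite ι] [∀ i, T2Space (U i)] [∀ i, LocallyCompactSpace (U i)] [∀ i, T2Space (V i)]

theorem optSplit_pi (f : ∀ j, PMap (U j) (V j)) :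
    (PMap.ofHomeo (optSplit V)).comp (PMap.pi f) =
      ((f Option.none).smash (PMap.pi (fun i : ι => f (Option.some i)))).comp (PMap.ofHomeo (optSplit U)) := by
  refine PMap.ext fun p => ?_
  rw [PMap.comp_apply, PMap.comp_apply, pi_coe, optSplit_smPi, PMap.ofHomeo_coe, optSplit_apply,
    PMap.smash_coe, pi_coe]

end option

/-! ## sums of index types -/

section sum

variable {ι : Type u} {κ : Type u'} {U : ι ⊕ κ → Type v} {V : ι ⊕ κ → Type w}
variable [∀ i, TopologicalSpace (U i)] [∀ i, TopologicalSpace (V i)]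

/-- splitting of the index set -/
def sumSplit (U : ι ⊕ κ → Type v) [∀ i, TopologicalSpace (U i)] :
    (∀ i, U i) ≃ₜ (∀ i, U (Sum.inl i)) × (∀ j, U (Sum.inr j)) :=
  Homeomorph.sumPiEquivProdPi ι κ U

@[simp] theorem sumSplit_apply (x : ∀ i, U i) :
    sumSplit U x = (fun i => x (Sum.inl i), fun j => x (Sum.inr j)) := rfl

theorem sumSplit_smPi (x : ∀ j, OnePoint (U j)) :
    PMap.ofHomeo (sumSplit U) (smPi x) =
      sm (smPi (fun i => x (Sum.inl i))) (smPi (fun j => x (Sum.inr j))) := by
  by_cases h : ∃ i, x i = ∞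
  · obtain ⟨i, hi⟩ := h
    rw [smPi_of_inf i hi, PMap.map_inf]
    symm
    rw [sm_eq_inf]
    cases i with
    | inl i => exact Or.inl (smPi_of_inf i hi)
    | inr i => exact Or.inr (smPi_of_inf i hi)
  · push Not at h
    choose p hp using fun i => ne_infty_iff_exists.1 (h i)
    have : x = fun i => (p i : OnePoint (U i)) := funext fun i => (hp i).symm
    subst this
    rw [smPi_coe, PMap.ofHomeo_coe, smPi_coe (fun i => p (Sum.inl i)),
      smPi_coe (fun i => p (Sum.inr i))]
    rfl

variable [Finite ι] [Finite κ]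
variable [∀ i, T2Space (U i)] [∀ i, LocallyCompactSpace (U i)] [∀ i, T2Space (V i)]

theorem sumSplit_pi (f : ∀ j, PMap (U j) (V j)) :
    (PMap.ofHomeo (sumSplit V)).comp (PMap.pi f) =
      ((PMap.pi (fun i => f (Sum.inl i))).smash (PMap.pi (fun j => f (Sum.inr j)))).comp
        (PMap.ofHomeo (sumSplit U)) := by
  refine PMap.ext fun p => ?_
  rw [PMap.comp_apply, PMap.comp_apply, pi_coe, sumSplit_smPi, PMap.ofHomeo_coe, sumSplit_apply,
    PMap.smash_coe, pi_coe, pi_coe]

end sum

/-! ## products of families -/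

section prod

variable {ι : Type u} {U : ι → Type v} {W : ι → Type w} {U' : ι → Type x} {W' : ι → Type y}
variable [∀ i, TopologicalSpace (U i)] [∀ i, TopologicalSpace (W i)]
variable [∀ i, TopologicalSpace (U' i)] [∀ i, TopologicalSpace (W' i)]

/-- `∏ (U i × W i) = ∏ U i × ∏ W i` -/
def prodSplit (U : ι → Type v) (W : ι → Type w) [∀ i, TopologicalSpace (U i)]
    [∀ i, TopologicalSpace (W i)] : (∀ i, U i × W i) ≃ₜ (∀ i, U i) × (∀ i, W i) where
  toFun x := (fun i => (x i).1, fun i => (x i).2)
  invFun p := fun i => (p.1 i, p.2 i)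
  left_inv _ := rfl
  right_inv _ := rfl
  continuous_toFun := (continuous_pi fun i => continuous_fst.comp (continuous_apply i)).prodMk
    (continuous_pi fun i => continuous_snd.comp (continuous_apply i))
  continuous_invFun := continuous_pi fun i =>
    ((continuous_apply i).comp continuous_fst).prodMk ((continuous_apply i).comp continuous_snd)

@[simp] theorem prodSplit_apply (x : ∀ i, U i × W i) :
    prodSplit U W x = (fun i => (x i).1, fun i => (x i).2) := rfl

@[simp] theorem prodSplit_symm_apply (p : (∀ i, U i) × (∀ i, W i)) (i : ι) :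
    (prodSplit U W).symm p i = (p.1 i, p.2 i) := rfl

theorem prodSplit_smPi (x : ∀ i, OnePoint (U i)) (z : ∀ i, OnePoint (W i)) :
    PMap.ofHomeo (prodSplit U W) (smPi (fun i => sm (x i) (z i))) = sm (smPi x) (smPi z) := by
  by_cases h : ∃ i, sm (x i) (z i) = ∞
  · obtain ⟨i, hi⟩ := h
    rw [smPi_of_inf i hi, PMap.map_inf]
    symm
    rw [sm_eq_inf]
    rcases sm_eq_inf.1 hi with hi | hi
    · exact Or.inl (smPi_of_inf i hi)
    · exact Or.inr (smPi_of_inf i hi)
  · push Not at h
    have hx : ∀ i, x i ≠ ∞ := fun i hi => h i (sm_eq_inf.2 (Or.inl hi))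
    have hz : ∀ i, z i ≠ ∞ := fun i hi => h i (sm_eq_inf.2 (Or.inr hi))
    choose p hp using fun i => ne_infty_iff_exists.1 (hx i)
    choose q hq using fun i => ne_infty_iff_exists.1 (hz i)
    have h1 : x = fun i => (p i : OnePoint (U i)) := funext fun i => (hp i).symm
    have h2 : z = fun i => (q i : OnePoint (W i)) := funext fun i => (hq i).symm
    subst h1 h2
    simp only [sm_coe]
    rw [smPi_coe (fun i => (p i, q i)), PMap.ofHomeo_coe, smPi_coe p, smPi_coe q]
    rfl

variable [Finite ι]
variable [∀ i, T2Space (U i)] [∀ i, LocallyCompactSpace (U i)]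
variable [∀ i, T2Space (W i)] [∀ i, LocallyCompactSpace (W i)]
variable [∀ i, T2Space (U' i)] [∀ i, T2Space (W' i)]

theorem prodSplit_pi (f : ∀ i, PMap (U i) (U' i)) (g : ∀ i, PMap (W i) (W' i)) :
    (PMap.ofHomeo (prodSplit U' W')).comp (PMap.pi (fun i => (f i).smash (g i))) =
      ((PMap.pi f).smash (PMap.pi g)).comp (PMap.ofHomeo (prodSplit U W)) := by
  refine PMap.ext fun p => ?_
  rw [PMap.comp_apply, PMap.comp_apply, pi_coe, PMap.ofHomeo_coe, prodSplit_apply,
    PMap.smash_coe, pi_coe, pi_coe]
  exact prodSplit_smPi (fun i => f i ((p i).1 : OnePoint (U i)))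
    (fun i => g i ((p i).2 : OnePoint (W i)))

end prod

/-! ## currying -/

section curry

variable {ι : Type u} {κ : Type u'} {U : κ → ι → Type v} {V : κ → ι → Type w}
variable [∀ k i, TopologicalSpace (U k i)] [∀ k i, TopologicalSpace (V k i)]

/-- `∏_{(k,i)} U k i = ∏_k ∏_i U k i` -/
def curryH (U : κ → ι → Type v) [∀ k i, TopologicalSpace (U k i)] :
    (∀ p : κ × ι, U p.1 p.2) ≃ₜ (∀ k i, U k i) where
  toFun x := fun k i => x (k, i)
  invFun x := fun p => x p.1 p.2
  left_inv _ := rfl
  right_inv _ := rfl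
  continuous_toFun := continuous_pi fun k => continuous_pi fun i => continuous_apply (k, i)
  continuous_invFun := continuous_pi fun p => (continuous_apply p.2).comp (continuous_apply p.1)

@[simp] theorem curryH_apply (x : ∀ p : κ × ι, U p.1 p.2) (k : κ) (i : ι) :
    curryH U x k i = x (k, i) := rfl

@[simp] theorem curryH_symm_apply (x : ∀ k i, U k i) (p : κ × ι) :
    (curryH U).symm x p = x p.1 p.2 := rfl

theorem curryH_smPi (x : ∀ p : κ × ι, OnePoint (U p.1 p.2)) :
    PMap.ofHomeo (curryH U) (smPi x) = smPi (fun k => smPi (fun i => x (k, i))) := by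
  by_cases h : ∃ i, x i = ∞
  · obtain ⟨i, hi⟩ := h
    rw [smPi_of_inf i hi, PMap.map_inf]
    exact (smPi_of_inf i.1 (smPi_of_inf i.2 hi)).symm
  · push Not at h
    choose p hp using fun i => ne_infty_iff_exists.1 (h i)
    have : x = fun i => (p i : OnePoint (U i.1 i.2)) := funext fun i => (hp i).symm
    subst this
    rw [smPi_coe, PMap.ofHomeo_coe]
    have : (fun k => smPi (fun i => ((p (k, i) : U k i) : OnePoint (U k i)))) =
        fun k => ((fun i => p (k, i) : ∀ i, U k i) : OnePoint (∀ i, U k i)) := by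
      funext k
      exact smPi_coe (fun i => p (k, i))
    rw [this, smPi_coe (fun k => (fun i => p (k, i) : ∀ i, U k i))]
    rfl

variable [Finite ι] [Finite κ]
variable [∀ k i, T2Space (U k i)] [∀ k i, LocallyCompactSpace (U k i)] [∀ k i, T2Space (V k i)]

theorem curryH_pi (f : ∀ k i, PMap (U k i) (V k i)) :
    (PMap.ofHomeo (curryH V)).comp (PMap.pi (fun p : κ × ι => f p.1 p.2)) =
      (PMap.pi (fun k => PMap.pi (f k))).comp (PMap.ofHomeo (curryH U)) := by
  refine PMap.ext fun p => ?_
  rw [PMap.comp_apply, PMap.comp_apply, pi_coe, curryH_smPi, PMap.ofHomeo_coe, pi_coe]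
  rfl

end curry

/-! ## blocks of `Fin (K * r)` -/

section blocks

variable {U : Type v} {V : Type w} [TopologicalSpace U] [TopologicalSpace V]

/-- `K` blocks of length `r` -/
def blk (U : Type v) [TopologicalSpace U] (K r : ℕ) :
    (Fin (K * r) → U) ≃ₜ (Fin K → Fin r → U) :=
  (reixc U (finProdFinEquiv : Fin K × Fin r ≃ Fin (K * r))).trans (curryH (fun _ _ => U))

@[simp] theorem blk_apply (K r : ℕ) (x : Fin (K * r) → U) (k : Fin K) (i : Fin r) :
    blk U K r x k i = x (finProdFinEquiv (k, i)) := rfl

theorem blk_symm_apply (K r : ℕ) (x : Fin K → Fin r → U) (k : Fin K) (i : Fin r) :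
    (blk U K r).symm x (finProdFinEquiv (k, i)) = x k i := by
  have := congrFun (congrFun ((blk U K r).apply_symm_apply x) k) i
  rw [blk_apply] at this
  exact this

theorem blk_smPi (K r : ℕ) (x : Fin (K * r) → OnePoint U) :
    PMap.ofHomeo (blk U K r) (smPi x) =
      smPi (fun k => smPi (fun i => x (finProdFinEquiv (k, i)))) := by
  rw [blk, ← PMap.ofHomeo_comp, PMap.comp_apply, reixc_smPi]
  exact curryH_smPi (U := fun _ _ => U) (fun p => x (finProdFinEquiv p))

variable [T2Space U] [LocallyCompactSpace U] [T2Space V]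

theorem blk_pi (K r : ℕ) (f : Fin (K * r) → PMap U V) :
    (PMap.ofHomeo (blk V K r)).comp (PMap.pi f) =
      (PMap.pi (fun k => PMap.pi (fun i => f (finProdFinEquiv (k, i))))).comp
        (PMap.ofHomeo (blk U K r)) := by
  refine PMap.ext fun p => ?_
  rw [PMap.comp_apply, PMap.comp_apply, pi_coe, blk_smPi, PMap.ofHomeo_coe, pi_coe]
  rfl

theorem blk_pow (K r : ℕ) (f : PMap U V) :
    (PMap.ofHomeo (blk V K r)).comp (pow (Fin (K * r)) f) =
      (pow (Fin K) (pow (Fin r) f)).comp (PMap.ofHomeo (blk U K r)) := blk_pi K r _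

end blocks

/-! ## one element index types -/

section unique

variable {ι : Type u} [Unique ι] {U : ι → Type v} {V : ι → Type w}
variable [∀ i, TopologicalSpace (U i)] [∀ i, TopologicalSpace (V i)]

theorem piUnique_smPi (x : ∀ j, OnePoint (U j)) :
    PMap.ofHomeo (Homeomorph.piUnique U) (smPi x) = x default := by
  by_cases h : x default = ∞
  · rw [smPi_of_inf default h, PMap.map_inf, h]
  · obtain ⟨p, hp⟩ := ne_infty_iff_exists.1 h
    have : x = fun i => ((uniqueElim p : ∀ i, U i) i : OnePoint (U i)) := by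
      funext i
      have hi := Unique.eq_default i
      subst hi
      rw [uniqueElim_default, hp]
    rw [this, smPi_coe, PMap.ofHomeo_coe]
    simp

variable [∀ i, T2Space (U i)] [∀ i, LocallyCompactSpace (U i)] [∀ i, T2Space (V i)]

theorem piUnique_pi (f : ∀ j, PMap (U j) (V j)) :
    (PMap.ofHomeo (Homeomorph.piUnique V)).comp (PMap.pi f) =
      (f default).comp (PMap.ofHomeo (Homeomorph.piUnique U)) := by
  refine PMap.ext fun p => ?_
  rw [PMap.comp_apply, PMap.comp_apply, pi_coe, piUnique_smPi, PMap.ofHomeo_coe]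
  rfl

end unique

end Crest.Agent.R090.Pi568
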