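import Crest.Agent.R090.Orb_389
import Crest.Agent.R090.PiNat_568

/-!
# Row 90, leaf A-POW (2): the reduced power `QU q U = U^q \ diagonal` (helper389)

`(QU q U)⁺ = (U⁺)^{∧ q} / Δ(U⁺)`, with its free action of `Cq q = Multiplicative (ZMod q)`.
-/

set_option autoImplicit false
set_option linter.unusedSectionVars false

open Topology Filter Set

namespace Crest.Agent.R090.QU389

open OnePoint Crest.Agent.R090.Sp962 Crest.Agent.R090.Pi568 Crest.Agent.R090.Orb389

universe u v w

/-- the cyclic group, written multiplicatively -/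
abbrev Cq (q : ℕ) : Type := Multiplicative (ZMod q)

/-- rotation of the factors -/
def rot {q : ℕ} (g : Cq q) (U : Type u) [TopologicalSpace U] : (ZMod q → U) ≃ₜ (ZMod q → U) :=
  reixc U (Equiv.addRight (Multiplicative.toAdd g))

@[simp] theorem rot_apply {q : ℕ} (g : Cq q) {U : Type u} [TopologicalSpace U] (x : ZMod q → U)
    (i : ZMod q) : rot g U x i = x (i + Multiplicative.toAdd g) := rfl

theorem rot_one {q : ℕ} (U : Type u) [TopologicalSpace U] :
    rot (1 : Cq q) U = Homeomorph.refl _ := by
  ext x i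
  simp

theorem rot_mul {q : ℕ} (g h : Cq q) (U : Type u) [TopologicalSpace U] :
    rot (g * h) U = (rot h U).trans (rot g U) := by
  ext x i
  simp [add_assoc]

/-- non constant families -/
def QU (q : ℕ) (U : Type u) : Type u := {x : ZMod q → U // ∃ i j, x i ≠ x j}

namespace QU

variable {q : ℕ} {U : Type u} {V : Type v} {W : Type w}

/-- inclusion -/
def inc (q : ℕ) (U : Type u) : QU q U → (ZMod q → U) := Subtype.val

/-- diagonal -/
def diag (q : ℕ) (U : Type u) : U → (ZMod q → U) := fun u _ => u

theorem inc_injective : Function.Injective (inc q U) := Subtype.val_injective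

theorem ext {x y : QU q U} (h : ∀ i, inc q U x i = inc q U y i) : x = y :=
  inc_injective (funext h)

theorem range_inc : range (inc q U) = (range (diag q U))ᶜ := by
  ext x
  constructor
  · rintro ⟨⟨x, i, j, h⟩, rfl⟩ ⟨u, hu⟩
    apply h
    have : x = fun _ => u := hu.symm
    rw [this]
  · intro h
    refine ⟨⟨x, ?_⟩, rfl⟩
    by_contra hn
    push Not at hn
    exact h ⟨x 0, funext fun i => hn 0 i⟩

theorem notMem_range_inc {x : ZMod q → U} : x ∉ range (inc q U) ↔ ∃ u, x = fun _ => u := by
  rw [range_inc, mem_compl_iff, not_not]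
  exact ⟨fun ⟨u, hu⟩ => ⟨u, hu.symm⟩, fun ⟨u, hu⟩ => ⟨u, hu.symm⟩⟩

instance : SMul (Cq q) (QU q U) where
  smul g x := ⟨fun i => x.1 (i + Multiplicative.toAdd g), by
    obtain ⟨i, j, h⟩ := x.2
    exact ⟨i - Multiplicative.toAdd g, j - Multiplicative.toAdd g, by simpa using h⟩⟩

@[simp] theorem inc_smul (g : Cq q) (x : QU q U) (i : ZMod q) :
    inc q U (g • x) i = inc q U x (i + Multiplicative.toAdd g) := rfl

instance : MulAction (Cq q) (QU q U) where
  one_smul x := ext fun i => by simp
  mul_smul g h x := ext fun i => by simp [add_assoc]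

theorem free [hq : Fact q.Prime] (g : Cq q) (x : QU q U) (h : g • x = x) : g = 1 := by
  by_contra hg
  obtain ⟨i, j, hij⟩ := x.2
  apply hij
  set a : ZMod q := Multiplicative.toAdd g with ha
  have ha0 : a ≠ 0 := by
    intro h0
    apply hg
    apply Multiplicative.toAdd.injective
    rw [← ha, h0]; rfl
  have hs : ∀ k : ZMod q, x.1 (k + a) = x.1 k := fun k => congrArg (fun y : QU q U => y.1 k) h
  have hn : ∀ (n : ℕ) (k : ZMod q), x.1 (k + n * a) = x.1 k := by
    intro n
    induction n with
    | zero => intro k; simp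
    | succ n ih =>
      intro k
      rw [Nat.cast_succ, add_mul, one_mul, ← add_assoc, hs, ih]
  have := hn ((i - j) / a).val j
  rw [ZMod.natCast_val, ZMod.cast_id', id, div_mul_cancel₀ _ ha0, add_sub_cancel] at this
  exact this

variable [TopologicalSpace U] [TopologicalSpace V] [TopologicalSpace W]

instance : TopologicalSpace (QU q U) := instTopologicalSpaceSubtype

instance [T2Space U] : T2Space (QU q U) := inferInstanceAs (T2Space (Subtype _))

@[fun_prop] theorem continuous_inc : Continuous (inc q U) := continuous_subtype_val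

theorem isEmbedding_inc : IsEmbedding (inc q U) := IsEmbedding.subtypeVal

theorem isClosedEmbedding_diag [T2Space U] [NeZero q] : IsClosedEmbedding (diag q U) := by
  refine ⟨⟨⟨?_⟩, fun a b h => congrFun h 0⟩, ?_⟩
  · refine le_antisymm ?_ ?_
    · exact (continuous_pi fun _ => continuous_id).le_induced
    · intro s hs
      exact ⟨(fun x => x 0) ⁻¹' s, hs.preimage (continuous_apply 0), rfl⟩
  · have : range (diag q U) = ⋂ i, {x : ZMod q → U | x i = x 0} := by
      ext x
      simp only [mem_range, mem_iInter, mem_ofPred_eq]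
      constructor
      · rintro ⟨u, rfl⟩ i; rfl
      · intro h
        exact ⟨x 0, funext fun i => (h i).symm⟩
    rw [this]
    exact isClosed_iInter fun i => isClosed_eq (continuous_apply i) (continuous_apply 0)

theorem isOpenEmbedding_inc [T2Space U] [NeZero q] : IsOpenEmbedding (inc q U) := by
  refine ⟨isEmbedding_inc, ?_⟩
  rw [range_inc]
  exact isClosedEmbedding_diag.isClosed_range.isOpen_compl

instance [T2Space U] [LocallyCompactSpace U] [NeZero q] : LocallyCompactSpace (QU q U) :=
  isOpenEmbedding_inc.locallyCompactSpace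

instance : ContinuousConstSMul (Cq q) (QU q U) where
  continuous_const_smul g := by
    rw [isEmbedding_inc.continuous_iff]
    exact (rot g U).continuous.comp continuous_inc

theorem inc_smul' (g : Cq q) (x : QU q U) : inc q U (g • x) = rot g U (inc q U x) := rfl

/-! ### maps -/

variable [NeZero q] [T2Space U] [LocallyCompactSpace U] [T2Space V]

theorem map_aux (φ : PMap U V) (y : ZMod q → U) (hy : y ∉ range (inc q U)) :
    ((PMap.ofOpen (inc q V) isOpenEmbedding_inc).comp (pow (ZMod q) φ)) (y : OnePoint _) = ∞ := by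
  obtain ⟨u, rfl⟩ := notMem_range_inc.1 hy
  rw [PMap.comp_apply, pow_coe]
  by_cases h : φ (u : OnePoint U) = ∞
  · rw [smPi_of_inf (0 : ZMod q) h, PMap.map_inf]
  · obtain ⟨v, hv⟩ := ne_infty_iff_exists.1 h
    have : smPi (fun _ : ZMod q => φ (u : OnePoint U)) =
        ((fun _ => v : ZMod q → V) : OnePoint (ZMod q → V)) := smPi_eq_coe.2 fun _ => hv.symm
    rw [this]
    exact PMap.ofOpen_of_notMem _ _ (notMem_range_inc.2 ⟨v, rfl⟩)

/-- the map induced on the reduced power -/
noncomputable def map (q : ℕ) [NeZero q] (φ : PMap U V) : PMap (QU q U) (QU q V) :=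
  descOpen (inc q U) isOpenEmbedding_inc
    ((PMap.ofOpen (inc q V) isOpenEmbedding_inc).comp (pow (ZMod q) φ)) (map_aux φ)

/-- strict square with the power (open part) -/
theorem map_collapse (φ : PMap U V) :
    (map q φ).comp (PMap.ofOpen (inc q U) isOpenEmbedding_inc) =
      (PMap.ofOpen (inc q V) isOpenEmbedding_inc).comp (pow (ZMod q) φ) := descOpen_comp _ _ _ _

theorem map_coe (φ : PMap U V) (x : QU q U) :
    map q φ (x : OnePoint (QU q U)) =
      PMap.ofOpen (inc q V) isOpenEmbedding_inc (smPi (fun i => φ (inc q U x i))) :=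
  descOpen_coe _ _ _ _ x

theorem map_coe_eq (φ : PMap U V) (x : QU q U) (y : QU q V) :
    map q φ (x : OnePoint (QU q U)) = (y : OnePoint (QU q V)) ↔
      ∀ i, φ (inc q U x i) = (inc q V y i : OnePoint V) := by
  rw [map_coe]
  constructor
  · intro h
    have h' : PMap.collapse (inc q V) isOpenEmbedding_inc
        (smPi (fun i => φ (inc q U x i))) = (y : OnePoint (QU q V)) := h
    exact smPi_eq_coe.1 ((PMap.collapse_eq_coe (inc q V) isOpenEmbedding_inc).1 h')
  · intro h
    rw [smPi_eq_coe.2 h]
    exact PMap.ofOpen_coe _ _ _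

/-- strict square with the power (diagonal) -/
theorem map_diag (φ : PMap U V) :
    (pow (ZMod q) φ).comp (PMap.ofClosed (diag q U) isClosedEmbedding_diag) =
      (PMap.ofClosed (diag q V) isClosedEmbedding_diag).comp φ := by
  refine PMap.ext fun u => ?_
  rw [PMap.comp_apply, PMap.comp_apply, PMap.ofClosed_coe, pow_coe]
  change smPi (fun _ : ZMod q => φ (u : OnePoint U)) = _
  by_cases h : φ (u : OnePoint U) = ∞
  · rw [smPi_of_inf (0 : ZMod q) h, h, PMap.map_inf]
  · obtain ⟨v, hv⟩ := ne_infty_iff_exists.1 h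
    rw [← hv, PMap.ofClosed_coe]
    exact smPi_eq_coe.2 fun _ => rfl

theorem map_comp [LocallyCompactSpace V] [T2Space W] (ψ : PMap V W) (φ : PMap U V) :
    map q (ψ.comp φ) = (map q ψ).comp (map q φ) := by
  refine eq_of_comp_surj (ofOpen_surj (inc q U) isOpenEmbedding_inc) ?_
  rw [map_collapse, PMap.comp_assoc, map_collapse, ← PMap.comp_assoc, map_collapse,
    PMap.comp_assoc, pow_comp]

theorem map_id : map q (PMap.id U) = PMap.id (QU q U) := by
  refine eq_of_comp_surj (ofOpen_surj (inc q U) isOpenEmbedding_inc) ?_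
  rw [map_collapse, pow_id]
  rfl

/-- strict square of the rotation (open part) -/
theorem rot_collapse (g : Cq q) :
    (actP g (QU q U)).comp (PMap.ofOpen (inc q U) isOpenEmbedding_inc) =
      (PMap.ofOpen (inc q U) isOpenEmbedding_inc).comp (PMap.ofHomeo (rot g U)) := by
  refine PMap.ext fun x => ?_
  rw [PMap.comp_apply, PMap.comp_apply, PMap.ofHomeo_coe]
  by_cases h : x ∈ range (inc q U)
  · obtain ⟨x, rfl⟩ := h
    rw [PMap.ofOpen_coe, ← inc_smul', PMap.ofOpen_coe, actP_coe]
  · have h' : rot g U x ∉ range (inc q U) := by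
      obtain ⟨u, rfl⟩ := notMem_range_inc.1 h
      exact notMem_range_inc.2 ⟨u, rfl⟩
    rw [PMap.ofOpen_of_notMem _ _ h, PMap.ofOpen_of_notMem _ _ h', PMap.map_inf]

/-- strict square of the rotation (diagonal) -/
theorem rot_diag (g : Cq q) :
    (PMap.ofHomeo (rot g U)).comp (PMap.ofClosed (diag q U) isClosedEmbedding_diag) =
      PMap.ofClosed (diag q U) isClosedEmbedding_diag := PMap.ext fun _ => rfl

theorem rot_pow (g : Cq q) (φ : PMap U V) :
    (PMap.ofHomeo (rot g V)).comp (pow (ZMod q) φ) =
      (pow (ZMod q) φ).comp (PMap.ofHomeo (rot g U)) := reixc_pow _ φ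

/-- the induced map is equivariant -/
theorem map_equi [LocallyCompactSpace V] (φ : PMap U V) : Equi (Cq q) (map q φ) := by
  intro g
  refine eq_of_comp_surj (ofOpen_surj (inc q U) isOpenEmbedding_inc) ?_
  rw [PMap.comp_assoc, rot_collapse, ← PMap.comp_assoc, map_collapse, PMap.comp_assoc, ← rot_pow,
    ← PMap.comp_assoc, ← rot_collapse, PMap.comp_assoc, PMap.comp_assoc, map_collapse]

end QU

end Crest.Agent.R090.QU389
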