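import Crest.Agent.R090.PowTr_253
import Crest.Agent.R090.Free_253
import Crest.Agent.R090.QU_389

/-!
# Row 90, leaf A-TRACE (owner helper253)

`q L(Φ) = L(φ)^q + (q-1) L(φ^q) - q L(φ)` for the self map `Φ` of `R U = (Q U × S)/C_q` induced by
a pointed self map `φ` of `U`.

* `decQ` : the diagonal of `U^q` and its complement `QU q U`;
* `L_QU` : `L(φ_Q ∘ g) = L(φ^{∧q} ∘ g) - L(φ)`;
* `sum_QU`: `Σ_g L(φ_Q ∘ g) = L(φ)^q + (q-1) L(φ^q) - q L(φ)`;
* `L_orb` : the quotient; `trace_formula`.
-/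

set_option autoImplicit false
set_option linter.unusedSectionVars false
set_option linter.checkUnivs false

namespace Crest.Agent.R090.CohT253

open Topology Set Crest.Agent.R090.Sp962 Crest.Agent.R090.Pi568 Crest.Agent.R090.Orb389
open Crest.Agent.R090.QU389

universe u v w

/-- 389's action as an `Act` -/
def actA (G : Type) [Group G] [Finite G] (W : Type u) [TopologicalSpace W] [MulAction G W]
    [ContinuousConstSMul G W] : Act G W where
  act g := actP g W
  one := actP_one
  mul := actP_mul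

@[simp] theorem actA_act (G : Type) [Group G] [Finite G] (W : Type u) [TopologicalSpace W] [MulAction G W]
    [ContinuousConstSMul G W] (g : G) : (actA G W).act g = actP g W := rfl

section

variable {q : ℕ} [NeZero q] {U : Type u} [TopologicalSpace U] [T2Space U] [LocallyCompactSpace U]

variable (q U) in
/-- the diagonal and its complement -/
def decQ : Dec U (ZMod q → U) (QU q U) where
  i := QU.diag q U
  hi := QU.isClosedEmbedding_diag
  j := QU.inc q U
  hj := QU.isOpenEmbedding_inc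
  compl := QU.range_inc

/-- the strict self map `φ^{∧q} ∘ g` of the pair -/
noncomputable def strQ (φ : PMap U U) (g : Cq q) : Coh.Strict (decQ q U) (decQ q U) where
  fK := φ
  fU := (pow (ZMod q) φ).comp (PMap.ofHomeo (rot g U))
  fO := (QU.map q φ).comp (actP g (QU q U))
  hK := by
    change ((pow (ZMod q) φ).comp (PMap.ofHomeo (rot g U))).comp
      (PMap.ofClosed (QU.diag q U) QU.isClosedEmbedding_diag) =
      (PMap.ofClosed (QU.diag q U) QU.isClosedEmbedding_diag).comp φ
    rw [PMap.comp_assoc, QU.rot_diag, QU.map_diag]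
  hO := by
    change (PMap.ofOpen (QU.inc q U) QU.isOpenEmbedding_inc).comp
      ((pow (ZMod q) φ).comp (PMap.ofHomeo (rot g U))) =
      ((QU.map q φ).comp (actP g (QU q U))).comp
        (PMap.ofOpen (QU.inc q U) QU.isOpenEmbedding_inc)
    rw [← PMap.comp_assoc, ← QU.map_collapse, PMap.comp_assoc, ← QU.rot_collapse, PMap.comp_assoc]

variable {F : Type w} [Field F] {H : Coh.{u, v, w} F} (X : Cross H)

theorem fin_QU (hU : H.Fin U) (hUq : H.Fin (ZMod q → U)) : H.Fin (QU q U) :=
  Coh.Fin.open_of_dec H (decQ q U) hU hUq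

theorem L_QU (hU : H.Fin U) (hUq : H.Fin (ZMod q → U)) (φ : PMap U U) (g : Cq q) :
    H.L ((QU.map q φ).comp (actP g (QU q U))) =
      H.L ((pow (ZMod q) φ).comp (PMap.ofHomeo (rot g U))) - H.L φ := by
  have h := H.L_dec (strQ φ g) hUq hU (fin_QU hU hUq)
  have h' : H.L ((pow (ZMod q) φ).comp (PMap.ofHomeo (rot g U))) =
      H.L φ + H.L ((QU.map q φ).comp (actP g (QU q U))) := h
  rw [h', add_sub_cancel_left]

end

section

variable {q : ℕ} [hq : Fact q.Prime] {U : Type u} [TopologicalSpace U] [T2Space U]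
  [LocallyCompactSpace U]

variable {F : Type w} [Field F] {H : Coh.{u, v, w} F} (X : Cross H)

theorem finZ (hK : ∀ n : ℕ, X.Kue U (Fin (n + 1) → U)) (hU : H.Fin U) : H.Fin (ZMod q → U) := by
  obtain ⟨n, rfl⟩ : ∃ n, q = n + 1 := ⟨q - 1, by have := hq.out.pos; omega⟩
  have : FiniteDimensional F (H.h U) := hU
  obtain ⟨B, -⟩ := X.exists_basis (Module.finBasis F (H.h U)) hK n
  have h : FiniteDimensional F (H.h (Fin (n + 1) → U)) := Module.Finite.of_basis B
  exact h

/-- **the sum over the group** -/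
theorem sum_QU (h2 : (2 : F) ≠ 0) (hK : ∀ n : ℕ, X.Kue U (Fin (n + 1) → U)) (hU : H.Fin U)
    (φ : PMap U U) :
    ∑ g : Cq q, H.L ((QU.map q φ).comp (actP g (QU q U))) =
      H.L φ ^ q + ((q : F) - 1) * H.L (Cross.iter φ q) - q * H.L φ := by
  classical
  have hUq : H.Fin (ZMod q → U) := finZ X hK hU
  have h1 : ∀ g : Cq q, H.L ((QU.map q φ).comp (actP g (QU q U))) =
      (if g = 1 then H.L φ ^ q else H.L (Cross.iter φ q)) - H.L φ := by
    intro g
    rw [L_QU hU hUq]
    congr 1
    by_cases hg : g = 1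
    · subst hg
      rw [if_pos rfl, rot_one, PMap.ofHomeo_refl, PMap.comp_id]
      exact X.L_powZ h2 hK hU φ
    · rw [if_neg hg]
      refine X.L_rotZ h2 hK hU _ (fun h => hg ?_) φ
      apply Multiplicative.toAdd.injective
      rw [h]; rfl
  rw [Finset.sum_congr rfl fun g _ => h1 g, Finset.sum_sub_distrib, Finset.sum_ite,
    Finset.sum_const, Finset.sum_const, Finset.sum_const, Finset.card_univ]
  have c1 : (Finset.univ.filter fun g : Cq q => g = 1).card = 1 := by
    rw [Finset.filter_eq', if_pos (Finset.mem_univ _), Finset.card_singleton]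
  have c0 : Fintype.card (Cq q) = q := by
    rw [Fintype.card_multiplicative, ZMod.card]
  have c2 : (Finset.univ.filter fun g : Cq q => ¬ g = 1).card = q - 1 := by
    have := Finset.card_filter_add_card_filter_not (s := (Finset.univ : Finset (Cq q)))
      (fun g : Cq q => g = 1)
    rw [c1, Finset.card_univ, c0] at this
    omega
  rw [c1, c2, c0, one_smul, nsmul_eq_mul, nsmul_eq_mul, Nat.cast_sub hq.out.one_lt.le,
    Nat.cast_one]

variable {E : Type u} [TopologicalSpace E] [T2Space E] [LocallyCompactSpace E]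
  [MulAction (Cq q) E] [ContinuousConstSMul (Cq q) E]

/-- **the quotient.** `E` is a free `C_q`-space with `π : E → Q`, `s : Q → E` equivariant,
`π s = 1`; `f` an equivariant self map of `Q`; `f'` the self map `[e] ↦ [s f π e]` of `E/C_q`. -/
theorem L_orb {Q : Type u} [TopologicalSpace Q] [MulAction (Cq q) Q]
    [ContinuousConstSMul (Cq q) Q] (hQ : H.QInv (actA (Cq q) E) (Orb.pr (Cq q) E))
    (hq0 : (q : F) ≠ 0) (hE : H.Fin E) (hQf : H.Fin Q) (π : PMap E Q) (s : PMap Q E)
    (hs : π.comp s = PMap.id Q) (hπe : Equi (Cq q) π) (hse : Equi (Cq q) s) (f : PMap Q Q)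
    (hf : Equi (Cq q) f) (f' : PMap (Orb (Cq q) E) (Orb (Cq q) E))
    (hf' : f'.comp (Orb.pr (Cq q) E) = (Orb.pr (Cq q) E).comp (s.comp (f.comp π))) :
    (q : F) * H.L f' = ∑ g : Cq q, H.L (f.comp (actP g Q)) := by
  have hcard : (Fintype.card (Cq q) : F) = q := by
    rw [Fintype.card_multiplicative, ZMod.card]
  have hcomm : ∀ g, (s.comp (f.comp π)).comp (actP g E) = (actP g E).comp (s.comp (f.comp π)) :=
    hse.comp (hf.comp hπe)
  have h := hQ.L_quot (by rw [hcard]; exact hq0) hE (s.comp (f.comp π)) f' hf'.symm hcomm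
  rw [hcard] at h
  rw [h]
  apply Finset.sum_congr rfl
  intro g _
  have e1 : (s.comp (f.comp π)).comp ((actA (Cq q) E).act g) =
      s.comp ((f.comp (actP g Q)).comp π) := by
    rw [actA_act, PMap.comp_assoc, PMap.comp_assoc, hπe g, PMap.comp_assoc]
  rw [e1, H.L_comm hE hQf ((f.comp (actP g Q)).comp π) s]
  congr 1
  rw [PMap.comp_assoc, hs, PMap.comp_id]

/-- **the trace formula** `q L(Φ) = L(φ)^q + (q-1) L(φ^q) - q L(φ)` -/
theorem trace_formula (h2 : (2 : F) ≠ 0) (hq0 : (q : F) ≠ 0)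
    (hK : ∀ n : ℕ, X.Kue U (Fin (n + 1) → U)) (hU : H.Fin U)
    (hQ : H.QInv (actA (Cq q) E) (Orb.pr (Cq q) E)) (hE : H.Fin E)
    (π : PMap E (QU q U)) (s : PMap (QU q U) E)
    (hs : π.comp s = PMap.id _) (hπe : Equi (Cq q) π) (hse : Equi (Cq q) s) (φ : PMap U U)
    (f' : PMap (Orb (Cq q) E) (Orb (Cq q) E))
    (hf' : f'.comp (Orb.pr (Cq q) E) = (Orb.pr (Cq q) E).comp (s.comp ((QU.map q φ).comp π))) :
    (q : F) * H.L f' = H.L φ ^ q + ((q : F) - 1) * H.L (Cross.iter φ q) - q * H.L φ := by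
  rw [← sum_QU X h2 hK hU φ]
  exact L_orb hQ hq0 hE (fin_QU hU (finZ X hK hU)) π s hs hπe hse (QU.map q φ) (QU.map_equi φ)
    f' hf'

end

end Crest.Agent.R090.CohT253
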