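import Crest.Agent.R090.Code_843

/-!
Row 90 (S0119), leaf T5-7: from `UnstableInput` to the conclusion of S0119.
-/

set_option autoImplicit false

namespace Crest.Agent.R090.Asm_843

open Crest.Agent.R090.Code_843

/-- The input of the final assembly (output of the stable part, after the vector-field trick). -/
def UnstableInput (p n : ℕ) (a : ℝ) {Y : Type*} [TopologicalSpace Y]
    (f : Y → Fin n → Fin (2 * p + 1) → ℝ) : Prop :=
  ∃ l : ℕ, ∀ U : ℕ, ∃ u : ℕ, U ≤ u ∧ ∃ k : ℕ, k ≤ (2 * p + 1) * n * u + l ∧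
    ∃ (g : (Fin u → Y) × (Fin k → ℝ) → (Fin k → ℝ))
      (c : (Fin u → Y) × (Fin k → ℝ) → (Fin u → Fin n → Fin (2 * p) → Circle)),
      Continuous g ∧ (∃ R : ℝ, ∀ y x, R ≤ ‖x‖ → g (y, x) = x) ∧
      (∃ δ : ℝ, 0 < δ ∧ ContinuousOn c {q | ‖g q‖ < δ}) ∧
      ∀ y x, g (y, x) = 0 →
        (u : ℝ) / 2 ≤
          (({b | (y b, c (y, x) b) ∉ Crest.OpAlg.torusLocus p n (a * n) f} : Set (Fin u)).ncard : ℝ)

section shift

variable {t : ℕ}

/-- the cut-off: `1` for `‖X‖ ≤ 1/4`, `0` for `‖X‖ ≥ 1/2`. -/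
noncomputable def lam (X : Fin (t + 1) → ℝ) : ℝ := max 0 (min 1 (2 - 4 * ‖X‖))

theorem continuous_lam : Continuous (lam : (Fin (t + 1) → ℝ) → ℝ) :=
  continuous_const.max (continuous_const.min (continuous_const.sub (continuous_const.mul continuous_norm)))

theorem lam_nonneg (X : Fin (t + 1) → ℝ) : 0 ≤ lam X := le_max_left _ _

theorem lam_le_one (X : Fin (t + 1) → ℝ) : lam X ≤ 1 := max_le zero_le_one (min_le_left _ _)

theorem lam_eq_one {X : Fin (t + 1) → ℝ} (h : ‖X‖ ≤ 1 / 4) : lam X = 1 := by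
  unfold lam
  rw [min_eq_left (by linarith), max_eq_right zero_le_one]

theorem lam_eq_zero {X : Fin (t + 1) → ℝ} (h : 1 / 2 ≤ ‖X‖) : lam X = 0 := by
  unfold lam
  exact max_eq_left ((min_le_right _ _).trans (by linarith))

/-- shift of the tangential coordinates. -/
noncomputable def shift (X : Fin (t + 1) → ℝ) (v : Fin t → ℝ) : Fin (t + 1) → ℝ :=
  Fin.snoc (fun c => X (Fin.castSucc c) + lam X * v c) (X (Fin.last t))

theorem shift_castSucc (X : Fin (t + 1) → ℝ) (v : Fin t → ℝ) (c : Fin t) :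
    shift X v (Fin.castSucc c) = X (Fin.castSucc c) + lam X * v c := by
  unfold shift
  rw [Fin.snoc_castSucc (α := fun _ => ℝ)]

theorem shift_last (X : Fin (t + 1) → ℝ) (v : Fin t → ℝ) :
    shift X v (Fin.last t) = X (Fin.last t) := by
  unfold shift
  rw [Fin.snoc_last (α := fun _ => ℝ)]

theorem shift_of_lam_zero {X : Fin (t + 1) → ℝ} (h : lam X = 0) (v : Fin t → ℝ) :
    shift X v = X := by
  funext i
  refine Fin.lastCases ?_ (fun c => ?_) i
  · rw [shift_last]
  · rw [shift_castSucc, h, zero_mul, add_zero]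

theorem continuous_shift {A : Type*} [TopologicalSpace A] {X : A → Fin (t + 1) → ℝ}
    {v : A → Fin t → ℝ} (hX : Continuous X) (hv : Continuous v) :
    Continuous fun x => shift (X x) (v x) := by
  refine continuous_pi fun i => ?_
  refine Fin.lastCases ?_ (fun c => ?_) i
  · simp only [shift_last]
    exact (continuous_apply (Fin.last t)).comp hX
  · simp only [shift_castSucc]
    exact ((continuous_apply (Fin.castSucc c)).comp hX).add
      ((continuous_lam.comp hX).mul ((continuous_apply c).comp hv))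

/-- at a zero of the shift the tangential coordinates are `-v`. -/
theorem shift_eq_zero {X : Fin (t + 1) → ℝ} {v : Fin t → ℝ} (hv : ∀ c, |v c| ≤ 1 / 4)
    (h : shift X v = 0) (c : Fin t) : X (Fin.castSucc c) + v c = 0 := by
  have h1 : ∀ c, X (Fin.castSucc c) + lam X * v c = 0 := fun c => by
    rw [← shift_castSucc, h, Pi.zero_apply]
  have h2 : X (Fin.last t) = 0 := by rw [← shift_last X v, h, Pi.zero_apply]
  have h3 : ‖X‖ ≤ 1 / 4 := by
    rw [pi_norm_le_iff_of_nonneg (by norm_num)]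
    intro i
    refine Fin.lastCases ?_ (fun c => ?_) i
    · rw [h2, norm_zero]; norm_num
    · have h4 : X (Fin.castSucc c) = -(lam X * v c) := by linarith [h1 c]
      rw [h4, norm_neg, Real.norm_eq_abs, abs_mul, abs_of_nonneg (lam_nonneg X)]
      calc lam X * |v c| ≤ 1 * (1 / 4) :=
            mul_le_mul (lam_le_one X) (hv c) (abs_nonneg _) zero_le_one
        _ = 1 / 4 := one_mul _
  have h5 := h1 c
  rwa [lam_eq_one h3, one_mul] at h5

end shift

/-- a continuous cut-off makes a partially continuous function continuous. -/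
theorem continuous_cutoff {A E F : Type*} [TopologicalSpace A] [NormedAddCommGroup E]
    [NormedAddCommGroup F] [NormedSpace ℝ F] (g : A → E) (hg : Continuous g) (δ : ℝ) (hδ : 0 < δ)
    (w : A → F) (hw : ContinuousOn w {q | ‖g q‖ < δ}) :
    Continuous fun q => (max 0 (1 - 2 * ‖g q‖ / δ)) • w q := by
  have hΛ : Continuous fun q => max 0 (1 - 2 * ‖g q‖ / δ) :=
    continuous_const.max (continuous_const.sub ((continuous_const.mul hg.norm).div_const _))
  rw [continuous_iff_continuousAt]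
  intro q
  by_cases hq : ‖g q‖ < δ
  · have ho : IsOpen {q | ‖g q‖ < δ} := isOpen_lt hg.norm continuous_const
    exact hΛ.continuousAt.smul (hw.continuousAt (ho.mem_nhds hq))
  · have ho : IsOpen {q | δ / 2 < ‖g q‖} := isOpen_lt continuous_const hg.norm
    have hmem : q ∈ {q | δ / 2 < ‖g q‖} := by
      show δ / 2 < ‖g q‖
      push Not at hq
      linarith
    have hev : (fun q => (max 0 (1 - 2 * ‖g q‖ / δ)) • w q) =ᶠ[nhds q] fun _ => (0 : F) := by
      filter_upwards [ho.mem_nhds hmem] with r hr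
      have h1 : 1 - 2 * ‖g r‖ / δ ≤ 0 := by
        have hr' : δ / 2 < ‖g r‖ := hr
        rw [sub_nonpos, le_div_iff₀ hδ]
        linarith
      rw [max_eq_left h1, zero_smul]
    exact continuousAt_const.congr hev.symm

theorem norm_le_one_of_cube {p n : ℕ} {Y : Type*} {f : Y → Fin n → Fin (2 * p + 1) → ℝ}
    (hfC : ∀ y, f y ∈ Crest.OpAlg.cube (2 * p + 1) n) (y : Y) (j : Fin n) : ‖f y j‖ ≤ 1 := by
  rw [pi_norm_le_iff_of_nonneg zero_le_one]
  intro k
  rw [Real.norm_eq_abs]
  exact hfC y j k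

/-- a good block has more than `a n` pushable slots. -/
theorem good_block {p n : ℕ} {a : ℝ} {Y : Type*} {f : Y → Fin n → Fin (2 * p + 1) → ℝ}
    (hfC : ∀ y, f y ∈ Crest.OpAlg.cube (2 * p + 1) n) (y : Y) (W : Fin n → Fin (2 * p) → Circle)
    (h : (y, W) ∉ Crest.OpAlg.torusLocus p n (a * n) f) :
    a * n < (({j | f y j - Crest.OpAlg.torusEmb p (W j) ≠ 0} : Set (Fin n)).ncard : ℝ) := by
  by_contra hcon
  push Not at hcon
  refine h ⟨fun j k => ?_, hcon⟩
  have h1 := abs_sub (f y j k) (Crest.OpAlg.torusEmb p (W j) k)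
  have h2 := hfC y j k
  have h3 := torusEmb_bound p (W j) k
  show |f y j k - Crest.OpAlg.torusEmb p (W j) k| ≤ 2
  linarith

section main

open Classical in
/-- the linear code with real coordinates indexed by any finite type. -/
theorem exists_code {ι : Type*} [Fintype ι] (k d : ℕ) (h : k + d ≤ Fintype.card ι) :
    ∃ L : (Fin k → ℝ) →ₗ[ℝ] (ι → ℝ),
      ∀ x, x ≠ 0 → d < (Finset.univ.filter fun i => L x i ≠ 0).card := by
  let eq : ι ≃ Fin (Fintype.card ι) := Fintype.equivFin ι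
  refine ⟨(LinearMap.funLeft ℝ ℝ eq) ∘ₗ enc (vdm k (Fintype.card ι)), fun x hx => ?_⟩
  have h1 := le_card_ne_zero (mds_vdm k (Fintype.card ι)) x hx
  have h2 : (Finset.univ.filter fun i =>
      ((LinearMap.funLeft ℝ ℝ eq) ∘ₗ (enc (vdm k (Fintype.card ι)) : (Fin k → ℝ) →ₗ[ℝ] _)) x i ≠ 0).card
      = (Finset.univ.filter fun j => enc (vdm k (Fintype.card ι)) x j ≠ 0).card := by
    refine Finset.card_equiv eq fun i => ?_
    simp only [Finset.mem_filter, Finset.mem_univ, true_and]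
    exact Iff.rfl
  rw [h2]
  omega

/-- the words with few non-zero slots. -/
def Bad {σ κ : Type*} (q0 : ℕ) : Set (σ × κ → ℝ) :=
  {w | ∃ J : Finset σ, J.card < q0 ∧ ∀ s, s ∉ J → ∀ c, w (s, c) = 0}

theorem isClosed_Bad {σ κ : Type*} [Finite σ] (q0 : ℕ) :
    IsClosed (Bad q0 : Set (σ × κ → ℝ)) := by
  classical
  have := Fintype.ofFinite σ
  have h : (Bad q0 : Set (σ × κ → ℝ)) =
      ⋃ J : Finset σ, {w | J.card < q0 ∧ ∀ s, s ∉ J → ∀ c, w (s, c) = 0} := by
    ext w; simp [Bad]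
  rw [h]
  refine isClosed_iUnion_of_finite fun J => ?_
  by_cases hJ : J.card < q0
  · have h2 : {w : σ × κ → ℝ | J.card < q0 ∧ ∀ s, s ∉ J → ∀ c, w (s, c) = 0} =
        ⋂ s : σ, ⋂ _ : s ∉ J, ⋂ c : κ, {w | w (s, c) = 0} := by
      ext w; simp [hJ]
    rw [h2]
    refine isClosed_iInter fun s => isClosed_iInter fun _ => isClosed_iInter fun c => ?_
    exact isClosed_eq (continuous_apply _) continuous_const
  · have h2 : {w : σ × κ → ℝ | J.card < q0 ∧ ∀ s, s ∉ J → ∀ c, w (s, c) = 0} = ∅ := by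
      ext w; simp [hJ]
    rw [h2]
    exact isClosed_empty

open Classical in
theorem Bad_sub {σ κ : Type*} [Fintype σ] [Fintype κ] (q0 : ℕ) (w w' : σ × κ → ℝ)
    (hw : w ∈ (Bad q0 : Set (σ × κ → ℝ))) (hw' : w' ∈ (Bad q0 : Set (σ × κ → ℝ))) :
    (Finset.univ.filter fun i => w i - w' i ≠ 0).card ≤ 2 * (q0 - 1) * Fintype.card κ := by
  obtain ⟨J, hJ, hJw⟩ := hw
  obtain ⟨J', hJ', hJw'⟩ := hw'
  have h1 : (Finset.univ.filter fun i => w i - w' i ≠ 0) ⊆
      (J ∪ J') ×ˢ (Finset.univ : Finset κ) := by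
    rintro ⟨s, c⟩ hi
    have hi' := (Finset.mem_filter.mp hi).2
    refine Finset.mem_product.mpr ⟨?_, Finset.mem_univ _⟩
    by_contra hs
    rw [Finset.mem_union, not_or] at hs
    apply hi'
    rw [hJw s hs.1, hJw' s hs.2, sub_zero]
  refine (Finset.card_le_card h1).trans ?_
  rw [Finset.card_product, Finset.card_univ]
  refine Nat.mul_le_mul_right _ ?_
  have := Finset.card_union_le J J'
  omega

/-- boundedness of `g (y,x) - x`. -/
theorem exists_bound {A : Type*} [TopologicalSpace A] [CompactSpace A] {k : ℕ}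
    (g : A × (Fin k → ℝ) → (Fin k → ℝ)) (hg : Continuous g) (R : ℝ)
    (hR : ∀ y x, R ≤ ‖x‖ → g (y, x) = x) : ∃ C : ℝ, 0 ≤ C ∧ ∀ y x, ‖g (y, x) - x‖ ≤ C := by
  have hK : IsCompact ((Set.univ : Set A) ×ˢ Metric.closedBall (0 : Fin k → ℝ) R) :=
    isCompact_univ.prod (isCompact_closedBall _ _)
  obtain ⟨C, hC⟩ := hK.exists_bound_of_continuousOn (f := fun q : A × (Fin k → ℝ) => g q - q.2)
    (hg.sub continuous_snd).continuousOn
  refine ⟨max C 0, le_max_right _ _, fun y x => ?_⟩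
  rcases le_or_gt R ‖x‖ with h | h
  · rw [hR y x h, sub_self, norm_zero]
    exact le_max_right _ _
  · exact (hC (y, x) ⟨Set.mem_univ _, by simpa using h.le⟩).trans (le_max_left _ _)

set_option maxHeartbeats 2000000 in
theorem result_of_unstableInput (p n : ℕ) (hp : 1 ≤ p) (hn : 1 ≤ n) (a : ℝ) (ha : 0 < a)
    (ha' : a < 1 / 16) {Y : Type*} [TopologicalSpace Y] [CompactSpace Y]
    (f : Y → Fin n → Fin (2 * p + 1) → ℝ) (hf : Continuous f)
    (hfC : ∀ y, f y ∈ Crest.OpAlg.cube (2 * p + 1) n)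
    (hJ : UnstableInput p n a f) (U : ℕ) :
    ∃ u : ℕ, U ≤ u ∧ ∃ G : (Fin u → Y) → (Fin u × Fin n → Fin (2 * p + 1) → ℝ),
      Continuous G ∧ (∀ y s k, |G y s k| ≤ 1) ∧
      (∀ y, a / 8 * (u * n : ℝ) ≤ (({s | Crest.OpAlg.IsBoundarySlot (G y s)} : Set (Fin u × Fin n)).ncard : ℝ)) ∧
      ∀ y (b : Fin u) (j : Fin n), Crest.OpAlg.IsBoundarySlot (f (y b) j) → G y (b, j) = f (y b) j := by
  classical
  obtain ⟨l, hl⟩ := hJ
  obtain ⟨u1, hu1, k, hk, g, c, hg, ⟨R, hR⟩, ⟨δ, hδ, hc⟩, hgood⟩ := hl (max U (l + 1))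
  have hUu1 : U ≤ u1 := (le_max_left _ _).trans hu1
  have hlu1 : l + 1 ≤ u1 := (le_max_right _ _).trans hu1
  set u2 : ℕ := 3 * u1 with hu2
  set q0 : ℕ := ⌈a / 8 * ((u1 + u2 : ℕ) * n : ℝ)⌉₊ with hq0
  have hm0 : (0 : ℝ) < a / 8 * ((u1 + u2 : ℕ) * n : ℝ) := by
    have h1 : (0 : ℝ) < ((u1 + u2 : ℕ) : ℝ) := by
      have : 0 < u1 + u2 := by omega
      exact_mod_cast this
    have h2 : (0 : ℝ) < (n : ℝ) := by exact_mod_cast hn
    positivity
  have hq0pos : 0 < q0 := Nat.ceil_pos.mpr hm0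
  have hq0lt : (q0 : ℝ) < a / 8 * ((u1 + u2 : ℕ) * n : ℝ) + 1 := Nat.ceil_lt_add_one hm0.le
  have hq0le : a / 8 * ((u1 + u2 : ℕ) * n : ℝ) ≤ q0 := Nat.le_ceil _
  -- the code
  have hcard : k + 2 * (q0 - 1) * Fintype.card (Fin (2 * p)) ≤
      Fintype.card ((Fin u2 × Fin n) × Fin (2 * p)) := by
    simp only [Fintype.card_prod, Fintype.card_fin]
    have hq1 : ((q0 - 1 : ℕ) : ℝ) < a / 8 * ((u1 + u2 : ℕ) * n : ℝ) := by
      rw [Nat.cast_sub hq0pos, Nat.cast_one]
      linarith
    have hu1r : (0 : ℝ) < (u1 : ℝ) := by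
      have : 0 < u1 := by omega
      exact_mod_cast this
    have hnr : (1 : ℝ) ≤ (n : ℝ) := by exact_mod_cast hn
    have hpr : (1 : ℝ) ≤ (p : ℝ) := by exact_mod_cast hp
    have hun : (0 : ℝ) < (u1 : ℝ) * n := by positivity
    have hq2 : ((q0 - 1 : ℕ) : ℝ) ≤ (u1 * n : ℝ) / 32 := by
      refine hq1.le.trans ?_
      rw [hu2]
      push_cast
      nlinarith
    have hkr : (k : ℝ) ≤ (2 * p + 1) * n * u1 + l := by exact_mod_cast hk
    have hlr : (l : ℝ) ≤ u1 := by
      have : l ≤ u1 := by omega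
      exact_mod_cast this
    have h3 : (k : ℝ) + 2 * ((q0 - 1 : ℕ) : ℝ) * (2 * p) ≤ (3 * u1 : ℝ) * n * (2 * p) := by
      have h4 : 2 * ((q0 - 1 : ℕ) : ℝ) * (2 * p) ≤ (u1 * n : ℝ) * p / 8 := by
        have : ((q0 - 1 : ℕ) : ℝ) * (4 * p) ≤ (u1 * n : ℝ) / 32 * (4 * p) :=
          mul_le_mul_of_nonneg_right hq2 (by positivity)
        linarith
      have h5 : (n * u1 : ℝ) ≤ p * (n * u1) := by
        nlinarith
      have h6 : (u1 : ℝ) ≤ p * (n * u1) := by
        nlinarith
      nlinarith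
    rw [hu2]
    exact_mod_cast h3
  obtain ⟨L, hLd⟩ := exists_code (ι := (Fin u2 × Fin n) × Fin (2 * p)) k
    (2 * (q0 - 1) * Fintype.card (Fin (2 * p))) hcard
  obtain ⟨e, he, heL, heB⟩ := exists_e L (2 * (q0 - 1) * Fintype.card (Fin (2 * p))) hLd
    (Bad q0) (isClosed_Bad q0) (fun w hw w' hw' => Bad_sub q0 w w' hw hw')
  -- rescaling
  obtain ⟨C, hC0, hC⟩ := exists_bound g hg R hR
  let Lc : (Fin k → ℝ) →L[ℝ] ((Fin u2 × Fin n) × Fin (2 * p) → ℝ) := LinearMap.toContinuousLinearMap L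
  have hLc : ∀ x, Lc x = L x := fun x => rfl
  set η : ℝ := 1 / (4 * (‖Lc‖ * C + 1)) with hη
  have hden : 0 < ‖Lc‖ * C + 1 := by positivity
  have hηpos : 0 < η := by rw [hη]; positivity
  have hηb : ‖Lc‖ * (η * C) ≤ 1 / 4 := by
    rw [hη]
    have : ‖Lc‖ * (1 / (4 * (‖Lc‖ * C + 1)) * C) = (‖Lc‖ * C) / (4 * (‖Lc‖ * C + 1)) := by ring
    rw [this, div_le_div_iff₀ (by positivity) (by norm_num)]
    linarith
  -- the data
  let y1 : (Fin (u1 + u2) → Y) → (Fin u1 → Y) := fun y i => y (Fin.castAdd u2 i)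
  let T : (Fin (u1 + u2) → Y) → ((Fin u2 × Fin n) × Fin (2 * p) → ℝ) :=
    fun y q => f (y (Fin.natAdd u1 q.1.1)) q.1.2 (Fin.castSucc q.2)
  have hy1 : Continuous y1 := continuous_pi fun i => continuous_apply _
  have hfc : ∀ (b : Fin (u1 + u2)) (j : Fin n), Continuous fun y : Fin (u1 + u2) → Y => f (y b) j :=
    fun b j => (continuous_apply j).comp (hf.comp (continuous_apply b))
  have hT : Continuous T := continuous_pi fun q => (continuous_apply _).comp (hfc _ _)
  let q : (Fin (u1 + u2) → Y) → (Fin u1 → Y) × (Fin k → ℝ) := fun y => (y1 y, η⁻¹ • e (T y))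
  have hq : Continuous q := hy1.prodMk ((he.comp hT).const_smul η⁻¹)
  let v : (Fin (u1 + u2) → Y) → ((Fin u2 × Fin n) × Fin (2 * p) → ℝ) :=
    fun y => L (η • g (q y) - e (T y))
  have hv : Continuous v := Lc.continuous.comp (((hg.comp hq).const_smul η).sub (he.comp hT))
  have hvb : ∀ y i, |v y i| ≤ 1 / 4 := by
    intro y i
    rw [← Real.norm_eq_abs]
    refine (norm_le_pi_norm (v y) i).trans ?_
    have h1 : ‖v y‖ ≤ ‖Lc‖ * ‖η • g (q y) - e (T y)‖ := Lc.le_opNorm _
    refine h1.trans (le_trans (mul_le_mul_of_nonneg_left ?_ (norm_nonneg _)) hηb)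
    have h2 : η • g (q y) - e (T y) = η • (g (q y) - η⁻¹ • e (T y)) := by
      rw [smul_sub, smul_smul, mul_inv_cancel₀ hηpos.ne', one_smul]
    rw [h2, norm_smul, Real.norm_of_nonneg hηpos.le]
    exact mul_le_mul_of_nonneg_left (hC _ _) hηpos.le
  -- the amplitude vectors of group 1
  let F : (Fin (u1 + u2) → Y) → Fin u1 → Fin n → Fin (2 * p + 1) → ℝ := fun y i j =>
    (max 0 (1 - 2 * ‖g (q y)‖ / δ)) •
      (f (y (Fin.castAdd u2 i)) j - Crest.OpAlg.torusEmb p (c (q y) i j))
  have hF : ∀ i j, Continuous fun y => F y i j := by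
    intro i j
    have hc' : ContinuousOn (fun r : (Fin u1 → Y) × (Fin k → ℝ) =>
        f (r.1 i) j - Crest.OpAlg.torusEmb p (c r i j)) {r | ‖g r‖ < δ} := by
      refine ContinuousOn.sub ?_ ?_
      · exact ((continuous_apply j).comp (hf.comp ((continuous_apply i).comp
          continuous_fst))).continuousOn
      · refine (continuous_torusEmb p).comp_continuousOn ?_
        exact ((continuous_apply j).comp (continuous_apply i)).comp_continuousOn hc
    exact (continuous_cutoff g hg δ hδ _ hc').comp hq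
  -- all slots
  let Z : (Fin (u1 + u2) → Y) → (Fin (u1 + u2) × Fin n) → Fin (2 * p + 1) → ℝ := fun y s =>
    Fin.addCases (motive := fun _ => Fin (2 * p + 1) → ℝ) (fun i => F y i s.2)
      (fun i => shift (f (y (Fin.natAdd u1 i)) s.2) (fun d => v y ((i, s.2), d))) s.1
  have hZ1 : ∀ y i j, Z y (Fin.castAdd u2 i, j) = F y i j := fun y i j =>
    Fin.addCases_left (motive := fun _ => Fin (2 * p + 1) → ℝ) i
  have hZ2 : ∀ y i j, Z y (Fin.natAdd u1 i, j) =
      shift (f (y (Fin.natAdd u1 i)) j) (fun d => v y ((i, j), d)) := fun y i j =>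
    Fin.addCases_right (motive := fun _ => Fin (2 * p + 1) → ℝ) i
  have hZc : Continuous Z := by
    refine continuous_pi fun s => ?_
    obtain ⟨b, j⟩ := s
    refine Fin.addCases (fun i => ?_) (fun i => ?_) b
    · simp only [hZ1]
      exact hF i j
    · simp only [hZ2]
      exact continuous_shift (hfc _ _) (continuous_pi fun d => (continuous_apply _).comp hv)
  -- the count of non-zero slots
  have hcount : ∀ y, a / 8 * ((u1 + u2 : ℕ) * n : ℝ) ≤
      (({s | Z y s ≠ 0} : Set (Fin (u1 + u2) × Fin n)).ncard : ℝ) := by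
    intro y
    by_contra hcon
    push Not at hcon
    -- group 2
    have hJ2 : ∃ J : Finset (Fin u2 × Fin n), J.card < q0 ∧ ∀ s, s ∉ J →
        shift (f (y (Fin.natAdd u1 s.1)) s.2) (fun d => v y (s, d)) = 0 := by
      refine ⟨Finset.univ.filter fun s =>
        shift (f (y (Fin.natAdd u1 s.1)) s.2) (fun d => v y (s, d)) ≠ 0, ?_, ?_⟩
      · have h1 : (Finset.univ.filter fun s : Fin u2 × Fin n =>
            shift (f (y (Fin.natAdd u1 s.1)) s.2) (fun d => v y (s, d)) ≠ 0).card ≤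
            ({s | Z y s ≠ 0} : Set (Fin (u1 + u2) × Fin n)).ncard := by
          rw [← Set.ncard_coe_finset]
          refine Set.ncard_le_ncard_of_injOn
            (fun s : Fin u2 × Fin n => ((Fin.natAdd u1 s.1, s.2) : Fin (u1 + u2) × Fin n)) ?_ ?_
            (Set.toFinite _)
          · intro s hs
            have hs' := (Finset.mem_filter.mp (Finset.mem_coe.mp hs)).2
            show Z y (Fin.natAdd u1 s.1, s.2) ≠ 0
            rw [hZ2]
            exact hs'
          · intro s _ s' _ h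
            have h2 := Prod.ext_iff.mp h
            exact Prod.ext (Fin.natAdd_injective _ _ h2.1) h2.2
        have h2 : ((Finset.univ.filter fun s : Fin u2 × Fin n =>
            shift (f (y (Fin.natAdd u1 s.1)) s.2) (fun d => v y (s, d)) ≠ 0).card : ℝ) < q0 :=
          lt_of_le_of_lt (by exact_mod_cast h1) (lt_of_lt_of_le hcon hq0le)
        exact_mod_cast h2
      · intro s hs
        by_contra hne
        exact hs (Finset.mem_filter.mpr ⟨Finset.mem_univ _, hne⟩)
    obtain ⟨J, hJc, hJz⟩ := hJ2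
    have hbad : T y + v y ∈ (Bad q0 : Set ((Fin u2 × Fin n) × Fin (2 * p) → ℝ)) := by
      refine ⟨J, hJc, fun s hs d => ?_⟩
      exact shift_eq_zero (fun d => hvb y (s, d)) (hJz s hs) d
    have he0 := heB _ hbad
    have hg0 : g (q y) = 0 := by
      have h1 : e (T y + v y) = e (T y) + (η • g (q y) - e (T y)) := heL _ _
      rw [he0] at h1
      have h2 : η • g (q y) = 0 := by
        rw [h1]; abel
      exact (smul_eq_zero.mp h2).resolve_left hηpos.ne'
    -- group 1
    have hgd := hgood (y1 y) (η⁻¹ • e (T y)) hg0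
    let S : Finset (Fin u1 × Fin n) := Finset.univ.filter fun s => F y s.1 s.2 ≠ 0
    have hFz : ∀ i j, f (y (Fin.castAdd u2 i)) j - Crest.OpAlg.torusEmb p (c (q y) i j) ≠ 0 →
        F y i j ≠ 0 := by
      intro i j h
      have h1 : max 0 (1 - 2 * ‖g (q y)‖ / δ) = 1 := by
        rw [hg0, norm_zero]
        simp
      show (max 0 (1 - 2 * ‖g (q y)‖ / δ)) • _ ≠ 0
      rw [h1, one_smul]
      exact h
    have hb := card_big_blocks' S (a * n) (by positivity)
    have hblocks : (u1 : ℝ) / 2 ≤ ((Finset.univ.filter fun b : Fin u1 =>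
        a * n < ((Finset.univ.filter fun j : Fin n => (b, j) ∈ S).card : ℝ)).card : ℝ) := by
      refine hgd.trans ?_
      have h1 : ({b | (y1 y b, c (y1 y, η⁻¹ • e (T y)) b) ∉
          Crest.OpAlg.torusLocus p n (a * n) f} : Set (Fin u1)).ncard ≤
          (Finset.univ.filter fun b : Fin u1 =>
            a * n < ((Finset.univ.filter fun j : Fin n => (b, j) ∈ S).card : ℝ)).card := by
        rw [← Set.ncard_coe_finset]
        refine Set.ncard_le_ncard ?_ (Set.toFinite _)
        intro b hb'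
        rw [Finset.mem_coe, Finset.mem_filter]
        refine ⟨Finset.mem_univ _, ?_⟩
        have h2 := good_block hfC (y1 y b) (c (q y) b) hb'
        refine lt_of_lt_of_le h2 ?_
        have h3 : ({j | f (y1 y b) j - Crest.OpAlg.torusEmb p (c (q y) b j) ≠ 0} : Set (Fin n)).ncard ≤
            (Finset.univ.filter fun j : Fin n => (b, j) ∈ S).card := by
          rw [← Set.ncard_coe_finset]
          refine Set.ncard_le_ncard ?_ (Set.toFinite _)
          intro j hj
          rw [Finset.mem_coe, Finset.mem_filter]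
          refine ⟨Finset.mem_univ _, ?_⟩
          exact Finset.mem_filter.mpr ⟨Finset.mem_univ _, hFz b j hj⟩
        exact_mod_cast h3
      exact_mod_cast h1
    have hSle : (S.card : ℝ) ≤ (({s | Z y s ≠ 0} : Set (Fin (u1 + u2) × Fin n)).ncard : ℝ) := by
      have h1 : S.card ≤ ({s | Z y s ≠ 0} : Set (Fin (u1 + u2) × Fin n)).ncard := by
        rw [← Set.ncard_coe_finset]
        refine Set.ncard_le_ncard_of_injOn
          (fun s : Fin u1 × Fin n => ((Fin.castAdd u2 s.1, s.2) : Fin (u1 + u2) × Fin n)) ?_ ?_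
          (Set.toFinite _)
        · intro s hs
          have hs' := (Finset.mem_filter.mp (Finset.mem_coe.mp hs)).2
          show Z y (Fin.castAdd u2 s.1, s.2) ≠ 0
          rw [hZ1]
          exact hs'
        · intro s _ s' _ h
          have h2 := Prod.ext_iff.mp h
          exact Prod.ext (Fin.castAdd_injective _ _ h2.1) h2.2
      exact_mod_cast h1
    have hfin : (u1 : ℝ) / 2 * (a * n) ≤
        (({s | Z y s ≠ 0} : Set (Fin (u1 + u2) × Fin n)).ncard : ℝ) := by
      refine le_trans (mul_le_mul_of_nonneg_right ?_ (by positivity)) (hb.trans hSle)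
      refine hblocks.trans (le_of_eq ?_)
      congr!
    have hval : a / 8 * ((u1 + u2 : ℕ) * n : ℝ) = (u1 : ℝ) / 2 * (a * n) := by
      rw [hu2]
      push_cast
      ring
    linarith
  obtain ⟨ε, hε0, hε1, hε⟩ := exists_eps Z hZc _ hcount
  -- the map
  let G : (Fin (u1 + u2) → Y) → (Fin (u1 + u2) × Fin n) → Fin (2 * p + 1) → ℝ := fun y s =>
    Fin.addCases (motive := fun _ => Fin (2 * p + 1) → ℝ)
      (fun i => clampV (f (y (Fin.castAdd u2 i)) s.2 +
        (8 / ε * (1 - ‖f (y (Fin.castAdd u2 i)) s.2‖)) • F y i s.2))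
      (fun i => nrm ε (Z y (Fin.natAdd u1 i, s.2))) s.1
  have hG1 : ∀ y i j, G y (Fin.castAdd u2 i, j) = clampV (f (y (Fin.castAdd u2 i)) j +
      (8 / ε * (1 - ‖f (y (Fin.castAdd u2 i)) j‖)) • F y i j) := fun y i j =>
    Fin.addCases_left (motive := fun _ => Fin (2 * p + 1) → ℝ) i
  have hG2 : ∀ y i j, G y (Fin.natAdd u1 i, j) = nrm ε (Z y (Fin.natAdd u1 i, j)) := fun y i j =>
    Fin.addCases_right (motive := fun _ => Fin (2 * p + 1) → ℝ) i
  refine ⟨u1 + u2, by omega, G, ?_, ?_, ?_, ?_⟩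
  · refine continuous_pi fun s => ?_
    obtain ⟨b, j⟩ := s
    refine Fin.addCases (fun i => ?_) (fun i => ?_) b
    · simp only [hG1]
      exact continuous_clampV.comp ((hfc _ _).add
        ((continuous_const.mul (continuous_const.sub (hfc _ _).norm)).smul (hF i j)))
    · have hz : Continuous fun y => Z y (Fin.natAdd u1 i, j) :=
        (continuous_apply (Fin.natAdd u1 i, j)).comp hZc
      have hz2 : Continuous fun y => nrm ε (Z y (Fin.natAdd u1 i, j)) :=
        (continuous_nrm hε0).comp hz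
      exact hz2.congr fun y => (hG2 y i j).symm
  · intro y s k'
    obtain ⟨b, j⟩ := s
    revert k'
    refine Fin.addCases (fun i => ?_) (fun i => ?_) b
    · intro k'
      rw [hG1]
      exact abs_clampV_le _ _
    · intro k'
      rw [hG2]
      exact abs_le_of_norm (norm_nrm_le hε0 _) _
  · intro y
    have h1 := hε y
    have h2 : ({s | ε ≤ ‖Z y s‖} : Set (Fin (u1 + u2) × Fin n)).ncard ≤
        ({s | Crest.OpAlg.IsBoundarySlot (G y s)} : Set (Fin (u1 + u2) × Fin n)).ncard := by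
      refine Set.ncard_le_ncard ?_ (Set.toFinite _)
      rintro ⟨b, j⟩
      refine Fin.addCases (fun i => ?_) (fun i => ?_) b
      · intro hs
        have hs' : ε ≤ ‖F y i j‖ := by
          have : ε ≤ ‖Z y (Fin.castAdd u2 i, j)‖ := hs
          rwa [hZ1] at this
        show Crest.OpAlg.IsBoundarySlot (G y (Fin.castAdd u2 i, j))
        rw [hG1]
        refine push_boundary _ _ _ ε (norm_le_one_of_cube hfC _ _) (fun k' => ?_) (le_max_left _ _)
          hε0 hs'
        exact (torusEmb_bound p _ k').trans (by norm_num)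
      · intro hs
        show Crest.OpAlg.IsBoundarySlot (G y (Fin.natAdd u1 i, j))
        rw [hG2]
        exact isBoundary_of_norm (norm_nrm_eq hε0 _ hs)
    refine h1.trans ?_
    exact_mod_cast h2
  · intro y b j
    refine Fin.addCases (fun i => ?_) (fun i => ?_) b
    · intro hb
      have hn1 : ‖f (y (Fin.castAdd u2 i)) j‖ = 1 := norm_of_isBoundary (fun k' => hfC _ _ _) hb
      rw [hG1, hn1, sub_self, mul_zero, zero_smul, add_zero]
      exact clampV_of_le fun k' => hfC _ _ _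
    · intro hb
      have hn1 : ‖f (y (Fin.natAdd u1 i)) j‖ = 1 := norm_of_isBoundary (fun k' => hfC _ _ _) hb
      rw [hG2, hZ2, shift_of_lam_zero (lam_eq_zero (by rw [hn1]; norm_num))]
      exact nrm_of_norm_one hε1 _ hn1

end main

end Crest.Agent.R090.Asm_843
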