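import Crest.Agent.R090.F2St_466

/-!
# Row 90, node E-IN-I (owner helper466)

* `SNull.comp_left`, `SNull.comp_right`, `SNull.neg`, ... : `SNull` is an ideal;
* `stRing`, `permSt_smul`, `permSt_sq` : the Young element is a quasi-idempotent in `St (κ → V)`;
* `idQ_of_f1` : abstract form;  `einI : Spine.EInIStmt`.
-/

set_option autoImplicit false
set_option linter.unusedSectionVars false
set_option linter.style.haveILetI false

open Topology Filter Set

noncomputable section

namespace Crest.Agent.R090.EInI466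

open OnePoint Crest.Agent.R090.Sp962 Crest.Agent.R090.Grp528 Crest.Agent.R090.St528
open Crest.Agent.R090.Dens255 Crest.Agent.R090.Sm202 Crest.Agent.R090.Block568
open Crest.Agent.R090.Pi568 Crest.Agent.R090.Cyl349 Crest.Agent.R090.Young152
open Crest.Agent.R090.Spine Crest.Agent.R090.F2St466 Crest.Agent.R090.F0_933

/-! ## `SNull` -/

section SN

variable {X X' X'' Y Y' : Type} [TopologicalSpace X] [TopologicalSpace X'] [TopologicalSpace X'']
  [TopologicalSpace Y] [TopologicalSpace Y'] [T2Space X] [T2Space X'] [T2Space X''] [T2Space Y]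
  [T2Space Y'] [LocallyCompactSpace X] [LocallyCompactSpace X'] [LocallyCompactSpace X'']
  [LocallyCompactSpace Y] [LocallyCompactSpace Y']

theorem snull_comp_left {h : St X X'} (hh : SNull h) (g : St X' X'') : SNull (g.comp h) := by
  intro T _ _ _ j y
  rw [smR_comp, ← St.comp_assoc]
  exact hh T j _

theorem snull_comp_right {h : St X' X''} (hh : SNull h) (g : St X X') : SNull (h.comp g) := by
  intro T _ _ _ j y
  rw [smR_comp, ← St.comp_assoc, hh T j y, St.zero_comp]

theorem snull_neg {h : St X X'} (hh : SNull h) : SNull (-h) := by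
  intro T _ _ _ j y
  rw [smR_neg, St.comp_neg, hh T j y, neg_zero]

theorem snull_add {h g : St X X'} (hh : SNull h) (hg : SNull g) : SNull (h + g) := by
  intro T _ _ _ j y
  rw [smR_add, St.comp_add, hh T j y, hg T j y, zero_add]

theorem snull_zsmul {h : St X X'} (z : ℤ) (hh : SNull h) : SNull (z • h) := by
  intro T _ _ _ j y
  rw [smR_zsmul, St.comp_zsmul, hh T j y, zsmul_zero]

theorem snull_natAbs {h : St X X'} {z : ℤ} (hh : SNull (z • h)) : SNull (z.natAbs • h) := by
  rw [← natCast_zsmul]
  rcases Int.natAbs_eq z with hz | hz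
  · rwa [← hz]
  · have : ((z.natAbs : ℤ)) = -z := by omega
    rw [this, neg_zsmul]
    exact snull_neg hh

theorem tens_zsmul (a : St X X') (z : ℤ) (b : St Y Y') : tens a (z • b) = z • tens a b := by
  rw [tens, tens, Sm202.prod_eq, Sm202.prod_eq, smL_zsmul, St.comp_zsmul]

/-- `(f ∘ a) ∧ b` for a strict `f` -/
theorem tens_ofP_comp (f : PMap X' X'') (a : St X X') (b : St Y Y') :
    tens ((St.ofP f).comp a) b = ((St.ofP f).smR Y').comp (tens a b) := by
  rw [tens, tens, Sm202.prod_eq, Sm202.prod_eq, smR_comp, St.comp_assoc]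

/-- `a ∧ (b' ∘ b)` -/
theorem tens_comp_right {Y'' : Type} [TopologicalSpace Y''] [T2Space Y''] [LocallyCompactSpace Y'']
    (a : St X X') (b' : St Y' Y'') (b : St Y Y') :
    tens a (b'.comp b) = (b'.smL X').comp (tens a b) := by
  rw [tens, tens, Sm202.prod_eq', Sm202.prod_eq', smL_comp, St.comp_assoc]

end SN

/-! ## the Young element -/

section young

variable {W : Type} [TopologicalSpace W] [T2Space W] [LocallyCompactSpace W]

variable (W) in
/-- the ring of stable self maps -/
@[reducible] def stRing : Ring (St W W) :=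
  { (inferInstance : AddCommGroup (St W W)) with
    mul := St.comp
    one := St.id W
    mul_assoc := fun a b c => St.comp_assoc a b c
    one_mul := fun a => St.id_comp a
    mul_one := fun a => St.comp_id a
    left_distrib := fun a b c => St.comp_add a b c
    right_distrib := fun a b c => St.add_comp a b c
    zero_mul := fun a => St.zero_comp a
    mul_zero := fun a => St.comp_zero a }

variable {V : Type} [TopologicalSpace V] [T2Space V] [LocallyCompactSpace V] {κ : Type}
  [Fintype κ] [DecidableEq κ]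

theorem permSt_zsmul (z : ℤ) (a : MonoidAlgebra ℤ (Equiv.Perm κ)) :
    permSt V (z • a) = z • permSt V a := by
  rw [permSt, permSt, Finset.smul_sum]
  refine Finset.sum_congr rfl fun σ _ => ?_
  rw [smul_smul]
  rfl

/-- permutations act multiplicatively -/
def permHom (V : Type) [TopologicalSpace V] [T2Space V] [LocallyCompactSpace V] (κ : Type)
    [Fintype κ] [DecidableEq κ] :
    letI := stRing (κ → V)
    Equiv.Perm κ →* St (κ → V) (κ → V) :=
  letI := stRing (κ → V)
  { toFun := fun σ => St.ofP (PMap.ofHomeo (Strata973.perm (X := V) σ))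
    map_one' := by
      rw [Strata973.perm_one, PMap.ofHomeo_refl, St.ofP_id]
      rfl
    map_mul' := fun σ τ => by
      change _ = (St.ofP _).comp (St.ofP _)
      rw [← St.ofP_comp]
      exact congrArg St.ofP (PMap.ext fun _ => rfl) }

theorem permSt_sq (D c : ℕ) :
    (permSt V (yF D c)).comp (permSt V (yF D c)) = M D c • permSt V (yF D c) := by
  letI := stRing (Fin (yr D c) → V)
  exact yF_sq_map (permHom V (Fin (yr D c)))

/-- powers of `k • P`, `P ∘ P = m • P` -/
theorem comp_npow {P : St W W} {m k : ℤ} (hP : P.comp P = m • P) (K : ℕ) :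
    P.comp (npow (k • P) K) = (k * m) ^ K • P := by
  induction K with
  | zero =>
    change P.comp (St.id W) = _
    rw [St.comp_id, pow_zero, one_zsmul]
  | succ K ih =>
    change P.comp ((npow (k • P) K).comp (k • P)) = _
    rw [← St.comp_assoc, ih, St.zsmul_comp, St.comp_zsmul, hP, smul_smul, smul_smul, pow_succ,
      mul_assoc]

end young

/-! ## the node -/

section node

variable {N : Type} [TopologicalSpace N] [T2Space N] [LocallyCompactSpace N] {Z : Set N}
  [hZ : Fact (IsClosed Z)] {W : Type} [TopologicalSpace W] [T2Space W] [LocallyCompactSpace W]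

/-- abstract form -/
theorem idQ_of_snull {q : ℕ} (hq : q.Prime) {P : St W W} {m k : ℤ} (hP : P.comp P = m • P)
    (hm : ¬ (q : ℤ) ∣ m) (hk : ¬ (q : ℤ) ∣ k)
    (h : SNull (tens (St.ofP (incl hZ.out)) (k • P))) : IdQ q Z P := by
  refine ⟨1, fun K s => ⟨((k * m) ^ K).natAbs, ?_, ?_⟩⟩
  · rw [← Int.natCast_dvd]
    intro hd
    have h1 : (q : ℤ) ∣ k * m := (Nat.prime_iff_prime_int.1 hq).dvd_of_dvd_pow hd
    rcases (Nat.prime_iff_prime_int.1 hq).dvd_or_dvd h1 with h2 | h2
    · exact hk h2
    · exact hm h2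
  · refine snull_natAbs ?_
    rw [← tens_zsmul, ← comp_npow hP K, tens_comp_right]
    exact snull_comp_left (f2 N Z W (k • P) h K s) _

end node

/-- **E-IN-I** -/
theorem einI : EInIStmt := by
  intro Z E _ _ _ _ _ _ f c D m hc hD h
  obtain ⟨V, i1, i2, i3, hV, L, hL⟩ := h
  refine ⟨V, i1, i2, i3, hV, ?_⟩
  have hM := not_dvd_M (D := D) hc
  refine idQ_of_snull (k := M D c ^ L) hc (permSt_sq D c) hM (fun hd => hM
    ((Nat.prime_iff_prime_int.1 hc).dvd_of_dvd_pow hd)) ?_
  rw [← permSt_zsmul, ← yF_pow]
  -- `incl = (i^r) ∘ κ` stably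
  have h1 : St.ofP (incl (isClosed_PP (Cyl.isClosedEmbedding_iU f).isClosed_range (ι := Fin (yr D c)) m)) =
      (St.ofP (pow (Fin (yr D c)) (Cyl.i f))).comp (St.ofP (kappa f (Fin (yr D c)) m)) := by
    rw [kappa, St.ofP_comp, ← St.comp_assoc, ← St.ofP_comp, pow_comp,
      St.ofP_congr (pow_homotopic (Cyl.i_comp_ret f)), pow_id, St.ofP_id, St.id_comp]
  have h2 := snull_comp_left hL ((St.ofP (pow (Fin (yr D c)) (Cyl.i f))).smR (Fin (yr D c) → V))
  rw [← tens_ofP_comp, ← h1] at h2
  exact h2

end Crest.Agent.R090.EInI466
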