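import Crest.Agent.R090.I0Final_417
import Crest.Agent.R090.GlueB_264

/-!
# Row 90, I0 (owner helper417): the final theorem, from the top cell and the START homotopy
-/

set_option autoImplicit false
set_option linter.unusedSectionVars false

open Topology Filter Set Matrix

namespace Crest.Agent.R090.I0End417

open OnePoint Crest.OpAlg Crest.Agent.R090.Sp962 Crest.Agent.R090.I0core275
  Crest.Agent.R090.I0Defs417 Crest.Agent.R090.Bott513 Crest.Agent.R090.Match513
  Crest.Agent.R090.I0Glue417 Crest.Agent.R090.I0Final417 Crest.Agent.R090.T5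
open scoped unitInterval Kronecker

/-! ## the projections -/

theorem isPr_lineProj (z w : Circle) : IsPr 1 (lineProj z w) := by
  have hx := sphereVec_ne_zero z w
  have hpos := nr_pos hx
  set x := sphereVec z w with hxdef
  have hP : lineProj z w = !![((1 + x 2 / nr x : ℝ) : ℂ) / 2,
      (((x 0 / nr x : ℝ) : ℂ) - ((x 1 / nr x : ℝ) : ℂ) * Complex.I) / 2;
     (((x 0 / nr x : ℝ) : ℂ) + ((x 1 / nr x : ℝ) : ℂ) * Complex.I) / 2,
      ((1 - x 2 / nr x : ℝ) : ℂ) / 2] := rfl
  have hsq : ((x 0 / nr x) ^ 2 + (x 1 / nr x) ^ 2 + (x 2 / nr x) ^ 2 : ℝ) = 1 := by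
    have h1 := sq_nr x
    rw [div_pow, div_pow, div_pow, ← add_div, ← add_div, ← h1]
    exact div_self (pow_pos hpos 2).ne'
  generalize x 0 / nr x = a at hP hsq
  generalize x 1 / nr x = b at hP hsq
  generalize x 2 / nr x = c at hP hsq
  have hsq' : (a : ℂ) ^ 2 + (b : ℂ) ^ 2 + (c : ℂ) ^ 2 = 1 := by exact_mod_cast hsq
  have hI : Complex.I ^ 2 = -1 := Complex.I_sq
  refine ⟨?_, ?_, ?_⟩
  · rw [hP]
    ext i j
    fin_cases i <;> fin_cases j <;>
      simp [Matrix.conjTranspose_apply, Complex.ext_iff]
  · rw [hP]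
    ext i j
    fin_cases i <;> fin_cases j
    · simp only [Matrix.mul_apply, Fin.sum_univ_two, Fin.zero_eta, Matrix.of_apply,
        Matrix.cons_val', Matrix.cons_val_zero, Matrix.cons_val_one, Matrix.cons_val_fin_one]
      push_cast
      linear_combination (1/4 : ℂ) * hsq' - (b : ℂ)^2 / 4 * hI
    · simp only [Matrix.mul_apply, Fin.sum_univ_two, Fin.zero_eta, Fin.mk_one, Matrix.of_apply,
        Matrix.cons_val', Matrix.cons_val_zero, Matrix.cons_val_one, Matrix.cons_val_fin_one]
      push_cast
      ring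
    · simp only [Matrix.mul_apply, Fin.sum_univ_two, Fin.zero_eta, Fin.mk_one, Matrix.of_apply,
        Matrix.cons_val', Matrix.cons_val_zero, Matrix.cons_val_one, Matrix.cons_val_fin_one]
      push_cast
      ring
    · simp only [Matrix.mul_apply, Fin.sum_univ_two, Fin.mk_one, Matrix.of_apply,
        Matrix.cons_val', Matrix.cons_val_zero, Matrix.cons_val_one, Matrix.cons_val_fin_one]
      push_cast
      linear_combination (1/4 : ℂ) * hsq' - (b : ℂ)^2 / 4 * hI
  · rw [hP, Matrix.trace_fin_two]
    simp only [Matrix.of_apply, Matrix.cons_val', Matrix.cons_val_zero, Matrix.cons_val_one,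
      Matrix.cons_val_fin_one]
    push_cast
    ring

theorem isPr_blockDiagonal {ι o : Type*} [Fintype ι] [DecidableEq ι] [Fintype o] [DecidableEq o]
    {k : ℕ} {P : o → Matrix ι ι ℂ} (hP : ∀ i, IsPr k (P i)) :
    IsPr (Fintype.card o * k) (Matrix.blockDiagonal P) := by
  refine ⟨?_, ?_, ?_⟩
  · rw [Matrix.blockDiagonal_conjTranspose]
    congr 1
    funext i
    exact (hP i).herm
  · rw [← Matrix.blockDiagonal_mul]
    congr 1
    funext i
    exact (hP i).idem
  · rw [Matrix.trace_blockDiagonal, Finset.sum_congr rfl fun i _ => (hP i).tr]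
    simp

theorem isPr_totalProj (p n : ℕ) (W : TT p n) : IsPr (n * p) (totalProj p n W) := by
  have h1 : ∀ j, IsPr p (slotProj p (W j)) := fun j => by
    have := isPr_blockDiagonal (o := Fin p) (k := 1)
      (P := fun i : Fin p => lineProj ((W j) ⟨2 * i.val, by omega⟩)
        ((W j) ⟨2 * i.val + 1, by omega⟩)) fun i => isPr_lineProj _ _
    rw [Fintype.card_fin, mul_one] at this
    exact this
  have := isPr_blockDiagonal (o := Fin n) (k := p) h1
  rwa [Fintype.card_fin] at this

theorem isPr_compl (p n : ℕ) (W : TT p n) :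
    IsPr (Fintype.card (Fin n × Fin p)) (1 - totalProj p n W) := by
  have h := isPr_totalProj p n W
  refine ⟨h.compl_herm, h.compl_idem, ?_⟩
  rw [Matrix.trace_sub, Matrix.trace_one, h.tr]
  simp only [Fintype.card_prod, Fintype.card_fin]
  push_cast
  ring

theorem continuous_compl {Z : Type*} [TopologicalSpace Z] {p n : ℕ} (w : C(Z, TT p n)) :
    Continuous fun z => 1 - totalProj p n (w z) :=
  continuous_const.sub ((Nbhd264.continuous_totalProj p n).comp w.continuous)

/-! ## the final theorem -/

section final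

variable {p n : ℕ} {Z : Type} [TopologicalSpace Z] [CompactSpace Z] [T2Space Z]

/-- the coordinates of the end of START -/
def sq0 (p n : ℕ) (q : Fin n × Fin p) : (Fin 2 × Fin p) × Fin n := ((1, q.2), q.1)

theorem sq0_injective (p n : ℕ) : Function.Injective (sq0 p n) := by
  rintro ⟨a, b⟩ ⟨c, d⟩ h
  simp only [sq0, Prod.mk.injEq, true_and] at h
  exact Prod.ext h.2 h.1

/-- START -/
def StartStmt (w : C(Z, TT p n)) : Prop :=
  (zsec (fun z => 1 - totalProj p n (w z)) (continuous_compl w) (fun z => isPr_compl p n (w z))).Homotopic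
    ((fibJ (sq0 p n) (sq0_injective p n)).comp (ofC ((nbottc p n).comp w)))

theorem i0_of_start (w : C(Z, TT p n)) (K : ℕ) (Φ : Z → Matrix (Fin K) ((Fin 2 × Fin p) × Fin n) ℂ)
    (hK : K < 2 * p * n) (hΦ : Continuous Φ)
    (hmono : ∀ z (v : (Fin 2 × Fin p) × Fin n → ℂ), (totalProj p n (w z)) *ᵥ v = v →
      Φ z *ᵥ v = 0 → v = 0)
    (hTop : TopCellIn (Fin K)) (hStart : StartStmt w) :
    F0Conv96.I0At (Fin n × Fin p) ((kCc p n).comp w) := by
  have hne : Nonempty (Option (Fin K) ↪ (Fin 2 × Fin p) × Fin n) := by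
    rw [Function.Embedding.nonempty_iff_card_le]
    simp only [Fintype.card_option, Fintype.card_fin, Fintype.card_prod]
    exact hK
  obtain ⟨e⟩ := hne
  have hcard : Fintype.card ((Fin n × Fin p) ⊕ Fin K) =
      Fintype.card (Fin n × Fin p) + Fintype.card (Fin K) := Fintype.card_sum
  have hcast : ∀ (h : Fintype.card (Fin n × Fin p) = Fintype.card (Fin n × Fin p)),
      PMap.ofHomeo (castTh (ι := (Fin 2 × Fin p) × Fin n) h) = PMap.id _ := fun h =>
    (PMap.ofHomeo_refl (U := Th (Fintype.card (Fin n × Fin p)) ((Fin 2 × Fin p) × Fin n)))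
  have h1 : I0Glue417.I0At (ofC ((nbottc p n).comp w)) := by
    refine i0At_of (ofC ((nbottc p n).comp w))
      (zsec (fun z => 1 - totalProj p n (w z)) (continuous_compl w) (fun z => isPr_compl p n (w z)))
      Emap (sq0 p n) (sq0_injective p n) rfl (s1 (sq0 p n)) (s1_injective (sq0_injective p n))
      hcard (by rw [hcast, PMap.id_comp]; exact hStart)
      (Emap_fib (sq0_injective p n) rfl hcard) ?_ hTop
    intro B _ _ _ L hL hP
    rw [Emap_zsec]
    let C : EData Z B (Fintype.card (Fin n × Fin p)) ((Fin 2 × Fin p) × Fin n) (Fin K) :=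
      { R := fun z => 1 - totalProj p n (w z)
        hRc := continuous_compl w
        hR := fun z => isPr_compl p n (w z)
        Φ := Φ
        hΦc := hΦ
        inj := fun z v h1 h2 => hmono z v (by
          rw [Matrix.sub_mulVec, Matrix.one_mulVec, sub_eq_zero] at h1
          exact h1.symm) h2
        e := e
        L := L
        hLc := hL
        hL := hP
        rank_one := fun b i j => minor_eq (hP b) i j none }
    exact C.core (pinch L hL hP) fun b => rfl
  exact (i0At_conv _ h1).congr
    ((nbottc_homotopic p n).comp (ContinuousMap.Homotopic.refl w))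

end final

end Crest.Agent.R090.I0End417
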