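import Crest.Agent.R090.F0Stmt_933
import Crest.Agent.R090.I0End_417

/-!
# Row 90: `Spine.F0Stmt` from START and the top cell (helper933)
-/

set_option autoImplicit false
set_option linter.unusedSectionVars false

open Topology Filter Set

namespace Crest.Agent.R090.F0_933

open OnePoint Crest.Agent.R090.Sp962 Crest.Agent.R090.Spine Crest.Agent.R090.F0Conv96
  Crest.Agent.R090.Match513 Crest.Agent.R090.Bott513 Crest.Agent.R090.I0End417
  Crest.Agent.R090.I0Glue417

/-- the two remaining inputs of F0 -/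
theorem f0Stmt_of_start (hTop : ∀ K : ℕ, TopCellIn (Fin K))
    (hStart : ∀ (p n : ℕ) (Z : Type) [TopologicalSpace Z] [CompactSpace Z] [T2Space Z]
      (w : C(Z, T5.TT p n)), StartStmt w) : Spine.F0Stmt := by
  refine f0Stmt_of fun p n hp hn Y _ _ _ Z _ _ K Φ hK hΦ hinj => ?_
  exact i0_of_start (wZ Z) K (fun z => Φ z) hK (hΦ.comp continuous_subtype_val)
    (fun z v hv h0 => hinj z z.2 v hv h0) (hTop K) (hStart p n Z (wZ Z))

end Crest.Agent.R090.F0_933
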