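import Crest.Agent.R090.F2w_466
import Crest.Agent.R090.ExcSt_503
import Crest.Agent.R090.SpineDefs_796

/-!
# Row 90, node F2 in the stable category (owner helper466)

* `interchange_ofP`, `coh` : interchange with a strict factor, `(1_P ∧ a) ∧ 1_Q = 1_{P × Q} ∧ a`;
* `piF`, `opF`             : the functor `T ↦ St ((T × W) × Y) E` and the operator `1 ∧ a ∧ 1`;
* `f2 : Spine.F2Stmt`.
-/

set_option autoImplicit false
set_option linter.unusedSectionVars false
set_option linter.style.haveILetI false

open Topology Filter Set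

noncomputable section

namespace Crest.Agent.R090.F2St466

open OnePoint Crest.Agent.R090.Sp962 Crest.Agent.R090.Grp528 Crest.Agent.R090.St528
open Crest.Agent.R090.Dens255 Crest.Agent.R090.Sm202 Crest.Agent.R090.Block568
open Crest.Agent.R090.F2w466 Crest.Agent.R090.Exc503 Crest.Agent.R090.Spine

/-! ## interchange with a strict factor, coherence -/

section coh

universe u v w x u' v'

variable {X : Type u} {Y : Type v} {W : Type w} {W' : Type x}
variable [TopologicalSpace X] [TopologicalSpace Y] [TopologicalSpace W] [TopologicalSpace W']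
variable [T2Space X] [T2Space Y] [T2Space W] [T2Space W']
variable [LocallyCompactSpace X] [LocallyCompactSpace Y] [LocallyCompactSpace W]
variable [LocallyCompactSpace W']

theorem strict_lev (f : HC X Y) (n : ℕ) (W : Type w) [TopologicalSpace W] [T2Space W]
    [LocallyCompactSpace W] :
    (f.smash (h1 W)).smash (h1 (Fin n → ℂ)) = (f.smash (h1 (S W n))).conj
      (asC X W (Fin n → ℂ)).symm (asC Y W (Fin n → ℂ)).symm := by
  have h := conj_asC f (h1 W) (h1 (Fin n → ℂ))
  rw [← conj_symm_conj (asC X W (Fin n → ℂ)) (asC Y W (Fin n → ℂ))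
    ((f.smash (h1 W)).smash (h1 (Fin n → ℂ))), h, h1_smash_h1]

/-- interchange with a strict factor on the left -/
theorem interchange_ofP (f : PMap X Y) (a : St W W') :
    (a.smL Y).comp ((St.ofP f).smR W) = ((St.ofP f).smR W').comp (a.smL X) := by
  obtain ⟨n, -, a, rfl⟩ := a.exists_of_ge 0
  rw [smR_map, smR_map, smL_of, smL_of, St.map_eq_of _ n, St.map_eq_of _ n, St.of_comp_of,
    St.of_comp_of, strict_lev, strict_lev, levL, levL, conj_comp_conj, conj_comp_conj,
    HC.smash_comp, HC.smash_comp, h1_comp, h1_comp, comp_h1, comp_h1]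

/-- `f ∧ a` for a strict `f` -/
theorem prod_ofP_left (f : PMap X Y) (a : St W W') :
    (St.ofP f).prod a = (a.smL Y).comp ((St.ofP f).smR W) := (interchange_ofP f a).symm

theorem lev_coh (P : Type u') [TopologicalSpace P] [T2Space P] [LocallyCompactSpace P]
    (Q : Type v') [TopologicalSpace Q] [T2Space Q] [LocallyCompactSpace Q] {n : ℕ}
    (a : HC (S X n) (S Y n)) :
    levL (P × Q) a = (levR Q (levL P a)).conj
      ((swR P X Q).prodCongr (Homeomorph.refl (Fin n → ℂ)))
      ((swR P Y Q).prodCongr (Homeomorph.refl (Fin n → ℂ))) := by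
  rw [levL, levR, levL, conj_smash_h1, ← h1_smash_h1, ← conj_swR (h1 P) a (h1 Q), conj_conj,
    conj_conj, conj_conj]
  exact conj_ext (fun _ => rfl) (fun _ => rfl) _

/-- coherence: `(1_P ∧ a) ∧ 1_Q = 1_{P × Q} ∧ a` -/
theorem coh (P : Type u') [TopologicalSpace P] [T2Space P] [LocallyCompactSpace P]
    (Q : Type v') [TopologicalSpace Q] [T2Space Q] [LocallyCompactSpace Q] (a : St X Y) :
    (sh (swR P Y Q)).comp ((a.smL P).smR Q) = (a.smL (P × Q)).comp (sh (swR P X Q)) := by
  obtain ⟨n, -, a, rfl⟩ := a.exists_of_ge 0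
  rw [smL_of, smL_of, smR_of, sh_eq, sh_eq, St.map_eq_of _ n, St.map_eq_of _ n, St.of_comp_of,
    St.of_comp_of, hh_smash_h1, hh_smash_h1, lev_coh, hh_comp_eq_conj]

/-- conjugation form of `coh` -/
theorem coh' (P : Type u') [TopologicalSpace P] [T2Space P] [LocallyCompactSpace P]
    (Q : Type v') [TopologicalSpace Q] [T2Space Q] [LocallyCompactSpace Q] (a : St X Y) :
    ((a.smL P).smR Q).comp (sh (swR P X Q).symm) = (sh (swR P Y Q).symm).comp (a.smL (P × Q)) := by
  have h2 := congrArg (fun z => ((sh (swR P Y Q).symm).comp z).comp (sh (swR P X Q).symm))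
    (coh P Q a)
  simp only [← St.comp_assoc] at h2
  rw [sh_symm_comp, St.id_comp] at h2
  rw [h2, St.comp_assoc, sh_comp_symm, St.comp_id]

end coh

section

variable {W : Type} [TopologicalSpace W] [T2Space W] [LocallyCompactSpace W]

variable (W) (Y : Type) [TopologicalSpace Y] [T2Space Y] [LocallyCompactSpace Y] (j : ℕ)

/-- the functor `T ↦ {T ∧ W ∧ Y, S^j}` -/
def piF : PiF.{0, 0} where
  G T _ _ _ := St ((T × W) × Y) (Fin j → ℝ)
  zero T _ _ _ := 0
  res f x := x.comp (St.ofP ((f.smash (PMap.id W)).smash (PMap.id Y)))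
  res_zero x := by
    rw [PMap.smash_zero_left, PMap.smash_zero_left, St.ofP_zero, St.comp_zero]
  res_id x := by
    rw [PMap.smash_id, PMap.smash_id, St.ofP_id, St.comp_id]
  res_comp g f x := by
    rw [St.comp_assoc, ← St.ofP_comp, PMap.smash_comp, PMap.smash_comp, PMap.id_comp,
      PMap.id_comp]
  ex {A T O} _ _ _ _ _ _ _ _ _ e he o ho hr x hx := by
    have h : OC e o := ⟨he, ho, hr⟩
    have h1 := (h.prodRight W).prodRight Y
    obtain ⟨g', hg'⟩ := h1.st_exists_coll (SphT.fd (Fin j → ℝ)) x (by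
      rw [(h.prodRight W).prodRight_incl, h.prodRight_incl]
      exact hx)
    refine ⟨g', ?_⟩
    rw [hg', (h.prodRight W).prodRight_coll, h.prodRight_coll]
    rfl

/-- the operator `a` -/
def opF (a : St W W) : (piF W Y j).Op where
  op {T} _ _ _ x := St.comp (Z := Fin j → ℝ) x ((a.smL T).smR Y)
  nat {T T'} _ _ _ _ _ _ f x := by
    have key : ∀ x : St ((T' × W) × Y) (Fin j → ℝ),
        (x.comp (St.ofP ((f.smash (PMap.id W)).smash (PMap.id Y)))).comp ((a.smL T).smR Y) =
          (x.comp ((a.smL T').smR Y)).comp (St.ofP ((f.smash (PMap.id W)).smash (PMap.id Y))) := by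
      intro x
      rw [St.comp_assoc, St.comp_assoc, ← smR_ofP, ← smR_ofP, ← smR_comp, ← smR_comp,
        interchange_ofP]
    exact key x

variable {W} {j}

theorem npow_succ' (a : St W W) (n : ℕ) : npow a (n + 1) = a.comp (npow a n) := by
  induction n with
  | zero =>
    change (St.id W).comp a = a.comp (St.id W)
    rw [St.id_comp, St.comp_id]
  | succ n ih =>
    calc npow a (n + 2) = (npow a (n + 1)).comp a := rfl
      _ = (a.comp (npow a n)).comp a := by rw [ih]
      _ = a.comp (npow a (n + 1)) := St.comp_assoc _ _ _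

theorem opF_iter (a : St W W) (n : ℕ) {T : Type} [TopologicalSpace T] [T2Space T]
    [LocallyCompactSpace T] (x : St ((T × W) × Y) (Fin j → ℝ)) :
    (opF W Y j a).op^[n] x = x.comp (((npow a n).smL T).smR Y) := by
  induction n generalizing x with
  | zero =>
    change x = x.comp (((St.id W).smL T).smR Y)
    rw [smL_id, smR_id, St.comp_id]
  | succ n ih =>
    have h1 : (opF W Y j a).op^[n + 1] x =
        (opF W Y j a).op^[n] (St.comp (Z := Fin j → ℝ) x ((a.smL T).smR Y)) :=
      Function.iterate_succ_apply _ n x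
    have h2 := ih (St.comp (Z := Fin j → ℝ) x ((a.smL T).smR Y))
    refine h1.trans (h2.trans ?_)
    rw [npow_succ', smL_comp, smR_comp]
    exact St.comp_assoc _ _ _

/-- the shuffle `((A × T) × W) × Y = (A × W) × (T × Y)` -/
@[simps] def shuf (A T W Y : Type) [TopologicalSpace A] [TopologicalSpace T] [TopologicalSpace W]
    [TopologicalSpace Y] : ((A × T) × W) × Y ≃ₜ (A × W) × (T × Y) where
  toFun p := ((p.1.1.1, p.1.2), (p.1.1.2, p.2))
  invFun q := (((q.1.1, q.2.1), q.1.2), q.2.2)
  left_inv _ := rfl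
  right_inv _ := rfl
  continuous_toFun := by fun_prop
  continuous_invFun := by fun_prop

theorem shuf_nat (A T : Type) [TopologicalSpace A] [T2Space A] [LocallyCompactSpace A]
    [TopologicalSpace T] [T2Space T] [LocallyCompactSpace T] (a : St W W) :
    (sh (shuf A T W Y)).comp ((a.smL (A × T)).smR Y) =
      ((a.smL A).smR (T × Y)).comp (sh (shuf A T W Y)) := by
  have e1 : sh (shuf A T W Y) = ((sh (swR A W (T × Y)).symm).comp
      ((St.ofP (PMap.ofHomeo (Homeomorph.prodAssoc A T Y))).smR W)).comp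
        (sh (swR (A × T) W Y)) := by
    rw [smR_ofP, sh, sh, sh, ← St.ofP_comp, ← St.ofP_comp]
    exact congrArg St.ofP (PMap.ext fun _ => rfl)
  rw [e1, St.comp_assoc, coh, St.comp_assoc, ← St.comp_assoc (St.smR _ _) _
    (sh (swR (A × T) W Y)), ← interchange_ofP, ← St.comp_assoc,
    ← St.comp_assoc, ← coh', St.comp_assoc, St.comp_assoc, St.comp_assoc]

end

section dens

variable {M : Type} [TopologicalSpace M] [T2Space M] [LocallyCompactSpace M] {Z : Set M}
  [hZ' : Fact (IsClosed Z)]

/-- `dens` without the parameter space -/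
theorem dens' (F : PiF.{0, 0}) (a : F.Op)
    (hyp : ∀ (T : Type) [TopologicalSpace T] [T2Space T] [LocallyCompactSpace T]
      (x : F.G (M × T)), F.res (PMap.ofClosed _ (isClosedEmbedding_Z hZ'.out T)) (a.op x) =
        F.zero (Z × T)) (K s : ℕ) (x : F.G (PP Z (Fin K) s)) :
      F.res (inc Z K s) (a.op^[K] x) = F.zero _ := by
  have h1 := dens F a hyp K s Unit (F.res (PMap.ofHomeo (Homeomorph.prodPUnit _)) x)
  rw [a.iter_nat, ← F.res_comp] at h1
  have h2 : (PMap.ofHomeo (Homeomorph.prodPUnit (PP Z (Fin K) s))).comp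
      ((inc Z K s).smash (PMap.id Unit)) = (inc Z K s).comp
        (PMap.ofHomeo (Homeomorph.prodPUnit (PP Z (Fin K) (s + 1)))) := PMap.ext fun _ => rfl
  have h3 := congrArg (F.res (PMap.ofHomeo (Homeomorph.prodPUnit (PP Z (Fin K) (s + 1))).symm)) h1
  rw [h2, F.res_z, F.res_comp, ← F.res_comp _ (PMap.ofHomeo
    (Homeomorph.prodPUnit (PP Z (Fin K) (s + 1))).symm), PMap.ofHomeo_comp_symm, F.res_id] at h3
  exact h3

end dens

/-- **F2** -/
theorem f2 : F2Stmt := by
  intro M _ _ _ Z hZ' W _ _ _ a h K s Y _ _ _ j g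
  have h1 := dens' (piF W Y j) (opF W Y j a) (Z := Z) ?_ K s g
  · rw [opF_iter] at h1
    have h2 : (g.comp (((npow a K).smL (PP Z (Fin K) s)).smR Y)).comp
      (St.ofP (((inc Z K s).smash (PMap.id W)).smash (PMap.id Y))) = 0 := h1
    rw [tens, prod_ofP_left, smR_comp, smR_ofP, smR_ofP, ← St.comp_assoc]
    exact h2
  · intro T _ _ _ x
    have key : ∀ x : St (((M × T) × W) × Y) (Fin j → ℝ),
        (x.comp ((a.smL (M × T)).smR Y)).comp
          (St.ofP (((PMap.ofClosed _ (isClosedEmbedding_Z hZ'.out T)).smash (PMap.id W)).smash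
            (PMap.id Y))) = 0 := by
      intro x
      have e1 : (PMap.ofHomeo (shuf M T W Y)).comp
          (((PMap.ofClosed _ (isClosedEmbedding_Z hZ'.out T)).smash (PMap.id W)).smash
            (PMap.id Y)) = (((incl hZ'.out).smash (PMap.id W)).smash (PMap.id (T × Y))).comp
              (PMap.ofHomeo (shuf Z T W Y)) := PMap.ext fun _ => rfl
      have h3 := h (T × Y) j (x.comp (sh (shuf M T W Y).symm))
      rw [tens, prod_ofP_left, smR_comp, smR_ofP, smR_ofP] at h3
      have h4 := congrArg (fun z => z.comp (sh (shuf Z T W Y))) h3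
      simp only [St.zero_comp] at h4
      rw [St.comp_assoc, St.comp_assoc, St.comp_assoc, sh, sh, ← St.ofP_comp, ← e1, St.ofP_comp,
        ← St.comp_assoc (St.smR _ _)] at h4
      have h5 := shuf_nat Y M T a
      rw [sh] at h5
      rw [← h5, St.comp_assoc, ← St.comp_assoc (St.ofP _) (St.ofP _),
        St.ofP_homeo_symm_comp, St.id_comp, ← St.comp_assoc] at h4
      exact h4
    exact key x

end Crest.Agent.R090.F2St466
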