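import Crest.Agent.R090.GlueS_264
import Crest.Agent.R090.GlueC_264

/-!
# Row 90, GLUE, final form (owner helper264)

`SI_of_kill` : 758's `SI` from `∀ q prime, ∃ u m n, 0 < u ∧ 4 m ≤ u ∧ ¬ q ∣ n ∧ n • κ_{u,m} = 0`.
-/

set_option autoImplicit false
set_option linter.unusedSectionVars false

open Topology Filter Set

namespace Crest.Agent.R090.GlueF264

open OnePoint Crest.Agent.R090.Sp962 Crest.Agent.R090.Grp528 Crest.Agent.R090.St528
  Crest.Agent.R090.Sm202 Crest.Agent.R090.Pi568 Crest.Agent.R090.Dens255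
  Crest.Agent.R090.Block568 Crest.Agent.R090.T5 Crest.Agent.R090.Cyl349
  Crest.Agent.R090.Glue264 Crest.Agent.R090.GlueS264

section null

variable {X Y : Type*} [TopologicalSpace X] [TopologicalSpace Y] [T2Space X] [T2Space Y]
  [LocallyCompactSpace X] [LocallyCompactSpace Y]

theorem null_of_ofP {f : PMap X Y} (h : St.ofP f = 0) :
    ∃ k : ℕ, (f.smash (PMap.id (Fin k → ℂ))).Null := by
  rw [St.ofP, St.map_eq_of _ 0, St.of_eq_zero_iff] at h
  obtain ⟨k, hk⟩ := h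
  rw [stN_smash] at hk
  exact ⟨0 + k, HC.mk_eq.1 hk⟩

theorem null_homeo {f : PMap X Y} {V W : Type*} [TopologicalSpace V] [TopologicalSpace W]
    [T2Space V] [T2Space W] [LocallyCompactSpace V] [LocallyCompactSpace W] (e : V ≃ₜ W)
    (h : (f.smash (PMap.id V)).Null) : (f.smash (PMap.id W)).Null := by
  have h1 := (h.comp_left ((PMap.id Y).smash (PMap.ofHomeo e))).comp_right
    ((PMap.id X).smash (PMap.ofHomeo e.symm))
  have h2 : (((PMap.id Y).smash (PMap.ofHomeo e)).comp (f.smash (PMap.id V))).comp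
      ((PMap.id X).smash (PMap.ofHomeo e.symm)) = f.smash (PMap.id W) := by
    rw [PMap.smash_comp, PMap.smash_comp, PMap.id_comp, PMap.comp_id, PMap.comp_id,
      PMap.ofHomeo_comp_symm]
  rwa [h2] at h1

theorem null_real {f : PMap X Y} (h : St.ofP f = 0) :
    ∃ l : ℕ, (f.smash (PMap.id (Fin l → ℝ))).Null := by
  obtain ⟨k, hk⟩ := null_of_ofP h
  have e : (Fin k → ℂ) ≃L[ℝ] (Fin (Module.finrank ℝ (Fin k → ℂ)) → ℝ) :=
    ContinuousLinearEquiv.ofFinrankEq (by simp)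
  exact ⟨_, null_homeo e.toHomeomorph hk⟩

end null

section main

variable {p n : ℕ} {Y : Type*} [TopologicalSpace Y] [CompactSpace Y] [T2Space Y]

/-- **GLUE**, real coordinates -/
theorem SI_of_kill {a : ℝ} {f : Y → Fin n → Fin (2 * p + 1) → ℝ} {Z₀ : Set (Y × TT p n)}
    [CompactSpace Z₀] (hZ₀ : IsClosed Z₀) (hf : Continuous f)
    (hT : Crest.OpAlg.torusLocus p n (a * n) f ⊆ interior Z₀)
    (H : ∀ q : ℕ, q.Prime → ∃ u m N : ℕ, 0 < u ∧ 4 * m ≤ u ∧ ¬ q ∣ N ∧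
      N • kap (Cyl.ret (fZ Z₀)) (range (Cyl.iU (fZ Z₀))) u m = 0) : SI p n a f := by
  obtain ⟨u, m, hu, hm, h⟩ := exists_kill _ _ H
  obtain ⟨l, hl⟩ := null_real h
  exact SI_of_null hZ₀ hf hT hu hm hl

/-- **GLUE**, complex coordinates -/
theorem SI_of_killC {a : ℝ} {f : Y → Fin n → Fin (2 * p + 1) → ℝ} {Z₀ : Set (Y × TT p n)}
    [CompactSpace Z₀] (hZ₀ : IsClosed Z₀) (hf : Continuous f)
    (hT : Crest.OpAlg.torusLocus p n (a * n) f ⊆ interior Z₀)
    (H : ∀ q : ℕ, q.Prime → ∃ u m N : ℕ, 0 < u ∧ 4 * m ≤ u ∧ ¬ q ∣ N ∧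
      N • kap (Cyl.ret (fC Z₀)) (range (Cyl.iU (fC Z₀))) u m = 0) : SI p n a f := by
  obtain ⟨u, m, hu, hm, h⟩ := exists_kill _ _ H
  obtain ⟨l, hl⟩ := null_real h
  exact SI_of_nullC hZ₀ hf hT hu hm hl

end main

end Crest.Agent.R090.GlueF264
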