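import Crest.Agent.R090.SpineDefs_796
import Crest.Agent.R090.GlueF_264

/-!
# Row 90: `Spine.GlueStmt` (owner helper264)
-/

set_option autoImplicit false

open Topology Filter Set

namespace Crest.Agent.R090.GlueStmt264

/-- **GLUE**, literally as frozen in the spine -/
theorem glueStmt : Spine.GlueStmt := by
  intro p n _ _ a Y _ _ _ f hf Z hZ _ hT H
  refine GlueF264.SI_of_killC hZ.out hf hT fun q hq => ?_
  obtain ⟨u, m, N, hu, hm, hN, h⟩ := H q hq
  exact ⟨u, m, N, hu, hm, hN, h⟩

end Crest.Agent.R090.GlueStmt264
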