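import Crest.Agent.R090.SpineDefs_796

/-!
# Row 90, KILL: `1_S ∈ I_q(M_J, Z_J)` kills a sparse power by an integer prime to `q`
(owner helper649)
-/

set_option autoImplicit false
set_option linter.unusedSectionVars false

open Topology Filter Set

namespace Crest.Agent.R090.Kill649

open OnePoint Crest.Agent.R090.Sp962 Crest.Agent.R090.St528 Crest.Agent.R090.Sm202
open Crest.Agent.R090.Dens255 Crest.Agent.R090.Pi568 Crest.Agent.R090.Block568
open Crest.Agent.R090.Cyl349 Crest.Agent.R090.Spine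

section basic

variable {X X' E : Type} [TopologicalSpace X] [TopologicalSpace X'] [TopologicalSpace E]
  [T2Space X] [T2Space X'] [T2Space E] [LocallyCompactSpace X] [LocallyCompactSpace X']
  [LocallyCompactSpace E]

/-- `(X × 1) × 1 ≃ X` -/
def uu (X : Type) [TopologicalSpace X] : (X × Unit) × Unit ≃ₜ X :=
  (Homeomorph.prodPUnit (X × Unit)).trans (Homeomorph.prodPUnit X)

theorem uu_nat (a : PMap X X') :
    (PMap.ofHomeo (uu X')).comp ((a.smash (PMap.id Unit)).smash (PMap.id Unit)) =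
      a.comp (PMap.ofHomeo (uu X)) := by
  refine PMap.ext fun p => ?_
  obtain ⟨⟨x, u⟩, v⟩ := p
  rw [PMap.comp_apply, PMap.comp_apply, PMap.smash_coe, PMap.smash_coe]
  change _ = a (x : OnePoint X)
  cases h : a (x : OnePoint X) using OnePoint.rec with
  | infty => rfl
  | coe y => rfl

theorem tens_id_unit (a : PMap X X') :
    tens (St.ofP a) (St.id Unit) = St.ofP (a.smash (PMap.id Unit)) := by
  rw [tens, prod_id_right, smR_ofP]

/-- an `SNull` multiple of `a ∧ 1_S` kills every map `b ∘ a` into a sphere -/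
theorem nsmul_ofP_eq_zero {n : ℕ} {a : PMap X X'}
    (h : SNull (n • tens (St.ofP a) (St.id Unit))) {j : ℕ} (e : E ≃ₜ (Fin j → ℝ))
    (b : PMap X' E) : n • St.ofP (b.comp a) = 0 := by
  have h1 := h Unit j (St.ofP ((PMap.ofHomeo e).comp (b.comp (PMap.ofHomeo (uu X')))))
  rw [smR_nsmul, tens_id_unit, smR_ofP, St.comp_nsmul, ← St.ofP_comp] at h1
  have h2 : ((PMap.ofHomeo e).comp (b.comp (PMap.ofHomeo (uu X')))).comp
      ((a.smash (PMap.id Unit)).smash (PMap.id Unit)) =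
        (PMap.ofHomeo e).comp ((b.comp a).comp (PMap.ofHomeo (uu X))) := by
    rw [PMap.comp_assoc, PMap.comp_assoc, uu_nat]
    rfl
  rw [h2] at h1
  have h3 : b.comp a = (PMap.ofHomeo e.symm).comp
      (((PMap.ofHomeo e).comp ((b.comp a).comp (PMap.ofHomeo (uu X)))).comp
        (PMap.ofHomeo (uu X).symm)) := by
    rw [PMap.comp_assoc, PMap.comp_assoc, PMap.ofHomeo_comp_symm, PMap.comp_id,
      ← PMap.comp_assoc, PMap.ofHomeo_symm_comp, PMap.id_comp]
  rw [h3, St.ofP_comp, St.ofP_comp, ← St.comp_nsmul, ← St.nsmul_comp, h1, St.zero_comp,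
    St.comp_zero]

end basic

/-- the choice of the number of blocks -/
theorem exists_blocks4 {r m l : ℕ} (hr : 4 * (m - 1) < r) :
    ∃ K m' : ℕ, 0 < K ∧ 4 * m' ≤ K * r ∧ K * (m - 1) + (l - 1) * (r + 1 - m) < m' := by
  refine ⟨4 * (l * (r + 1) + 1), 4 * (l * (r + 1) + 1) * (m - 1) + (l * (r + 1) + 1), by omega,
    ?_, ?_⟩
  · obtain ⟨d, hd⟩ : ∃ d, r = 4 * (m - 1) + 1 + d := ⟨r - (4 * (m - 1) + 1), by omega⟩
    generalize l * (r + 1) + 1 = N
    rw [hd]
    have : 4 * N * (4 * (m - 1) + 1 + d) = 4 * (4 * N * (m - 1) + N) + 4 * N * d := by ring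
    omega
  · have : (l - 1) * (r + 1 - m) ≤ l * (r + 1) := Nat.mul_le_mul (by omega) (by omega)
    omega

/-- **(KILL)** -/
theorem killStmt : KillStmt := by
  intro α _ _ Z _ _ _ f q r m hm hr hI
  obtain ⟨l, hl⟩ := hI
  obtain ⟨K, m', hK, h4, hlt⟩ := exists_blocks4 (l := 0 + l) hr
  obtain ⟨n, hn, hnull⟩ := hl K 0
  have hZ : IsClosed (range (Cyl.iU f)) := (Cyl.isClosedEmbedding_iU f).isClosed_range
  have hr' : m ≤ r + 1 := by omega
  refine ⟨K * r, m', n, Nat.mul_pos hK (by omega), h4, hn, ?_⟩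
  -- real coordinates on the target
  obtain ⟨j, ⟨e⟩⟩ : ∃ j : ℕ, Nonempty ((Fin K → Fin r → α → ℂ) ≃ₜ (Fin j → ℝ)) :=
    ⟨_, ⟨(Module.finBasis ℝ (Fin K → Fin r → α → ℂ)).equivFunL.toHomeomorph⟩⟩
  let b : PMap (PP (PP (range (Cyl.iU f)) (Fin r) m) (Fin K) 0) (Fin K → Fin r → α → ℂ) :=
    (pow (Fin K) (pow (Fin r) (Cyl.ret f))).comp (incl (isClosed_PP (isClosed_PP hZ m) 0))
  have h1 : n • St.ofP (b.comp (iotaP (PP (range (Cyl.iU f)) (Fin r) m) K 0 l)) = 0 :=
    nsmul_ofP_eq_zero hnull e b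
  have h2 : kappa f (Fin (K * r)) m' = (PMap.ofHomeo (blk (α → ℂ) K r).symm).comp
      ((b.comp (iotaP (PP (range (Cyl.iU f)) (Fin r) m) K 0 l)).comp (blkP hZ hm hr' hlt)) := by
    have h3 := pow_incl_factor hZ hm hr' hlt (Cyl.ret f)
    have h4 : (incl (isClosed_PP (isClosed_PP hZ m) (0 + l))) =
        (incl (isClosed_PP (ι := Fin K) (isClosed_PP (ι := Fin r) hZ m) 0)).comp
          (iotaP (PP (range (Cyl.iU f)) (Fin r) m) K 0 l) := PMap.ext fun _ => rfl
    rw [kappa, h3, h4]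
    rfl
  rw [h2, St.ofP_comp, St.ofP_comp _ (blkP hZ hm hr' hlt), ← St.comp_nsmul, ← St.nsmul_comp, h1,
    St.zero_comp, St.comp_zero]

end Crest.Agent.R090.Kill649
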