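import Crest.Agent.R090.SpineMain_796
import Crest.Agent.R090.F2St_466
import Crest.Agent.R090.EInI_466
import Crest.Agent.R090.Kill_649
import Crest.Agent.R090.GlueStmt_264
import Crest.Agent.R090.F0Bind_933

/-!
# Row 90: binding of the landed blocks (helper796)
-/

set_option autoImplicit false

namespace Crest.Agent.R090.Bind796

open Crest.Agent.R090

/-- the blocks which are closed -/
theorem blocks : Spine.F2Stmt ∧ Spine.EInIStmt ∧ Spine.KillStmt ∧ Spine.GlueStmt :=
  ⟨F2St466.f2, EInI466.einI, Kill649.killStmt, GlueStmt264.glueStmt⟩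

end Crest.Agent.R090.Bind796
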