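import Crest.Agent.R090.Bott_513
import Crest.Agent.R090.Pi_568

/-!
# Row 90, leaf BOTT, `N`-fold version (helper513)

* `tc = smPi tc1`, blocks, realification `(ℂ^N)⁺ ≃ (ℝ^{2N})⁺`;
* the smash of the Bott coordinates is (freely) homotopic to `tc` on the torus;
* maps out of compact spaces as `PMap`s.
-/

set_option autoImplicit false

open Topology Filter Set

namespace Crest.Agent.R090.Bott513

open OnePoint Crest.Agent.R090.Sp962 Crest.OpAlg Crest.Agent.R090.Deg513 Crest.Agent.R090.T5
  Crest.Agent.R090.Pi568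

/-! ## `tc` as a smash product -/

theorem tc1_of_eq {z : Circle} (h : (z : ℂ) = -1) : tc1 z = ∞ := if_pos h

theorem tc1_of_ne {z : Circle} (h : (z : ℂ) ≠ -1) :
    tc1 z = (((z : ℂ).im / (1 + (z : ℂ).re) : ℝ) : OnePoint ℝ) := if_neg h

theorem tc1_eq_inf {z : Circle} : tc1 z = ∞ ↔ (z : ℂ) = -1 := by
  constructor
  · intro h
    by_contra h'
    rw [tc1_of_ne h'] at h
    exact coe_ne_infty _ h
  · exact tc1_of_eq

theorem tc_eq_smPi {ι : Type*} (w : ι → Circle) : tc w = smPi (fun i => tc1 (w i)) := by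
  by_cases h : ∃ i, (w i : ℂ) = -1
  · have h1 : tc w = ∞ := if_pos h
    rw [h1]
    obtain ⟨i, hi⟩ := h
    exact (smPi_of_inf i (tc1_of_eq hi)).symm
  · have h1 : tc w = ((fun i => (w i : ℂ).im / (1 + (w i : ℂ).re) : ι → ℝ) : OnePoint (ι → ℝ)) :=
      if_neg h
    push Not at h
    rw [h1]
    exact (smPi_eq_coe.2 fun i => tc1_of_ne (h i)).symm

theorem continuous_tc {ι : Type*} [Finite ι] : Continuous (tc : (ι → Circle) → OnePoint (ι → ℝ)) := by
  have : (tc : (ι → Circle) → OnePoint (ι → ℝ)) = fun w => smPi (fun i => tc1 (w i)) :=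
    funext tc_eq_smPi
  rw [this]
  exact Continuous.smPi568 fun i => continuous_tc1.comp (continuous_apply i)

/-- torus collapse of one block -/
noncomputable def tcB {p n : ℕ} (W : TT p n) : OnePoint (Fin n × Fin (2 * p) → ℝ) :=
  tc (fun q : Fin n × Fin (2 * p) => W q.1 q.2)

theorem continuous_tcB {p n : ℕ} : Continuous (tcB : TT p n → _) :=
  continuous_tc.comp (continuous_pi fun q => (continuous_apply q.2).comp (continuous_apply q.1))

/-! ## blocks -/

/-- currying -/
def curryH (ι κ V : Type*) [TopologicalSpace V] : (ι → κ → V) ≃ₜ (ι × κ → V) where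
  toEquiv := (Equiv.curry ι κ V).symm
  continuous_toFun := continuous_pi fun q => (continuous_apply q.2).comp (continuous_apply q.1)
  continuous_invFun := continuous_pi fun i => continuous_pi fun j => continuous_apply (i, j)

@[simp] theorem curryH_apply {ι κ V : Type*} [TopologicalSpace V] (f : ι → κ → V) (q : ι × κ) :
    curryH ι κ V f q = f q.1 q.2 := rfl

theorem smPi_curry {ι κ V : Type*} [TopologicalSpace V] (x : ι × κ → OnePoint V) :
    smPi x = OnePoint.map (curryH ι κ V) (smPi (fun i => smPi (fun j => x (i, j)))) := by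
  by_cases h : ∃ q, x q = ∞
  · obtain ⟨⟨i, j⟩, hq⟩ := h
    rw [smPi_of_inf (i, j) hq, smPi_of_inf i (smPi_of_inf j hq)]
    rfl
  · push Not at h
    have : ∀ q, ∃ v : V, x q = (v : OnePoint V) := fun q => by
      obtain ⟨v, hv⟩ := ne_infty_iff_exists.1 (h q)
      exact ⟨v, hv.symm⟩
    choose v hv using this
    have h1 : smPi x = ((v : ι × κ → V) : OnePoint (ι × κ → V)) := smPi_eq_coe.2 hv
    have h2 : (fun i => smPi (fun j => x (i, j))) =
        fun i => ((fun j => v (i, j) : κ → V) : OnePoint (κ → V)) :=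
      funext fun i => smPi_eq_coe.2 fun j => hv (i, j)
    rw [h1, h2, smPi_coe, OnePoint.map_some]
    rfl

/-- the torus collapse of `u` blocks is the smash of the collapses of the blocks -/
theorem tc_allCoord {p n u : ℕ} {Y : Type*} (x : Fin u → Y × TT p n) :
    tc (allCoord x) = OnePoint.map (curryH (Fin u) (Fin n × Fin (2 * p)) ℝ)
      (smPi (fun b => tcB (x b).2)) := by
  rw [tc_eq_smPi]
  have h1 : (fun b => tcB (x b).2) =
      fun b => smPi (fun q : Fin n × Fin (2 * p) => tc1 ((x b).2 q.1 q.2)) :=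
    funext fun b => tc_eq_smPi _
  rw [h1]
  exact smPi_curry (fun i => tc1 (allCoord x i))

/-! ## realification -/

theorem two_mul_lt {p : ℕ} (i : Fin p) : 2 * i.val < 2 * p := by omega
theorem two_mul_add_lt {p : ℕ} (i : Fin p) : 2 * i.val + 1 < 2 * p := by omega

/-- `(ℂ^p)^n = (ℝ^{2p})^n` -/
noncomputable def realH (n p : ℕ) : (Fin n × Fin p → ℂ) ≃ₜ (Fin n × Fin (2 * p) → ℝ) where
  toFun v q := if q.2.val % 2 = 0 then (v (q.1, ⟨q.2.val / 2, by omega⟩)).re
    else (v (q.1, ⟨q.2.val / 2, by omega⟩)).im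
  invFun w q := ⟨w (q.1, ⟨2 * q.2.val, two_mul_lt q.2⟩), w (q.1, ⟨2 * q.2.val + 1, two_mul_add_lt q.2⟩)⟩
  left_inv v := by
    funext q
    obtain ⟨j, i⟩ := q
    have h1 : 2 * i.val % 2 = 0 := by omega
    have h2 : ¬ ((2 * i.val + 1) % 2 = 0) := by omega
    have h3 : 2 * i.val / 2 = i.val := by omega
    have h4 : (2 * i.val + 1) / 2 = i.val := by omega
    refine Complex.ext ?_ ?_
    · simp only [h1, if_true, h3]
    · simp only [h2, if_false, h4]
  right_inv w := by
    funext q
    obtain ⟨j, k⟩ := q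
    by_cases h : k.val % 2 = 0
    · simp only [h, if_true]
      congr 2
      apply Fin.ext
      show 2 * (k.val / 2) = k.val
      omega
    · simp only [h, if_false]
      congr 2
      apply Fin.ext
      show 2 * (k.val / 2) + 1 = k.val
      omega
  continuous_toFun := by
    refine continuous_pi fun q => ?_
    by_cases h : q.2.val % 2 = 0
    · simp only [h, if_true]
      exact Complex.continuous_re.comp (continuous_apply _)
    · simp only [h, if_false]
      exact Complex.continuous_im.comp (continuous_apply _)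
  continuous_invFun := by
    refine continuous_pi fun q => ?_
    have h1 : Continuous (fun w : Fin n × Fin (2 * p) → ℝ =>
        ((w (q.1, ⟨2 * q.2.val, two_mul_lt q.2⟩) : ℝ) : ℂ) +
          ((w (q.1, ⟨2 * q.2.val + 1, two_mul_add_lt q.2⟩) : ℝ) : ℂ) * Complex.I) :=
      (Complex.continuous_ofReal.comp (continuous_apply _)).add
        ((Complex.continuous_ofReal.comp (continuous_apply _)).mul continuous_const)
    exact h1.congr fun w => (Complex.mk_eq_add_mul_I _ _).symm

theorem tcB_eq {p n : ℕ} (W : TT p n) :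
    tcB W = OnePoint.map (realH n p) (smPi (fun q : Fin n × Fin p =>
      tc2 (W q.1 ⟨2 * q.2.val, two_mul_lt q.2⟩) (W q.1 ⟨2 * q.2.val + 1, two_mul_add_lt q.2⟩))) := by
  unfold tcB
  rw [tc_eq_smPi]
  by_cases h : ∃ q : Fin n × Fin (2 * p), tc1 (W q.1 q.2) = ∞
  · obtain ⟨⟨j, k⟩, hq⟩ := h
    rw [smPi_of_inf (j, k) hq]
    have h1 : tc2 (W j ⟨2 * (k.val / 2), by omega⟩) (W j ⟨2 * (k.val / 2) + 1, by omega⟩) = ∞ := by
      rw [tc2_eq]
      rcases Nat.mod_two_eq_zero_or_one k.val with h2 | h2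
      · have h3 : (⟨2 * (k.val / 2), by omega⟩ : Fin (2 * p)) = k := Fin.ext (by
          show 2 * (k.val / 2) = k.val
          omega)
        rw [h3]
        simp only at hq
        rw [hq]
        rfl
      · have h3 : (⟨2 * (k.val / 2) + 1, by omega⟩ : Fin (2 * p)) = k := Fin.ext (by
          show 2 * (k.val / 2) + 1 = k.val
          omega)
        rw [h3]
        simp only at hq
        rw [hq, sm_inf_right]
        rfl
    have h4 : smPi (fun q : Fin n × Fin p => tc2 (W q.1 ⟨2 * q.2.val, two_mul_lt q.2⟩)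
        (W q.1 ⟨2 * q.2.val + 1, two_mul_add_lt q.2⟩)) = ∞ :=
      smPi_of_inf (j, ⟨k.val / 2, by omega⟩) h1
    rw [h4]
    rfl
  · push Not at h
    have hne : ∀ q : Fin n × Fin (2 * p), (W q.1 q.2 : ℂ) ≠ -1 := fun q hq =>
      h q (tc1_of_eq hq)
    have h1 : smPi (fun q : Fin n × Fin (2 * p) => tc1 (W q.1 q.2)) =
        ((fun q : Fin n × Fin (2 * p) => (W q.1 q.2 : ℂ).im / (1 + (W q.1 q.2 : ℂ).re) :
          Fin n × Fin (2 * p) → ℝ) : OnePoint (Fin n × Fin (2 * p) → ℝ)) :=
      smPi_eq_coe.2 fun q => tc1_of_ne (hne q)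
    have h2 : smPi (fun q : Fin n × Fin p => tc2 (W q.1 ⟨2 * q.2.val, two_mul_lt q.2⟩)
        (W q.1 ⟨2 * q.2.val + 1, two_mul_add_lt q.2⟩)) =
        ((fun q : Fin n × Fin p => (⟨(W q.1 ⟨2 * q.2.val, two_mul_lt q.2⟩ : ℂ).im /
          (1 + (W q.1 ⟨2 * q.2.val, two_mul_lt q.2⟩ : ℂ).re),
          (W q.1 ⟨2 * q.2.val + 1, two_mul_add_lt q.2⟩ : ℂ).im /
          (1 + (W q.1 ⟨2 * q.2.val + 1, two_mul_add_lt q.2⟩ : ℂ).re)⟩ : ℂ) :
            Fin n × Fin p → ℂ) : OnePoint (Fin n × Fin p → ℂ)) :=
      smPi_eq_coe.2 fun q => if_neg (not_or.2 ⟨hne (q.1, _), hne (q.1, _)⟩)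
    rw [h1, h2, OnePoint.map_some, OnePoint.coe_eq_coe]
    funext q
    obtain ⟨j, k⟩ := q
    by_cases hk : k.val % 2 = 0
    · have h3 : (⟨2 * (k.val / 2), by omega⟩ : Fin (2 * p)) = k := Fin.ext (by
        show 2 * (k.val / 2) = k.val
        omega)
      show _ = if k.val % 2 = 0 then _ else _
      rw [if_pos hk]
      simp only [h3]
    · have h3 : (⟨2 * (k.val / 2) + 1, by omega⟩ : Fin (2 * p)) = k := Fin.ext (by
        show 2 * (k.val / 2) + 1 = k.val
        omega)
      show _ = if k.val % 2 = 0 then _ else _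
      rw [if_neg hk]
      simp only [h3]

/-! ## the homotopy -/

/-- the Bott coordinates `P₁₀/P₀₀` of all the lines of a block, smashed together -/
noncomputable def bottB {p n : ℕ} (W : TT p n) : OnePoint (Fin n × Fin p → ℂ) :=
  smPi (fun q : Fin n × Fin p => stz (sphereVec (W q.1 ⟨2 * q.2.val, two_mul_lt q.2⟩)
    (W q.1 ⟨2 * q.2.val + 1, two_mul_add_lt q.2⟩)))

theorem continuous_coord {p n : ℕ} (q : Fin n × Fin p) :
    Continuous (fun W : TT p n => ((W q.1 ⟨2 * q.2.val, two_mul_lt q.2⟩,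
      W q.1 ⟨2 * q.2.val + 1, two_mul_add_lt q.2⟩) : Circle × Circle)) :=
  ((continuous_apply _).comp (continuous_apply q.1)).prodMk
    ((continuous_apply _).comp (continuous_apply q.1))

theorem continuous_bottB {p n : ℕ} : Continuous (bottB : TT p n → _) := by
  refine Continuous.smPi568 fun q => ?_
  exact continuous_stz_comp (continuous_sphereVec.comp (continuous_coord q))
    (fun W => sphereVec_ne_zero _ _)

/-- **BOTT-N**: the smash of the Bott coordinates is freely homotopic to the torus collapse. -/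
theorem bottB_homotopic (p n : ℕ) :
    ContinuousMap.Homotopic
      (⟨fun W : TT p n => OnePoint.map (realH n p) (bottB W),
        (realH n p).onePointCongr.continuous.comp continuous_bottB⟩ :
          C(TT p n, OnePoint (Fin n × Fin (2 * p) → ℝ)))
      ⟨tcB, continuous_tcB⟩ := by
  refine ⟨⟨⟨fun a => OnePoint.map (realH n p) (smPi (fun q : Fin n × Fin p =>
    bottH (a.1, a.2 q.1 ⟨2 * q.2.val, two_mul_lt q.2⟩,
      a.2 q.1 ⟨2 * q.2.val + 1, two_mul_add_lt q.2⟩))), ?_⟩, ?_, ?_⟩⟩
  · refine (realH n p).onePointCongr.continuous.comp (Continuous.smPi568 fun q => ?_)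
    exact continuous_bottH.comp (continuous_fst.prodMk ((continuous_coord q).comp continuous_snd))
  · intro W
    show OnePoint.map (realH n p) (smPi _) = OnePoint.map (realH n p) (bottB W)
    simp only [bottH_zero]
    rfl
  · intro W
    show OnePoint.map (realH n p) (smPi _) = tcB W
    rw [tcB_eq]
    simp only [bottH_one]

/-! ## scalars of modulus one -/

/-- multiplication by a nonzero scalar on `(ℂ^ι)⁺` -/
noncomputable def unitH (ι : Type*) (c : ℂˣ) : (ι → ℂ) ≃ₜ (ι → ℂ) := Homeomorph.smul c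

theorem continuousAt_smul_pi {ι : Type*} [Fintype ι] {c : ℂ} (hc : c ≠ 0) (w : OnePoint (ι → ℂ)) :
    ContinuousAt (fun p : ℂ × OnePoint (ι → ℂ) => OnePoint.map (fun v => p.1 • v) p.2) (c, w) := by
  refine ext_at (fun (c : ℂ) (v : ι → ℂ) => c • v) c w (fun x => ?_) ?_
  · exact (continuous_fst.smul continuous_snd).continuousAt
  · intro R
    refine ⟨2 * |R| / ‖c‖, ?_⟩
    have h1 : ∀ᶠ t : ℂ in 𝓝 c, ‖c‖ / 2 < ‖t‖ := by
      have : Tendsto (fun t : ℂ => ‖t‖) (𝓝 c) (𝓝 ‖c‖) := continuous_norm.continuousAt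
      exact this.eventually (lt_mem_nhds (by have := norm_pos_iff.2 hc; linarith))
    filter_upwards [h1] with t ht x hx
    rw [norm_smul]
    have hcp := norm_pos_iff.2 hc
    have h2 : 2 * |R| < ‖x‖ * ‖c‖ := by
      rwa [div_lt_iff₀ hcp] at hx
    have h3 : |R| < ‖t‖ * ‖x‖ := by
      have : ‖c‖ / 2 * ‖x‖ ≤ ‖t‖ * ‖x‖ := by gcongr
      nlinarith
    exact lt_of_le_of_lt (le_abs_self R) h3

/-- `-1` is homotopic to `1`: free homotopy of maps into `(ℂ^ι)⁺` -/
theorem neg_homotopic {X ι : Type*} [TopologicalSpace X] [Fintype ι]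
    (f g : C(X, OnePoint (ι → ℂ))) (hg : ∀ x, g x = OnePoint.map (fun v => -v) (f x)) :
    f.Homotopic g := by
  have hE : Continuous (fun t : unitInterval => Complex.exp (((t : ℝ) * Real.pi : ℝ) * Complex.I)) := by
    fun_prop
  refine ⟨⟨⟨fun a => OnePoint.map
    (fun v : ι → ℂ => Complex.exp (((a.1 : ℝ) * Real.pi : ℝ) * Complex.I) • v) (f a.2), ?_⟩,
    ?_, ?_⟩⟩
  · rw [continuous_iff_continuousAt]
    rintro ⟨t, x⟩
    exact (continuousAt_smul_pi (c := Complex.exp (((t : ℝ) * Real.pi : ℝ) * Complex.I))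
      (Complex.exp_ne_zero _) (f x)).comp_of_eq
      (f := fun a : unitInterval × X =>
        (Complex.exp (((a.1 : ℝ) * Real.pi : ℝ) * Complex.I), f a.2))
      (((hE.comp continuous_fst).prodMk (f.continuous.comp continuous_snd)).continuousAt) rfl
  · intro x
    show OnePoint.map (fun v : ι → ℂ =>
      Complex.exp ((((0 : unitInterval) : ℝ) * Real.pi : ℝ) * Complex.I) • v) (f x) = f x
    have h1 : (fun v : ι → ℂ =>
        Complex.exp ((((0 : unitInterval) : ℝ) * Real.pi : ℝ) * Complex.I) • v) = id := by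
      funext v
      simp
    rw [h1, OnePoint.map_id]
    rfl
  · intro x
    show OnePoint.map (fun v : ι → ℂ =>
      Complex.exp ((((1 : unitInterval) : ℝ) * Real.pi : ℝ) * Complex.I) • v) (f x) = g x
    have h1 : (fun v : ι → ℂ =>
        Complex.exp ((((1 : unitInterval) : ℝ) * Real.pi : ℝ) * Complex.I) • v) = fun v => -v := by
      funext v
      simp [Complex.exp_pi_mul_I]
    rw [h1, hg]

/-! ## maps out of compact spaces as pointed maps -/

section ofC

variable {U V : Type*} [TopologicalSpace U] [CompactSpace U] [TopologicalSpace V]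

/-- `U⁺ = U ⊔ {∞}` for compact `U`: a continuous map `U → V⁺` is a pointed map `U⁺ → V⁺`. -/
def ofC (f : C(U, OnePoint V)) : PMap U V :=
  PMap.ofFun f f.continuous (by
    have : (coclosedCompact U : Filter U) = ⊥ := by
      rw [← Filter.empty_mem_iff_bot]
      simpa using (isCompact_univ (X := U)).compl_mem_coclosedCompact_of_isClosed isClosed_univ
    rw [this]
    exact tendsto_bot)

@[simp] theorem ofC_coe (f : C(U, OnePoint V)) (x : U) : ofC f x = f x := rfl

theorem isOpen_infty : IsOpen ({∞} : Set (OnePoint U)) := by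
  rw [OnePoint.isOpen_iff_of_mem (mem_singleton _), OnePoint.coe_preimage_infty, compl_empty]
  exact ⟨isClosed_univ, isCompact_univ⟩

/-- a free homotopy out of a compact space is a pointed homotopy -/
theorem ofC_homotopic {f g : C(U, OnePoint V)} (h : f.Homotopic g) :
    (ofC f).Homotopic (ofC g) := by
  obtain ⟨F⟩ := h
  refine PMap.Homotopic.of (fun p => p.2.elim ∞ fun x => F (p.1, x)) ?_ ?_ ?_ ?_
  · rw [continuous_iff_continuousAt]
    rintro ⟨t, x⟩
    induction x using OnePoint.rec with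
    | infty =>
      have h1 : ∀ᶠ p : unitInterval × OnePoint U in 𝓝 (t, ∞), p.2 = ∞ := by
        have h2 : ({∞} : Set (OnePoint U)) ∈ 𝓝 ∞ := isOpen_infty.mem_nhds rfl
        exact (continuousAt_snd (p := ((t, ∞) : unitInterval × OnePoint U))).eventually h2
      have h4 : (fun p : unitInterval × OnePoint U => p.2.elim ∞ fun x => F (p.1, x))
          =ᶠ[𝓝 (t, ∞)] fun _ => ∞ := by
        filter_upwards [h1] with p hp
        rw [hp]
        rfl
      exact continuousAt_const.congr h4.symm
    | coe x =>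
      have hemb : IsOpenEmbedding (Prod.map (id : unitInterval → unitInterval)
        ((↑) : U → OnePoint U)) := IsOpenEmbedding.id.prodMap OnePoint.isOpenEmbedding_coe
      have key := (hemb.continuousAt_iff (g := fun p : unitInterval × OnePoint U =>
        p.2.elim ∞ fun x => F (p.1, x)) (x := (t, x))).1 (by
          have h1 : ((fun p : unitInterval × OnePoint U => p.2.elim ∞ fun x => F (p.1, x)) ∘
              Prod.map (id : unitInterval → unitInterval) ((↑) : U → OnePoint U)) =
              fun p => F p := by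
            funext p
            rfl
          rw [h1]
          exact F.continuous.continuousAt)
      exact key
  · intro x
    exact F.apply_zero x
  · intro x
    exact F.apply_one x
  · intro t
    rfl

end ofC

end Crest.Agent.R090.Bott513
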