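import Mathlib

/-!
# Row 90, leaf DEG (helper513): a based self map of a sphere with a single nondegenerate zero is
based-homotopic to the one-point compactification of its derivative; linear isomorphisms are
based-homotopic to the identity or to one reflection.
-/

set_option autoImplicit false

open Set Filter Topology

namespace Crest.Agent.R090.Deg513

open OnePoint

variable {T : Type*} [TopologicalSpace T]
variable {V W : Type*} [NormedAddCommGroup V] [NormedSpace ℝ V] [ProperSpace V]
  [NormedAddCommGroup W] [NormedSpace ℝ W] [ProperSpace W]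

/-- `w` is not in the closed ball of radius `R` (for instance `w = ∞`). -/
def Far (R : ℝ) (w : OnePoint W) : Prop := w ∉ ((↑) : W → OnePoint W) '' Metric.closedBall 0 R

omit [NormedSpace ℝ W] [ProperSpace W] in
theorem far_infty (R : ℝ) : Far R (∞ : OnePoint W) := by
  rintro ⟨w, -, hw⟩
  exact OnePoint.coe_ne_infty w hw

omit [NormedSpace ℝ W] [ProperSpace W] in
theorem far_coe {R : ℝ} {w : W} : Far R (w : OnePoint W) ↔ R < ‖w‖ := by
  constructor
  · intro h
    by_contra h'
    exact h ⟨w, by simpa using not_lt.1 h', rfl⟩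
  · rintro h ⟨v, hv, hvw⟩
    rw [OnePoint.coe_eq_coe] at hvw
    subst hvw
    simp at hv
    linarith

omit [NormedSpace ℝ W] in
theorem tendsto_infty_iff {α : Type*} {l : Filter α} {F : α → OnePoint W} :
    Tendsto F l (𝓝 ∞) ↔ ∀ R : ℝ, ∀ᶠ x in l, Far R (F x) := by
  constructor
  · intro h R
    have hK : ((↑) '' (Metric.closedBall (0 : W) R)ᶜ ∪ {∞} : Set (OnePoint W)) ∈ 𝓝 ∞ :=
      OnePoint.hasBasis_nhds_infty.mem_of_mem
        ⟨Metric.isClosed_closedBall, isCompact_closedBall 0 R⟩
    filter_upwards [h hK] with x hx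
    rw [← OnePoint.compl_image_coe] at hx
    exact hx
  · intro h
    refine OnePoint.hasBasis_nhds_infty.tendsto_right_iff.2 ?_
    rintro s ⟨hs1, hs2⟩
    obtain ⟨R, hR⟩ := hs2.isBounded.subset_closedBall 0
    filter_upwards [h R] with x hx
    rw [← OnePoint.compl_image_coe]
    intro hx'
    apply hx
    exact image_mono hR hx'

omit [NormedSpace ℝ W] in
theorem eventually_far (R : ℝ) : ∀ᶠ w in 𝓝 (∞ : OnePoint W), Far R w :=
  (tendsto_infty_iff (F := id)).1 tendsto_id R

omit [NormedSpace ℝ W] [NormedSpace ℝ V] in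
/-- continuity at a point of the sphere of a family `g t : V → W`, extended by `∞ ↦ ∞` -/
theorem ext_at (g : T → V → W) (t0 : T) (x0 : OnePoint V)
    (hg : ∀ x, ContinuousAt (fun p : T × V => g p.1 p.2) (t0, x))
    (hfar : ∀ R : ℝ, ∃ R' : ℝ, ∀ᶠ t in 𝓝 t0, ∀ x, R' < ‖x‖ → R < ‖g t x‖) :
    ContinuousAt (fun p : T × OnePoint V => OnePoint.map (g p.1) p.2) (t0, x0) := by
  induction x0 using OnePoint.rec with
  | infty =>
    show Tendsto _ _ (𝓝 (OnePoint.map (g t0) ∞))
    rw [OnePoint.map_infty, tendsto_infty_iff]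
    intro R
    obtain ⟨R', hR'⟩ := hfar R
    have h2 : ∀ᶠ p : T × OnePoint V in 𝓝 (t0, ∞),
        (∀ x, R' < ‖x‖ → R < ‖g p.1 x‖) ∧ Far R' p.2 :=
      (hR'.prod_nhds (eventually_far R'))
    filter_upwards [h2] with p hp
    obtain ⟨t, x⟩ := p
    obtain ⟨h3, h4⟩ := hp
    induction x using OnePoint.rec with
    | infty => simpa using far_infty R
    | coe x =>
      simp only [OnePoint.map_some]
      exact far_coe.2 (h3 x (far_coe.1 h4))
  | coe x =>
    have hemb : IsOpenEmbedding (Prod.map (id : T → T) ((↑) : V → OnePoint V)) :=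
      IsOpenEmbedding.id.prodMap OnePoint.isOpenEmbedding_coe
    have := (hemb.continuousAt_iff (g := fun p : T × OnePoint V => OnePoint.map (g p.1) p.2)
      (x := (t0, x))).1 (by
        have h1 : ((fun p : T × OnePoint V => OnePoint.map (g p.1) p.2) ∘
            Prod.map (id : T → T) ((↑) : V → OnePoint V)) = fun p : T × V => ((g p.1 p.2 : W) :
              OnePoint W) := by
          funext p
          simp
        rw [h1]
        exact OnePoint.continuous_coe.continuousAt.comp (hg x))
    simpa using this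

theorem continuousAt_smul_map {c : ℝ} (hc : c ≠ 0) (w : OnePoint W) :
    ContinuousAt (fun p : ℝ × OnePoint W => OnePoint.map (fun v => p.1 • v) p.2) (c, w) := by
  refine ext_at (fun (c : ℝ) (v : W) => c • v) c w (fun x => ?_) ?_
  · exact (continuous_fst.smul continuous_snd).continuousAt
  · intro R
    refine ⟨2 * |R| / |c|, ?_⟩
    have h1 : ∀ᶠ t : ℝ in 𝓝 c, |c| / 2 < |t| := by
      have : Tendsto (fun t : ℝ => |t|) (𝓝 c) (𝓝 |c|) := (continuous_abs).continuousAt
      exact this.eventually (lt_mem_nhds (by have := abs_pos.2 hc; linarith))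
    filter_upwards [h1] with t ht x hx
    rw [norm_smul, Real.norm_eq_abs]
    have hcp := abs_pos.2 hc
    have h2 : 2 * |R| < ‖x‖ * |c| := by
      rwa [div_lt_iff₀ hcp] at hx
    have h3 : |R| < |t| * ‖x‖ := by
      have : |c| / 2 * ‖x‖ ≤ |t| * ‖x‖ := by gcongr
      nlinarith
    exact lt_of_le_of_lt (le_abs_self R) h3

/-- the affine map `x ↦ x₀ + s (x - x₀)` -/
theorem continuousAt_aff (x0 : V) {s : ℝ} (hs : s ≠ 0) (x : OnePoint V) :
    ContinuousAt (fun p : ℝ × OnePoint V => OnePoint.map (fun v => x0 + p.1 • (v - x0)) p.2)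
      (s, x) := by
  refine ext_at (fun (c : ℝ) (v : V) => x0 + c • (v - x0)) s x (fun x => ?_) ?_
  · fun_prop
  · intro R
    refine ⟨2 * (|R| + ‖x0‖) / |s| + ‖x0‖, ?_⟩
    have h1 : ∀ᶠ t : ℝ in 𝓝 s, |s| / 2 < |t| := by
      have : Tendsto (fun t : ℝ => |t|) (𝓝 s) (𝓝 |s|) := (continuous_abs).continuousAt
      exact this.eventually (lt_mem_nhds (by have := abs_pos.2 hs; linarith))
    filter_upwards [h1] with t ht x hx
    have hsp := abs_pos.2 hs
    have h4 : ‖x‖ - ‖x0‖ ≤ ‖x - x0‖ := norm_sub_norm_le x x0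
    have h2 : 2 * (|R| + ‖x0‖) < ‖x - x0‖ * |s| := by
      have : 2 * (|R| + ‖x0‖) / |s| < ‖x - x0‖ := by linarith
      rwa [div_lt_iff₀ hsp] at this
    have h3 : |R| + ‖x0‖ < |t| * ‖x - x0‖ := by
      have : |s| / 2 * ‖x - x0‖ ≤ |t| * ‖x - x0‖ := by gcongr
      nlinarith
    have h5 : ‖t • (x - x0)‖ - ‖x0‖ ≤ ‖x0 + t • (x - x0)‖ := by
      have := norm_sub_norm_le (t • (x - x0)) (-x0)
      rw [norm_neg] at this
      calc ‖t • (x - x0)‖ - ‖x0‖ ≤ ‖t • (x - x0) - -x0‖ := this
        _ = ‖x0 + t • (x - x0)‖ := by congr 1; abel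
    rw [norm_smul, Real.norm_eq_abs] at h5
    have := le_abs_self R
    linarith

open Classical in
/-- the zoom homotopy `f(x₀ + s (x - x₀)) / s`, equal to `A (x - x₀)` at `s = 0` -/
noncomputable def zoom (f : OnePoint V → OnePoint W) (x0 : V) (A : V → W)
    (p : ℝ × OnePoint V) : OnePoint W :=
  if p.1 = 0 then OnePoint.map (fun v => A (v - x0)) p.2
  else OnePoint.map (fun w => p.1⁻¹ • w) (f (OnePoint.map (fun v => x0 + p.1 • (v - x0)) p.2))

omit [ProperSpace V] [ProperSpace W] in
theorem zoom_infty (f : OnePoint V → OnePoint W) (hinf : f ∞ = ∞) (x0 : V) (A : V → W) (s : ℝ) :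
    zoom f x0 A (s, ∞) = ∞ := by
  unfold zoom
  split_ifs <;> simp [hinf]

omit [ProperSpace V] [ProperSpace W] in
theorem zoom_one (f : OnePoint V → OnePoint W) (x0 : V) (A : V → W) (x : OnePoint V) :
    zoom f x0 A (1, x) = f x := by
  unfold zoom
  have h1 : (fun v : V => x0 + (1 : ℝ) • (v - x0)) = id := by
    funext v; simp
  have h2 : (fun w : W => ((1 : ℝ))⁻¹ • w) = id := by
    funext v; simp
  rw [if_neg one_ne_zero]
  show OnePoint.map (fun w : W => ((1 : ℝ))⁻¹ • w)
    (f (OnePoint.map (fun v : V => x0 + (1 : ℝ) • (v - x0)) x)) = f x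
  rw [h1, h2, OnePoint.map_id, OnePoint.map_id]
  rfl

omit [ProperSpace V] [ProperSpace W] in
theorem zoom_zero (f : OnePoint V → OnePoint W) (x0 : V) (A : V → W) (x : OnePoint V) :
    zoom f x0 A (0, x) = OnePoint.map (fun v => A (v - x0)) x := by
  simp [zoom]

section main

variable (f : OnePoint V → OnePoint W) (hf : Continuous f) (hinf : f ∞ = ∞) (x0 : V)
  (huniq : ∀ x, f x = ((0 : W) : OnePoint W) → x = (x0 : OnePoint V))
  (g : V → W) (hfg : ∀ᶠ v : V in 𝓝 x0, f (v : OnePoint V) = (g v : OnePoint W))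
  (hg0 : g x0 = 0) (A : V ≃L[ℝ] W) (hA : HasFDerivAt g (A : V →L[ℝ] W) x0)

include hf huniq hfg hg0 hA

omit [ProperSpace V] in
/-- lower bound `|f(x₀+y)| ≥ c min(|y|,1)` -/
theorem lower_bound : ∃ c : ℝ, 0 < c ∧ ∀ (y : V) (w : W), f (y : OnePoint V) = (w : OnePoint W) →
    c * min ‖y - x0‖ 1 ≤ ‖w‖ := by
  obtain ⟨c0, hc0, hAc⟩ : ∃ c0 : ℝ, 0 < c0 ∧ ∀ h : V, c0 * ‖h‖ ≤ ‖A h‖ := by
    refine ⟨(‖(A.symm : W →L[ℝ] V)‖ + 1)⁻¹, by positivity, fun h => ?_⟩
    have h1 : ‖h‖ ≤ ‖(A.symm : W →L[ℝ] V)‖ * ‖A h‖ := by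
      have := (A.symm : W →L[ℝ] V).le_opNorm (A h)
      simpa using this
    rw [inv_mul_le_iff₀ (by positivity)]
    have := norm_nonneg (A h)
    nlinarith
  -- near x0
  have hlo := hA.isLittleO.def (half_pos hc0)
  obtain ⟨δ, hδ, hδ'⟩ := Metric.eventually_nhds_iff_ball.1 (hlo.and hfg)
  -- outside the ball
  set K : Set (OnePoint V) := (((↑) : V → OnePoint V) '' Metric.ball x0 δ)ᶜ with hK
  have hKc : IsClosed K := (OnePoint.isOpen_image_coe.2 Metric.isOpen_ball).isClosed_compl
  have hKc' : IsCompact (f '' K) := hKc.isCompact.image hf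
  have h0 : ((0 : W) : OnePoint W) ∈ (f '' K)ᶜ := by
    rintro ⟨x, hx, hx0⟩
    rw [huniq x hx0] at hx
    exact hx ⟨x0, Metric.mem_ball_self hδ, rfl⟩
  have hopen : IsOpen (((↑) : W → OnePoint W) ⁻¹' (f '' K)ᶜ) :=
    (hKc'.isClosed.isOpen_compl).preimage OnePoint.continuous_coe
  obtain ⟨ρ, hρ, hρ'⟩ := Metric.isOpen_iff.1 hopen 0 h0
  refine ⟨min (c0 / 2) ρ, lt_min (half_pos hc0) hρ, fun y w hyw => ?_⟩
  by_cases hy : y ∈ Metric.ball x0 δ
  · obtain ⟨h1, h2⟩ := hδ' y hy
    rw [hyw, OnePoint.coe_eq_coe] at h2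
    rw [hg0, sub_zero, ← h2] at h1
    have h3 := hAc (y - x0)
    have h4 : ‖A (y - x0)‖ - ‖w‖ ≤ ‖w - A (y - x0)‖ := by
      rw [norm_sub_rev]; exact norm_sub_norm_le _ _
    have h5 : ‖w - (A : V →L[ℝ] W) (y - x0)‖ ≤ c0 / 2 * ‖y - x0‖ := h1
    have h6 : c0 / 2 * ‖y - x0‖ ≤ ‖w‖ := by
      have : ‖w - A (y - x0)‖ ≤ c0 / 2 * ‖y - x0‖ := h5
      linarith
    calc min (c0 / 2) ρ * min ‖y - x0‖ 1 ≤ c0 / 2 * ‖y - x0‖ := by
          apply mul_le_mul (min_le_left _ _) (min_le_left _ _) (by positivity) (by positivity)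
      _ ≤ ‖w‖ := h6
  · have hyK : (y : OnePoint V) ∈ K := by
      rintro ⟨z, hz, hzy⟩
      rw [OnePoint.coe_eq_coe] at hzy
      exact hy (hzy ▸ hz)
    have h7 : w ∉ Metric.ball (0 : W) ρ := by
      intro hw
      exact hρ' hw ⟨_, hyK, hyw⟩
    have h8 : ρ ≤ ‖w‖ := by simpa using h7
    calc min (c0 / 2) ρ * min ‖y - x0‖ 1 ≤ ρ * 1 := by
          apply mul_le_mul (min_le_right _ _) (min_le_right _ _) (by positivity) hρ.le
      _ ≤ ‖w‖ := by linarith

include hinf in
theorem zoom_continuousAt_zero_infty :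
    ContinuousWithinAt (zoom f x0 A) (Ici 0 ×ˢ univ) (0, ∞) := by
  show Tendsto _ _ (𝓝 (zoom f x0 A (0, ∞)))
  rw [zoom_infty f hinf, tendsto_infty_iff]
  intro R
  obtain ⟨c, hc, hlb⟩ := lower_bound f hf x0 huniq g hfg hg0 A hA
  obtain ⟨c0, hc0, hAc⟩ : ∃ c0 : ℝ, 0 < c0 ∧ ∀ h : V, c0 * ‖h‖ ≤ ‖A h‖ := by
    refine ⟨(‖(A.symm : W →L[ℝ] V)‖ + 1)⁻¹, by positivity, fun h => ?_⟩
    have h1 : ‖h‖ ≤ ‖(A.symm : W →L[ℝ] V)‖ * ‖A h‖ := by
      have := (A.symm : W →L[ℝ] V).le_opNorm (A h)
      simpa using this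
    rw [inv_mul_le_iff₀ (by positivity)]
    have := norm_nonneg (A h)
    nlinarith
  set M : ℝ := (|R| + 1) / c + (|R| + 1) / c0 with hM
  have hMpos : 0 < M := by positivity
  have hM1 : |R| + 1 ≤ c * M := by
    rw [hM, mul_add, mul_div_cancel₀ _ hc.ne']
    have : 0 ≤ c * ((|R| + 1) / c0) := by positivity
    linarith
  have hM2 : |R| + 1 ≤ c0 * M := by
    rw [hM, mul_add, mul_div_cancel₀ _ hc0.ne']
    have : 0 ≤ c0 * ((|R| + 1) / c) := by positivity
    linarith
  have e1 : ∀ᶠ p : ℝ × OnePoint V in 𝓝 (0, ∞), |p.1| < M⁻¹ ∧ Far (M + ‖x0‖) p.2 := by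
    have e2 : Tendsto (fun t : ℝ => |t|) (𝓝 0) (𝓝 |0|) := (continuous_abs).continuousAt
    rw [abs_zero] at e2
    exact Filter.Eventually.prod_nhds (e2.eventually (gt_mem_nhds (inv_pos.2 hMpos)))
      (eventually_far (W := V) (M + ‖x0‖))
  filter_upwards [mem_nhdsWithin_of_mem_nhds e1, self_mem_nhdsWithin] with p hp hp0
  obtain ⟨s, x⟩ := p
  obtain ⟨hs, hx⟩ := hp
  have hs0 : 0 ≤ s := hp0.1
  simp only at hs hx
  induction x using OnePoint.rec with
  | infty => rw [zoom_infty f hinf]; exact far_infty R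
  | coe v =>
    have hv : M + ‖x0‖ < ‖v‖ := far_coe.1 hx
    have hv' : M < ‖v - x0‖ := by have := norm_sub_norm_le v x0; linarith
    unfold zoom
    simp only [OnePoint.map_some]
    split_ifs with h0
    · refine far_coe.2 ?_
      have h1 := hAc (v - x0)
      have h2 : c0 * M ≤ c0 * ‖v - x0‖ := by gcongr
      have := le_abs_self R
      linarith
    · have hspos : 0 < s := lt_of_le_of_ne hs0 (Ne.symm h0)
      generalize hfw : f ((x0 + s • (v - x0) : V) : OnePoint V) = fw
      induction fw using OnePoint.rec with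
      | infty => simpa using far_infty R
      | coe w =>
        rw [OnePoint.map_some]
        refine far_coe.2 ?_
        have h1 := hlb _ _ hfw
        rw [add_sub_cancel_left, norm_smul, Real.norm_eq_abs, abs_of_pos hspos] at h1
        rw [norm_smul, norm_inv, Real.norm_eq_abs, abs_of_pos hspos]
        have h2 : M ≤ s⁻¹ := by
          rw [abs_of_pos hspos] at hs
          rw [le_inv_comm₀ hMpos hspos]
          exact hs.le
        have h3 : s * M ≤ min (s * ‖v - x0‖) 1 := by
          refine le_min (by gcongr) ?_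
          have : s * M ≤ s * s⁻¹ := by gcongr
          rwa [mul_inv_cancel₀ hspos.ne'] at this
        have h4 : c * (s * M) ≤ ‖w‖ := le_trans (by gcongr) h1
        have h5 : c * M ≤ s⁻¹ * ‖w‖ := by
          rw [le_inv_mul_iff₀ hspos]
          linarith
        have := le_abs_self R
        linarith

omit hf huniq [ProperSpace V] [ProperSpace W] in
theorem zoom_continuousAt_zero_coe (v0 : V) :
    ContinuousAt (zoom f x0 A) (0, (v0 : OnePoint V)) := by
  have hemb : IsOpenEmbedding (Prod.map (id : ℝ → ℝ) ((↑) : V → OnePoint V)) :=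
    IsOpenEmbedding.id.prodMap OnePoint.isOpenEmbedding_coe
  have key : ContinuousAt (zoom f x0 A ∘ Prod.map (id : ℝ → ℝ) ((↑) : V → OnePoint V))
      ((0 : ℝ), v0) := by
    -- local formula
    have hloc : ∀ᶠ p : ℝ × V in 𝓝 ((0 : ℝ), v0),
        f ((x0 + p.1 • (p.2 - x0) : V) : OnePoint V) = (g (x0 + p.1 • (p.2 - x0)) : OnePoint W) := by
      have hcont : Tendsto (fun p : ℝ × V => x0 + p.1 • (p.2 - x0)) (𝓝 ((0 : ℝ), v0)) (𝓝 x0) := by
        have : ContinuousAt (fun p : ℝ × V => x0 + p.1 • (p.2 - x0)) ((0 : ℝ), v0) := by fun_prop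
        have h2 := this.tendsto
        simpa using h2
      exact hcont.eventually hfg
    have heq : (zoom f x0 A ∘ Prod.map (id : ℝ → ℝ) ((↑) : V → OnePoint V)) =ᶠ[𝓝 ((0 : ℝ), v0)]
        fun p => (((A (p.2 - x0) + p.1⁻¹ • (g (x0 + p.1 • (p.2 - x0)) -
          A (p.1 • (p.2 - x0)))) : W) : OnePoint W) := by
      filter_upwards [hloc] with p hp
      simp only [Function.comp, Prod.map, id, zoom, OnePoint.map_some]
      split_ifs with h0
      · rw [h0]; simp
      · have e3 : A (p.1 • (p.2 - x0)) = p.1 • A (p.2 - x0) := A.map_smul _ _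
        rw [hp, OnePoint.map_some, OnePoint.coe_eq_coe, e3]
        generalize g (x0 + p.1 • (p.2 - x0)) = z
        generalize A (p.2 - x0) = z'
        rw [smul_sub, smul_smul, inv_mul_cancel₀ h0, one_smul]
        abel
    refine ContinuousAt.congr ?_ heq.symm
    refine OnePoint.continuous_coe.continuousAt.comp ?_
    refine ContinuousAt.add (by fun_prop) ?_
    show Tendsto _ _ (𝓝 (((0 : ℝ))⁻¹ • _))
    rw [inv_zero, zero_smul]
    rw [Metric.tendsto_nhds]
    intro ε hε
    -- bound of the remainder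
    set B : ℝ := ‖v0 - x0‖ + 1 with hB
    have hBpos : 0 < B := by positivity
    have hlo := hA.isLittleO.def (show 0 < ε / (2 * B) by positivity)
    have hcont : Tendsto (fun p : ℝ × V => x0 + p.1 • (p.2 - x0)) (𝓝 ((0 : ℝ), v0)) (𝓝 x0) := by
      have : ContinuousAt (fun p : ℝ × V => x0 + p.1 • (p.2 - x0)) ((0 : ℝ), v0) := by fun_prop
      have h2 := this.tendsto
      simpa using h2
    have hlo' := hcont.eventually hlo
    have hnear : ∀ᶠ p : ℝ × V in 𝓝 ((0 : ℝ), v0), ‖p.2 - x0‖ < B := by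
      have : ContinuousAt (fun p : ℝ × V => ‖p.2 - x0‖) ((0 : ℝ), v0) := by fun_prop
      exact this.tendsto.eventually (gt_mem_nhds (by simp [hB]))
    filter_upwards [hlo', hnear] with p hp hp2
    rw [dist_zero_right]
    rw [hg0, sub_zero, add_sub_cancel_left] at hp
    by_cases h0 : p.1 = 0
    · rw [h0]; simpa using hε
    · have hpos := abs_pos.2 h0
      rw [norm_smul, norm_inv, Real.norm_eq_abs]
      have h1 : ‖g (x0 + p.1 • (p.2 - x0)) - A (p.1 • (p.2 - x0))‖ ≤
          ε / (2 * B) * (|p.1| * ‖p.2 - x0‖) := by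
        rw [← Real.norm_eq_abs, ← norm_smul]; exact hp
      calc |p.1|⁻¹ * ‖g (x0 + p.1 • (p.2 - x0)) - A (p.1 • (p.2 - x0))‖
          ≤ |p.1|⁻¹ * (ε / (2 * B) * (|p.1| * ‖p.2 - x0‖)) := by gcongr
        _ = ε / (2 * B) * ‖p.2 - x0‖ := by field_simp
        _ ≤ ε / (2 * B) * B := by gcongr
        _ = ε / 2 := by field_simp
        _ < ε := by linarith
  have := (hemb.continuousAt_iff (g := zoom f x0 A) (x := ((0 : ℝ), v0))).1 key
  simpa using this

omit huniq hfg hg0 hA in
theorem zoom_continuousAt_pos (A : V → W) {s : ℝ} (hs : s ≠ 0) (x : OnePoint V) :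
    ContinuousAt (zoom f x0 A) (s, x) := by
  have h1 : ContinuousAt (fun p : ℝ × OnePoint V => OnePoint.map (fun w : W => p.1⁻¹ • w)
      (f (OnePoint.map (fun v => x0 + p.1 • (v - x0)) p.2))) (s, x) := by
    have h2 : ContinuousAt (fun p : ℝ × OnePoint V =>
        (p.1⁻¹, f (OnePoint.map (fun v => x0 + p.1 • (v - x0)) p.2))) (s, x) := by
      refine ContinuousAt.prodMk ?_ (hf.continuousAt.comp (continuousAt_aff x0 hs x))
      exact continuousAt_fst.inv₀ hs
    exact (continuousAt_smul_map (inv_ne_zero hs)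
      (f (OnePoint.map (fun v => x0 + s • (v - x0)) x))).comp_of_eq h2 rfl
  refine h1.congr ?_
  have h3 : ∀ᶠ p : ℝ × OnePoint V in 𝓝 (s, x), p.1 ≠ 0 :=
    (continuousAt_fst (p := ((s, x) : ℝ × OnePoint V))).eventually_ne hs
  filter_upwards [h3] with p hp
  unfold zoom
  rw [if_neg hp]

include hinf in
theorem zoom_continuousOn : ContinuousOn (zoom f x0 A) (Ici 0 ×ˢ univ) := by
  rintro ⟨s, x⟩ ⟨hs, -⟩
  simp only [mem_Ici] at hs
  rcases eq_or_lt_of_le hs with h | h
  · subst h
    induction x using OnePoint.rec with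
    | infty => exact zoom_continuousAt_zero_infty f hf hinf x0 huniq g hfg hg0 A hA
    | coe v => exact (zoom_continuousAt_zero_coe f x0 g hfg hg0 A hA v).continuousWithinAt
  · exact (zoom_continuousAt_pos f hf x0 A h.ne' x).continuousWithinAt

include hinf in
/-- **DEG, part 1**: a based map of spheres with a single nondegenerate zero is based-homotopic
to the compactification of its derivative. -/
theorem exists_homotopy_affine : ∃ H : C(unitInterval × OnePoint V, OnePoint W),
    (∀ x, H (0, x) = OnePoint.map (fun v => A (v - x0)) x) ∧ (∀ x, H (1, x) = f x) ∧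
      ∀ t, H (t, ∞) = ∞ := by
  have hc := zoom_continuousOn f hf hinf x0 huniq g hfg hg0 A hA
  refine ⟨⟨fun p => zoom f x0 A ((p.1 : ℝ), p.2), ?_⟩, fun x => ?_, fun x => ?_, fun t => ?_⟩
  · refine hc.comp_continuous (by fun_prop) ?_
    rintro ⟨t, x⟩
    exact ⟨t.2.1, trivial⟩
  · exact zoom_zero f x0 A x
  · exact zoom_one f x0 A x
  · exact zoom_infty f hinf x0 A _

end main

/-! ## Sign version: no differentiability -/

section sign

/-- the point `w / μ`, with `w / 0 = ∞` -/
noncomputable def dv (w : OnePoint W) (μ : ℝ) : OnePoint W :=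
  open Classical in if μ = 0 then ∞ else OnePoint.map (fun v => μ⁻¹ • v) w

omit [ProperSpace W] in
@[simp] theorem dv_zero (w : OnePoint W) : dv w 0 = ∞ := by simp [dv]

omit [ProperSpace W] in
@[simp] theorem dv_infty (μ : ℝ) : dv (∞ : OnePoint W) μ = ∞ := by
  unfold dv; split_ifs <;> simp

omit [ProperSpace W] in
@[simp] theorem dv_one (w : OnePoint W) : dv w 1 = w := by
  unfold dv
  rw [if_neg one_ne_zero]
  have h2 : (fun w : W => ((1 : ℝ))⁻¹ • w) = id := by
    funext v; simp
  rw [h2, OnePoint.map_id]; rfl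

theorem continuousAt_dv {w : OnePoint W} {μ : ℝ} (h : μ = 0 → w ≠ ((0 : W) : OnePoint W)) :
    ContinuousAt (fun p : OnePoint W × ℝ => dv p.1 p.2) (w, μ) := by
  by_cases hμ : μ = 0
  · subst hμ
    have hw := h rfl
    show Tendsto _ _ (𝓝 (dv w 0))
    rw [dv_zero, tendsto_infty_iff]
    intro R
    -- a neighbourhood of w on which the norm is bounded below
    obtain ⟨c, hc, hcw⟩ : ∃ c : ℝ, 0 < c ∧ ∀ᶠ w' in 𝓝 w, w' ∉ ((↑) : W → OnePoint W) ''
        Metric.closedBall 0 c := by
      induction w using OnePoint.rec with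
      | infty => exact ⟨1, one_pos, eventually_far 1⟩
      | coe v =>
        have hv : v ≠ 0 := fun h => hw (by rw [h])
        refine ⟨‖v‖ / 2, by have := norm_pos_iff.2 hv; linarith, ?_⟩
        rw [OnePoint.nhds_coe_eq, Filter.eventually_map]
        have : ∀ᶠ a in 𝓝 v, ‖v‖ / 2 < ‖a‖ :=
          continuous_norm.continuousAt.eventually (lt_mem_nhds (by
            have := norm_pos_iff.2 hv; linarith))
        filter_upwards [this] with a ha
        exact far_coe.2 ha
    have h2 : ∀ᶠ m : ℝ in 𝓝 0, |m| * (|R| + 1) < c := by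
      have : Tendsto (fun m : ℝ => |m| * (|R| + 1)) (𝓝 0) (𝓝 (|(0 : ℝ)| * (|R| + 1))) :=
        (continuous_abs.mul continuous_const).continuousAt
      rw [abs_zero, zero_mul] at this
      exact this.eventually (gt_mem_nhds hc)
    filter_upwards [hcw.prod_nhds h2] with p hp
    obtain ⟨w', m⟩ := p
    obtain ⟨h3, h4⟩ := hp
    simp only at h3 h4 ⊢
    unfold dv
    split_ifs with h0
    · exact far_infty R
    · induction w' using OnePoint.rec with
      | infty => simpa using far_infty R
      | coe v =>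
        rw [OnePoint.map_some]
        refine far_coe.2 ?_
        have h5 : c < ‖v‖ := far_coe.1 h3
        have hm := abs_pos.2 h0
        rw [norm_smul, norm_inv, Real.norm_eq_abs, lt_inv_mul_iff₀ hm]
        have h6 : |m| * R ≤ |m| * (|R| + 1) := by
          have := le_abs_self R
          gcongr
          linarith
        linarith
  · have h1 : ContinuousAt (fun p : OnePoint W × ℝ => OnePoint.map (fun v : W => p.2⁻¹ • v) p.1)
        (w, μ) := by
      have h2 : ContinuousAt (fun p : OnePoint W × ℝ => (p.2⁻¹, p.1)) (w, μ) :=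
        (continuousAt_snd.inv₀ hμ).prodMk continuousAt_fst
      exact (continuousAt_smul_map (inv_ne_zero hμ) w).comp_of_eq h2 rfl
    refine h1.congr ?_
    filter_upwards [(continuousAt_snd (p := ((w, μ) : OnePoint W × ℝ))).eventually_ne hμ] with p hp
    unfold dv
    rw [if_neg hp]

/-- bump function `max 0 (1 - ‖v - x₀‖/δ)`, zero at `∞` -/
noncomputable def bump (x0 : V) (δ : ℝ) (x : OnePoint V) : ℝ :=
  x.elim 0 (fun v => max 0 (1 - ‖v - x0‖ / δ))

omit [NormedSpace ℝ V] [ProperSpace V] in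
@[simp] theorem bump_infty (x0 : V) (δ : ℝ) : bump x0 δ ∞ = 0 := rfl

omit [NormedSpace ℝ V] [ProperSpace V] in
@[simp] theorem bump_coe (x0 : V) (δ : ℝ) (v : V) :
    bump x0 δ (v : OnePoint V) = max 0 (1 - ‖v - x0‖ / δ) := rfl

omit [NormedSpace ℝ V] in
theorem continuous_bump (x0 : V) {δ : ℝ} (hδ : 0 < δ) : Continuous (bump x0 δ) := by
  rw [continuous_iff_continuousAt]
  intro x
  induction x using OnePoint.rec with
  | infty =>
    show Tendsto _ _ (𝓝 (bump x0 δ ∞))
    rw [bump_infty]
    refine tendsto_const_nhds.congr' ?_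
    filter_upwards [eventually_far (W := V) (δ + ‖x0‖)] with y hy
    induction y using OnePoint.rec with
    | infty => rfl
    | coe v =>
      have h1 : δ + ‖x0‖ < ‖v‖ := far_coe.1 hy
      have h2 : ‖v‖ - ‖x0‖ ≤ ‖v - x0‖ := norm_sub_norm_le v x0
      rw [bump_coe, max_eq_left]
      rw [sub_nonpos, one_le_div hδ]
      linarith
  | coe v =>
    rw [OnePoint.continuousAt_coe]
    show ContinuousAt (fun v : V => max 0 (1 - ‖v - x0‖ / δ)) v
    fun_prop

omit [NormedSpace ℝ V] [ProperSpace V] in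
theorem bump_nonneg (x0 : V) (δ : ℝ) (x : OnePoint V) : 0 ≤ bump x0 δ x := by
  induction x using OnePoint.rec with
  | infty => simp
  | coe v => simp

omit [NormedSpace ℝ V] [ProperSpace V] in
theorem bump_eq_zero {x0 : V} {δ : ℝ} (hδ : 0 < δ) {v : V} :
    bump x0 δ (v : OnePoint V) = 0 ↔ δ ≤ ‖v - x0‖ := by
  rw [bump_coe, max_eq_left_iff, sub_nonpos, one_le_div hδ]

omit [NormedSpace ℝ V] in
/-- `f` is homotopic to `f / bump` if its only zero is `x₀`. -/
theorem homotopic_dv (f : C(OnePoint V, OnePoint W)) (hinf : f ∞ = ∞) (x0 : V)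
    (huniq : ∀ x, f x = ((0 : W) : OnePoint W) → x = (x0 : OnePoint V)) {δ : ℝ} (hδ : 0 < δ)
    (F : C(OnePoint V, OnePoint W)) (hF : ∀ x, F x = dv (f x) (bump x0 δ x)) :
    f.HomotopicRel F {∞} := by
  have hb := continuous_bump x0 hδ
  have hcont : Continuous (fun p : unitInterval × OnePoint V =>
      dv (f p.2) ((1 - (p.1 : ℝ)) + p.1 * bump x0 δ p.2)) := by
    rw [continuous_iff_continuousAt]
    rintro ⟨t, x⟩
    have h1 : ContinuousAt (fun p : unitInterval × OnePoint V =>
        (f p.2, (1 - (p.1 : ℝ)) + p.1 * bump x0 δ p.2)) (t, x) := by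
      refine ContinuousAt.prodMk (by fun_prop) ?_
      have : Continuous (fun p : unitInterval × OnePoint V =>
        ((1 - (p.1 : ℝ)) + p.1 * bump x0 δ p.2)) := by
        have := hb.comp (continuous_snd (X := unitInterval) (Y := OnePoint V))
        fun_prop
      exact this.continuousAt
    refine ContinuousAt.comp_of_eq (continuousAt_dv (w := f x)
      (μ := (1 - (t : ℝ)) + t * bump x0 δ x) ?_) h1 rfl
    intro hz hfx
    have ht0 := t.2.1
    have ht1 := t.2.2
    have hbn := bump_nonneg x0 δ x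
    have h3 : (t : ℝ) * bump x0 δ x = 0 := by
      have : 0 ≤ (t : ℝ) * bump x0 δ x := mul_nonneg ht0 hbn
      linarith
    have h4 : (t : ℝ) = 1 := by linarith
    rw [h4, one_mul] at h3
    rw [huniq x hfx, bump_eq_zero hδ] at h3
    simp at h3
    linarith
  refine ⟨⟨⟨⟨fun p => dv (f p.2) ((1 - (p.1 : ℝ)) + p.1 * bump x0 δ p.2), hcont⟩, ?_, ?_⟩, ?_⟩⟩
  · intro x
    show dv (f x) _ = f x
    simp
  · intro x
    show dv (f x) _ = F x
    rw [hF]
    simp
  · rintro t x hx
    rw [mem_singleton_iff] at hx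
    subst hx
    show dv (f ∞) _ = f ∞
    rw [hinf, dv_infty]

/-- the based map induced by an affine isomorphism -/
noncomputable def affC (L : V ≃L[ℝ] W) (x0 : V) : C(OnePoint V, OnePoint W) where
  toFun := OnePoint.map (fun v => L (v - x0))
  continuous_toFun := by
    refine OnePoint.continuous_map (by fun_prop) ?_
    rw [Filter.coclosedCompact_eq_cocompact, Filter.coclosedCompact_eq_cocompact]
    have : (fun v => L (v - x0)) = ((Homeomorph.subRight x0).trans L.toHomeomorph) := by
      funext v; rfl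
    rw [this]
    exact (Homeomorph.isClosedEmbedding _).tendsto_cocompact

omit [ProperSpace V] [ProperSpace W] in
@[simp] theorem affC_apply (L : V ≃L[ℝ] W) (x0 : V) (x : OnePoint V) :
    affC L x0 x = OnePoint.map (fun v => L (v - x0)) x := rfl

omit [ProperSpace V] [ProperSpace W] in
theorem exists_lower (L : V ≃L[ℝ] W) : ∃ c0 : ℝ, 0 < c0 ∧ ∀ h : V, c0 * ‖h‖ ≤ ‖L h‖ := by
  refine ⟨(‖(L.symm : W →L[ℝ] V)‖ + 1)⁻¹, by positivity, fun h => ?_⟩
  have h1 : ‖h‖ ≤ ‖(L.symm : W →L[ℝ] V)‖ * ‖L h‖ := by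
    have := (L.symm : W →L[ℝ] V).le_opNorm (L h)
    simpa using this
  rw [inv_mul_le_iff₀ (by positivity)]
  have := norm_nonneg (L h)
  nlinarith

theorem affC_homotopic (L : V ≃L[ℝ] W) (x0 : V) : (affC L x0).HomotopicRel (affC L 0) {∞} := by
  obtain ⟨c0, hc0, hL⟩ := exists_lower L
  have hcont : Continuous (fun p : ℝ × OnePoint V =>
      OnePoint.map (fun v : V => L (v - p.1 • x0)) p.2) := by
    rw [continuous_iff_continuousAt]
    rintro ⟨t, x⟩
    refine ext_at (fun (t : ℝ) (v : V) => L (v - t • x0)) t x (fun v => by fun_prop) ?_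
    intro R
    refine ⟨|R| / c0 + (|t| + 1) * ‖x0‖, ?_⟩
    have h1 : ∀ᶠ s : ℝ in 𝓝 t, |s| < |t| + 1 :=
      continuous_abs.continuousAt.eventually (gt_mem_nhds (by linarith))
    filter_upwards [h1] with s hs v hv
    have h2 := hL (v - s • x0)
    have h3 : ‖v‖ - ‖s • x0‖ ≤ ‖v - s • x0‖ := norm_sub_norm_le _ _
    rw [norm_smul, Real.norm_eq_abs] at h3
    have h4 : |s| * ‖x0‖ ≤ (|t| + 1) * ‖x0‖ := by gcongr
    have h5 : |R| / c0 < ‖v - s • x0‖ := by linarith
    rw [div_lt_iff₀' hc0] at h5
    have := le_abs_self R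
    linarith
  refine ⟨⟨⟨⟨fun p => OnePoint.map (fun v : V => L (v - (1 - (p.1 : ℝ)) • x0)) p.2, ?_⟩,
    ?_, ?_⟩, ?_⟩⟩
  · exact hcont.comp (f := fun p : unitInterval × OnePoint V => ((1 - (p.1 : ℝ)), p.2))
      (by fun_prop)
  · intro x
    simp
  · intro x
    simp
  · rintro t x hx
    rw [mem_singleton_iff] at hx
    subst hx
    simp

/-- **DEG, sign version**: a based map of spheres whose only zero is `x₀`, and such that near `x₀`
the segment from `f x` to `L (x - x₀)` does not meet `0`, is based-homotopic to the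
compactification of the linear isomorphism `L`. -/
theorem deg_homotopic (f : C(OnePoint V, OnePoint W)) (hinf : f ∞ = ∞) (x0 : V)
    (huniq : ∀ x, f x = ((0 : W) : OnePoint W) → x = (x0 : OnePoint V)) (L : V ≃L[ℝ] W)
    {δ : ℝ} (hδ : 0 < δ) (g : V → W)
    (hg : ∀ v : V, ‖v - x0‖ ≤ δ → f (v : OnePoint V) = (g v : OnePoint W))
    (hseg : ∀ v : V, v ≠ x0 → ‖v - x0‖ ≤ δ → ∀ t ∈ Icc (0 : ℝ) 1,
      (1 - t) • g v + t • L (v - x0) ≠ 0) :
    f.HomotopicRel (affC L 0) {∞} := by
  have hb := continuous_bump x0 hδ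
  -- continuity of `g` on the closed ball
  have hgc : ContinuousOn g (Metric.closedBall x0 δ) := by
    have h1 : ContinuousOn (fun v : V => f (v : OnePoint V)) (Metric.closedBall x0 δ) :=
      (f.continuous.comp OnePoint.continuous_coe).continuousOn
    have h2 : ContinuousOn (fun v : V => ((g v : W) : OnePoint W)) (Metric.closedBall x0 δ) := by
      exact h1.congr fun v hv => (hg v (by simpa [dist_eq_norm] using hv)).symm
    intro v hv
    have h3 := h2 v hv
    rw [OnePoint.isOpenEmbedding_coe.isInducing.continuousWithinAt_iff]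
    exact h3
  -- the maps `f / bump` and `L (· - x₀) / bump`
  have hdvcont : ∀ F : C(OnePoint V, OnePoint W),
      (∀ x, F x = ((0 : W) : OnePoint W) → x = (x0 : OnePoint V)) →
      Continuous (fun x => dv (F x) (bump x0 δ x)) := by
    intro F hF
    rw [continuous_iff_continuousAt]
    intro x
    refine ContinuousAt.comp_of_eq (continuousAt_dv (w := F x) (μ := bump x0 δ x) ?_)
      (F.continuous.continuousAt.prodMk hb.continuousAt) rfl
    intro h1 h2
    rw [hF x h2, bump_eq_zero hδ] at h1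
    simp at h1
    linarith
  have haff : ∀ x, affC L x0 x = ((0 : W) : OnePoint W) → x = (x0 : OnePoint V) := by
    intro x hx
    induction x using OnePoint.rec with
    | infty => simp at hx
    | coe v =>
      rw [affC_apply, OnePoint.map_some, OnePoint.coe_eq_coe] at hx
      have : v - x0 = 0 := by
        have := congrArg L.symm hx
        simpa using this
      rw [sub_eq_zero.1 this]
  let F0 : C(OnePoint V, OnePoint W) := ⟨_, hdvcont f huniq⟩
  let F1 : C(OnePoint V, OnePoint W) := ⟨_, hdvcont (affC L x0) haff⟩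
  have e0 : f.HomotopicRel F0 {∞} := homotopic_dv f hinf x0 huniq hδ F0 fun x => rfl
  have e1 : (affC L x0).HomotopicRel F1 {∞} :=
    homotopic_dv (affC L x0) (by simp) x0 haff hδ F1 fun x => rfl
  -- the straight line homotopy
  have e2 : F0.HomotopicRel F1 {∞} := by
    let G : unitInterval × OnePoint V → OnePoint W := fun p =>
      p.2.elim ∞ (fun v => dv (((1 - (p.1 : ℝ)) • g v + (p.1 : ℝ) • L (v - x0) : W) : OnePoint W)
        (bump x0 δ (v : OnePoint V)))
    have hGout : ∀ (t : unitInterval) (x : OnePoint V), bump x0 δ x = 0 → G (t, x) = ∞ := by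
      intro t x hx
      induction x using OnePoint.rec with
      | infty => rfl
      | coe v =>
        show dv _ (bump x0 δ (v : OnePoint V)) = ∞
        rw [hx, dv_zero]
    have hGcont : Continuous G := by
      -- two closed sets
      let A : Set (unitInterval × OnePoint V) :=
        univ ×ˢ (((↑) : V → OnePoint V) '' Metric.closedBall x0 δ)
      let B : Set (unitInterval × OnePoint V) := {p | bump x0 δ p.2 = 0}
      have hA : IsClosed A := isClosed_univ.prod
        (((isCompact_closedBall x0 δ).image OnePoint.continuous_coe).isClosed)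
      have hB : IsClosed B := isClosed_eq (hb.comp continuous_snd) continuous_const
      have hAB : A ∪ B = univ := by
        rw [eq_univ_iff_forall]
        rintro ⟨t, x⟩
        induction x using OnePoint.rec with
        | infty => right; rfl
        | coe v =>
          by_cases hv : ‖v - x0‖ ≤ δ
          · left
            exact ⟨trivial, v, by simpa [dist_eq_norm] using hv, rfl⟩
          · right
            exact (bump_eq_zero hδ).2 (not_le.1 hv).le
      have hGA : ContinuousOn G A := by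
        have h1 : ContinuousOn (fun p : unitInterval × V =>
            dv (((1 - (p.1 : ℝ)) • g p.2 + (p.1 : ℝ) • L (p.2 - x0) : W) : OnePoint W)
              (bump x0 δ (p.2 : OnePoint V))) (univ ×ˢ Metric.closedBall x0 δ) := by
          rintro ⟨t, v⟩ ⟨-, hv⟩
          have hv' : ‖v - x0‖ ≤ δ := by simpa [dist_eq_norm] using hv
          have h2 : ContinuousWithinAt (fun p : unitInterval × V =>
              ((((1 - (p.1 : ℝ)) • g p.2 + (p.1 : ℝ) • L (p.2 - x0) : W) : OnePoint W),
                bump x0 δ (p.2 : OnePoint V))) (univ ×ˢ Metric.closedBall x0 δ) (t, v) := by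
            refine ContinuousWithinAt.prodMk ?_ ?_
            · refine OnePoint.continuous_coe.continuousAt.comp_continuousWithinAt ?_
              have h3 : ContinuousWithinAt (fun p : unitInterval × V => g p.2)
                  (univ ×ˢ Metric.closedBall x0 δ) (t, v) :=
                (hgc v hv).comp (t := Metric.closedBall x0 δ) continuousWithinAt_snd
                  (fun p hp => hp.2)
              have h4 : ContinuousWithinAt (fun p : unitInterval × V => (1 - (p.1 : ℝ)))
                  (univ ×ˢ Metric.closedBall x0 δ) (t, v) := by fun_prop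
              have h5 : ContinuousWithinAt (fun p : unitInterval × V =>
                  (p.1 : ℝ) • L (p.2 - x0)) (univ ×ˢ Metric.closedBall x0 δ) (t, v) := by fun_prop
              exact (h4.smul h3).add h5
            · exact ((hb.comp OnePoint.continuous_coe).comp continuous_snd).continuousWithinAt
          refine ContinuousAt.comp_continuousWithinAt_of_eq (continuousAt_dv
            (w := (((1 - (t : ℝ)) • g v + (t : ℝ) • L (v - x0) : W) : OnePoint W))
            (μ := bump x0 δ (v : OnePoint V)) ?_) h2 rfl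
          intro hz h0
          rw [bump_eq_zero hδ] at hz
          rw [OnePoint.coe_eq_coe] at h0
          refine hseg v ?_ hv' t t.2 h0
          rintro rfl
          simp at hz
          linarith
        rintro ⟨t, x⟩ ⟨-, v, hv, rfl⟩
        have hemb : IsOpenEmbedding (Prod.map (id : unitInterval → unitInterval)
          ((↑) : V → OnePoint V)) := IsOpenEmbedding.id.prodMap OnePoint.isOpenEmbedding_coe
        have h6 := h1 (t, v) ⟨trivial, hv⟩
        have hset : (Prod.map (id : unitInterval → unitInterval) ((↑) : V → OnePoint V)) ⁻¹' A =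
            univ ×ˢ Metric.closedBall x0 δ := by
          ext ⟨s, z⟩
          constructor
          · rintro ⟨-, z', hz', hzz⟩
            have hzz' : z' = z := OnePoint.coe_injective hzz
            subst hzz'
            exact ⟨trivial, hz'⟩
          · rintro ⟨-, hz⟩
            exact ⟨trivial, z, hz, rfl⟩
        show Tendsto G (𝓝[A] _) _
        have h7 : 𝓝[A] ((t, (v : OnePoint V)) : unitInterval × OnePoint V) =
            Filter.map (Prod.map (id : unitInterval → unitInterval) ((↑) : V → OnePoint V))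
              (𝓝[univ ×ˢ Metric.closedBall x0 δ] (t, v)) := by
          rw [← hset, hemb.isEmbedding.map_nhdsWithin_eq, image_preimage_eq_inter_range,
            nhdsWithin_inter_of_mem']
          · rfl
          · exact mem_nhdsWithin_of_mem_nhds (hemb.isOpen_range.mem_nhds ⟨(t, v), rfl⟩)
        rw [h7, tendsto_map'_iff]
        exact h6
      have hGB : ContinuousOn G B := by
        have : EqOn G (fun _ => ∞) B := fun p hp => hGout p.1 p.2 hp
        exact continuousOn_const.congr this
      have := hGA.union_of_isClosed hGB hA hB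
      rw [hAB] at this
      exact continuousOn_univ.1 this
    refine ⟨⟨⟨⟨G, hGcont⟩, ?_, ?_⟩, ?_⟩⟩
    · intro x
      show G (0, x) = dv (f x) (bump x0 δ x)
      by_cases hx : bump x0 δ x = 0
      · rw [hGout _ _ hx, hx, dv_zero]
      · induction x using OnePoint.rec with
        | infty => exact absurd rfl hx
        | coe v =>
          have hv : ‖v - x0‖ ≤ δ := by
            by_contra h
            exact hx ((bump_eq_zero hδ).2 (not_le.1 h).le)
          show dv _ _ = _
          rw [hg v hv]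
          simp
    · intro x
      show G (1, x) = dv (affC L x0 x) (bump x0 δ x)
      induction x using OnePoint.rec with
      | infty => simp [G]
      | coe v =>
        show dv _ _ = _
        simp
    · rintro t x hx
      rw [mem_singleton_iff] at hx
      subst hx
      show G (t, ∞) = dv (f ∞) _
      rw [hinf, dv_infty]
      rfl
  exact ((e0.trans e2).trans e1.symm).trans (affC_homotopic L x0)

end sign

end Crest.Agent.R090.Deg513
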