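import Mathlib

/-!
# Row 90, T1: pointed compact Hausdorff spaces in the form `OnePoint U` (owner helper962)

* `sm : OnePoint U × OnePoint V → OnePoint (U × V)` the collapse map onto the smash product;
* `PMap U V` : continuous pointed maps `OnePoint U → OnePoint V`;
* `PMap.smash`, `PMap.comp`, homeomorphisms, collapses, wedge `⊕`.
-/

set_option autoImplicit false

open Topology Filter Set

namespace Crest.Agent.R090.Sp962

open OnePoint

universe u v w x

/-! ## the smash product of one point compactifications -/

section sm

variable {U : Type u} {V : Type v} {W : Type w} {Z : Type x}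

/-- `U⁺ × V⁺ → (U × V)⁺` -/
def sm (a : OnePoint U) (b : OnePoint V) : OnePoint (U × V) :=
  a.elim ∞ fun x => b.elim ∞ fun y => ((x, y) : U × V)

@[simp] theorem sm_coe (a : U) (b : V) : sm (a : OnePoint U) (b : OnePoint V) = ((a, b) : U × V) :=
  rfl

@[simp] theorem sm_inf_left (b : OnePoint V) : sm (∞ : OnePoint U) b = ∞ := rfl

@[simp] theorem sm_inf_right (a : OnePoint U) : sm a (∞ : OnePoint V) = ∞ := by
  induction a using OnePoint.rec with
  | infty => rfl
  | coe a => rfl

theorem sm_eq_inf {a : OnePoint U} {b : OnePoint V} : sm a b = ∞ ↔ a = ∞ ∨ b = ∞ := by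
  induction a using OnePoint.rec with
  | infty => simp
  | coe a =>
    induction b using OnePoint.rec with
    | infty => simp
    | coe b => simp

theorem sm_eq_coe {a : OnePoint U} {b : OnePoint V} {p : U × V} :
    sm a b = (p : OnePoint (U × V)) ↔ a = (p.1 : OnePoint U) ∧ b = (p.2 : OnePoint V) := by
  induction a using OnePoint.rec with
  | infty => simp
  | coe a =>
    induction b using OnePoint.rec with
    | infty => simp
    | coe b =>
      obtain ⟨c, d⟩ := p
      simp [Prod.ext_iff]

theorem sm_surjective : Function.Surjective (fun p : OnePoint U × OnePoint V => sm p.1 p.2) := by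
  intro q
  induction q using OnePoint.rec with
  | infty => exact ⟨(∞, ∞), rfl⟩
  | coe q => exact ⟨(q.1, q.2), rfl⟩

variable [TopologicalSpace U] [TopologicalSpace V] [TopologicalSpace W] [TopologicalSpace Z]

theorem continuous_sm [T2Space U] [T2Space V] :
    Continuous (fun p : OnePoint U × OnePoint V => sm p.1 p.2) := by
  rw [continuous_iff_continuousAt]
  have key : ∀ p : OnePoint U × OnePoint V, (p.1 = ∞ ∨ p.2 = ∞) →
      ContinuousAt (fun p : OnePoint U × OnePoint V => sm p.1 p.2) p := by
    intro p hp
    have h0 : sm p.1 p.2 = ∞ := sm_eq_inf.2 hp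
    rw [ContinuousAt, h0, hasBasis_nhds_infty.tendsto_right_iff]
    rintro K ⟨_, hK⟩
    have hK1 : IsCompact (Prod.fst '' K) := hK.image continuous_fst
    have hK2 : IsCompact (Prod.snd '' K) := hK.image continuous_snd
    have h1 : IsOpen ((↑) '' (Prod.fst '' K) : Set (OnePoint U))ᶜ :=
      isOpen_compl_image_coe.2 ⟨hK1.isClosed, hK1⟩
    have h2 : IsOpen ((↑) '' (Prod.snd '' K) : Set (OnePoint V))ᶜ :=
      isOpen_compl_image_coe.2 ⟨hK2.isClosed, hK2⟩
    have hmain : ∀ q : OnePoint U × OnePoint V,
        (q.1 ∈ ((↑) '' (Prod.fst '' K) : Set (OnePoint U))ᶜ ∨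
          q.2 ∈ ((↑) '' (Prod.snd '' K) : Set (OnePoint V))ᶜ) →
        sm q.1 q.2 ∈ ((↑) '' Kᶜ ∪ {∞} : Set (OnePoint (U × V))) := by
      rintro ⟨a, b⟩ h
      induction a using OnePoint.rec with
      | infty => simp
      | coe a =>
        induction b using OnePoint.rec with
        | infty => simp
        | coe b =>
          left
          refine ⟨(a, b), ?_, rfl⟩
          intro hab
          rcases h with h | h
          · exact h ⟨a, ⟨(a, b), hab, rfl⟩, rfl⟩
          · exact h ⟨b, ⟨(a, b), hab, rfl⟩, rfl⟩
    rcases hp with hp | hp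
    · have : (p.1 : OnePoint U) ∈ ((↑) '' (Prod.fst '' K) : Set (OnePoint U))ᶜ := by
        rw [hp]; exact infty_notMem_image_coe
      filter_upwards [(h1.preimage continuous_fst).mem_nhds this] with q hq
      exact hmain q (Or.inl hq)
    · have : (p.2 : OnePoint V) ∈ ((↑) '' (Prod.snd '' K) : Set (OnePoint V))ᶜ := by
        rw [hp]; exact infty_notMem_image_coe
      filter_upwards [(h2.preimage continuous_snd).mem_nhds this] with q hq
      exact hmain q (Or.inr hq)
  rintro ⟨a, b⟩
  induction a using OnePoint.rec with
  | infty => exact key _ (Or.inl rfl)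
  | coe a =>
    induction b using OnePoint.rec with
    | infty => exact key _ (Or.inr rfl)
    | coe b =>
      have he : IsOpenEmbedding (Prod.map ((↑) : U → OnePoint U) ((↑) : V → OnePoint V)) :=
        isOpenEmbedding_coe.prodMap isOpenEmbedding_coe
      have : ContinuousAt ((fun p : OnePoint U × OnePoint V => sm p.1 p.2) ∘
          (Prod.map ((↑) : U → OnePoint U) ((↑) : V → OnePoint V))) (a, b) := by
        have e : ((fun p : OnePoint U × OnePoint V => sm p.1 p.2) ∘
          (Prod.map ((↑) : U → OnePoint U) ((↑) : V → OnePoint V))) =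
            ((↑) : U × V → OnePoint (U × V)) := rfl
        rw [e]
        exact continuous_coe.continuousAt
      exact he.continuousAt_iff.1 this

theorem _root_.Continuous.sm962 [T2Space U] [T2Space V] {f : Z → OnePoint U} {g : Z → OnePoint V}
    (hf : Continuous f) (hg : Continuous g) : Continuous (fun z => sm (f z) (g z)) :=
  continuous_sm.comp (hf.prodMk hg)

variable [T2Space U] [LocallyCompactSpace U] [T2Space V] [LocallyCompactSpace V]

theorem isQuotientMap_sm :
    IsQuotientMap (fun p : OnePoint U × OnePoint V => sm p.1 p.2) :=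
  continuous_sm.isClosedMap.isQuotientMap continuous_sm sm_surjective

/-- continuity of a map out of the smash product -/
theorem continuous_of_sm {Y : Type*} [TopologicalSpace Y] {g : OnePoint (U × V) → Y}
    (h : Continuous (fun p : OnePoint U × OnePoint V => g (sm p.1 p.2))) : Continuous g :=
  isQuotientMap_sm.continuous_iff.2 h

/-- continuity of a map out of `K × (U × V)⁺` -/
theorem continuous_of_sm' {K : Type*} [TopologicalSpace K] [T2Space K] [CompactSpace K]
    {Y : Type*} [TopologicalSpace Y] {g : K × OnePoint (U × V) → Y}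
    (h : Continuous (fun p : K × (OnePoint U × OnePoint V) => g (p.1, sm p.2.1 p.2.2))) :
    Continuous g := by
  have hc : Continuous (fun p : K × (OnePoint U × OnePoint V) => (p.1, sm p.2.1 p.2.2)) :=
    continuous_fst.prodMk (continuous_sm.comp continuous_snd)
  have hs : Function.Surjective
      (fun p : K × (OnePoint U × OnePoint V) => (p.1, sm p.2.1 p.2.2)) := by
    rintro ⟨k, q⟩
    obtain ⟨p, hp⟩ := sm_surjective q
    exact ⟨(k, p), by simpa using hp⟩
  exact (hc.isClosedMap.isQuotientMap hc hs).continuous_iff.2 h

end sm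

/-! ## pointed maps -/

/-- pointed continuous maps `OnePoint U → OnePoint V` -/
structure PMap (U : Type u) (V : Type v) [TopologicalSpace U] [TopologicalSpace V] where
  /-- the map -/
  toFun : OnePoint U → OnePoint V
  cont : Continuous toFun
  map_inf : toFun ∞ = ∞

namespace PMap

variable {U : Type u} {V : Type v} {W : Type w} {X : Type x}
variable [TopologicalSpace U] [TopologicalSpace V] [TopologicalSpace W] [TopologicalSpace X]

instance : CoeFun (PMap U V) (fun _ => OnePoint U → OnePoint V) := ⟨PMap.toFun⟩

attribute [simp] PMap.map_inf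

@[ext] theorem ext {f g : PMap U V} (h : ∀ x : U, f x = g x) : f = g := by
  cases f with | mk f hf f0 =>
  cases g with | mk g hg g0 =>
  congr
  funext x
  induction x using OnePoint.rec with
  | infty => exact f0.trans g0.symm
  | coe x => exact h x

theorem continuous (f : PMap U V) : Continuous f := f.cont

/-- the underlying continuous map -/
def toC (f : PMap U V) : C(OnePoint U, OnePoint V) := ⟨f, f.cont⟩

@[simp] theorem toC_apply (f : PMap U V) (x : OnePoint U) : f.toC x = f x := rfl

/-- identity -/
protected def id (U : Type u) [TopologicalSpace U] : PMap U U := ⟨fun x => x, continuous_id, rfl⟩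

@[simp] theorem id_apply (x : OnePoint U) : PMap.id U x = x := rfl

/-- composition -/
def comp (g : PMap V W) (f : PMap U V) : PMap U W :=
  ⟨fun x => g (f x), g.cont.comp f.cont, by simp⟩

@[simp] theorem comp_apply (g : PMap V W) (f : PMap U V) (x : OnePoint U) :
    g.comp f x = g (f x) := rfl

@[simp] theorem comp_id (f : PMap U V) : f.comp (PMap.id U) = f := rfl
@[simp] theorem id_comp (f : PMap U V) : (PMap.id V).comp f = f := rfl
theorem comp_assoc (h : PMap W X) (g : PMap V W) (f : PMap U V) :
    (h.comp g).comp f = h.comp (g.comp f) := rfl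

/-- constant map -/
def zero (U : Type u) (V : Type v) [TopologicalSpace U] [TopologicalSpace V] : PMap U V :=
  ⟨fun _ => ∞, continuous_const, rfl⟩

@[simp] theorem zero_apply (x : OnePoint U) : zero U V x = ∞ := rfl

/-- pointed map from a partial map on `U` with limit `∞` at infinity -/
def ofFun (f : U → OnePoint V) (hf : Continuous f) (h : Tendsto f (coclosedCompact U) (𝓝 ∞)) :
    PMap U V where
  toFun x := x.elim ∞ f
  cont := (OnePoint.continuous_iff _).2 ⟨h, hf⟩
  map_inf := rfl

@[simp] theorem ofFun_coe (f : U → OnePoint V) (hf : Continuous f)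
    (h : Tendsto f (coclosedCompact U) (𝓝 ∞)) (x : U) : ofFun f hf h x = f x := rfl

/-- a homeomorphism -/
def ofHomeo (e : U ≃ₜ V) : PMap U V where
  toFun := OnePoint.map e
  cont := e.onePointCongr.continuous
  map_inf := rfl

@[simp] theorem ofHomeo_coe (e : U ≃ₜ V) (x : U) : ofHomeo e x = (e x : OnePoint V) := rfl

theorem ofHomeo_comp (e : U ≃ₜ V) (e' : V ≃ₜ W) :
    (ofHomeo e').comp (ofHomeo e) = ofHomeo (e.trans e') := PMap.ext fun _ => rfl

@[simp] theorem ofHomeo_refl : ofHomeo (Homeomorph.refl U) = PMap.id U := PMap.ext fun _ => rfl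

@[simp] theorem ofHomeo_symm_comp (e : U ≃ₜ V) : (ofHomeo e.symm).comp (ofHomeo e) = PMap.id U :=
  PMap.ext fun x => by simp

@[simp] theorem ofHomeo_comp_symm (e : U ≃ₜ V) : (ofHomeo e).comp (ofHomeo e.symm) = PMap.id V :=
  PMap.ext fun x => by simp

/-- inclusion of a closed subspace -/
def ofClosed (e : U → V) (he : IsClosedEmbedding e) : PMap U V where
  toFun := OnePoint.map e
  cont := continuous_map he.continuous (by
    rw [hasBasis_coclosedCompact.tendsto_iff hasBasis_coclosedCompact]
    rintro K ⟨hK, hK'⟩
    refine ⟨e ⁻¹' K, ⟨hK.preimage he.continuous, he.isCompact_preimage hK'⟩, fun x hx => hx⟩)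
  map_inf := rfl

@[simp] theorem ofClosed_coe (e : U → V) (he : IsClosedEmbedding e) (x : U) :
    ofClosed e he x = (e x : OnePoint V) := rfl

open Classical in
/-- collapse onto an open subspace -/
noncomputable def collapse (e : U → V) (_he : IsOpenEmbedding e) : OnePoint V → OnePoint U :=
  fun y => if h : ∃ x, y = (e x : OnePoint V) then (h.choose : OnePoint U) else ∞

theorem collapse_coe (e : U → V) (he : IsOpenEmbedding e) (x : U) :
    collapse e he (e x : OnePoint V) = x := by
  have h : ∃ x', ((e x : V) : OnePoint V) = (e x' : OnePoint V) := ⟨x, rfl⟩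
  rw [collapse, dif_pos h]
  have := h.choose_spec
  exact congrArg _ (he.injective (coe_injective this)).symm

theorem collapse_inf (e : U → V) (he : IsOpenEmbedding e) :
    collapse e he ∞ = ∞ := by
  rw [collapse, dif_neg]
  rintro ⟨x, hx⟩
  exact (coe_ne_infty _) hx.symm

theorem collapse_of_notMem (e : U → V) (he : IsOpenEmbedding e) {y : V} (hy : y ∉ range e) :
    collapse e he (y : OnePoint V) = ∞ := by
  rw [collapse, dif_neg]
  rintro ⟨x, hx⟩
  exact hy ⟨x, (coe_injective hx).symm⟩

theorem collapse_eq_coe (e : U → V) (he : IsOpenEmbedding e) {y : OnePoint V} {x : U} :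
    collapse e he y = (x : OnePoint U) ↔ y = (e x : OnePoint V) := by
  constructor
  · intro h
    rw [collapse] at h
    split_ifs at h with h'
    · have := h'.choose_spec
      rw [coe_eq_coe] at h
      rw [← h]; exact this
    · exact absurd h.symm (coe_ne_infty _)
  · rintro rfl
    exact collapse_coe e he x

theorem continuous_collapse [T2Space V] (e : U → V) (he : IsOpenEmbedding e) :
    Continuous (collapse e he) := by
  have himg : ∀ s : Set U, (collapse e he) ⁻¹' ((↑) '' s) = (↑) '' (e '' s) := by
    intro s
    ext y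
    simp only [mem_preimage, mem_image]
    constructor
    · rintro ⟨x, hx, h⟩
      exact ⟨e x, ⟨x, hx, rfl⟩, ((collapse_eq_coe e he).1 h.symm).symm⟩
    · rintro ⟨_, ⟨x, hx, rfl⟩, rfl⟩
      exact ⟨x, hx, (collapse_coe e he x).symm⟩
  rw [continuous_def]
  intro s hs
  by_cases h : ∞ ∈ s
  · have h1 := (isOpen_iff_of_mem h).1 hs
    have h2 : s = ((↑) '' ((↑) ⁻¹' s : Set U)ᶜ)ᶜ := by
      rw [compl_image_coe, compl_compl, image_preimage_eq_inter_range]
      ext y
      induction y using OnePoint.rec with
      | infty => simp [h]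
      | coe y => simp
    rw [h2, preimage_compl, himg, isOpen_compl_iff, isClosed_image_coe]
    have h3 : IsCompact (e '' ((↑) ⁻¹' s : Set U)ᶜ) := h1.2.image he.continuous
    exact ⟨h3.isClosed, h3⟩
  · have h1 : IsOpen ((↑) ⁻¹' s : Set U) := (isOpen_iff_of_notMem h).1 hs
    have h2 : s = (↑) '' ((↑) ⁻¹' s : Set U) := by
      rw [image_preimage_eq_inter_range]
      ext y
      induction y using OnePoint.rec with
      | infty => simp [h]
      | coe y => simp
    rw [h2, himg, isOpen_image_coe]
    exact he.isOpenMap _ h1

/-- collapse onto an open subspace, `V⁺ → U⁺` -/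
noncomputable def ofOpen [T2Space V] (e : U → V) (he : IsOpenEmbedding e) : PMap V U :=
  ⟨collapse e he, continuous_collapse e he, collapse_inf e he⟩

theorem ofOpen_coe [T2Space V] (e : U → V) (he : IsOpenEmbedding e) (x : U) :
    ofOpen e he (e x : OnePoint V) = x := collapse_coe e he x

theorem ofOpen_of_notMem [T2Space V] (e : U → V) (he : IsOpenEmbedding e) {y : V}
    (hy : y ∉ range e) : ofOpen e he (y : OnePoint V) = ∞ := collapse_of_notMem e he hy

/-! ### smash product of maps -/

section smash

variable {U' : Type*} {V' : Type*} {W' : Type*}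
  [TopologicalSpace U'] [TopologicalSpace V'] [TopologicalSpace W']
  [T2Space U] [LocallyCompactSpace U] [T2Space V] [T2Space W]
  [T2Space U'] [LocallyCompactSpace U'] [T2Space V'] [T2Space W']

/-- smash product of pointed maps -/
def smash (f : PMap U V) (g : PMap U' V') : PMap (U × U') (V × V') where
  toFun x := x.elim ∞ fun p => sm (f p.1) (g p.2)
  cont := by
    refine continuous_of_sm ?_
    have : (fun p : OnePoint U × OnePoint U' =>
        (sm p.1 p.2).elim ∞ fun p => sm (f p.1) (g p.2)) =
        fun p : OnePoint U × OnePoint U' => sm (f p.1) (g p.2) := by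
      funext p
      obtain ⟨a, b⟩ := p
      induction a using OnePoint.rec with
      | infty => simp
      | coe a =>
        induction b using OnePoint.rec with
        | infty => simp
        | coe b => rfl
    rw [this]
    exact (f.cont.comp continuous_fst).sm962 (g.cont.comp continuous_snd)
  map_inf := rfl

@[simp] theorem smash_coe (f : PMap U V) (g : PMap U' V') (x : U) (y : U') :
    f.smash g ((x, y) : U × U') = sm (f x) (g y) := rfl

@[simp] theorem smash_sm (f : PMap U V) (g : PMap U' V') (x : OnePoint U) (y : OnePoint U') :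
    f.smash g (sm x y) = sm (f x) (g y) := by
  induction x using OnePoint.rec with
  | infty => simp
  | coe a =>
    induction y using OnePoint.rec with
    | infty => simp
    | coe b => rfl

theorem smash_comp [LocallyCompactSpace V] [LocallyCompactSpace V'] (f : PMap U V) (g : PMap U' V')
    (f' : PMap V W) (g' : PMap V' W') :
    (f'.smash g').comp (f.smash g) = (f'.comp f).smash (g'.comp g) := by
  refine PMap.ext fun x => ?_
  obtain ⟨a, b⟩ := x
  simp

@[simp] theorem smash_id : (PMap.id U).smash (PMap.id U') = PMap.id (U × U') :=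
  PMap.ext fun _ => rfl

theorem smash_ofHomeo (e : U ≃ₜ V) (e' : U' ≃ₜ V') :
    (ofHomeo e).smash (ofHomeo e') = ofHomeo (e.prodCongr e') := PMap.ext fun _ => rfl

@[simp] theorem smash_zero_left (g : PMap U' V') : (zero U V).smash g = zero _ _ :=
  PMap.ext fun _ => rfl

@[simp] theorem smash_zero_right (f : PMap U V) : f.smash (zero U' V') = zero _ _ :=
  PMap.ext fun x => by obtain ⟨a, b⟩ := x; simp

end smash

end PMap

end Crest.Agent.R090.Sp962
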