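import Mathlib
import Crest.Prelude.Def_TorusSlots
import Crest.Agent.R090.Sp_962

/-!
# Row 90, block T5 (unstable part): literal definitions (architect helper758)

Everything here is a definition (or an `rfl`-type lemma); the leaves are

* `SI`  : the ONLY output that T5 wants from the stable side;
* `ThetaInput` : output of leaf T5-1 (HEP cut);
* `PhiInput`   : output of leaf T5-2 (C^* coordinates);
* `GroupMap`   : output of leaves T5-1..3 (self maps of `E⁺`, homotopic to the identity);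
* `UnstableInput` : helper843's literal input for the final assembly of S0119.
-/

set_option autoImplicit false

open Topology Filter Set

namespace Crest.Agent.R090.T5

open OnePoint Crest.Agent.R090.Sp962 Crest.OpAlg

/-- the torus of one block -/
abbrev TT (p n : ℕ) : Type := Fin n → Fin (2 * p) → Circle

/-- the circle coordinates of `u` blocks -/
abbrev Idx (p n u : ℕ) : Type := Fin u × Fin n × Fin (2 * p)

/-- torus collapse `T^ι → (ℝ^ι)⁺`, `e^{iφ} ↦ tan (φ/2)`, `∞` as soon as one coordinate is `-1` -/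
noncomputable def tc {ι : Type*} (w : ι → Circle) : OnePoint (ι → ℝ) :=
  open Classical in
  if ∃ i, (w i : ℂ) = -1 then ∞
  else ((fun i => (w i : ℂ).im / (1 + (w i : ℂ).re) : ι → ℝ) : OnePoint (ι → ℝ))

/-- all circle coordinates of a family of block points -/
def allCoord {p n u : ℕ} {Y : Type*} (x : Fin u → Y × TT p n) : Idx p n u → Circle :=
  fun q => (x q.1).2 q.2.1 q.2.2

/-- `κ|B : B⁺ ∧ S^l → (V × ℝ^l)⁺` is null homotopic (pointed) -/
def NullOn {X V : Type*} [TopologicalSpace X] [TopologicalSpace V] (B : Set X)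
    (κ : X → OnePoint V) (l : ℕ) : Prop :=
  ∃ h : B × (Fin l → ℝ) × unitInterval → OnePoint (V × (Fin l → ℝ)),
    Continuous h ∧ Tendsto h (cocompact _) (𝓝 ∞) ∧
    (∀ b s, h (b, s, 0) = sm (κ b) ((s : (Fin l → ℝ)) : OnePoint (Fin l → ℝ))) ∧
    (∀ b s, h (b, s, 1) = ∞)

/-- families of `u` block points with at least `m` of them in `Z` -/
def Bad {p n : ℕ} {Y : Type*} (Z : Set (Y × TT p n)) (u m : ℕ) : Set (Fin u → Y × TT p n) :=
  {x | m ≤ ({b | x b ∈ Z} : Set (Fin u)).ncard}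

/-- THE STABLE INPUT -/
def SI (p n : ℕ) (a : ℝ) {Y : Type*} [TopologicalSpace Y]
    (f : Y → Fin n → Fin (2 * p + 1) → ℝ) : Prop :=
  ∃ Z : Set (Y × TT p n), IsClosed Z ∧ torusLocus p n (a * n) f ⊆ interior Z ∧
    ∃ u m l : ℕ, 0 < u ∧ 2 * m ≤ u ∧
      NullOn (Bad Z u m) (fun x => tc (allCoord x)) l

/-- output of T5-1 -/
def ThetaInput (p n : ℕ) (a : ℝ) {Y : Type*} [TopologicalSpace Y]
    (f : Y → Fin n → Fin (2 * p + 1) → ℝ) (u m l : ℕ) : Prop :=
  ∃ Θ : (Fin u → Y) × (Idx p n u → Circle) × (Fin l → ℝ) × unitInterval →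
      OnePoint ((Idx p n u → ℝ) × (Fin l → ℝ)),
    Continuous Θ ∧ Tendsto Θ (cocompact _) (𝓝 ∞) ∧
    (∀ y W s, Θ (y, W, s, 0) = sm (tc W) ((s : (Fin l → ℝ)) : OnePoint (Fin l → ℝ))) ∧
    (∀ y W s, m ≤ ({b | (y b, fun j k => W (b, j, k)) ∈ torusLocus p n (a * n) f} :
        Set (Fin u)).ncard → Θ (y, W, s, 1) = ∞)

/-- the suspension coordinates of a group of `u` blocks -/
abbrev EE (p n u l : ℕ) : Type := (Idx p n u → ℂ) × (Fin l → ℝ)

/-- the radial projection `ℂ → S¹` (junk value `1` at `0`) -/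
noncomputable def rad (w : ℂ) : Circle :=
  open Classical in
  if h : w = 0 then 1 else
    ⟨w / (‖w‖ : ℂ), by
      change w / (‖w‖ : ℂ) ∈ Metric.sphere (0 : ℂ) 1
      rw [mem_sphere_zero_iff_norm, norm_div, Complex.norm_real, norm_norm]
      exact div_self (norm_ne_zero_iff.2 h)⟩

/-- the torus point read off from the suspension coordinates -/
noncomputable def wpt {p n u l : ℕ} (x : EE p n u l) : Fin u → TT p n :=
  fun b j k => rad (x.1 (b, j, k))

/-- output of T5-2: `φ 0` is the standard map, `φ 1` is `∞` off the good set -/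
def PhiInput (p n : ℕ) (a : ℝ) {Y : Type*} [TopologicalSpace Y]
    (f : Y → Fin n → Fin (2 * p + 1) → ℝ) (u m l : ℕ) : Prop :=
  ∃ φ : (Fin u → Y) × unitInterval × OnePoint (EE p n u l) → OnePoint (EE p n u l),
    Continuous φ ∧ (∀ y τ, φ (y, τ, ∞) = ∞) ∧
    (∀ y (x : EE p n u l), φ (y, 0, x) =
      (open Classical in
        if ∃ i, x.1 i = 0 ∨ (rad (x.1 i) : ℂ) = -1 then (∞ : OnePoint (EE p n u l))
        else ((fun i => ⟨Real.log ‖x.1 i‖,
          (rad (x.1 i) : ℂ).im / (1 + (rad (x.1 i) : ℂ).re)⟩, x.2) : EE p n u l))) ∧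
    (∀ y (x : EE p n u l), φ (y, 1, x) ≠ ∞ →
      (∀ i, x.1 i ≠ 0) ∧
      ({b | (y b, wpt x b) ∈ torusLocus p n (a * n) f} : Set (Fin u)).ncard < m)

/-- output of T5-1..3: a self map of `E⁺`, homotopic to the identity, finite only at good points -/
def GroupMap (p n : ℕ) (a : ℝ) {Y : Type*} [TopologicalSpace Y]
    (f : Y → Fin n → Fin (2 * p + 1) → ℝ) (u m l : ℕ) : Prop :=
  ∃ H : (Fin u → Y) × unitInterval × OnePoint (EE p n u l) → OnePoint (EE p n u l),
    Continuous H ∧ (∀ y τ, H (y, τ, ∞) = ∞) ∧ (∀ y x, H (y, 1, x) = x) ∧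
    (∀ y (x : EE p n u l), H (y, 0, x) ≠ ∞ →
      (∀ i, x.1 i ≠ 0) ∧
      ({b | (y b, wpt x b) ∈ torusLocus p n (a * n) f} : Set (Fin u)).ncard < m)

/-- helper843's literal input -/
def UnstableInput (p n : ℕ) (a : ℝ) {Y : Type*} [TopologicalSpace Y]
    (f : Y → Fin n → Fin (2 * p + 1) → ℝ) : Prop :=
  ∃ l : ℕ, ∀ U : ℕ, ∃ u : ℕ, U ≤ u ∧ ∃ k : ℕ, k ≤ (2 * p + 1) * n * u + l ∧
    ∃ (g : (Fin u → Y) × (Fin k → ℝ) → (Fin k → ℝ))
      (c : (Fin u → Y) × (Fin k → ℝ) → (Fin u → Fin n → Fin (2 * p) → Circle)),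
      Continuous g ∧ (∃ R : ℝ, ∀ y x, R ≤ ‖x‖ → g (y, x) = x) ∧
      (∃ δ : ℝ, 0 < δ ∧ ContinuousOn c {q | ‖g q‖ < δ}) ∧
      ∀ y x, g (y, x) = 0 → (u : ℝ) / 2 ≤
        (({b | (y b, c (y, x) b) ∉ Crest.OpAlg.torusLocus p n (a * n) f} :
          Set (Fin u)).ncard : ℝ)

end Crest.Agent.R090.T5
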