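import Mathlib
import Crest.Prelude.Def_TorusSlots
import Crest.Agent.R090.T5Defs_758
import Crest.Agent.R090.Deg_513

/-!
# Row 90, leaf BOTT (helper513)

`stz : ℝ³ ∖ 0 → ℂ⁺` (ratio coordinate of the line `range (1 + x̂·σ)/2`), the Bott map
`T² → ℂ⁺` is homotopic to the torus collapse `(e^{iφ}, e^{iψ}) ↦ tan (φ/2) + i tan (ψ/2)`;
finite smash products.
-/

set_option autoImplicit false

open Topology Filter Set

namespace Crest.Agent.R090.Bott513

open OnePoint Crest.Agent.R090.Sp962 Crest.OpAlg Crest.Agent.R090.Deg513 Crest.Agent.R090.T5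

/-- euclidean norm on `ℝ³` as in `bottProj` -/
noncomputable def nr (x : Fin 3 → ℝ) : ℝ := Real.sqrt (x 0 ^ 2 + x 1 ^ 2 + x 2 ^ 2)

theorem nr_nonneg (x : Fin 3 → ℝ) : 0 ≤ nr x := Real.sqrt_nonneg _

theorem sq_nr (x : Fin 3 → ℝ) : nr x ^ 2 = x 0 ^ 2 + x 1 ^ 2 + x 2 ^ 2 :=
  Real.sq_sqrt (by positivity)

theorem continuous_nr : Continuous nr := by
  unfold nr
  fun_prop

theorem nr_pos {x : Fin 3 → ℝ} (hx : x ≠ 0) : 0 < nr x := by
  rcases eq_or_lt_of_le (nr_nonneg x) with h | h
  · exfalso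
    apply hx
    have h1 := sq_nr x
    rw [← h] at h1
    have e0 : x 0 = 0 := by nlinarith [sq_nonneg (x 0), sq_nonneg (x 1), sq_nonneg (x 2)]
    have e1 : x 1 = 0 := by nlinarith [sq_nonneg (x 0), sq_nonneg (x 1), sq_nonneg (x 2)]
    have e2 : x 2 = 0 := by nlinarith [sq_nonneg (x 0), sq_nonneg (x 1), sq_nonneg (x 2)]
    funext i
    fin_cases i <;> simp [e0, e1, e2]
  · exact h

theorem abs_le_nr (x : Fin 3 → ℝ) : |x 2| ≤ nr x := by
  apply Real.abs_le_sqrt
  nlinarith [sq_nonneg (x 0), sq_nonneg (x 1)]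

theorem nr_add_nonneg (x : Fin 3 → ℝ) : 0 ≤ nr x + x 2 := by
  have := (abs_le.1 (abs_le_nr x)).1
  linarith

/-- stereographic ratio coordinate -/
noncomputable def stz (x : Fin 3 → ℝ) : OnePoint ℂ :=
  open Classical in
  if nr x + x 2 = 0 then ∞
  else ((⟨x 0 / (nr x + x 2), x 1 / (nr x + x 2)⟩ : ℂ) : OnePoint ℂ)

theorem stz_of_ne {x : Fin 3 → ℝ} (h : nr x + x 2 ≠ 0) :
    stz x = ((⟨x 0 / (nr x + x 2), x 1 / (nr x + x 2)⟩ : ℂ) : OnePoint ℂ) := if_neg h

theorem stz_of_eq {x : Fin 3 → ℝ} (h : nr x + x 2 = 0) : stz x = ∞ := if_pos h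

/-- `stz` is continuous off `0` -/
theorem continuousAt_stz {x : Fin 3 → ℝ} (hx : x ≠ 0) : ContinuousAt stz x := by
  have hc : Continuous (fun x : Fin 3 → ℝ => nr x + x 2) := continuous_nr.add (continuous_apply 2)
  by_cases h : nr x + x 2 = 0
  · show Tendsto _ _ (𝓝 (stz x))
    rw [stz_of_eq h, tendsto_infty_iff]
    intro R
    -- near `x`, `nr - x 2` is bounded below by `c = nr x`
    have hpos := nr_pos hx
    have h1 : ∀ᶠ y in 𝓝 x, nr x < nr y - y 2 := by
      have : ContinuousAt (fun y : Fin 3 → ℝ => nr y - y 2) x :=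
        (continuous_nr.sub (continuous_apply 2)).continuousAt
      exact this.eventually (lt_mem_nhds (by linarith))
    have h2 : ∀ᶠ y in 𝓝 x, (|R| + 1) ^ 2 * (nr y + y 2) < nr x := by
      have : ContinuousAt (fun y : Fin 3 → ℝ => (|R| + 1) ^ 2 * (nr y + y 2)) x :=
        (continuous_const.mul hc).continuousAt
      exact this.eventually (gt_mem_nhds (by
        show (|R| + 1) ^ 2 * (nr x + x 2) < nr x
        rw [h, mul_zero]
        exact hpos))
    filter_upwards [h1, h2] with y hy1 hy2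
    by_cases h0 : nr y + y 2 = 0
    · rw [stz_of_eq h0]; exact far_infty R
    · rw [stz_of_ne h0]
      refine far_coe.2 ?_
      have hp : 0 < nr y + y 2 := lt_of_le_of_ne (nr_add_nonneg y) (Ne.symm h0)
      have hsq : ‖(⟨y 0 / (nr y + y 2), y 1 / (nr y + y 2)⟩ : ℂ)‖ ^ 2 =
          (nr y - y 2) / (nr y + y 2) := by
        rw [Complex.sq_norm, Complex.normSq_apply]
        have := sq_nr y
        field_simp
        nlinarith
      have h3 : (|R| + 1) ^ 2 < ‖(⟨y 0 / (nr y + y 2), y 1 / (nr y + y 2)⟩ : ℂ)‖ ^ 2 := by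
        rw [hsq, lt_div_iff₀ hp]
        linarith
      have h4 := lt_of_pow_lt_pow_left₀ 2 (norm_nonneg _) h3
      have := le_abs_self R
      linarith
  · have h1 : ContinuousAt (fun x : Fin 3 → ℝ =>
        ((⟨x 0 / (nr x + x 2), x 1 / (nr x + x 2)⟩ : ℂ) : OnePoint ℂ)) x := by
      refine OnePoint.continuous_coe.continuousAt.comp ?_
      have h2 : ContinuousAt (fun x : Fin 3 → ℝ =>
          (((x 0 / (nr x + x 2) : ℝ) : ℂ) + ((x 1 / (nr x + x 2) : ℝ) : ℂ) * Complex.I)) x := by
        have h3 : ContinuousAt (fun x : Fin 3 → ℝ => x 0 / (nr x + x 2)) x :=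
          (continuous_apply 0).continuousAt.div hc.continuousAt h
        have h4 : ContinuousAt (fun x : Fin 3 → ℝ => x 1 / (nr x + x 2)) x :=
          (continuous_apply 1).continuousAt.div hc.continuousAt h
        exact (Complex.continuous_ofReal.continuousAt.comp h3).add
          ((Complex.continuous_ofReal.continuousAt.comp h4).mul continuousAt_const)
      refine h2.congr (Eventually.of_forall fun y => ?_)
      exact (Complex.mk_eq_add_mul_I _ _).symm
    refine h1.congr ?_
    filter_upwards [hc.continuousAt.eventually_ne h] with y hy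
    rw [stz_of_ne hy]

theorem continuous_stz_comp {X : Type*} [TopologicalSpace X] {g : X → Fin 3 → ℝ}
    (hg : Continuous g) (h0 : ∀ x, g x ≠ 0) : Continuous (fun x => stz (g x)) :=
  continuous_iff_continuousAt.2 fun x => (continuousAt_stz (h0 x)).comp hg.continuousAt

/-- `stz` is invariant under positive scaling -/
theorem stz_smul {c : ℝ} (hc : 0 < c) (x : Fin 3 → ℝ) : stz (c • x) = stz x := by
  have h1 : nr (c • x) = c * nr x := by
    unfold nr
    have : (c • x) 0 ^ 2 + (c • x) 1 ^ 2 + (c • x) 2 ^ 2 =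
        c ^ 2 * (x 0 ^ 2 + x 1 ^ 2 + x 2 ^ 2) := by
      simp only [Pi.smul_apply, smul_eq_mul]; ring
    rw [this, Real.sqrt_mul (by positivity), Real.sqrt_sq hc.le]
  have h2 : nr (c • x) + (c • x) 2 = c * (nr x + x 2) := by
    rw [h1, Pi.smul_apply, smul_eq_mul]; ring
  by_cases h : nr x + x 2 = 0
  · rw [stz_of_eq h, stz_of_eq (by rw [h2, h, mul_zero])]
  · have h3 : nr (c • x) + (c • x) 2 ≠ 0 := by
      rw [h2]; exact mul_ne_zero hc.ne' h
    rw [stz_of_ne h, stz_of_ne h3, h2]
    simp only [Pi.smul_apply, smul_eq_mul]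
    rw [mul_div_mul_left _ _ hc.ne', mul_div_mul_left _ _ hc.ne']

/-- inverse stereographic projection `ℂ⁺ → ℝ³`, `v ↦ (2 re v, 2 im v, 1 - |v|²)/(1+|v|²)` -/
noncomputable def sg (v : OnePoint ℂ) : Fin 3 → ℝ :=
  v.elim ![0, 0, -1] (fun v => ![2 * v.re / (1 + ‖v‖ ^ 2), 2 * v.im / (1 + ‖v‖ ^ 2),
    (1 - ‖v‖ ^ 2) / (1 + ‖v‖ ^ 2)])

@[simp] theorem sg_infty : sg ∞ = ![0, 0, -1] := rfl

@[simp] theorem sg_coe (v : ℂ) : sg (v : OnePoint ℂ) = ![2 * v.re / (1 + ‖v‖ ^ 2),
    2 * v.im / (1 + ‖v‖ ^ 2), (1 - ‖v‖ ^ 2) / (1 + ‖v‖ ^ 2)] := rfl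

theorem continuous_sg : Continuous sg := by
  rw [continuous_iff_continuousAt]
  intro v
  induction v using OnePoint.rec with
  | infty =>
    show Tendsto _ _ (𝓝 (sg ∞))
    rw [sg_infty, Metric.tendsto_nhds]
    intro ε hε
    filter_upwards [eventually_far (W := ℂ) (2 / ε + 1)] with v hv
    induction v using OnePoint.rec with
    | infty => simpa using hε
    | coe v =>
      have h1 : 2 / ε + 1 < ‖v‖ := far_coe.1 hv
      have h2 : 0 < 2 / ε := by positivity
      have hn : 0 < ‖v‖ := by linarith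
      have h3 : 2 < ε * ‖v‖ := by
        have : 2 / ε < ‖v‖ := by linarith
        rwa [div_lt_iff₀' hε] at this
      have hre := Complex.abs_re_le_norm v
      have him := Complex.abs_im_le_norm v
      have hD : 0 < 1 + ‖v‖ ^ 2 := by positivity
      rw [dist_pi_lt_iff hε]
      intro i
      fin_cases i
      · simp only [sg_coe, Fin.zero_eta, Matrix.cons_val_zero, Real.dist_eq, sub_zero]
        rw [abs_div, abs_of_pos hD, abs_mul, abs_two, div_lt_iff₀ hD]
        nlinarith
      · show dist (2 * v.im / (1 + ‖v‖ ^ 2)) 0 < ε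
        rw [Real.dist_eq, sub_zero, abs_div, abs_of_pos hD, abs_mul, abs_two, div_lt_iff₀ hD]
        nlinarith
      · have h4 : (1 - ‖v‖ ^ 2) / (1 + ‖v‖ ^ 2) - -1 = 2 / (1 + ‖v‖ ^ 2) := by
          field_simp; ring
        simp only [sg_coe, Fin.reduceFinMk, Matrix.cons_val, Real.dist_eq]
        rw [h4, abs_of_pos (by positivity), div_lt_iff₀ hD]
        nlinarith
  | coe v =>
    rw [OnePoint.continuousAt_coe]
    have hD : ∀ v : ℂ, 1 + ‖v‖ ^ 2 ≠ 0 := fun v => by positivity
    have : Continuous (fun v : ℂ => (![2 * v.re / (1 + ‖v‖ ^ 2),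
        2 * v.im / (1 + ‖v‖ ^ 2), (1 - ‖v‖ ^ 2) / (1 + ‖v‖ ^ 2)] : Fin 3 → ℝ)) := by
      refine continuous_pi fun i => ?_
      fin_cases i
      · exact (continuous_const.mul Complex.continuous_re).div (by fun_prop) hD
      · exact (continuous_const.mul Complex.continuous_im).div (by fun_prop) hD
      · exact Continuous.div (by fun_prop) (by fun_prop) hD
    exact this.continuousAt

theorem sg_ne_zero (v : OnePoint ℂ) : sg v ≠ 0 := by
  induction v using OnePoint.rec with
  | infty =>
    intro h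
    have := congrFun h 2
    simp at this
  | coe v =>
    intro h
    have h0 := congrFun h 0
    have h1 := congrFun h 1
    have h2 := congrFun h 2
    simp only [sg_coe, Matrix.cons_val_zero, Matrix.cons_val_one, Matrix.cons_val,
      Pi.zero_apply] at h0 h1 h2
    have hD : (0 : ℝ) < 1 + ‖v‖ ^ 2 := by positivity
    have e0 : v.re = 0 := by
      rcases div_eq_zero_iff.1 h0 with h | h
      · linarith
      · linarith
    have e1 : v.im = 0 := by
      rcases div_eq_zero_iff.1 h1 with h | h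
      · linarith
      · linarith
    have : v = 0 := Complex.ext (by simpa using e0) (by simpa using e1)
    rw [this] at h2
    simp at h2

theorem stz_sg (v : OnePoint ℂ) : stz (sg v) = v := by
  induction v using OnePoint.rec with
  | infty =>
    apply stz_of_eq
    simp [nr]
  | coe v =>
    have hD : (0 : ℝ) < 1 + ‖v‖ ^ 2 := by positivity
    have hn : nr (sg (v : OnePoint ℂ)) = 1 := by
      unfold nr
      have : (sg (v : OnePoint ℂ)) 0 ^ 2 + (sg (v : OnePoint ℂ)) 1 ^ 2 +
          (sg (v : OnePoint ℂ)) 2 ^ 2 = 1 := by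
        simp only [sg_coe, Matrix.cons_val_zero, Matrix.cons_val_one, Matrix.cons_val]
        have h1 : ‖v‖ ^ 2 = v.re * v.re + v.im * v.im := by
          rw [Complex.sq_norm, Complex.normSq_apply]
        rw [h1]
        rw [h1] at hD
        field_simp
        ring
      rw [this, Real.sqrt_one]
    have h2 : nr (sg (v : OnePoint ℂ)) + (sg (v : OnePoint ℂ)) 2 = 2 / (1 + ‖v‖ ^ 2) := by
      rw [hn]
      simp only [sg_coe, Matrix.cons_val]
      field_simp
      ring
    have h3 : nr (sg (v : OnePoint ℂ)) + (sg (v : OnePoint ℂ)) 2 ≠ 0 := by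
      rw [h2]; positivity
    rw [stz_of_ne h3, h2, OnePoint.coe_eq_coe]
    refine Complex.ext ?_ ?_
    · simp only [sg_coe, Matrix.cons_val_zero]
      field_simp
    · simp only [sg_coe, Matrix.cons_val_one, Matrix.cons_val_zero]
      field_simp

/-! ## the torus collapse on `T²` -/

/-- the torus collapse on one `T²`, as a map to `ℂ⁺` -/
noncomputable def tc2 (z w : Circle) : OnePoint ℂ :=
  open Classical in
  if (z : ℂ) = -1 ∨ (w : ℂ) = -1 then ∞
  else ((⟨(z : ℂ).im / (1 + (z : ℂ).re), (w : ℂ).im / (1 + (w : ℂ).re)⟩ : ℂ) : OnePoint ℂ)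

theorem circle_eq_neg_one' {z : Circle} (h : (z : ℂ).re = -1) : (z : ℂ) = -1 := by
  have h1 : ‖(z : ℂ)‖ = 1 := Circle.norm_coe z
  have h2 := Complex.sq_norm (z : ℂ)
  rw [h1, Complex.normSq_apply, h] at h2
  have h3 : (z : ℂ).im = 0 := by nlinarith
  exact Complex.ext (by simpa using h) (by simpa using h3)

theorem circle_one_add_re_pos {z : Circle} (h : (z : ℂ) ≠ -1) : 0 < 1 + (z : ℂ).re := by
  have h1 : ‖(z : ℂ)‖ = 1 := Circle.norm_coe z
  have h2 := Complex.abs_re_le_norm (z : ℂ)
  rw [h1] at h2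
  have h3 := (abs_le.1 h2).1
  rcases eq_or_lt_of_le h3 with h4 | h4
  · exact absurd (circle_eq_neg_one' h4.symm) h
  · linarith

theorem circle_sq (z : Circle) : (z : ℂ).re ^ 2 + (z : ℂ).im ^ 2 = 1 := by
  have h1 : ‖(z : ℂ)‖ = 1 := Circle.norm_coe z
  have h2 := Complex.sq_norm (z : ℂ)
  rw [h1, Complex.normSq_apply] at h2
  nlinarith

/-- one coordinate: `e^{iφ} ↦ tan (φ/2)`, `-1 ↦ ∞` -/
noncomputable def tc1 (z : Circle) : OnePoint ℝ :=
  open Classical in
  if (z : ℂ) = -1 then ∞ else (((z : ℂ).im / (1 + (z : ℂ).re) : ℝ) : OnePoint ℝ)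

theorem continuous_tc1 : Continuous tc1 := by
  have hc : Continuous (fun z : Circle => 1 + (z : ℂ).re) :=
    continuous_const.add (Complex.continuous_re.comp continuous_subtype_val)
  have him : Continuous (fun z : Circle => (z : ℂ).im) :=
    Complex.continuous_im.comp continuous_subtype_val
  rw [continuous_iff_continuousAt]
  intro z
  by_cases hz : (z : ℂ) = -1
  · show Tendsto _ _ (𝓝 (tc1 z))
    have : tc1 z = ∞ := if_pos hz
    rw [this, tendsto_infty_iff]
    intro R
    have h0 : 1 + (z : ℂ).re = 0 := by rw [hz]; simp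
    have h2 : ∀ᶠ y : Circle in 𝓝 z, ((|R| + 1) ^ 2 + 1) * (1 + (y : ℂ).re) < 2 := by
      have : ContinuousAt (fun y : Circle => ((|R| + 1) ^ 2 + 1) * (1 + (y : ℂ).re)) z :=
        (continuous_const.mul hc).continuousAt
      exact this.eventually (gt_mem_nhds (by
        show ((|R| + 1) ^ 2 + 1) * (1 + (z : ℂ).re) < 2
        rw [h0, mul_zero]
        exact two_pos))
    filter_upwards [h2] with y hy
    by_cases hy1 : (y : ℂ) = -1
    · have : tc1 y = ∞ := if_pos hy1
      rw [this]; exact far_infty R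
    · have : tc1 y = (((y : ℂ).im / (1 + (y : ℂ).re) : ℝ) : OnePoint ℝ) := if_neg hy1
      rw [this]
      refine far_coe.2 ?_
      have hp := circle_one_add_re_pos hy1
      have hsq := circle_sq y
      have h3 : (|R| + 1) ^ 2 < ‖(y : ℂ).im / (1 + (y : ℂ).re)‖ ^ 2 := by
        rw [Real.norm_eq_abs, sq_abs, div_pow, lt_div_iff₀ (by positivity)]
        have : (y : ℂ).im ^ 2 = (1 - (y : ℂ).re) * (1 + (y : ℂ).re) := by nlinarith
        rw [this, sq (1 + (y : ℂ).re), ← mul_assoc]
        apply mul_lt_mul_of_pos_right _ hp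
        nlinarith
      have h4 := lt_of_pow_lt_pow_left₀ 2 (norm_nonneg _) h3
      have := le_abs_self R
      linarith
  · have hne : 1 + (z : ℂ).re ≠ 0 := (circle_one_add_re_pos hz).ne'
    have h1 : ContinuousAt (fun z : Circle => (((z : ℂ).im / (1 + (z : ℂ).re) : ℝ) : OnePoint ℝ))
        z := OnePoint.continuous_coe.continuousAt.comp
          (him.continuousAt.div hc.continuousAt hne)
    refine h1.congr ?_
    filter_upwards [hc.continuousAt.eventually_ne hne] with y hy
    have hy1 : (y : ℂ) ≠ -1 := by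
      intro h
      apply hy
      rw [h]; simp
    exact (if_neg hy1).symm

/-- real and imaginary part -/
noncomputable def reim : ℝ × ℝ ≃ₜ ℂ := Complex.equivRealProdCLM.symm.toHomeomorph

@[simp] theorem reim_apply (p : ℝ × ℝ) : reim p = ⟨p.1, p.2⟩ := rfl

theorem tc2_eq (z w : Circle) : tc2 z w = OnePoint.map reim (sm (tc1 z) (tc1 w)) := by
  by_cases hz : (z : ℂ) = -1
  · have h1 : tc1 z = ∞ := if_pos hz
    rw [h1]
    exact if_pos (Or.inl hz)
  · by_cases hw : (w : ℂ) = -1
    · have h1 : tc1 w = ∞ := if_pos hw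
      rw [h1, sm_inf_right]
      exact if_pos (Or.inr hw)
    · have h1 : tc1 z = (((z : ℂ).im / (1 + (z : ℂ).re) : ℝ) : OnePoint ℝ) := if_neg hz
      have h2 : tc1 w = (((w : ℂ).im / (1 + (w : ℂ).re) : ℝ) : OnePoint ℝ) := if_neg hw
      have h3 : tc2 z w = _ := if_neg (not_or.2 ⟨hz, hw⟩)
      rw [h1, h2, sm_coe, OnePoint.map_some, h3, reim_apply]

theorem continuous_tc2 : Continuous (fun q : Circle × Circle => tc2 q.1 q.2) := by
  have : (fun q : Circle × Circle => tc2 q.1 q.2) =
      fun q => OnePoint.map reim (sm (tc1 q.1) (tc1 q.2)) := by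
    funext q; exact tc2_eq _ _
  rw [this]
  exact reim.onePointCongr.continuous.comp
    ((continuous_tc1.comp continuous_fst).sm962 (continuous_tc1.comp continuous_snd))

theorem sphereVec_ne_zero (z w : Circle) : sphereVec z w ≠ 0 := by
  intro h
  have h0 := congrFun h 0
  have h1 := congrFun h 1
  have h2 := congrFun h 2
  simp only [sphereVec, Matrix.cons_val_zero, Matrix.cons_val_one, Matrix.cons_val,
    Pi.zero_apply] at h0 h1 h2
  have hz := circle_sq z
  have hw := circle_sq w
  rw [h0] at hz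
  rw [h1] at hw
  have hz' : ((z : ℂ).re - 1) * ((z : ℂ).re + 1) = 0 := by nlinarith
  have hw' : ((w : ℂ).re - 1) * ((w : ℂ).re + 1) = 0 := by nlinarith
  rcases mul_eq_zero.1 hz' with h3 | h3 <;> rcases mul_eq_zero.1 hw' with h4 | h4 <;> nlinarith

theorem continuous_sphereVec : Continuous (fun q : Circle × Circle => sphereVec q.1 q.2) := by
  have hr1 : Continuous (fun q : Circle × Circle => ((q.1 : Circle) : ℂ).re) :=
    Complex.continuous_re.comp (continuous_subtype_val.comp continuous_fst)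
  have hr2 : Continuous (fun q : Circle × Circle => ((q.2 : Circle) : ℂ).re) :=
    Complex.continuous_re.comp (continuous_subtype_val.comp continuous_snd)
  have hi1 : Continuous (fun q : Circle × Circle => ((q.1 : Circle) : ℂ).im) :=
    Complex.continuous_im.comp (continuous_subtype_val.comp continuous_fst)
  have hi2 : Continuous (fun q : Circle × Circle => ((q.2 : Circle) : ℂ).im) :=
    Complex.continuous_im.comp (continuous_subtype_val.comp continuous_snd)
  refine continuous_pi fun i => ?_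
  fin_cases i
  · exact hi1
  · exact hi2
  · exact (hr1.add hr2).sub continuous_const

/-- the segment from `sphereVec` to `sg (tc2)` -/
noncomputable def seg (t : ℝ) (z w : Circle) : Fin 3 → ℝ :=
  (1 - t) • sphereVec z w + t • sg (tc2 z w)

theorem seg_ne_zero {t : ℝ} (ht : t ∈ Icc (0 : ℝ) 1) (z w : Circle) : seg t z w ≠ 0 := by
  intro h
  have h0 := congrFun h 0
  have h1 := congrFun h 1
  have h2 := congrFun h 2
  have hz := circle_sq z
  have hw := circle_sq w
  by_cases hinf : (z : ℂ) = -1 ∨ (w : ℂ) = -1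
  · have h3 : tc2 z w = ∞ := if_pos hinf
    simp only [seg, h3, sg_infty, sphereVec, Pi.add_apply, Pi.smul_apply, smul_eq_mul,
      Matrix.cons_val, Pi.zero_apply] at h2
    have h4 : (z : ℂ).re + (w : ℂ).re - 1 ≤ -1 := by
      rcases hinf with h | h
      · have e : (z : ℂ).re = -1 := by rw [h]; simp
        nlinarith [sq_nonneg (w : ℂ).im, sq_nonneg ((w : ℂ).re - 1)]
      · have e : (w : ℂ).re = -1 := by rw [h]; simp
        nlinarith [sq_nonneg (z : ℂ).im, sq_nonneg ((z : ℂ).re - 1)]
    nlinarith [ht.1, ht.2]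
  · have h3 : tc2 z w = _ := if_neg hinf
    rw [not_or] at hinf
    have hpz := circle_one_add_re_pos hinf.1
    have hpw := circle_one_add_re_pos hinf.2
    simp only [seg, h3, sg_coe, sphereVec, Pi.add_apply, Pi.smul_apply, smul_eq_mul,
      Matrix.cons_val, Matrix.cons_val_zero, Matrix.cons_val_one, Pi.zero_apply] at h0 h1 h2
    set D : ℝ := 1 + ‖(⟨(z : ℂ).im / (1 + (z : ℂ).re), (w : ℂ).im / (1 + (w : ℂ).re)⟩ : ℂ)‖ ^ 2
      with hD
    have hDpos : 0 < D := by positivity
    have key : ∀ b c : ℝ, 0 < c → (1 - t) * b + t * (2 * (b / c) / D) = 0 → b = 0 := by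
      intro b c hc hb
      have h5 : b * ((1 - t) + t * (2 / (c * D))) = 0 := by
        rw [← hb]
        field_simp
      rcases mul_eq_zero.1 h5 with h6 | h6
      · exact h6
      · exfalso
        have h7 : 0 ≤ t * (2 / (c * D)) := mul_nonneg ht.1 (by positivity)
        have h8 : t = 1 := le_antisymm ht.2 (by linarith)
        rw [h8] at h6
        have h9 : 0 < 1 * (2 / (c * D)) := by positivity
        linarith
    have ez : (z : ℂ).im = 0 := key _ _ hpz h0
    have ew : (w : ℂ).im = 0 := key _ _ hpw h1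
    have e1 : (z : ℂ).re = 1 := by rw [ez] at hz; nlinarith
    have e2 : (w : ℂ).re = 1 := by rw [ew] at hw; nlinarith
    have e3 : (⟨(z : ℂ).im / (1 + (z : ℂ).re), (w : ℂ).im / (1 + (w : ℂ).re)⟩ : ℂ) = 0 :=
      Complex.ext (by simp [ez]) (by simp [ew])
    rw [hD, e3, e1, e2] at h2
    simp at h2

/-- **BOTT**: the homotopy between the ratio coordinate of the Bott line and `tc2` -/
noncomputable def bottH (q : unitInterval × Circle × Circle) : OnePoint ℂ :=
  stz (seg q.1 q.2.1 q.2.2)

theorem continuous_bottH : Continuous bottH := by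
  refine continuous_stz_comp ?_ (fun q => seg_ne_zero q.1.2 _ _)
  have h1 : Continuous (fun q : unitInterval × Circle × Circle => sphereVec q.2.1 q.2.2) :=
    continuous_sphereVec.comp continuous_snd
  have h2 : Continuous (fun q : unitInterval × Circle × Circle => sg (tc2 q.2.1 q.2.2)) :=
    continuous_sg.comp (continuous_tc2.comp continuous_snd)
  have h3 : Continuous (fun q : unitInterval × Circle × Circle => (q.1 : ℝ)) := by fun_prop
  exact ((continuous_const.sub h3).smul h1).add (h3.smul h2)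

@[simp] theorem bottH_zero (z w : Circle) : bottH (0, z, w) = stz (sphereVec z w) := by
  simp [bottH, seg]

@[simp] theorem bottH_one (z w : Circle) : bottH (1, z, w) = tc2 z w := by
  simp [bottH, seg, stz_sg]

/-- the ratio coordinate in terms of the projection: `P = lineProj z w`, `v = P₁₀ / P₀₀` -/
theorem stz_sphereVec (z w : Circle) :
    stz (sphereVec z w) =
      (open Classical in
        if lineProj z w 0 0 = 0 then (∞ : OnePoint ℂ)
        else ((lineProj z w 1 0 / lineProj z w 0 0 : ℂ) : OnePoint ℂ)) := by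
  classical
  have hx := sphereVec_ne_zero z w
  have hpos := nr_pos hx
  set x := sphereVec z w with hxdef
  have e00 : lineProj z w 0 0 = (((nr x + x 2) / (2 * nr x) : ℝ) : ℂ) := by
    show ((1 + x 2 / nr x : ℝ) : ℂ) / 2 = _
    have : (nr x + x 2) / (2 * nr x) = (1 + x 2 / nr x) / 2 := by field_simp
    rw [this]
    push_cast
    ring
  have e10 : lineProj z w 1 0 = (⟨x 0, x 1⟩ : ℂ) * ((1 / (2 * nr x) : ℝ) : ℂ) := by
    show (((x 0 / nr x : ℝ) : ℂ) + ((x 1 / nr x : ℝ) : ℂ) * Complex.I) / 2 = _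
    have h1 : (⟨x 0, x 1⟩ : ℂ) = (x 0 : ℂ) + (x 1 : ℂ) * Complex.I := by
      refine Complex.ext ?_ ?_ <;> simp
    rw [h1]
    push_cast
    ring
  by_cases h : nr x + x 2 = 0
  · rw [stz_of_eq h, if_pos]
    rw [e00, h]
    simp
  · rw [stz_of_ne h, if_neg, OnePoint.coe_eq_coe, e00, e10]
    · have h1 : (((nr x + x 2) / (2 * nr x) : ℝ) : ℂ) ≠ 0 := by
        rw [Complex.ofReal_ne_zero]
        exact div_ne_zero h (by positivity)
      rw [eq_div_iff h1]
      have h2 : (⟨x 0 / (nr x + x 2), x 1 / (nr x + x 2)⟩ : ℂ) =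
          (⟨x 0, x 1⟩ : ℂ) * ((1 / (nr x + x 2) : ℝ) : ℂ) := by
        refine Complex.ext ?_ ?_
        · rw [Complex.re_mul_ofReal]; ring
        · rw [Complex.im_mul_ofReal]; ring
      rw [h2, mul_assoc, ← Complex.ofReal_mul]
      congr 2
      field_simp
    · rw [e00, Complex.ofReal_eq_zero]
      exact div_ne_zero h (by positivity)

end Crest.Agent.R090.Bott513
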