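import Crest.Agent.R090.Ho_962
import Crest.Agent.R090.Lin_202
import Crest.Agent.R090.Young_152

/-!
# Row 90, F1 (source form), abstract part (owner helper737)

`CT` is a contravariant theory on locally compact Hausdorff spaces (in the application
`H X = St (X × Y) S` with a sphere `S`).  Contents:

* `CT.opE` : the operator `∑ c σ • (ρ σ)^*` of a family of homeomorphisms;
* `CT.nil` : nilpotence along a weight filtration;
* `CT.ext_clopen` : detection on the pieces of a finite clopen partition.
-/

set_option autoImplicit false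
set_option linter.checkUnivs false

open Topology Filter Set

namespace Crest.Agent.R090.F1Core737

open OnePoint Crest.Agent.R090.Sp962

universe v w

/-- a contravariant theory -/
structure CT where
  /-- the groups -/
  H : ∀ (X : Type v) [TopologicalSpace X] [T2Space X] [LocallyCompactSpace X], Type w
  /-- group structure -/
  grp : ∀ (X : Type v) [TopologicalSpace X] [T2Space X] [LocallyCompactSpace X],
    AddCommGroup (H X)
  /-- functoriality -/
  map : ∀ {X X' : Type v} [TopologicalSpace X] [T2Space X] [LocallyCompactSpace X]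
    [TopologicalSpace X'] [T2Space X'] [LocallyCompactSpace X'], PMap X X' → H X' →+ H X
  map_id : ∀ {X : Type v} [TopologicalSpace X] [T2Space X] [LocallyCompactSpace X] (g : H X),
    map (PMap.id X) g = g
  map_comp : ∀ {X X' X'' : Type v} [TopologicalSpace X] [T2Space X] [LocallyCompactSpace X]
    [TopologicalSpace X'] [T2Space X'] [LocallyCompactSpace X']
    [TopologicalSpace X''] [T2Space X''] [LocallyCompactSpace X'']
    (b : PMap X' X'') (a : PMap X X') (g : H X''), map (b.comp a) g = map a (map b g)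
  map_homotopic : ∀ {X X' : Type v} [TopologicalSpace X] [T2Space X] [LocallyCompactSpace X]
    [TopologicalSpace X'] [T2Space X'] [LocallyCompactSpace X'] (a b : PMap X X'),
    a.Homotopic b → ∀ g : H X', map a g = map b g
  map0 : ∀ {X X' : Type v} [TopologicalSpace X] [T2Space X] [LocallyCompactSpace X]
    [TopologicalSpace X'] [T2Space X'] [LocallyCompactSpace X'] (g : H X'),
    map (PMap.zero X X') g = 0
  exact : ∀ {F X O : Type v} [TopologicalSpace F] [T2Space F] [LocallyCompactSpace F]
    [TopologicalSpace X] [T2Space X] [LocallyCompactSpace X]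
    [TopologicalSpace O] [T2Space O] [LocallyCompactSpace O]
    (i : F → X) (hi : IsClosedEmbedding i) (e : O → X) (he : IsOpenEmbedding e)
    (_ : range e = (range i)ᶜ) (g : H X), map (PMap.ofClosed i hi) g = 0 →
      ∃ y : H O, map (PMap.ofOpen e he) y = g
  neg : ∀ {X : Type v} [TopologicalSpace X] [T2Space X] [LocallyCompactSpace X]
    (g : H (X × ℝ)),
    map ((PMap.id X).smash (PMap.ofHomeo (Homeomorph.neg ℝ))) g = -g

attribute [instance] CT.grp

namespace CT

variable (T : CT.{v, w})

section basic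

variable {X : Type v} [TopologicalSpace X] [T2Space X] [LocallyCompactSpace X]
variable {Y : Type v} [TopologicalSpace Y] [T2Space Y] [LocallyCompactSpace Y]

theorem map_eq_zero_of_null {a : PMap X Y} (ha : a.Null) (g : T.H Y) : T.map a g = 0 := by
  rw [T.map_homotopic a _ ha, T.map0]

theorem eq_zero_of_null (h : (PMap.id X).Null) (g : T.H X) : g = 0 := by
  rw [← T.map_id g, T.map_eq_zero_of_null h]

theorem eq_zero_of_isEmpty [IsEmpty X] (g : T.H X) : g = 0 := by
  refine T.eq_zero_of_null ?_ g
  exact .of_eq (PMap.ext fun x => isEmptyElim x)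

theorem map_homeo_injective (e : X ≃ₜ Y) {g g' : T.H Y}
    (h : T.map (PMap.ofHomeo e) g = T.map (PMap.ofHomeo e) g') : g = g' := by
  have h1 : ∀ k : T.H Y, T.map (PMap.ofHomeo e.symm) (T.map (PMap.ofHomeo e) k) = k := by
    intro k
    rw [← T.map_comp, PMap.ofHomeo_comp_symm, T.map_id]
  rw [← h1 g, h, h1]

theorem eq_zero_of_homeo (e : X ≃ₜ Y) (h : ∀ g : T.H X, g = 0) (g : T.H Y) : g = 0 := by
  apply T.map_homeo_injective e
  rw [h (T.map (PMap.ofHomeo e) g), _root_.map_zero]

end basic

/-! ### the operator -/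

section opE

variable {G : Type*} [Fintype G] (c : G → ℤ)
variable {X : Type v} [TopologicalSpace X] [T2Space X] [LocallyCompactSpace X]
variable {Y : Type v} [TopologicalSpace Y] [T2Space Y] [LocallyCompactSpace Y]

/-- the operator `∑ c σ • (ρ σ)^*` -/
noncomputable def opE (ρ : G → (X ≃ₜ X)) : T.H X →+ T.H X :=
  ∑ σ : G, c σ • T.map (PMap.ofHomeo (ρ σ))

theorem opE_apply (ρ : G → (X ≃ₜ X)) (g : T.H X) :
    T.opE c ρ g = ∑ σ : G, c σ • T.map (PMap.ofHomeo (ρ σ)) g := by
  rw [opE, AddMonoidHom.finsetSum_apply]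
  rfl

theorem map_opE (ρ : G → (X ≃ₜ X)) (τ : G → (Y ≃ₜ Y)) (f : PMap Y X)
    (h : ∀ σ, (PMap.ofHomeo (ρ σ)).comp f = f.comp (PMap.ofHomeo (τ σ))) (g : T.H X) :
    T.map f (T.opE c ρ g) = T.opE c τ (T.map f g) := by
  rw [opE_apply, opE_apply, map_sum]
  refine Finset.sum_congr rfl fun σ _ => ?_
  rw [map_zsmul, ← T.map_comp, ← T.map_comp, h σ]

theorem map_iterate_opE (ρ : G → (X ≃ₜ X)) (τ : G → (Y ≃ₜ Y)) (f : PMap Y X)
    (h : ∀ σ, (PMap.ofHomeo (ρ σ)).comp f = f.comp (PMap.ofHomeo (τ σ))) (n : ℕ) (g : T.H X) :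
    T.map f ((T.opE c ρ)^[n] g) = (T.opE c τ)^[n] (T.map f g) := by
  induction n with
  | zero => rfl
  | succ n ih => rw [Function.iterate_succ_apply', Function.iterate_succ_apply',
      T.map_opE c ρ τ f h, ih]

end opE

/-! ### restriction of homeomorphisms -/

section restrict

variable {X : Type v} [TopologicalSpace X]

/-- a homeomorphism preserving a set -/
def restr (e : X ≃ₜ X) (S : Set X) (h : ∀ x, e x ∈ S ↔ x ∈ S) : S ≃ₜ S where
  toFun x := ⟨e x, (h x).2 x.2⟩
  invFun x := ⟨e.symm x, (h _).1 (by rw [e.apply_symm_apply]; exact x.2)⟩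
  left_inv x := Subtype.ext (e.symm_apply_apply _)
  right_inv x := Subtype.ext (e.apply_symm_apply _)
  continuous_toFun := (e.continuous.comp continuous_subtype_val).subtype_mk _
  continuous_invFun := (e.symm.continuous.comp continuous_subtype_val).subtype_mk _

@[simp] theorem restr_coe (e : X ≃ₜ X) (S : Set X) (h : ∀ x, e x ∈ S ↔ x ∈ S) (x : S) :
    ((restr e S h x : S) : X) = e x := rfl

end restrict

/-! ### nilpotence along a weight filtration -/

theorem nil {G : Type*} [Fintype G] (c : G → ℤ) (L : ℕ) :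
    ∀ (X : Type v) [TopologicalSpace X] [T2Space X] [LocallyCompactSpace X]
      (wt : X → ℕ) (_ : ∀ x, wt x ≤ L) (_ : ∀ k, IsClosed {x | wt x ≤ k})
      (ρ : G → (X ≃ₜ X)) (_ : ∀ σ x, wt (ρ σ x) = wt x)
      (_ : ∀ k ≤ L, ∀ (Y : Type v) [TopologicalSpace Y] [T2Space Y] [LocallyCompactSpace Y]
        (e : Y → X) (_ : IsEmbedding e) (_ : range e = {x | wt x = k}) (τ : G → (Y ≃ₜ Y))
        (_ : ∀ σ y, e (τ σ y) = ρ σ (e y)) (g : T.H Y), T.opE c τ g = 0)
      (g : T.H X), (T.opE c ρ)^[L + 1] g = 0 := by
  induction L with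
  | zero =>
    intro X _ _ _ wt hw hcl ρ hρ hlay g
    refine hlay 0 le_rfl X id IsEmbedding.id ?_ ρ (fun _ _ => rfl) g
    rw [range_id]
    symm
    exact eq_univ_of_forall fun x => Nat.le_zero.1 (hw x)
  | succ L ih =>
    intro X _ _ _ wt hw hcl ρ hρ hlay g
    have hF : IsClosed {x | wt x ≤ L} := hcl L
    have : LocallyCompactSpace {x | wt x ≤ L} := hF.locallyCompactSpace
    have hO : IsOpen {x | wt x ≤ L}ᶜ := hF.isOpen_compl
    have : LocallyCompactSpace ({x | wt x ≤ L}ᶜ : Set X) := hO.locallyCompactSpace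
    have hρF : ∀ σ x, ρ σ x ∈ {x | wt x ≤ L} ↔ x ∈ {x | wt x ≤ L} := by
      intro σ x
      simp only [mem_ofPred_eq, hρ]
    have hρO : ∀ σ x, ρ σ x ∈ ({x | wt x ≤ L}ᶜ : Set X) ↔ x ∈ ({x | wt x ≤ L}ᶜ : Set X) := by
      intro σ x
      simp only [mem_compl_iff, mem_ofPred_eq, hρ]
    -- the closed part
    have h1 : (T.opE c fun σ => restr (ρ σ) _ (hρF σ))^[L + 1]
        (T.map (PMap.ofClosed _ hF.isClosedEmbedding_subtypeVal) g) = 0 := by
      refine ih {x | wt x ≤ L} (fun x => wt x) (fun x => x.2) ?_ _ ?_ ?_ _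
      · intro k
        exact (hcl k).preimage continuous_subtype_val
      · intro σ x
        exact hρ σ x
      · intro k hk Y _ _ _ e he hr τ hτ g'
        refine hlay k (hk.trans (Nat.le_succ L)) Y (fun y => (e y : X))
          (IsEmbedding.subtypeVal.comp he) ?_ τ ?_ g'
        · ext x
          constructor
          · rintro ⟨y, rfl⟩
            have : e y ∈ range e := ⟨y, rfl⟩
            rw [hr] at this
            exact this
          · intro hx
            have hx' : wt x = k := hx
            have : (⟨x, by change wt x ≤ L; omega⟩ : {x | wt x ≤ L}) ∈ range e := by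
              rw [hr]; exact hx'
            obtain ⟨y, hy⟩ := this
            exact ⟨y, congrArg Subtype.val hy⟩
        · intro σ y
          rw [hτ]
          rfl
    have h2 : T.map (PMap.ofClosed _ hF.isClosedEmbedding_subtypeVal)
        ((T.opE c ρ)^[L + 1] g) = 0 := by
      rw [T.map_iterate_opE c ρ (fun σ => restr (ρ σ) _ (hρF σ)), h1]
      intro σ
      exact PMap.ext fun x => rfl
    obtain ⟨y, hy⟩ := T.exact _ hF.isClosedEmbedding_subtypeVal _
      hO.isOpenEmbedding_subtypeVal (by rw [Subtype.range_coe, Subtype.range_coe]) _ h2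
    rw [Function.iterate_succ_apply', ← hy]
    rw [← T.map_opE c (fun σ => restr (ρ σ) _ (hρO σ)) ρ]
    · rw [hlay (L + 1) le_rfl _ Subtype.val IsEmbedding.subtypeVal ?_ _ ?_ y, _root_.map_zero]
      · rw [Subtype.range_coe]
        ext x
        have := hw x
        simp only [mem_compl_iff, mem_ofPred_eq]
        omega
      · intro σ x
        rfl
    · intro σ
      refine PMap.ext fun x => ?_
      by_cases hx : x ∈ ({x | wt x ≤ L}ᶜ : Set X)
      · have e1 : (PMap.ofOpen _ hO.isOpenEmbedding_subtypeVal) (x : OnePoint X) =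
            ((⟨x, hx⟩ : ({x | wt x ≤ L}ᶜ : Set X)) : OnePoint _) :=
          PMap.ofOpen_coe _ hO.isOpenEmbedding_subtypeVal (⟨x, hx⟩ : ({x | wt x ≤ L}ᶜ : Set X))
        have e2 : (PMap.ofOpen _ hO.isOpenEmbedding_subtypeVal) ((ρ σ x : X) : OnePoint X) =
            ((⟨ρ σ x, (hρO σ x).2 hx⟩ : ({x | wt x ≤ L}ᶜ : Set X)) : OnePoint _) :=
          PMap.ofOpen_coe _ hO.isOpenEmbedding_subtypeVal
            (⟨ρ σ x, (hρO σ x).2 hx⟩ : ({x | wt x ≤ L}ᶜ : Set X))
        rw [PMap.comp_apply, PMap.comp_apply, e1, PMap.ofHomeo_coe, PMap.ofHomeo_coe, e2]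
        rfl
      · have e1 : (PMap.ofOpen _ hO.isOpenEmbedding_subtypeVal) (x : OnePoint X) = ∞ :=
          PMap.ofOpen_of_notMem _ hO.isOpenEmbedding_subtypeVal (by
            rw [Subtype.range_coe]; exact hx)
        have e2 : (PMap.ofOpen _ hO.isOpenEmbedding_subtypeVal) ((ρ σ x : X) : OnePoint X) = ∞ :=
          PMap.ofOpen_of_notMem _ hO.isOpenEmbedding_subtypeVal (by
            rw [Subtype.range_coe, hρO]; exact hx)
        rw [PMap.comp_apply, PMap.comp_apply, e1, PMap.ofHomeo_coe, e2, PMap.map_inf]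

/-! ### finite clopen partitions -/

theorem ext_clopen {W : Type*} (S : Finset W) :
    ∀ (X : Type v) [TopologicalSpace X] [T2Space X] [LocallyCompactSpace X] (wd : X → W)
      (_ : IsLocallyConstant wd) (_ : ∀ x, wd x ∈ S) (g : T.H X)
      (_ : ∀ w, ∀ (Y : Type v) [TopologicalSpace Y] [T2Space Y] [LocallyCompactSpace Y]
        (e : Y → X) (he : IsClosedEmbedding e) (_ : range e = {x | wd x = w}),
        T.map (PMap.ofClosed e he) g = 0), g = 0 := by
  classical
  induction S using Finset.induction_on with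
  | empty =>
    intro X _ _ _ wd _ hS g _
    have : IsEmpty X := ⟨fun x => by simpa using hS x⟩
    exact T.eq_zero_of_isEmpty g
  | insert a S ha ih =>
    intro X _ _ _ wd hwd hS g hg
    have hF : IsClosed {x | wd x = a} := hwd.isClosed_fiber a
    have hFo : IsOpen {x | wd x = a} := hwd.isOpen_fiber a
    have hO : IsOpen ({x | wd x = a}ᶜ : Set X) := hF.isOpen_compl
    have hOc : IsClosed ({x | wd x = a}ᶜ : Set X) := hFo.isClosed_compl
    have : LocallyCompactSpace {x | wd x = a} := hF.locallyCompactSpace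
    have : LocallyCompactSpace ({x | wd x = a}ᶜ : Set X) := hO.locallyCompactSpace
    have h1 := hg a {x | wd x = a} Subtype.val hF.isClosedEmbedding_subtypeVal
      (by rw [Subtype.range_coe])
    obtain ⟨y, hy⟩ := T.exact _ hF.isClosedEmbedding_subtypeVal _
      hO.isOpenEmbedding_subtypeVal (by rw [Subtype.range_coe, Subtype.range_coe]) _ h1
    have h2 : T.map (PMap.ofClosed _ hOc.isClosedEmbedding_subtypeVal) g = y := by
      rw [← hy, ← T.map_comp]
      have : (PMap.ofOpen _ hO.isOpenEmbedding_subtypeVal).comp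
          (PMap.ofClosed _ hOc.isClosedEmbedding_subtypeVal) = PMap.id _ := by
        refine PMap.ext fun x => ?_
        exact PMap.ofOpen_coe _ hO.isOpenEmbedding_subtypeVal x
      rw [this, T.map_id]
    have h3 : y = 0 := by
      refine ih ({x | wd x = a}ᶜ : Set X) (fun x => wd x)
        (hwd.comp_continuous continuous_subtype_val) ?_ y ?_
      · intro x
        have := hS x
        rw [Finset.mem_insert] at this
        exact this.resolve_left x.2
      · intro w Y _ _ _ e he hr
        rw [← h2, ← T.map_comp]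
        by_cases hw : w = a
        · have : IsEmpty Y := ⟨fun z => by
            have : e z ∈ range e := ⟨z, rfl⟩
            rw [hr] at this
            exact (e z).2 (hw ▸ this)⟩
          exact T.eq_zero_of_isEmpty _
        · have e3 : (PMap.ofClosed _ hOc.isClosedEmbedding_subtypeVal).comp (PMap.ofClosed e he) =
              PMap.ofClosed (fun z => (e z : X)) (hOc.isClosedEmbedding_subtypeVal.comp he) :=
            PMap.ext fun x => rfl
          rw [e3]
          refine hg w Y (fun z => (e z : X)) (hOc.isClosedEmbedding_subtypeVal.comp he) ?_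
          ext x
          constructor
          · rintro ⟨z, rfl⟩
            have : e z ∈ range e := ⟨z, rfl⟩
            rw [hr] at this
            exact this
          · intro hx
            have hx' : wd x = w := hx
            have : (⟨x, fun h => hw (hx'.symm.trans h)⟩ : ({x | wd x = a}ᶜ : Set X)) ∈ range e := by
              rw [hr]; exact hx'
            obtain ⟨z, hz⟩ := this
            exact ⟨z, congrArg Subtype.val hz⟩
    rw [← hy, h3, _root_.map_zero]

end CT

end Crest.Agent.R090.F1Core737
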