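import Crest.Agent.R090.F1d_541
import Crest.Agent.R090.St2_528

/-!
# Row 90, F1d in the stable category: swaps of odd letters are `-1` (owner helper541)

* `pneg_id`, `hneg_h1` : the negative of the identity of `U × Io` is the flip;
* `ofP_flipBy : St.ofP (ofHomeo (flipBy h)) = - St.id X` for `h : X ≃ₜ W × Io`;
* `ofP_swapStr`, `ofP_swapStr_smash` : the swap of two equal odd letters of a stratum (times any
  space `D`) is `-1`;
* `eq_zero_of_null`, `str_eq_zero`, `str_smash_eq_zero` : a stratum with a contractible letter has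
  no stable maps in or out;
* `ofP_precompH_even`, `ofP_precompH_even'`.
-/

set_option autoImplicit false
set_option linter.unusedSectionVars false

open Topology Filter Set

namespace Crest.Agent.R090.F1d541

open OnePoint Crest.Agent.R090.Sp962 Crest.Agent.R090.Grp528 Crest.Agent.R090.St528
open scoped unitInterval

universe u v w x y

section neg

variable {U : Type u} [TopologicalSpace U] [T2Space U] [LocallyCompactSpace U]

theorem pneg_id : pneg (PMap.id (U × Io)) =
    PMap.ofHomeo ((Homeomorph.refl U).prodCongr MC.flipIo) := by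
  refine ext_smI fun a t => ?_
  rw [pneg_sm]
  by_cases ht : t ∈ Ioo (0 : ℝ) 1
  · induction a using OnePoint.rec with
    | infty => simp
    | coe a =>
      have ht' : 1 - t ∈ Ioo (0 : ℝ) 1 := by
        obtain ⟨h1, h2⟩ := ht
        constructor <;> linarith
      rw [qI_of_mem ht, qI_of_mem ht', sm_coe, sm_coe]
      rfl
  · have ht' : 1 - t ∉ Ioo (0 : ℝ) 1 := by
      intro h
      obtain ⟨h1, h2⟩ := h
      exact ht ⟨by linarith, by linarith⟩
    rw [qI_not ht, qI_not ht']
    simp

theorem hneg_h1 : hneg (h1 (U × Io)) =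
    hh ((Homeomorph.refl U).prodCongr MC.flipIo) := by
  rw [h1, hneg_mk, pneg_id]
  rfl

end neg

section stable

variable {X : Type u} [TopologicalSpace X] [T2Space X] [LocallyCompactSpace X]
variable {Y : Type v} [TopologicalSpace Y] [T2Space Y] [LocallyCompactSpace Y]
variable {W : Type w} [TopologicalSpace W] [T2Space W] [LocallyCompactSpace W]

/-- **the flip of a suspension coordinate is `-1` in the stable category** -/
theorem ofP_flipBy (h : X ≃ₜ W × Io) : St.ofP (PMap.ofHomeo (flipBy h)) = - St.id X := by
  have h0 : PMap.ofHomeo (flipBy h) = (PMap.ofHomeo h.symm).comp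
      ((PMap.ofHomeo ((Homeomorph.refl W).prodCongr MC.flipIo)).comp (PMap.ofHomeo h)) := by
    rw [PMap.ofHomeo_comp, PMap.ofHomeo_comp]
    rfl
  have h2 : St.ofP (PMap.ofHomeo ((Homeomorph.refl W).prodCongr MC.flipIo)) =
      - St.id (W × Io) := by
    have := St.map_hneg (h1 (W × Io))
    rw [hneg_h1, St.map_id] at this
    exact this
  rw [h0, St.ofP_comp, St.ofP_comp, h2, St.neg_comp, St.id_comp, St.comp_neg,
    St.ofP_homeo_symm_comp]

/-- the flip on `X × D` -/
theorem ofP_flipBy_smash {D : Type y} [TopologicalSpace D] [T2Space D] [LocallyCompactSpace D]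
    (h : X ≃ₜ W × Io) :
    St.ofP ((PMap.ofHomeo (flipBy h)).smash (PMap.id D)) = - St.id (X × D) := by
  have h1 := ofP_flipBy (X := X × D) (W := W × D)
    { toFun := fun p => (((h p.1).1, p.2), (h p.1).2)
      invFun := fun q => (h.symm (q.1.1, q.2), q.1.2)
      left_inv := fun p => by simp
      right_inv := fun q => by simp
      continuous_toFun := by
        have := h.continuous
        fun_prop
      continuous_invFun := by
        have := h.symm.continuous
        fun_prop }
  rw [← h1]
  exact congrArg St.ofP (PMap.ext fun _ => rfl)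

/-- the flip on `D × X` -/
theorem ofP_flipBy_smash' {D : Type y} [TopologicalSpace D] [T2Space D] [LocallyCompactSpace D]
    (h : X ≃ₜ W × Io) :
    St.ofP ((PMap.id D).smash (PMap.ofHomeo (flipBy h))) = - St.id (D × X) := by
  have h1 := ofP_flipBy (X := D × X) (W := D × W)
    { toFun := fun p => ((p.1, (h p.2).1), (h p.2).2)
      invFun := fun q => (q.1.1, h.symm (q.1.2, q.2))
      left_inv := fun p => by simp
      right_inv := fun q => by simp
      continuous_toFun := by
        have := h.continuous
        fun_prop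
      continuous_invFun := by
        have := h.symm.continuous
        fun_prop }
  rw [← h1]
  exact congrArg St.ofP (PMap.ext fun _ => rfl)

theorem eq_zero_of_null (h : (PMap.id X).Null) (z : St X Y) : z = 0 := by
  rw [← St.comp_id z, ← St.ofP_id, St.ofP_null h, St.comp_zero]

theorem eq_zero_of_null' (h : (PMap.id Y).Null) (z : St X Y) : z = 0 := by
  rw [← St.id_comp z, ← St.ofP_id, St.ofP_null h, St.zero_comp]

end stable

section stratum

variable {κ : Type w} {X : Type u} [TopologicalSpace X] [T2Space X] [Finite κ]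

theorem locallyCompact_str' (P : κ → Set X) (h : ∀ i, LocallyCompactSpace (P i)) :
    LocallyCompactSpace (Str P) := by
  classical
  have := h
  exact locallyCompact_str P

variable [DecidableEq κ]
variable {E : Type v} [NormedAddCommGroup E] [NormedSpace ℂ E] [FiniteDimensional ℂ E]

/-- **the swap of two equal odd letters of a stratum is `-1`** -/
theorem ofP_swapStr (P : κ → Set X) [∀ i, LocallyCompactSpace (P i)]
    [LocallyCompactSpace (Str P)] (a b : κ) (hab : a ≠ b) (hP : P a = P b)
    (e : P a ≃ₜ E × ℝ) :
    St.ofP (PMap.ofHomeo (swapStr P a b hP)) = - St.id (Str P) := by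
  obtain ⟨W, _, _, _, h, hh⟩ := exists_flip P a b hab hP e
  rw [St.ofP_congr hh, ofP_flipBy]

theorem ofP_swapStr_smash {D : Type y} [TopologicalSpace D] [T2Space D] [LocallyCompactSpace D]
    (P : κ → Set X) [∀ i, LocallyCompactSpace (P i)]
    [LocallyCompactSpace (Str P)] (a b : κ) (hab : a ≠ b) (hP : P a = P b)
    (e : P a ≃ₜ E × ℝ) :
    St.ofP ((PMap.ofHomeo (swapStr P a b hP)).smash (PMap.id D)) = - St.id (Str P × D) := by
  obtain ⟨W, _, _, _, h, hh⟩ := exists_flip P a b hab hP e
  rw [St.ofP_congr (hh.smash (.refl _)), ofP_flipBy_smash]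

theorem ofP_swapStr_smash' {D : Type y} [TopologicalSpace D] [T2Space D] [LocallyCompactSpace D]
    (P : κ → Set X) [∀ i, LocallyCompactSpace (P i)]
    [LocallyCompactSpace (Str P)] (a b : κ) (hab : a ≠ b) (hP : P a = P b)
    (e : P a ≃ₜ E × ℝ) :
    St.ofP ((PMap.id D).smash (PMap.ofHomeo (swapStr P a b hP))) = - St.id (D × Str P) := by
  obtain ⟨W, _, _, _, h, hh⟩ := exists_flip P a b hab hP e
  rw [St.ofP_congr ((PMap.Homotopic.refl _).smash hh), ofP_flipBy_smash']

variable {Y : Type x} [TopologicalSpace Y] [T2Space Y] [LocallyCompactSpace Y]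

/-- a stratum with a contractible letter has no stable maps -/
theorem str_eq_zero (P : κ → Set X) [∀ i, LocallyCompactSpace (P i)]
    [LocallyCompactSpace (Str P)] (a : κ) (ha : (PMap.id (P a)).Null) (z : St (Str P) Y) :
    z = 0 :=
  eq_zero_of_null (null_str P a ha) z

theorem str_smash_eq_zero {D : Type y} [TopologicalSpace D] [T2Space D] [LocallyCompactSpace D]
    (P : κ → Set X) [∀ i, LocallyCompactSpace (P i)]
    [LocallyCompactSpace (Str P)] (a : κ) (ha : (PMap.id (P a)).Null) (z : St (Str P × D) Y) :
    z = 0 := by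
  refine eq_zero_of_null ?_ z
  have h := (null_str P a ha).smash_left (PMap.id D)
  rwa [PMap.smash_id] at h

end stratum

/-! ### contractible letters `A × half line` -/

section letters

variable {A : Type u} [TopologicalSpace A] [T2Space A] [LocallyCompactSpace A]

instance : LocallyCompactSpace (Ici (0 : ℝ)) := isClosed_Ici.isClosedEmbedding_subtypeVal.locallyCompactSpace
instance : LocallyCompactSpace (Iic (0 : ℝ)) := isClosed_Iic.isClosedEmbedding_subtypeVal.locallyCompactSpace

theorem null_prod_Ici : (PMap.id (A × Ici (0 : ℝ))).Null := by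
  have h := null_Ici.smash_right (PMap.id A)
  rwa [PMap.smash_id] at h

theorem null_prod_Iic : (PMap.id (A × Iic (0 : ℝ))).Null := by
  have h := null_Iic.smash_right (PMap.id A)
  rwa [PMap.smash_id] at h

theorem null_prod_Ic : (PMap.id (A × Ic)).Null := by
  have h := null_Ic.smash_right (PMap.id A)
  rwa [PMap.smash_id] at h

end letters

section perm

variable {κ : Type w} [Fintype κ]
variable {Y : Type u} [TopologicalSpace Y] [T2Space Y] [LocallyCompactSpace Y]
variable {E : Type v} [NormedAddCommGroup E] [NormedSpace ℂ E] [FiniteDimensional ℂ E]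
  [LocallyCompactSpace E]

/-- permutations of `κ → Y × E` act through `κ → Y` -/
theorem ofP_precompH_even (g : Equiv.Perm κ) :
    St.ofP (PMap.ofHomeo (precompH (Y × E) g)) =
      (St.ofP (PMap.ofHomeo (pairH κ Y E).symm)).comp
        ((St.ofP ((PMap.ofHomeo (precompH Y g)).smash (PMap.id (κ → E)))).comp
          (St.ofP (PMap.ofHomeo (pairH κ Y E)))) := by
  rw [St.ofP_congr (precompH_even g), ← St.ofP_comp, ← St.ofP_comp]
  exact congrArg St.ofP (PMap.ext fun _ => rfl)

theorem ofP_precompH_even' (g : Equiv.Perm κ) :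
    St.ofP (PMap.ofHomeo (precompH (E × Y) g)) =
      (St.ofP (PMap.ofHomeo (pairH κ E Y).symm)).comp
        ((St.ofP ((PMap.id (κ → E)).smash (PMap.ofHomeo (precompH Y g)))).comp
          (St.ofP (PMap.ofHomeo (pairH κ E Y)))) := by
  rw [St.ofP_congr (precompH_even' g), ← St.ofP_comp, ← St.ofP_comp]
  exact congrArg St.ofP (PMap.ext fun _ => rfl)

end perm

end Crest.Agent.R090.F1d541
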