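import Crest.Agent.R090.ExcSt_503
import Crest.Agent.R090.F1Core_737
import Crest.Agent.R090.F1dSt_541

/-!
# Row 90, leaf EX (helper503): `St (X × Y) E` as a contravariant theory `CT` of F1Core_737
-/

set_option autoImplicit false
set_option linter.unusedSectionVars false
set_option linter.unusedVariables false
set_option linter.checkUnivs false

open Topology Filter Set

namespace Crest.Agent.R090.Exc503

open OnePoint Crest.Agent.R090.Sp962 Crest.R090.Hep865
open Crest.Agent.R090.Grp528 Crest.Agent.R090.St528 Crest.Agent.R090.F1d541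
open scoped unitInterval

universe u v w x u' v' w'

theorem id_smash_neg {X : Type u} [TopologicalSpace X] [T2Space X] [LocallyCompactSpace X] :
    (PMap.id X).smash (PMap.ofHomeo (Homeomorph.neg ℝ)) = PMap.ofHomeo
      (flipBy ((Homeomorph.refl X).prodCongr RI)) := by
  refine PMap.ext fun p => ?_
  obtain ⟨x, t⟩ := p
  change ((x, -t) : OnePoint (X × ℝ)) = ((x, RI.symm (MC.flipIo (RI t))) : OnePoint (X × ℝ))
  rw [← RI_neg, RI.symm_apply_apply]

/-- reflection of a real coordinate is `-1` -/
theorem ofP_id_smash_neg {X : Type u} [TopologicalSpace X] [T2Space X] [LocallyCompactSpace X] :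
    St.ofP ((PMap.id X).smash (PMap.ofHomeo (Homeomorph.neg ℝ))) = -St.id (X × ℝ) := by
  rw [id_smash_neg, ofP_flipBy]

theorem ofP_id_smash_neg_smash {X : Type u} [TopologicalSpace X] [T2Space X]
    [LocallyCompactSpace X] {Y : Type v} [TopologicalSpace Y] [T2Space Y]
    [LocallyCompactSpace Y] :
    St.ofP (((PMap.id X).smash (PMap.ofHomeo (Homeomorph.neg ℝ))).smash (PMap.id Y)) =
      -St.id ((X × ℝ) × Y) := by
  rw [id_smash_neg, ofP_flipBy_smash]

/-- the theory `X ↦ St (X × Y) E` for a sphere target `E` -/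
noncomputable def ctSt (Y : Type v) [TopologicalSpace Y] [T2Space Y] [LocallyCompactSpace Y]
    (E : Type x) [TopologicalSpace E] [T2Space E] [LocallyCompactSpace E] (hE : SphT.{v} E) :
    F1Core737.CT.{v, max v x} where
  H X _ _ _ := St (X × Y) E
  grp X _ _ _ := inferInstance
  map f := St.homComp (St.ofP (f.smash (PMap.id Y)))
  map_id g := by
    change St.comp g (St.ofP ((PMap.id _).smash (PMap.id Y))) = g
    rw [PMap.smash_id, St.ofP_id, St.comp_id]
  map_comp b a g := by
    change St.comp g (St.ofP ((b.comp a).smash (PMap.id Y))) =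
      St.comp (St.comp g (St.ofP (b.smash (PMap.id Y)))) (St.ofP (a.smash (PMap.id Y)))
    rw [St.comp_assoc, ← St.ofP_comp, PMap.smash_comp, PMap.comp_id]
  map_homotopic a b h g := by
    change St.comp g (St.ofP (a.smash (PMap.id Y))) = St.comp g (St.ofP (b.smash (PMap.id Y)))
    rw [St.ofP_congr (h.smash (PMap.Homotopic.refl (PMap.id Y)))]
  map0 g := by
    change St.comp g (St.ofP ((PMap.zero _ _).smash (PMap.id Y))) = 0
    rw [St.ofP_null (PMap.Null.smash_left (PMap.Homotopic.refl _) _), St.comp_zero]
  exact i hi e he hc g hg := by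
    have h : OC i e := ⟨hi, he, hc⟩
    obtain ⟨z, hz⟩ := (h.prodRight Y).st_exists_coll hE g (by
      rw [h.prodRight_incl]
      exact hg)
    refine ⟨z, ?_⟩
    rw [hz, h.prodRight_coll]
    rfl
  neg g := by
    change St.comp g (St.ofP (((PMap.id _).smash (PMap.ofHomeo (Homeomorph.neg ℝ))).smash
      (PMap.id Y))) = -g
    rw [ofP_id_smash_neg_smash, St.comp_neg, St.comp_id]

theorem ctSt_map {Y : Type v} [TopologicalSpace Y] [T2Space Y] [LocallyCompactSpace Y]
    {E : Type x} [TopologicalSpace E] [T2Space E] [LocallyCompactSpace E] (hE : SphT.{v} E)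
    {X : Type v} [TopologicalSpace X] [T2Space X] [LocallyCompactSpace X]
    {X' : Type v} [TopologicalSpace X'] [T2Space X'] [LocallyCompactSpace X']
    (f : PMap X X') (g : St (X' × Y) E) :
    (ctSt Y E hE).map f g = g.comp (St.ofP (f.smash (PMap.id Y))) := rfl

end Crest.Agent.R090.Exc503
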