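import Crest.Agent.R090.F1Kill_737

/-!
# Row 90, F1 (source form): nilpotence on `Q`, the pair `(XX, UU)` (owner helper737)

* `CT.core` : `e'^L = 0` on `H Q`, `Q = {x : ι → P | at least m small letters}`;
* `Flt A u` : the F0 output (filtration of `B` by `A` and `u` even cells);
* `XX A`, `UU`, `alphXX : Flt A u → Alph (XX A × ℝ) u`.
-/

set_option autoImplicit false
set_option linter.unusedSectionVars false

open Topology Filter Set

namespace Crest.Agent.R090.F1Core737

open OnePoint Crest.Agent.R090.Sp962 Crest.Agent.R090.Lin202 Crest.Agent.R090.Young152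

universe v w

namespace CT

variable {P : Type v} [TopologicalSpace P] [T2Space P] {u D c : ℕ} (Al : Alph P u)

theorem wt_le (f : Fin (yr D c) → P) : wt Al f ≤ yr D c * (u + 1) := by
  refine (Finset.sum_le_card_nsmul _ _ (u + 1) fun i _ => Al.le (f i)).trans ?_
  rw [Finset.card_univ, Fintype.card_fin, smul_eq_mul]

theorem isClosed_wt (k : ℕ) : IsClosed {f : Fin (yr D c) → P | wt Al f ≤ k} := by
  rw [← isOpen_compl_iff, isOpen_iff_mem_nhds]
  intro f hf
  have hf' : k < wt Al f := by simpa using hf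
  have h1 : ∀ i, {p : P | Al.ℓ (f i) ≤ Al.ℓ p} ∈ 𝓝 (f i) := by
    intro i
    rcases Nat.eq_zero_or_pos (Al.ℓ (f i)) with h | h
    · rw [h]; simp
    · have h1 : IsOpen {p | Al.ℓ p ≤ Al.ℓ (f i) - 1}ᶜ := (Al.closed _).isOpen_compl
      have h2 : {p : P | Al.ℓ (f i) ≤ Al.ℓ p} = {p | Al.ℓ p ≤ Al.ℓ (f i) - 1}ᶜ := by
        ext z
        simp only [mem_ofPred_eq, mem_compl_iff]
        omega
      rw [h2]
      refine h1.mem_nhds ?_
      rw [← h2]
      exact (le_rfl : Al.ℓ (f i) ≤ Al.ℓ (f i))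
  have h2 : ∀ᶠ g : Fin (yr D c) → P in 𝓝 f, ∀ i, Al.ℓ (f i) ≤ Al.ℓ (g i) := by
    rw [Filter.eventually_all]
    intro i
    exact (continuous_apply i).continuousAt.eventually (h1 i)
  filter_upwards [h2] with g hg
  have h3 : wt Al f ≤ wt Al g := Finset.sum_le_sum fun i _ => hg i
  simp only [mem_compl_iff, mem_ofPred_eq, not_le]
  omega

theorem isClosed_QQ (m : ℕ) : IsClosed (QQ Al m : Set (Fin (yr D c) → P)) := by
  rw [← isOpen_compl_iff, isOpen_iff_mem_nhds]
  intro f hf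
  have h2 : ∀ᶠ g : Fin (yr D c) → P in 𝓝 f, ∀ i, Al.ℓ (g i) ≤ u → Al.ℓ (f i) ≤ u := by
    rw [Filter.eventually_all]
    intro i
    by_cases h : Al.ℓ (f i) ≤ u
    · exact Eventually.of_forall fun g _ => h
    · have h1 : {p | Al.ℓ p ≤ u}ᶜ ∈ 𝓝 (f i) := (Al.closed u).isOpen_compl.mem_nhds h
      filter_upwards [(continuous_apply i).continuousAt.eventually h1] with g hg hg'
      exact absurd hg' hg
  filter_upwards [h2] with g hg
  intro hQ
  apply hf
  simp only [QQ, mem_ofPred_eq] at hQ ⊢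
  refine hQ.trans (Finset.card_le_card ?_)
  intro i
  simp only [Finset.mem_filter, Finset.mem_univ, true_and]
  exact hg i

/-- **nilpotence of the Young symmetrizer on `Q`** -/
theorem core (T : CT.{v, w}) {m : ℕ} (hm : D * u < m)
    {X : Type v} [TopologicalSpace X] [T2Space X] [LocallyCompactSpace X]
    (E : X → (Fin (yr D c) → P)) (hE : IsEmbedding E) (hr : range E = QQ Al m)
    (ρ : Equiv.Perm (Fin (yr D c)) → (X ≃ₜ X))
    (hρ : ∀ σ x i, E (ρ σ x) i = E x (σ⁻¹ i)) (g : T.H X) :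
    (T.opE (fun σ => (yF D c).coeff σ) ρ)^[yr D c * (u + 1) + 1] g = 0 := by
  refine T.nil _ _ X (fun x => wt Al (E x)) (fun x => wt_le Al _) ?_ ρ ?_ ?_ g
  · intro k
    exact (isClosed_wt Al k).preimage hE.continuous
  · intro σ x
    have : ∀ i, Al.ℓ (E (ρ σ x) i) = Al.ℓ (E x (σ⁻¹ i)) := fun i => by rw [hρ]
    simp only [wt, this]
    exact Equiv.sum_comp (σ⁻¹) fun i => Al.ℓ (E x i)
  · intro k _ Y _ _ _ e he hre τ hτ g'
    refine layer_kill Al T hm k (fun y => E (e y)) (hE.comp he) ?_ τ ?_ g'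
    · ext f
      constructor
      · rintro ⟨y, rfl⟩
        have h1 : E (e y) ∈ range E := ⟨_, rfl⟩
        have h2 : e y ∈ range e := ⟨_, rfl⟩
        rw [hr] at h1
        rw [hre] at h2
        exact ⟨h1, h2⟩
      · rintro ⟨h1, h2⟩
        rw [← hr] at h1
        obtain ⟨x, rfl⟩ := h1
        have h3 : x ∈ range e := by rw [hre]; exact h2
        obtain ⟨y, rfl⟩ := h3
        exact ⟨y, rfl⟩
    · intro σ y i
      rw [hτ, hρ]

end CT

/-! ### the pair `(XX, UU)` -/

section pair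

variable {B : Type v} [TopologicalSpace B]

/-- the F0 output: `B` is filtered by the closed set `A` and `u` even cells -/
structure Flt (A : Set B) (u : ℕ) where
  /-- the level -/
  lev : B → ℕ
  le : ∀ b, lev b ≤ u
  closed : ∀ i, IsClosed {b | lev b ≤ i}
  zero : ∀ b, lev b = 0 ↔ b ∈ A
  cell : ∀ i, 1 ≤ i → i ≤ u → ∃ m, Nonempty ({b // lev b = i} ≃ₜ (Fin m → ℂ))

/-- the space `X^` -/
abbrev XX (A : Set B) : Type v := {p : B × ℝ // p.2 ≤ 0 ∨ p.1 ∈ A}

/-- the closed subspace `U^` -/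
def UU (A : Set B) : Set (XX A) := {p | 0 ≤ p.1.2}

theorem isClosed_XX {A : Set B} (hA : IsClosed A) : IsClosed {p : B × ℝ | p.2 ≤ 0 ∨ p.1 ∈ A} :=
  (isClosed_Iic.preimage continuous_snd).union (hA.preimage continuous_fst)

theorem isClosed_UU (A : Set B) : IsClosed (UU A) :=
  isClosed_Ici.preimage (continuous_snd.comp continuous_subtype_val)

variable {A : Set B} {u : ℕ} (F : Flt A u)

/-- the letter function of `XX A × ℝ` -/
noncomputable def letter (q : XX A × ℝ) : ℕ := if 0 ≤ q.1.1.2 then F.lev q.1.1.1 else u + 1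

theorem letter_le_iff {i : ℕ} (hi : i ≤ u) (q : XX A × ℝ) :
    letter F q ≤ i ↔ 0 ≤ q.1.1.2 ∧ F.lev q.1.1.1 ≤ i := by
  rw [letter]
  split_ifs with h
  · simp [h]
  · simp only [h, false_and, iff_false]; omega

theorem letter_eq_iff {i : ℕ} (hi : i ≤ u) (q : XX A × ℝ) :
    letter F q = i ↔ 0 ≤ q.1.1.2 ∧ F.lev q.1.1.1 = i := by
  rw [letter]
  split_ifs with h
  · simp [h]
  · simp only [h, false_and, iff_false]; omega

/-- stratum of letter `0` -/
noncomputable def homeo0 [T2Space B] :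
    {q : XX A × ℝ // letter F q = 0} ≃ₜ (A × ℝ) × Ici (0 : ℝ) where
  toFun q := ((⟨q.1.1.1.1, (F.zero _).1 ((letter_eq_iff F (Nat.zero_le u) _).1 q.2).2⟩, q.1.2),
    ⟨q.1.1.1.2, ((letter_eq_iff F (Nat.zero_le u) _).1 q.2).1⟩)
  invFun p := ⟨(⟨(p.1.1, p.2), Or.inr p.1.1.2⟩, p.1.2),
    (letter_eq_iff F (Nat.zero_le u) _).2 ⟨p.2.2, (F.zero _).2 p.1.1.2⟩⟩
  left_inv _ := rfl
  right_inv _ := rfl
  continuous_toFun := by fun_prop
  continuous_invFun := by fun_prop

/-- stratum of an odd letter -/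
noncomputable def homeoOdd {i : ℕ} (h1 : 1 ≤ i) (hi : i ≤ u) :
    {q : XX A × ℝ // letter F q = i} ≃ₜ {b // F.lev b = i} × ℝ where
  toFun q := (⟨q.1.1.1.1, ((letter_eq_iff F hi _).1 q.2).2⟩, q.1.2)
  invFun p := ⟨(⟨(p.1, 0), Or.inl le_rfl⟩, p.2), (letter_eq_iff F hi _).2 ⟨le_rfl, p.1.2⟩⟩
  left_inv q := by
    obtain ⟨⟨⟨⟨b, t⟩, hbt⟩, s⟩, hq⟩ := q
    have h := (letter_eq_iff F hi _).1 hq
    have hb : b ∉ A := by
      intro hb
      have := (F.zero b).2 hb
      have h2 : F.lev b = i := h.2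
      omega
    have ht : t = 0 := le_antisymm (hbt.resolve_right hb) h.1
    subst ht
    rfl
  right_inv _ := rfl
  continuous_toFun := by fun_prop
  continuous_invFun := by fun_prop

/-- the alphabet of `XX A × ℝ` -/
noncomputable def alphXX [T2Space B] [LocallyCompactSpace B] (hA : IsClosed A) :
    Alph (XX A × ℝ) u where
  ℓ := letter F
  le q := by
    rw [letter]
    split_ifs
    · exact (F.le _).trans (Nat.le_succ u)
    · exact le_rfl
  closed i := by
    rcases le_or_gt i u with hi | hi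
    · have : {q : XX A × ℝ | letter F q ≤ i} =
          (fun q : XX A × ℝ => q.1.1.2) ⁻¹' Ici 0 ∩ (fun q : XX A × ℝ => q.1.1.1) ⁻¹'
            {b | F.lev b ≤ i} := by
        ext q
        exact letter_le_iff F hi q
      rw [this]
      exact (isClosed_Ici.preimage (by fun_prop)).inter ((F.closed i).preimage (by fun_prop))
    · have : {q : XX A × ℝ | letter F q ≤ i} = univ := by
        refine eq_univ_of_forall fun q => ?_
        change letter F q ≤ i
        rw [letter]
        split_ifs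
        · exact (F.le _).trans hi.le
        · omega
      rw [this]
      exact isClosed_univ
  contr := ⟨A × ℝ, inferInstance, inferInstance, by
    have : LocallyCompactSpace A := hA.locallyCompactSpace
    infer_instance, ⟨homeo0 F⟩⟩
  odd i h1 hi := by
    obtain ⟨m, ⟨a⟩⟩ := F.cell i h1 hi
    exact ⟨m, ⟨(homeoOdd F h1 hi).trans (a.prodCongr (Homeomorph.refl ℝ))⟩⟩

theorem alphXX_le_iff [T2Space B] [LocallyCompactSpace B] (hA : IsClosed A) (q : XX A × ℝ) :
    (alphXX F hA).ℓ q ≤ u ↔ q.1 ∈ UU A := by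
  change letter F q ≤ u ↔ 0 ≤ q.1.1.2
  rw [letter_le_iff F le_rfl]
  exact and_iff_left (F.le _)

end pair

end Crest.Agent.R090.F1Core737
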