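import Crest.Agent.R090.CTSt_503
import Crest.Agent.R090.F1Q_737
import Crest.Agent.R090.SpineDefs_796

/-!
# Row 90, F1: dictionary between `CT` (737), `ctSt` (503) and the words of the spine (helper541)

* `opE_eq`, `iterate_opE` : the operator `∑ c σ • (ρ σ)^*` of `ctSt Y E` is precomposition with
  `(∑ c σ • ρ σ) ∧ 1_Y`;
* `permSt_mul`, `permSt_one`, `permSt_pow` : `permSt V (a ^ k) = npow (permSt V a) k`;
* `tens_permSt` : `tens (ofP κ) (permSt V a) = ∑ σ, a σ • ofP (κ ∧ perm σ)`;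
* `comp_tens_permSt_pow`, `sNull_tens_iff`, `sNull_tens_of_CT`.
-/

set_option autoImplicit false
set_option linter.unusedSectionVars false

open Topology Filter Set

namespace Crest.Agent.R090.CTSt541

open OnePoint Crest.Agent.R090.Sp962 Crest.Agent.R090.St528 Crest.Agent.R090.Exc503
open Crest.Agent.R090.Spine Crest.Agent.R090.F1Core737 Crest.Agent.R090.Sm202
open Crest.Agent.R090.Young152

section opE

variable {Y : Type} [TopologicalSpace Y] [T2Space Y] [LocallyCompactSpace Y]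
variable {E : Type} [TopologicalSpace E] [T2Space E] [LocallyCompactSpace E]
variable {X : Type} [TopologicalSpace X] [T2Space X] [LocallyCompactSpace X]
variable {X' : Type} [TopologicalSpace X'] [T2Space X'] [LocallyCompactSpace X']
variable {G : Type*} [Fintype G]

/-- the stable self map `∑ c σ • ρ σ` -/
noncomputable def opSt (c : G → ℤ) (ρ : G → (X ≃ₜ X)) : St X X :=
  ∑ σ : G, c σ • St.ofP (PMap.ofHomeo (ρ σ))

theorem opSt_def (c : G → ℤ) (ρ : G → (X ≃ₜ X)) :
    opSt c ρ = ∑ σ : G, c σ • St.ofP (PMap.ofHomeo (ρ σ)) := rfl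

theorem opSt_smR (c : G → ℤ) (ρ : G → (X ≃ₜ X)) :
    (opSt c ρ).smR Y =
      ∑ σ : G, c σ • St.ofP ((PMap.ofHomeo (ρ σ)).smash (PMap.id Y)) := by
  rw [opSt, smR_sum]
  refine Finset.sum_congr rfl fun σ _ => ?_
  rw [smR_zsmul, smR_ofP]

theorem opE_eq (hE : SphT.{0} E) (c : G → ℤ) (ρ : G → (X ≃ₜ X)) (g : St (X × Y) E) :
    (((ctSt Y E hE).opE c ρ : St (X × Y) E →+ St (X × Y) E)) g = g.comp ((opSt c ρ).smR Y) := by
  refine (CT.opE_apply (ctSt Y E hE) c ρ g).trans ?_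
  rw [opSt_smR]
  refine Eq.trans ?_ (St.comp_sum Finset.univ g _).symm
  refine Finset.sum_congr rfl fun σ _ => ?_
  exact (St.comp_zsmul (c σ) g _).symm

theorem iterate_opE (hE : SphT.{0} E) (c : G → ℤ) (ρ : G → (X ≃ₜ X)) (n : ℕ)
    (g : St (X × Y) E) :
    (⇑((ctSt Y E hE).opE c ρ : St (X × Y) E →+ St (X × Y) E))^[n] g =
      g.comp ((npow (opSt c ρ) n).smR Y) := by
  induction n with
  | zero =>
    change g = g.comp ((St.id X).smR Y)
    rw [smR_id, St.comp_id]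
  | succ n ih =>
    refine (Function.iterate_succ_apply' _ n g).trans ?_
    refine Eq.trans (congrArg _ ih) ?_
    refine (opE_eq hE c ρ _).trans ?_
    rw [St.comp_assoc, ← smR_comp]
    rfl

/-- **`SNull` from all theories** -/
theorem sNull_npow {c : G → ℤ} {ρ : G → (X ≃ₜ X)} {n : ℕ}
    (h : ∀ (T : CT.{0, 0}) (g : T.H X), (T.opE c ρ)^[n] g = 0) :
    SNull (npow (opSt c ρ) n) := by
  intro T _ _ _ j g
  refine (iterate_opE (SphT.fd (Fin j → ℝ)) c ρ n g).symm.trans ?_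
  exact h (ctSt T (Fin j → ℝ) (SphT.fd (Fin j → ℝ))) g

/-- a stable map `κ` followed by `(∑ c σ • ρ σ) ^ n` -/
theorem map_iterate_opE (hE : SphT.{0} E) (c : G → ℤ) (ρ : G → (X ≃ₜ X)) (n : ℕ)
    (k : PMap X' X) (g : St (X × Y) E) :
    (ctSt Y E hE).map k ((⇑((ctSt Y E hE).opE c ρ))^[n] g) =
      g.comp (((npow (opSt c ρ) n).comp (St.ofP k)).smR Y) := by
  have h := iterate_opE hE c ρ n g
  refine Eq.trans (congrArg _ h) ?_
  change (g.comp ((npow (opSt c ρ) n).smR Y)).comp (St.ofP (k.smash (PMap.id Y))) = _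
  rw [St.comp_assoc, smR_comp, smR_ofP]

/-- `SNull ((∑ c σ • ρ σ) ^ n ∘ k)` from all theories -/
theorem sNull_npow_comp {c : G → ℤ} {ρ : G → (X ≃ₜ X)} {n : ℕ} {k : PMap X' X}
    (h : ∀ (T : CT.{0, 0}) (g : T.H X), T.map k ((T.opE c ρ)^[n] g) = 0) :
    SNull ((npow (opSt c ρ) n).comp (St.ofP k)) := by
  intro T _ _ _ j g
  refine (map_iterate_opE (SphT.fd (Fin j → ℝ)) c ρ n k g).symm.trans ?_
  exact h (ctSt T (Fin j → ℝ) (SphT.fd (Fin j → ℝ))) g

end opE

/-! ## the group ring action -/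

section permSt

variable {V : Type} [TopologicalSpace V] [T2Space V] [LocallyCompactSpace V]
variable {κ : Type} [Fintype κ] [DecidableEq κ]

theorem permSt_eq_opSt (a : MonoidAlgebra ℤ (Equiv.Perm κ)) :
    permSt V a = opSt (fun σ => a.coeff σ) (Strata973.perm (X := V) (κ := κ)) := rfl

end permSt

end Crest.Agent.R090.CTSt541
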