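import Crest.Agent.R090.StCat2_865
import Crest.Agent.R090.CatWcok_314
import Crest.Agent.R090.CovSt_128

/-!
# Row 90, DUAL: `Data LC` and the exact triangles of mapping cones (owner helper314)

* `D0 : Dual698.Data LC`;
* `tri f : Dual698.Tri D0 U V (MC f)`.
-/

set_option autoImplicit false
set_option linter.unusedSectionVars false

open Topology Filter Set CategoryTheory MonoidalCategory

noncomputable section

namespace Crest.Agent.R090.CatCone314

open OnePoint Crest.Agent.R090.Sp962 Crest.Agent.R090.Grp528 Crest.Agent.R090.St528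
  Crest.Agent.R090.Sm202 Crest.Agent.R090.StCat865 Crest.Agent.R090.CatWcok314

theorem sph_io : Sph (LC.of Io) := sph_of_homeo (F := LC.of Io) F1d541.RI.symm sph_real

/-- the stable category as input of the abstract duality -/
def D0 : Dual698.Data LC where
  Sph := Sph
  unit := sph_unit
  tensor := sph_tensor
  R := LC.of Io
  sphR := sph_io
  neg := neg_io
  sum := StCat865.sum
  wcok := CatWcok314.wcok

theorem D0_R : D0.R = LC.of Io := rfl

theorem D0_Sph (F : LC) : D0.Sph F ↔ ∃ k : ℕ, Nonempty (F ≃ₜ (Fin k → ℝ)) := Iff.rfl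

variable {U V : Type} [TopologicalSpace U] [TopologicalSpace V] [T2Space U] [T2Space V]
  [LocallyCompactSpace U] [LocallyCompactSpace V]

/-- `MC f → U ∧ Io → V ∧ Io` is null -/
theorem smash_p_null (f : PMap U V) : ((f.smash (PMap.id Io)).comp (MC.p f)).Null := by
  refine PMap.Homotopic.of (fun q => gh f q.1 q.2) (continuous_gh f) ?_ ?_ ?_
  · intro z
    exact gh_zero f z
  · intro z
    exact gh_one f z
  · intro t
    exact gh_inf f _

/-- the triangle of a mapping cone -/
def tri (f : PMap U V) : Dual698.Tri D0 (LC.of U) (LC.of V) (LC.of (MC f)) where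
  f := St.ofP f
  i := St.ofP (MC.i f)
  p := St.ofP (MC.p f)
  fi := by
    change (St.ofP (MC.i f)).comp (St.ofP f) = 0
    rw [← St.ofP_comp, St.ofP_null (MC.i_comp_null f)]
  ip := by
    change (St.ofP (MC.p f)).comp (St.ofP (MC.i f)) = 0
    rw [← St.ofP_comp, MC.p_comp_i, St.ofP_zero]
  pf := by
    change ((St.ofP f).smR Io).comp (St.ofP (MC.p f)) = 0
    rw [smR_ofP, ← St.ofP_comp, St.ofP_null (smash_p_null f)]
  ex1 {A B} h hh := by
    have hh' : ((St.ofP (MC.i f)).smL B).comp h = 0 := hh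
    rw [smL_ofP] at hh'
    obtain ⟨k, hk⟩ := CovSt128.cov1L (D := B) f h hh'
    exact ⟨k, (congrArg (fun t => St.comp t k) (smL_ofP (W := B) f)).trans hk⟩
  ex2 {A B} h hh := by
    have hh' : ((St.ofP (MC.p f)).smL B).comp h = 0 := hh
    rw [smL_ofP] at hh'
    obtain ⟨k, hk⟩ := CovSt128.cov2L (D := B) f h hh'
    exact ⟨k, (congrArg (fun t => St.comp t k) (smL_ofP (W := B) (MC.i f))).trans hk⟩
  ex3 {A B} h hh := by
    have hh' : (((St.ofP f).smR Io).smL B).comp h = 0 := hh
    rw [smR_ofP, smL_ofP] at hh'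
    obtain ⟨k, hk⟩ := CovSt128.cov3L (D := B) f h hh'
    exact ⟨k, (congrArg (fun t => St.comp t k) (smL_ofP (W := B) (MC.p f))).trans hk⟩

/-- the induction step for a mapping cone -/
theorem pp_cone {X : LC} (f : PMap U V) (hU : Dual698.PP D0 X (LC.of U))
    (hV : Dual698.PP D0 X (LC.of V)) : Dual698.PP D0 X (LC.of (MC f)) :=
  Dual698.PP_cone D0 (tri f) hU hV

theorem pp_unit (X : LC) : Dual698.PP D0 X (LC.of Unit) := Dual698.PP_unit D0 X

theorem pp_susp {X : LC} (h : Dual698.PP D0 X (LC.of U)) :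
    Dual698.PP D0 X (LC.of (U × Io)) := Dual698.PP_susp D0 h

theorem pp_homeo {X : LC} (e : U ≃ₜ V) (h : Dual698.PP D0 X (LC.of U)) :
    Dual698.PP D0 X (LC.of V) := Dual698.PP_iso D0 (isoSh (X := LC.of U) (Y := LC.of V) e) h

end Crest.Agent.R090.CatCone314
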