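import Crest.Agent.R090.StCat2_865
import Crest.Agent.R090.CovSt_128
import Crest.Agent.R090.Dual_698
import Crest.Agent.R090.ExcSt_503

/-!
# Row 90: the exact triangle of a mapping cone in the stable category (helper865)
-/

set_option autoImplicit false
set_option linter.unusedSectionVars false

open Topology Filter Set CategoryTheory MonoidalCategory

noncomputable section

namespace Crest.Agent.R090.StCat865

open OnePoint Crest.Agent.R090.Sp962 Crest.Agent.R090.Grp528 Crest.Agent.R090.St528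
  Crest.Agent.R090.Sm202 Crest.Agent.R090.CovSt128 Crest.Agent.R090.Dual698

/-- the stable class of a pointed map as a morphism of `LC` -/
def ofP {U V : LC} (f : PMap U V) : U ⟶ V := St.ofP f

theorem ofP_def {U V : LC} (f : PMap U V) : ofP f = St.ofP f := rfl

theorem ofP_comp {U V W : LC} (f : PMap U V) (g : PMap V W) : ofP f ≫ ofP g = ofP (g.comp f) :=
  (St.ofP_comp g f).symm

theorem ofP_null {U V : LC} {f : PMap U V} (h : f.Null) : ofP f = 0 := St.ofP_null h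

theorem ofP_congr {U V : LC} {f g : PMap U V} (h : f.Homotopic g) : ofP f = ofP g :=
  St.ofP_congr h

theorem ofP_id (U : LC) : ofP (PMap.id U) = 𝟙 U := St.ofP_id

theorem whiskerLeft_ofP (W : LC) {U V : LC} (f : PMap U V) :
    W ◁ ofP f = ofP (U := ⟨W × U⟩) (V := ⟨W × V⟩) ((PMap.id W).smash f) := smL_ofP f

theorem whiskerRight_ofP (W : LC) {U V : LC} (f : PMap U V) :
    ofP f ▷ W = ofP (U := ⟨U × W⟩) (V := ⟨V × W⟩) (f.smash (PMap.id W)) := smR_ofP f

/-- the cone -/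
abbrev cone {U V : LC} (f : PMap U V) : LC := ⟨MC f⟩

section cone

variable {U V : LC} (f : PMap U V)

/-- inclusion into the cone -/
def coneI : V ⟶ cone f := ofP (V := cone f) (MC.i f)

/-- projection of the cone -/
def coneP : cone f ⟶ U ⊗ LC.of Io := ofP (U := cone f) (V := ⟨U × Io⟩) (MC.p f)

theorem f_coneI : ofP f ≫ coneI f = 0 := by
  rw [coneI, ofP_comp]
  exact ofP_null (MC.i_comp_null f)

theorem coneI_coneP : coneI f ≫ coneP f = 0 := by
  rw [coneI, coneP, ofP_comp, MC.p_comp_i]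
  exact ofP_null (PMap.Homotopic.refl _)

theorem coneP_f : coneP f ≫ ofP f ▷ LC.of Io = 0 := by
  rw [whiskerRight_ofP]
  have h : coneP f = ofP (U := cone f) (V := ⟨U × Io⟩) (MC.p f) := rfl
  rw [h]
  exact (ofP_comp (U := cone f) (V := ⟨U × Io⟩) (W := ⟨V × Io⟩) (MC.p f)
    (f.smash (PMap.id Io))).trans (ofP_null (U := cone f) (V := ⟨V × Io⟩)
      (Exc503.null_smash_comp_p f))

theorem coneEx1 {A B : LC} (h : A ⟶ B ⊗ V) (hi : h ≫ B ◁ coneI f = 0) :
    ∃ k : A ⟶ B ⊗ U, k ≫ B ◁ ofP f = h := by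
  rw [coneI, whiskerLeft_ofP] at hi
  obtain ⟨k, hk⟩ := cov1L (W := A) (D := B) f h hi
  refine ⟨k, ?_⟩
  rw [whiskerLeft_ofP]
  exact hk

theorem coneEx2 {A B : LC} (h : A ⟶ B ⊗ cone f) (hi : h ≫ B ◁ coneP f = 0) :
    ∃ k : A ⟶ B ⊗ V, k ≫ B ◁ coneI f = h := by
  have hi' : h ≫ B ◁ ofP (U := cone f) (V := ⟨U × Io⟩) (MC.p f) = 0 := hi
  rw [whiskerLeft_ofP] at hi'
  obtain ⟨k, hk⟩ := cov2L (W := A) (D := B) f h hi'
  refine ⟨k, ?_⟩
  rw [coneI, whiskerLeft_ofP]
  exact hk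

theorem coneEx3 {A B : LC} (h : A ⟶ B ⊗ (U ⊗ LC.of Io)) (hi : h ≫ B ◁ (ofP f ▷ LC.of Io) = 0) :
    ∃ k : A ⟶ B ⊗ cone f, k ≫ B ◁ coneP f = h := by
  rw [whiskerRight_ofP] at hi
  have hi' : h ≫ B ◁ ofP (U := ⟨U × Io⟩) (V := ⟨V × Io⟩) (f.smash (PMap.id Io)) = 0 := hi
  rw [whiskerLeft_ofP] at hi'
  obtain ⟨k, hk⟩ := cov3L (W := A) (D := B) f h hi'
  refine ⟨k, ?_⟩
  have h2 : B ◁ coneP f = B ◁ ofP (U := cone f) (V := ⟨U × Io⟩) (MC.p f) := rfl
  rw [h2, whiskerLeft_ofP]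
  exact hk

/-- the exact triangle of a cone -/
def tri (D : Data LC) (hR : D.R = LC.of Io) : Tri D U V (cone f) := by
  obtain ⟨Sph, unit, tensor, R, sphR, neg, sum, wcok⟩ := D
  subst hR
  exact
    { f := ofP f
      i := coneI f
      p := coneP f
      fi := f_coneI f
      ip := coneI_coneP f
      pf := coneP_f f
      ex1 := fun h hi => coneEx1 f h hi
      ex2 := fun h hi => coneEx2 f h hi
      ex3 := fun h hi => coneEx3 f h hi }

end cone

/-- the isomorphism of a homotopy equivalence -/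
def isoOfHEqv {U V : LC} (f : PMap U V) (g : PMap V U) (h1 : (g.comp f).Homotopic (PMap.id U))
    (h2 : (f.comp g).Homotopic (PMap.id V)) : U ≅ V where
  hom := ofP f
  inv := ofP g
  hom_inv_id := by rw [ofP_comp, ofP_congr h1, ofP_id]
  inv_hom_id := by rw [ofP_comp, ofP_congr h2, ofP_id]

/-! ## spheres -/

/-- spheres -/
def Sph (X : LC) : Prop := ∃ k : ℕ, Nonempty (X ≃ₜ (Fin k → ℝ))

theorem sph_unit : Sph (𝟙_ LC) :=
  ⟨0, ⟨{ toFun := fun _ => 0
         invFun := fun _ => ()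
         left_inv := fun _ => rfl
         right_inv := fun _ => Subsingleton.elim _ _
         continuous_toFun := continuous_const
         continuous_invFun := continuous_const }⟩⟩

theorem sph_tensor {F G : LC} (hF : Sph F) (hG : Sph G) : Sph (F ⊗ G) := by
  obtain ⟨k, ⟨e⟩⟩ := hF
  obtain ⟨l, ⟨e'⟩⟩ := hG
  exact ⟨k + l, ⟨(e.prodCongr e').trans (Fin.appendHomeomorph k l)⟩⟩

theorem sph_io : Sph (LC.of Io) :=
  ⟨1, ⟨ioHomeo.symm.trans (Homeomorph.funUnique (Fin 1) ℝ).symm⟩⟩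

/-- data for duality in the stable category, up to weak cokernels -/
def mkData (wcok : ∀ {A B : LC} (g : A ⟶ B), ∃ (F B' : LC) (c : F ⊗ B ⟶ B'), Sph F ∧
    F ◁ g ≫ c = 0 ∧ ∀ {X E : LC} (u : X ⊗ B ⟶ E), X ◁ g ≫ u = 0 →
      ∃ u' : X ⊗ B' ⟶ F ⊗ E, X ◁ c ≫ u' = sU F u) : Data LC where
  Sph := Sph
  unit := sph_unit
  tensor := sph_tensor
  R := LC.of Io
  sphR := sph_io
  neg := neg_io
  sum := sum
  wcok := wcok

end Crest.Agent.R090.StCat865
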