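import Mathlib
import Crest.Prelude.Def_TorusSlots

/-!
Row 90 (S0119), leaf CODE: real MDS codes, block counting, and the slot normalisation
`v ↦ v / max (‖v‖, ε)`.
-/

set_option autoImplicit false

namespace Crest.Agent.R090.Code_843

open Finset

/-! ### MDS matrices -/

/-- every `k` rows are linearly independent. -/
def MDS {k N : ℕ} (C : Matrix (Fin N) (Fin k) ℝ) : Prop :=
  ∀ s : Fin k → Fin N, Function.Injective s → (C.submatrix s id).det ≠ 0

/-- Vandermonde generator matrix. -/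
noncomputable def vdm (k N : ℕ) : Matrix (Fin N) (Fin k) ℝ := fun j i => ((j : ℕ) : ℝ) ^ (i : ℕ)

theorem mds_vdm (k N : ℕ) : MDS (vdm k N) := by
  intro s hs
  have h : (vdm k N).submatrix s id = Matrix.vandermonde (fun a : Fin k => (((s a : Fin N) : ℕ) : ℝ)) := by
    ext a i
    simp [vdm, Matrix.vandermonde_apply]
  rw [h, Matrix.det_vandermonde_ne_zero_iff]
  intro a b hab
  have hab' : (((s a : Fin N) : ℕ) : ℝ) = (((s b : Fin N) : ℕ) : ℝ) := hab
  have : ((s a : Fin N) : ℕ) = ((s b : Fin N) : ℕ) := by exact_mod_cast hab'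
  exact hs (Fin.ext this)

section encode

variable {V : Type*} [AddCommGroup V] [Module ℝ V]

/-- the encoder of the code with generator matrix `C`, for `V`-valued words. -/
def enc {k N : ℕ} (C : Matrix (Fin N) (Fin k) ℝ) : (Fin k → V) →ₗ[ℝ] (Fin N → V) where
  toFun x := fun j => ∑ i, C j i • x i
  map_add' x y := by
    funext j
    simp [smul_add, Finset.sum_add_distrib]
  map_smul' c x := by
    funext j
    simp only [Pi.smul_apply, RingHom.id_apply, Finset.smul_sum]
    exact Finset.sum_congr rfl fun i _ => smul_comm _ _ _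

theorem enc_apply {k N : ℕ} (C : Matrix (Fin N) (Fin k) ℝ) (x : Fin k → V) (j : Fin N) :
    enc C x j = ∑ i, C j i • x i := rfl

theorem eq_zero_of_rows {k N : ℕ} {C : Matrix (Fin N) (Fin k) ℝ} (s : Fin k → Fin N)
    (hdet : (C.submatrix s id).det ≠ 0) (x : Fin k → V) (hx : ∀ a, enc C x (s a) = 0) : x = 0 := by
  set M := C.submatrix s id with hM
  have hu : IsUnit M.det := isUnit_iff_ne_zero.mpr hdet
  have hinv : M⁻¹ * M = 1 := Matrix.nonsing_inv_mul M hu
  funext i
  have h1 : ∑ a, M⁻¹ i a • enc C x (s a) = 0 := by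
    refine Finset.sum_eq_zero fun a _ => ?_
    rw [hx a, smul_zero]
  have h2 : ∑ a, M⁻¹ i a • enc C x (s a) = ∑ l, (M⁻¹ * M) i l • x l := by
    have e1 : ∀ a, M⁻¹ i a • enc C x (s a) = ∑ l, (M⁻¹ i a * M a l) • x l := by
      intro a
      rw [enc_apply, Finset.smul_sum]
      refine Finset.sum_congr rfl fun l _ => ?_
      rw [smul_smul]
      rfl
    rw [Finset.sum_congr rfl fun a _ => e1 a, Finset.sum_comm]
    refine Finset.sum_congr rfl fun l _ => ?_
    rw [← Finset.sum_smul]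
    rfl
  rw [h1, hinv] at h2
  have h3 : ∑ l, (1 : Matrix (Fin k) (Fin k) ℝ) i l • x l = x i := by
    rw [Finset.sum_eq_single i]
    · simp
    · intro b _ hb
      rw [Matrix.one_apply_ne (Ne.symm hb), zero_smul]
    · intro h
      exact absurd (Finset.mem_univ i) h
  rw [h3] at h2
  exact h2.symm

open Classical in
/-- a non-zero word has fewer than `k` zero coordinates. -/
theorem card_zero_lt {k N : ℕ} {C : Matrix (Fin N) (Fin k) ℝ} (hC : MDS C) (x : Fin k → V)
    (hx : x ≠ 0) : (Finset.univ.filter fun j => enc C x j = 0).card < k := by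
  by_contra hcon
  push Not at hcon
  obtain ⟨T, hT, hTc⟩ := Finset.exists_subset_card_eq hcon
  let e : Fin k ≃ T := (Fintype.equivFinOfCardEq (by simp [hTc])).symm
  let s : Fin k → Fin N := fun a => (e a : Fin N)
  have hs : Function.Injective s := Subtype.val_injective.comp e.injective
  apply hx
  refine eq_zero_of_rows s (hC s hs) x fun a => ?_
  have := hT (e a).2
  simpa using this

open Classical in
/-- a non-zero word has at least `N - k + 1` non-zero coordinates. -/
theorem le_card_ne_zero {k N : ℕ} {C : Matrix (Fin N) (Fin k) ℝ} (hC : MDS C) (x : Fin k → V)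
    (hx : x ≠ 0) : N + 1 ≤ (Finset.univ.filter fun j => enc C x j ≠ 0).card + k := by
  have h1 := card_zero_lt hC x hx
  have h2 : (Finset.univ.filter fun j => enc C x j = 0).card
      + (Finset.univ.filter fun j => enc C x j ≠ 0).card = N := by
    have := Finset.card_filter_add_card_filter_not (s := (Finset.univ : Finset (Fin N)))
      (fun j => enc C x j = 0)
    simpa using this
  omega

theorem enc_injective {k N : ℕ} {C : Matrix (Fin N) (Fin k) ℝ} (hC : MDS C) (hkN : k ≤ N) :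
    Function.Injective (enc C : (Fin k → V) →ₗ[ℝ] (Fin N → V)) := by
  rw [← LinearMap.ker_eq_bot, LinearMap.ker_eq_bot']
  intro x hx
  refine eq_zero_of_rows (fun a => Fin.castLE hkN a) (hC _ (Fin.castLE_injective hkN)) x fun a => ?_
  rw [hx]
  rfl

theorem continuous_enc [TopologicalSpace V] [ContinuousAdd V] [ContinuousConstSMul ℝ V]
    {k N : ℕ} (C : Matrix (Fin N) (Fin k) ℝ) :
    Continuous (enc C : (Fin k → V) → (Fin N → V)) := by
  refine continuous_pi fun j => ?_
  change Continuous fun x : Fin k → V => ∑ i, C j i • x i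
  exact continuous_finsetSum _ fun i _ => (continuous_apply i).const_smul _

end encode

/-- systematic MDS matrices: the first `k` rows are the identity. -/
theorem exists_systematic (k N : ℕ) (hkN : k ≤ N) :
    ∃ C : Matrix (Fin N) (Fin k) ℝ, MDS C ∧
      ∀ a i : Fin k, C (Fin.castLE hkN a) i = if a = i then 1 else 0 := by
  set M : Matrix (Fin k) (Fin k) ℝ := (vdm k N).submatrix (Fin.castLE hkN) id with hM
  have hdet : M.det ≠ 0 := mds_vdm k N _ (Fin.castLE_injective hkN)
  have hu : IsUnit M.det := isUnit_iff_ne_zero.mpr hdet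
  refine ⟨vdm k N * M⁻¹, ?_, ?_⟩
  · intro s hs
    have h1 : (vdm k N * M⁻¹).submatrix s id = (vdm k N).submatrix s id * M⁻¹ := by
      ext a i
      simp [Matrix.mul_apply]
    rw [h1, Matrix.det_mul]
    refine mul_ne_zero (mds_vdm k N s hs) ?_
    rw [Matrix.det_nonsing_inv]
    exact (Ring.inverse_unit hu.unit ▸ by
      have := hu.unit⁻¹.ne_zero
      simpa [IsUnit.unit_spec] using this)
  · intro a i
    have h2 : (vdm k N * M⁻¹) (Fin.castLE hkN a) i = (M * M⁻¹) a i := by
      simp [Matrix.mul_apply, hM]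
    rw [h2, Matrix.mul_nonsing_inv M hu, Matrix.one_apply]

/-! ### Counting in blocks -/

open Classical in
/-- few blocks carry many elements. -/
theorem card_big_blocks {ι κ : Type*} [Fintype ι] [Fintype κ] (S : Finset (ι × κ)) (A : ℝ)
    (hA : 0 ≤ A) :
    ((Finset.univ.filter fun b : ι => A ≤ ((Finset.univ.filter fun j : κ => (b, j) ∈ S).card : ℝ)).card : ℝ)
      * A ≤ (S.card : ℝ) := by
  set B := Finset.univ.filter fun b : ι => A ≤ ((Finset.univ.filter fun j : κ => (b, j) ∈ S).card : ℝ)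
    with hB
  have h1 : (B.card : ℝ) * A ≤ ∑ b ∈ B, ((Finset.univ.filter fun j : κ => (b, j) ∈ S).card : ℝ) := by
    rw [← nsmul_eq_mul]
    refine Finset.card_nsmul_le_sum _ _ _ fun b hb => ?_
    exact (Finset.mem_filter.mp hb).2
  have h2 : ∑ b ∈ B, (Finset.univ.filter fun j : κ => (b, j) ∈ S).card ≤ S.card := by
    calc ∑ b ∈ B, (Finset.univ.filter fun j : κ => (b, j) ∈ S).card
        ≤ ∑ b, (Finset.univ.filter fun j : κ => (b, j) ∈ S).card :=
          Finset.sum_le_sum_of_subset (Finset.subset_univ _)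
      _ = S.card := by
          have h3 : S.card = ∑ b : ι, (S.filter fun q => q.1 = b).card :=
            Finset.card_eq_sum_card_fiberwise fun q _ => Finset.mem_coe.mpr (Finset.mem_univ q.1)
          rw [h3]
          refine Finset.sum_congr rfl fun b _ => ?_
          refine Finset.card_bij (fun j _ => (b, j)) ?_ ?_ ?_
          · intro j hj
            simpa using (Finset.mem_filter.mp hj).2
          · intro j _ j' _ h
            exact (Prod.ext_iff.mp h).2
          · rintro ⟨b', j⟩ hq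
            simp only [Finset.mem_filter] at hq
            obtain ⟨hq1, rfl⟩ := hq
            exact ⟨j, by simpa using hq1, rfl⟩
  refine h1.trans ?_
  exact_mod_cast h2

open Classical in
/-- the version with a strict threshold. -/
theorem card_big_blocks' {ι κ : Type*} [Fintype ι] [Fintype κ] (S : Finset (ι × κ)) (A : ℝ)
    (hA : 0 ≤ A) :
    ((Finset.univ.filter fun b : ι => A < ((Finset.univ.filter fun j : κ => (b, j) ∈ S).card : ℝ)).card : ℝ)
      * A ≤ (S.card : ℝ) := by
  refine le_trans ?_ (card_big_blocks S A hA)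
  refine mul_le_mul_of_nonneg_right ?_ hA
  exact_mod_cast Finset.card_le_card fun b hb => by
    simp only [Finset.mem_filter, Finset.mem_univ, true_and] at hb ⊢
    exact hb.le

/-! ### Normalisation of slots -/

section norm

variable {t : ℕ}

/-- `v ↦ v / max (‖v‖, ε)` -/
noncomputable def nrm (ε : ℝ) (v : Fin t → ℝ) : Fin t → ℝ := (max ‖v‖ ε)⁻¹ • v

theorem continuous_nrm {ε : ℝ} (hε : 0 < ε) : Continuous (nrm ε : (Fin t → ℝ) → _) := by
  unfold nrm
  refine Continuous.smul (Continuous.inv₀ (continuous_norm.max continuous_const) fun v => ?_)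
    continuous_id
  exact (lt_of_lt_of_le hε (le_max_right _ _)).ne'

theorem norm_nrm_le {ε : ℝ} (hε : 0 < ε) (v : Fin t → ℝ) : ‖nrm ε v‖ ≤ 1 := by
  unfold nrm
  have hpos : 0 < max ‖v‖ ε := lt_of_lt_of_le hε (le_max_right _ _)
  rw [norm_smul, norm_inv, Real.norm_of_nonneg hpos.le, inv_mul_le_iff₀ hpos, mul_one]
  exact le_max_left _ _

theorem norm_nrm_eq {ε : ℝ} (hε : 0 < ε) (v : Fin t → ℝ) (hv : ε ≤ ‖v‖) : ‖nrm ε v‖ = 1 := by
  unfold nrm
  have hpos : 0 < ‖v‖ := lt_of_lt_of_le hε hv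
  rw [max_eq_left hv, norm_smul, norm_inv, Real.norm_of_nonneg hpos.le, inv_mul_cancel₀ hpos.ne']

theorem nrm_of_norm_one {ε : ℝ} (hε1 : ε ≤ 1) (v : Fin t → ℝ) (hv : ‖v‖ = 1) : nrm ε v = v := by
  unfold nrm
  rw [hv, max_eq_left hε1, inv_one, one_smul]

theorem isBoundary_of_norm {v : Fin t → ℝ} (hv : ‖v‖ = 1) : Crest.OpAlg.IsBoundarySlot v := by
  have ht : Nonempty (Fin t) := by
    by_contra h
    rw [not_nonempty_iff] at h
    have : v = 0 := Subsingleton.elim _ _
    rw [this, norm_zero] at hv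
    exact zero_ne_one hv
  obtain ⟨k, -, hk⟩ := Finset.exists_mem_eq_sup' (Finset.univ_nonempty (α := Fin t)) fun k => ‖v k‖₊
  refine ⟨k, ?_⟩
  have h2 : ‖v‖₊ = ‖v k‖₊ := by
    rw [Pi.nnnorm_def, ← Finset.sup'_eq_sup (Finset.univ_nonempty (α := Fin t)), hk]
  have h3 : ‖v‖ = ‖v k‖ := congrArg NNReal.toReal h2
  rw [← Real.norm_eq_abs, ← h3, hv]

theorem norm_of_isBoundary {v : Fin t → ℝ} (h1 : ∀ k, |v k| ≤ 1)
    (hb : Crest.OpAlg.IsBoundarySlot v) : ‖v‖ = 1 := by
  refine le_antisymm ?_ ?_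
  · rw [pi_norm_le_iff_of_nonneg zero_le_one]
    intro k
    rw [Real.norm_eq_abs]
    exact h1 k
  · obtain ⟨k, hk⟩ := hb
    calc (1 : ℝ) = ‖v k‖ := by rw [Real.norm_eq_abs, hk]
      _ ≤ ‖v‖ := norm_le_pi_norm v k

theorem abs_le_of_norm {v : Fin t → ℝ} (h : ‖v‖ ≤ 1) (k : Fin t) : |v k| ≤ 1 := by
  rw [← Real.norm_eq_abs]
  exact (norm_le_pi_norm v k).trans h

/-- uniform positivity of the non-zero slots on a compact space. -/
theorem exists_eps {X ι : Type*} [TopologicalSpace X] [CompactSpace X] [Finite ι]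
    (G : X → ι → Fin t → ℝ) (hG : Continuous G) (m : ℝ)
    (hm : ∀ x, m ≤ (({s | G x s ≠ 0} : Set ι).ncard : ℝ)) :
    ∃ ε : ℝ, 0 < ε ∧ ε ≤ 1 ∧ ∀ x, m ≤ (({s | ε ≤ ‖G x s‖} : Set ι).ncard : ℝ) := by
  classical
  have : Fintype ι := Fintype.ofFinite ι
  -- local thresholds
  have hloc : ∀ x : X, ∃ ε : ℝ, 0 < ε ∧ ε ≤ 1 ∧ ∀ s, G x s ≠ 0 → ε < ‖G x s‖ := by
    intro x
    have h1 : ∀ s : ι, ∃ ε : ℝ, 0 < ε ∧ ε ≤ 1 ∧ (G x s ≠ 0 → ε < ‖G x s‖) := by
      intro s
      by_cases hs : G x s = 0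
      · exact ⟨1, one_pos, le_rfl, fun h => absurd hs h⟩
      · refine ⟨min 1 (‖G x s‖ / 2), lt_min one_pos (half_pos (norm_pos_iff.mpr hs)), min_le_left _ _,
          fun _ => lt_of_le_of_lt (min_le_right _ _) (half_lt_self (norm_pos_iff.mpr hs))⟩
    choose e he0 he1 he using h1
    by_cases hne : Nonempty ι
    · obtain ⟨s0, -, hs0⟩ := Finset.exists_mem_eq_inf' (Finset.univ_nonempty (α := ι)) e
      refine ⟨e s0, he0 s0, he1 s0, fun s hs => lt_of_le_of_lt ?_ (he s hs)⟩
      rw [← hs0]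
      exact Finset.inf'_le _ (Finset.mem_univ s)
    · exact ⟨1, one_pos, le_rfl, fun s => absurd ⟨s⟩ hne⟩
  choose e he0 he1 he using hloc
  let W : X → Set X := fun x => {y | ∀ s, G x s ≠ 0 → e x < ‖G y s‖}
  have hWo : ∀ x, IsOpen (W x) := by
    intro x
    have : W x = ⋂ s : ι, {y | G x s ≠ 0 → e x < ‖G y s‖} := by
      ext y; simp [W]
    rw [this]
    refine isOpen_iInter_of_finite fun s => ?_
    by_cases hs : G x s = 0
    · have : {y | G x s ≠ 0 → e x < ‖G y s‖} = Set.univ := by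
        ext y; simp [hs]
      rw [this]; exact isOpen_univ
    · have : {y | G x s ≠ 0 → e x < ‖G y s‖} = {y | e x < ‖G y s‖} := by
        ext y; simp [hs]
      rw [this]
      exact isOpen_lt continuous_const (((continuous_apply s).comp hG).norm)
  have hcov : ∀ x ∈ (Set.univ : Set X), W x ∈ nhds x := fun x _ =>
    (hWo x).mem_nhds fun s hs => he x s hs
  obtain ⟨T, -, hT⟩ := isCompact_univ.elim_nhds_subcover W hcov
  have hmin : ∃ ε : ℝ, 0 < ε ∧ ε ≤ 1 ∧ ∀ x ∈ T, ε ≤ e x := by
    by_cases hne : T.Nonempty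
    · obtain ⟨x0, hx0, hx0'⟩ := Finset.exists_mem_eq_inf' hne e
      refine ⟨e x0, he0 x0, he1 x0, fun x hx => ?_⟩
      rw [← hx0']
      exact Finset.inf'_le _ hx
    · rw [Finset.not_nonempty_iff_eq_empty] at hne
      exact ⟨1, one_pos, le_rfl, fun x hx => by simp [hne] at hx⟩
  obtain ⟨ε, hε0, hε1, hε⟩ := hmin
  refine ⟨ε, hε0, hε1, fun y => ?_⟩
  obtain ⟨x, hxT, hyx⟩ : ∃ x ∈ T, y ∈ W x := by
    have := hT (Set.mem_univ y)
    simpa using this
  refine (hm x).trans ?_
  exact_mod_cast Set.ncard_le_ncard (fun s hs => ((hε x hxT).trans (hyx s hs).le : ε ≤ ‖G y s‖))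
    (Set.toFinite _)

end norm

/-! ### (I4): the equivariant retraction -/

section equivariant

variable {ι : Type*} [Fintype ι]

open Classical in
/-- the equivariant retraction `e`: continuous, `e (w + L v) = e w + v`, zero on `Bad`. -/
theorem exists_e {k : ℕ} (L : (Fin k → ℝ) →ₗ[ℝ] (ι → ℝ)) (d : ℕ)
    (hLd : ∀ x, x ≠ 0 → d < (Finset.univ.filter fun i => L x i ≠ 0).card)
    (Bad : Set (ι → ℝ)) (hBc : IsClosed Bad)
    (hBad : ∀ w ∈ Bad, ∀ w' ∈ Bad, (Finset.univ.filter fun i => w i - w' i ≠ 0).card ≤ d) :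
    ∃ e : (ι → ℝ) → (Fin k → ℝ), Continuous e ∧ (∀ w v, e (w + L v) = e w + v) ∧
      ∀ w ∈ Bad, e w = 0 := by
  have hLinj : Function.Injective L := by
    rw [← LinearMap.ker_eq_bot, LinearMap.ker_eq_bot']
    intro x hx
    by_contra hne
    have := hLd x hne
    rw [hx] at this
    simp at this
  obtain ⟨π, hπ⟩ := L.exists_leftInverse_of_injective (LinearMap.ker_eq_bot.mpr hLinj)
  have hπ' : ∀ v, π (L v) = v := fun v => by
    have := congrArg (fun φ => φ v) hπ
    simpa using this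
  let ρ : (ι → ℝ) →ₗ[ℝ] (ι → ℝ) := LinearMap.id - L ∘ₗ π
  have hρ : ∀ w, ρ w = w - L (π w) := fun w => rfl
  have hρL : ∀ w v, ρ (w + L v) = ρ w := by
    intro w v
    rw [hρ, hρ, map_add, hπ', map_add]
    abel
  -- antilipschitz on each small coordinate subspace
  let S : Finset ι → Submodule ℝ (ι → ℝ) := fun J =>
    { carrier := {w | ∀ i, i ∉ J → w i = 0}
      add_mem' := by
        intro w w' hw hw' i hi
        rw [Pi.add_apply, hw i hi, hw' i hi, add_zero]
      zero_mem' := fun i _ => rfl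
      smul_mem' := by
        intro c w hw i hi
        rw [Pi.smul_apply, hw i hi, smul_zero] }
  have hS : ∀ J : Finset ι, ∃ K : ℝ, 0 ≤ K ∧ (J.card ≤ d → ∀ w ∈ S J, ‖w‖ ≤ K * ‖ρ w‖) := by
    intro J
    by_cases hJ : J.card ≤ d
    · have hker : LinearMap.ker (ρ ∘ₗ (S J).subtype) = ⊥ := by
        rw [LinearMap.ker_eq_bot']
        rintro ⟨w, hw⟩ h0
        have h1 : ρ w = 0 := h0
        rw [hρ, sub_eq_zero] at h1
        have h2 : π w = 0 := by
          by_contra hne
          have h3 := hLd _ hne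
          have h4 : (Finset.univ.filter fun i => L (π w) i ≠ 0) ⊆ J := by
            intro i hi
            by_contra hiJ
            have h5 : w i = 0 := hw i hiJ
            rw [h1] at h5
            exact (Finset.mem_filter.mp hi).2 h5
          have h5 := Finset.card_le_card h4
          omega
        rw [h2, map_zero] at h1
        exact Subtype.ext h1
      obtain ⟨K, -, hK⟩ := (ρ ∘ₗ (S J).subtype).exists_antilipschitzWith hker
      refine ⟨K, K.coe_nonneg, fun _ w hw => ?_⟩
      have h6 := hK.le_mul_dist ⟨w, hw⟩ 0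
      rw [dist_zero_right, map_zero, dist_zero_right] at h6
      exact h6
    · exact ⟨0, le_rfl, fun h => absurd h hJ⟩
  choose K hK0 hK using hS
  obtain ⟨M, hM⟩ : ∃ M : ℝ, ∀ J, K J ≤ M := by
    refine ⟨∑ J, K J, fun J => ?_⟩
    exact Finset.single_le_sum (fun J _ => hK0 J) (Finset.mem_univ J)
  have hM0 : 0 ≤ M := (hK0 ∅).trans (hM ∅)
  have hanti : ∀ w ∈ Bad, ∀ w' ∈ Bad, ‖w - w'‖ ≤ M * ‖ρ w - ρ w'‖ := by
    intro w hw w' hw'
    rw [← map_sub]
    refine (hK _ (hBad w hw w' hw') (w - w') ?_).trans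
      (mul_le_mul_of_nonneg_right (hM _) (norm_nonneg _))
    intro i hi
    have : ¬ (w i - w' i ≠ 0) := fun h => hi (Finset.mem_filter.mpr ⟨Finset.mem_univ i, h⟩)
    exact not_not.mp this
  let r : Bad → (ι → ℝ) := fun w => ρ w
  have hρc : Continuous ρ := LinearMap.continuous_of_finiteDimensional ρ
  have hπc : Continuous π := LinearMap.continuous_of_finiteDimensional π
  have hanti' : AntilipschitzWith (Real.toNNReal M) r := by
    refine AntilipschitzWith.of_le_mul_dist fun w w' => ?_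
    rw [Subtype.dist_eq, dist_eq_norm, dist_eq_norm, Real.coe_toNNReal _ hM0]
    exact hanti w w.2 w' w'.2
  have : CompleteSpace Bad := hBc.completeSpace_coe
  have hru : UniformContinuous r := by
    have h1 : UniformContinuous ρ := by
      have := (LinearMap.toContinuousLinearMap ρ).uniformContinuous
      exact this
    exact h1.comp uniformContinuous_subtype_val
  have hce : Topology.IsClosedEmbedding r := hanti'.isClosedEmbedding hru
  obtain ⟨h, hh⟩ := ContinuousMap.exists_extension hce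
    (⟨fun w : Bad => -π w, (hπc.comp continuous_subtype_val).neg⟩ : C(Bad, Fin k → ℝ))
  refine ⟨fun w => π w + h (ρ w), hπc.add (h.continuous.comp hρc), ?_, ?_⟩
  · intro w v
    show π (w + L v) + h (ρ (w + L v)) = π w + h (ρ w) + v
    rw [hρL, map_add, hπ']
    abel
  · intro w hw
    have h7 : h (r ⟨w, hw⟩) = -π w := by
      have := congrArg (fun φ : C(Bad, Fin k → ℝ) => φ ⟨w, hw⟩) hh
      exact this
    show π w + h (ρ w) = 0
    have h8 : h (ρ w) = -π w := h7
    rw [h8, add_neg_cancel]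

end equivariant

/-! ### The torus -/

theorem continuous_torusData (m : ℕ) : Continuous (Crest.OpAlg.torusData m) := by
  induction m with
  | zero => exact continuous_const
  | succ m ih =>
    have h1 : Continuous fun w : Fin (m + 1) → Circle => Crest.OpAlg.torusData m (Fin.init w) :=
      ih.comp (continuous_pi fun i => continuous_apply _)
    have hz : Continuous fun w : Fin (m + 1) → Circle => ((w (Fin.last m) : Circle) : ℂ) :=
      continuous_subtype_val.comp (continuous_apply _)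
    have hre : Continuous fun w : Fin (m + 1) → Circle => ((w (Fin.last m) : Circle) : ℂ).re :=
      Complex.continuous_re.comp hz
    have him : Continuous fun w : Fin (m + 1) → Circle => ((w (Fin.last m) : Circle) : ℂ).im :=
      Complex.continuous_im.comp hz
    have hsnoc : ∀ (F : (Fin (m + 1) → Circle) → (Fin (m + 1) → ℝ)) (g : (Fin (m + 1) → Circle) → ℝ),
        Continuous F → Continuous g →
        Continuous fun w => (Fin.snoc (F w) (g w) : Fin (m + 1 + 1) → ℝ) := by
      intro F g hF hg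
      refine continuous_pi fun i => ?_
      refine Fin.lastCases ?_ (fun j => ?_) i
      · simpa using hg
      · simp only [Fin.snoc_castSucc]
        exact (continuous_apply j).comp hF
    show Continuous fun w : Fin (m + 1) → Circle =>
      ((Fin.snoc ((Crest.OpAlg.torusData m (Fin.init w)).1 +
          (Crest.OpAlg.radius (m + 1) * ((w (Fin.last m) : Circle) : ℂ).re) •
            (Crest.OpAlg.torusData m (Fin.init w)).2)
          (Crest.OpAlg.radius (m + 1) * ((w (Fin.last m) : Circle) : ℂ).im) : Fin (m + 1 + 1) → ℝ),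
        (Fin.snoc (((w (Fin.last m) : Circle) : ℂ).re • (Crest.OpAlg.torusData m (Fin.init w)).2)
          ((w (Fin.last m) : Circle) : ℂ).im : Fin (m + 1 + 1) → ℝ))
    refine Continuous.prodMk ?_ ?_
    · exact hsnoc _ _ (h1.fst.add ((continuous_const.mul hre).smul h1.snd)) (continuous_const.mul him)
    · exact hsnoc _ _ (hre.smul h1.snd) him

theorem torusData_bound (m : ℕ) (w : Fin m → Circle) :
    (∀ i, |(Crest.OpAlg.torusData m w).1 i| ≤ 1 / 64 - (1 / 4 : ℝ) ^ (m + 3)) ∧
      ∀ i, |(Crest.OpAlg.torusData m w).2 i| ≤ 1 := by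
  induction m with
  | zero =>
    refine ⟨fun i => ?_, fun i => ?_⟩
    · show |(0 : ℝ)| ≤ _
      norm_num
    · show |(1 : ℝ)| ≤ 1
      norm_num
  | succ m ih =>
    obtain ⟨h1, h2⟩ := ih (Fin.init w)
    have hz : ‖((w (Fin.last m) : Circle) : ℂ)‖ = 1 := Circle.norm_coe _
    have hre : |((w (Fin.last m) : Circle) : ℂ).re| ≤ 1 := by
      rw [← hz]; exact Complex.abs_re_le_norm _
    have him : |((w (Fin.last m) : Circle) : ℂ).im| ≤ 1 := by
      rw [← hz]; exact Complex.abs_im_le_norm _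
    have hr : Crest.OpAlg.radius (m + 1) = (1 / 4 : ℝ) ^ (m + 1 + 3) := rfl
    have hr0 : 0 < Crest.OpAlg.radius (m + 1) := by rw [hr]; positivity
    have hpow : (1 / 4 : ℝ) ^ (m + 3) = 4 * Crest.OpAlg.radius (m + 1) := by
      rw [hr, show m + 1 + 3 = (m + 3) + 1 from by ring, pow_succ]; ring
    have hpow1 : Crest.OpAlg.radius (m + 1) ≤ (1 / 4 : ℝ) ^ 4 := by
      rw [hr]
      exact pow_le_pow_of_le_one (by norm_num) (by norm_num) (by omega)
    refine ⟨fun i => ?_, fun i => ?_⟩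
    · show |(Fin.snoc ((Crest.OpAlg.torusData m (Fin.init w)).1 +
          (Crest.OpAlg.radius (m + 1) * ((w (Fin.last m) : Circle) : ℂ).re) •
            (Crest.OpAlg.torusData m (Fin.init w)).2)
          (Crest.OpAlg.radius (m + 1) * ((w (Fin.last m) : Circle) : ℂ).im) : Fin (m + 1 + 1) → ℝ) i|
          ≤ 1 / 64 - (1 / 4 : ℝ) ^ (m + 1 + 3)
      rw [← hr]
      refine Fin.lastCases ?_ (fun j => ?_) i
      · rw [Fin.snoc_last, abs_mul, abs_of_pos hr0]
        have : Crest.OpAlg.radius (m + 1) * |((w (Fin.last m) : Circle) : ℂ).im|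
            ≤ Crest.OpAlg.radius (m + 1) * 1 := mul_le_mul_of_nonneg_left him hr0.le
        norm_num at hpow1 ⊢
        linarith
      · rw [Fin.snoc_castSucc, Pi.add_apply, Pi.smul_apply, smul_eq_mul]
        refine (abs_add_le _ _).trans ?_
        rw [abs_mul, abs_mul, abs_of_pos hr0]
        have h3 := h1 j
        rw [hpow] at h3
        have h4 : Crest.OpAlg.radius (m + 1) * |((w (Fin.last m) : Circle) : ℂ).re| *
            |(Crest.OpAlg.torusData m (Fin.init w)).2 j| ≤ Crest.OpAlg.radius (m + 1) * 1 * 1 := by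
          refine mul_le_mul (mul_le_mul_of_nonneg_left hre hr0.le) (h2 j) (abs_nonneg _) ?_
          positivity
        linarith
    · show |(Fin.snoc (((w (Fin.last m) : Circle) : ℂ).re • (Crest.OpAlg.torusData m (Fin.init w)).2)
          ((w (Fin.last m) : Circle) : ℂ).im : Fin (m + 1 + 1) → ℝ) i| ≤ 1
      refine Fin.lastCases ?_ (fun j => ?_) i
      · rw [Fin.snoc_last]; exact him
      · rw [Fin.snoc_castSucc, Pi.smul_apply, smul_eq_mul, abs_mul]
        exact mul_le_one₀ hre (abs_nonneg _) (h2 j)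

theorem continuous_torusEmb (p : ℕ) : Continuous (Crest.OpAlg.torusEmb p) :=
  (continuous_torusData (2 * p)).fst

theorem torusEmb_bound (p : ℕ) (w : Fin (2 * p) → Circle) (k : Fin (2 * p + 1)) :
    |Crest.OpAlg.torusEmb p w k| ≤ 1 / 64 := by
  refine ((torusData_bound (2 * p) w).1 k).trans ?_
  have : (0 : ℝ) ≤ (1 / 4 : ℝ) ^ (2 * p + 3) := by positivity
  linarith

/-! ### Clamping and pushing -/

section push

variable {t : ℕ}

/-- coordinatewise clamp to `[-1,1]`. -/
def clampV (z : Fin t → ℝ) : Fin t → ℝ := fun k => max (-1) (min 1 (z k))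

theorem continuous_clampV : Continuous (clampV : (Fin t → ℝ) → _) :=
  continuous_pi fun k => continuous_const.max (continuous_const.min (continuous_apply k))

theorem abs_clampV_le (z : Fin t → ℝ) (k : Fin t) : |clampV z k| ≤ 1 := by
  unfold clampV
  rw [abs_le]
  exact ⟨le_max_left _ _, max_le (by norm_num) (min_le_left _ _)⟩

theorem clampV_of_le {z : Fin t → ℝ} (h : ∀ k, |z k| ≤ 1) : clampV z = z := by
  funext k
  have := abs_le.mp (h k)
  unfold clampV
  rw [min_eq_right this.2, max_eq_right this.1]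

theorem isBoundary_clampV {z : Fin t → ℝ} (k : Fin t) (h : 1 ≤ |z k|) :
    Crest.OpAlg.IsBoundarySlot (clampV z) := by
  refine ⟨k, ?_⟩
  unfold clampV
  rcases le_abs'.mp h with h | h
  · rw [min_eq_right (by linarith), max_eq_left h, abs_neg, abs_one]
  · rw [min_eq_left h, max_eq_right (by norm_num), abs_one]

theorem exists_norm_eq {v : Fin t → ℝ} (hv : 0 < ‖v‖) : ∃ k, |v k| = ‖v‖ := by
  have ht : Nonempty (Fin t) := by
    by_contra h
    rw [not_nonempty_iff] at h
    have : v = 0 := Subsingleton.elim _ _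
    rw [this, norm_zero] at hv
    exact lt_irrefl _ hv
  obtain ⟨k, -, hk⟩ := Finset.exists_mem_eq_sup' (Finset.univ_nonempty (α := Fin t)) fun k => ‖v k‖₊
  refine ⟨k, ?_⟩
  have h2 : ‖v‖₊ = ‖v k‖₊ := by
    rw [Pi.nnnorm_def, ← Finset.sup'_eq_sup (Finset.univ_nonempty (α := Fin t)), hk]
  have h3 : ‖v‖ = ‖v k‖ := congrArg NNReal.toReal h2
  rw [← Real.norm_eq_abs, ← h3]

theorem push_boundary (x τ : Fin t → ℝ) (Λ ε : ℝ) (hx : ‖x‖ ≤ 1) (hτ : ∀ k, |τ k| ≤ 1 / 4)
    (hΛ0 : 0 ≤ Λ) (hε : 0 < ε) (h : ε ≤ ‖Λ • (x - τ)‖) :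
    Crest.OpAlg.IsBoundarySlot (clampV (x + (8 / ε * (1 - ‖x‖)) • (Λ • (x - τ)))) := by
  have hτn : ‖τ‖ ≤ 1 / 4 := by
    rw [pi_norm_le_iff_of_nonneg (by norm_num)]
    intro k
    rw [Real.norm_eq_abs]
    exact hτ k
  have hxt : ‖x - τ‖ ≤ 5 / 4 := (norm_sub_le _ _).trans (by linarith)
  have hΛε : ε ≤ Λ * (5 / 4) := by
    rw [norm_smul, Real.norm_of_nonneg hΛ0] at h
    exact h.trans (mul_le_mul_of_nonneg_left hxt hΛ0)
  have h1x : 0 ≤ 1 - ‖x‖ := by linarith
  rcases le_or_gt (1 / 2) ‖x‖ with hx2 | hx2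
  · obtain ⟨k, hk⟩ := exists_norm_eq (v := x) (by linarith)
    refine isBoundary_clampV k ?_
    rw [Pi.add_apply, Pi.smul_apply, Pi.smul_apply, Pi.sub_apply, smul_eq_mul, smul_eq_mul]
    have hkτ := abs_le.mp (hτ k)
    -- the factor
    have hfac : 1 - ‖x‖ ≤ 8 / ε * (1 - ‖x‖) * (Λ * (1 / 4)) := by
      have h5 : 1 ≤ 8 / ε * (Λ * (1 / 4)) := by
        rw [div_mul_eq_mul_div, le_div_iff₀ hε]
        linarith
      calc 1 - ‖x‖ = (1 - ‖x‖) * 1 := by ring
        _ ≤ (1 - ‖x‖) * (8 / ε * (Λ * (1 / 4))) := mul_le_mul_of_nonneg_left h5 h1x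
        _ = _ := by ring
    have hc : 0 ≤ 8 / ε * (1 - ‖x‖) := mul_nonneg (by positivity) h1x
    rcases le_total 0 (x k) with h0 | h0
    · rw [abs_of_nonneg h0] at hk
      have h6 : 1 / 4 ≤ x k - τ k := by linarith
      have h7 : 8 / ε * (1 - ‖x‖) * (Λ * (1 / 4)) ≤ 8 / ε * (1 - ‖x‖) * (Λ * (x k - τ k)) :=
        mul_le_mul_of_nonneg_left (mul_le_mul_of_nonneg_left h6 hΛ0) hc
      refine le_trans ?_ (le_abs_self _)
      linarith
    · rw [abs_of_nonpos h0] at hk
      have h6 : 1 / 4 ≤ -(x k - τ k) := by linarith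
      have h7 : 8 / ε * (1 - ‖x‖) * (Λ * (1 / 4)) ≤ 8 / ε * (1 - ‖x‖) * (Λ * (-(x k - τ k))) :=
        mul_le_mul_of_nonneg_left (mul_le_mul_of_nonneg_left h6 hΛ0) hc
      refine le_trans ?_ (neg_le_abs _)
      have h8 : 8 / ε * (1 - ‖x‖) * (Λ * (-(x k - τ k))) = -(8 / ε * (1 - ‖x‖) * (Λ * (x k - τ k))) := by
        ring
      linarith
  · obtain ⟨k, hk⟩ := exists_norm_eq (v := Λ • (x - τ)) (by linarith)
    refine isBoundary_clampV k ?_
    rw [Pi.add_apply, Pi.smul_apply, smul_eq_mul]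
    have hxk : |x k| ≤ 1 / 2 := by
      have := norm_le_pi_norm x k
      rw [Real.norm_eq_abs] at this
      linarith
    have h9 : 4 ≤ |8 / ε * (1 - ‖x‖) * (Λ • (x - τ)) k| := by
      rw [abs_mul, hk, abs_of_nonneg (mul_nonneg (by positivity) h1x)]
      calc (4 : ℝ) = 8 / ε * (1 / 2) * ε := by field_simp; norm_num
        _ ≤ 8 / ε * (1 - ‖x‖) * ‖Λ • (x - τ)‖ := by
          refine mul_le_mul ?_ h hε.le (mul_nonneg (by positivity) h1x)
          exact mul_le_mul_of_nonneg_left (by linarith) (by positivity)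
    have h10 := abs_sub_abs_le_abs_sub (8 / ε * (1 - ‖x‖) * (Λ • (x - τ)) k) (-(x k))
    rw [abs_neg, sub_neg_eq_add, add_comm (8 / ε * (1 - ‖x‖) * (Λ • (x - τ)) k) (x k)] at h10
    linarith

end push

end Crest.Agent.R090.Code_843
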