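import Crest.Agent.R090.AS2_58
import Crest.Agent.R090.St2_528
import Crest.Agent.R090.CohT_253

/-!
# Row 90, block HOM (owner helper811): `h U = Hc F {∞}` on pointed maps

`hO F U`, `omap`, `oeps`: functor on 962's pointed maps, homotopy invariance, and additivity for
maps with disjoint supports (`omap_union`), hence for 528's `padd` (`omap_padd`).
-/

set_option autoImplicit false
set_option linter.unusedSectionVars false
set_option linter.checkUnivs false

namespace Crest.Agent.R090.CohO811

open Topology Set Filter OnePoint Crest.Agent.R090.Sp962 Crest.Agent.R090.AS58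
open scoped unitInterval

variable (F : Type) [CommRing F]

/-- cohomology with compact supports of `U` -/
abbrev hO (U : Type) [TopologicalSpace U] : Type := Hc F ({∞} : Set (OnePoint U))

section basic

variable {U V W : Type} [TopologicalSpace U] [TopologicalSpace V] [TopologicalSpace W]

theorem mapsTo_inf (f : PMap U V) : MapsTo f ({∞} : Set (OnePoint U)) ({∞} : Set (OnePoint V)) := by
  rintro _ rfl
  exact f.map_inf

/-- pull back along a pointed map -/
noncomputable def omap (f : PMap U V) : hO F V →ₗ[F] hO F U :=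
  Hc.map F f f.cont (mapsTo_inf f)

/-- parity -/
noncomputable def oeps (U : Type) [TopologicalSpace U] : hO F U →ₗ[F] hO F U := Hc.ev F _

variable {F}

theorem omap_mk (f : PMap U V) (φ : List (OnePoint V) → F) (h : φ ∈ Zc F ({∞} : Set (OnePoint V))) :
    omap F f (Hc.mk φ h) = Hc.mk (pull f φ) (pull_mem_Zc f.cont (mapsTo_inf f) h) := rfl

theorem omap_id (U : Type) [TopologicalSpace U] (x : hO F U) : omap F (PMap.id U) x = x := by
  obtain ⟨φ, hφ, rfl⟩ := Hc.mk_surj x
  rw [omap_mk]
  congr 1
  exact pull_id φ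

theorem omap_comp (g : PMap V W) (f : PMap U V) (x : hO F W) :
    omap F (g.comp f) x = omap F f (omap F g x) := by
  obtain ⟨φ, hφ, rfl⟩ := Hc.mk_surj x
  rw [omap_mk, omap_mk, omap_mk]
  congr 1
  exact pull_comp f g φ

theorem oeps_oeps (x : hO F U) : oeps F U (oeps F U x) = x := Hc.ev_ev x

theorem oeps_omap (f : PMap U V) (x : hO F V) :
    oeps F U (omap F f x) = omap F f (oeps F V x) := Hc.ev_map f.cont (mapsTo_inf f) x

/-- the value on small lists near `∞` -/
theorem inn_zero {φ : List (OnePoint V) → F} (h : φ ∈ Zc F ({∞} : Set (OnePoint V))) :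
    ∃ N ∈ 𝓝 (∞ : OnePoint V), ∀ l, Inn N l → φ l = 0 := mem_Sp_singleton.1 h.1

theorem omap_zero (x : hO F V) : omap F (PMap.zero U V) x = 0 := by
  obtain ⟨φ, hφ, rfl⟩ := Hc.mk_surj x
  rw [omap_mk, Hc.mk_eq_zero]
  apply LZ_le_Bc
  obtain ⟨N, hN, h⟩ := inn_zero hφ
  refine ⟨univ, univ_mem, fun l _ => h _ fun y hy => ?_⟩
  obtain ⟨x, _, rfl⟩ := List.mem_map.1 hy
  exact mem_of_mem_nhds hN

/-- homotopy invariance -/
theorem omap_homotopic [T2Space U] [LocallyCompactSpace U] {f g : PMap U V}
    (h : f.Homotopic g) (x : hO F V) : omap F f x = omap F g x := by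
  obtain ⟨H, hH, h0, h1, hinf⟩ := h.exists
  have h2 := Hc.map_homotopy (F := F) (A := ({∞} : Set (OnePoint U)))
    (B := ({∞} : Set (OnePoint V))) (fun p : OnePoint U × I => H (p.2, p.1))
    (hH.comp continuous_swap) (fun t => by rintro _ rfl; exact hinf t)
    (fun t => hH.comp (by fun_prop)) 0 1 x
  obtain ⟨φ, hφ, rfl⟩ := Hc.mk_surj x
  rw [Hc.map_mk, Hc.map_mk] at h2
  rw [omap_mk, omap_mk]
  have e0 : (fun x => H (0, x)) = f := funext h0
  have e1 : (fun x => H (1, x)) = g := funext h1
  simpa only [e0, e1] using h2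

theorem omap_null [T2Space U] [LocallyCompactSpace U] {f : PMap U V} (h : f.Null) (x : hO F V) :
    omap F f x = 0 := by
  rw [omap_homotopic h, omap_zero]

theorem oh_zero_of_null [T2Space U] [LocallyCompactSpace U] (h : (PMap.id U).Null) (x : hO F U) :
    x = 0 := by
  rw [← omap_id U x, omap_null h]

end basic

/-! ## disjoint supports -/

section union

variable {U V : Type} [TopologicalSpace U] [TopologicalSpace V]

/-- `f` is the union of `f1` and `f2`, maps with disjoint supports -/
def IsUnion (f f1 f2 : PMap U V) : Prop :=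
  ∀ x, (f1 x = ∞ ∧ f x = f2 x) ∨ (f2 x = ∞ ∧ f x = f1 x)

variable {F}

/-- **disjoint support additivity** -/
theorem omap_union {f f1 f2 : PMap U V} (h : IsUnion f f1 f2) (x : hO F V) :
    omap F f x = omap F f1 x + omap F f2 x := by
  obtain ⟨φ, hφ, rfl⟩ := Hc.mk_surj x
  rw [omap_mk, omap_mk, omap_mk, Hc.mk_add, Hc.mk_eq_mk]
  apply LZ_le_Bc
  obtain ⟨N, hN, hφN⟩ := inn_zero hφ
  -- near the diagonal, mixed pairs have all images in `N`
  have key : ∀ g : PMap U V, {p : OnePoint U × OnePoint U | g p.2 = ∞ → g p.1 ∈ N} ∈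
      𝓝ˢ (diagonal (OnePoint U)) := by
    intro g
    rw [mem_nhdsSet_iff_forall]
    rintro ⟨a, b⟩ hab
    obtain rfl : a = b := hab
    by_cases hg : g a = ∞
    · have h1 : {p : OnePoint U × OnePoint U | g p.1 ∈ N} ∈ 𝓝 (a, a) := by
        have : ContinuousAt (fun p : OnePoint U × OnePoint U => g p.1) (a, a) :=
          (g.cont.comp continuous_fst).continuousAt
        refine this ?_
        change N ∈ 𝓝 (g a)
        rwa [hg]
      filter_upwards [h1] with p hp _
      exact hp
    · have h2 : {p : OnePoint U × OnePoint U | g p.2 ≠ ∞} ∈ 𝓝 (a, a) := by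
        have : ContinuousAt (fun p : OnePoint U × OnePoint U => g p.2) (a, a) :=
          (g.cont.comp continuous_snd).continuousAt
        have h3 : {y : OnePoint V | y ≠ ∞} ∈ 𝓝 (g a) :=
          (OnePoint.isClosed_infty (X := V)).isOpen_compl.mem_nhds hg
        exact this h3
      filter_upwards [h2] with p hp h4
      exact absurd h4 hp
  refine ⟨_, inter_mem (key f1) (key f2), fun l hl => ?_⟩
  have hinf : (∞ : OnePoint V) ∈ N := mem_of_mem_nhds hN
  have hz : ∀ g : PMap U V, (∀ z ∈ l, g z ∈ N) → φ (l.map g) = 0 := by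
    intro g hg
    refine hφN _ fun y hy => ?_
    obtain ⟨z, hz, rfl⟩ := List.mem_map.1 hy
    exact hg z hz
  simp only [Pi.sub_apply, Pi.add_apply, pull_apply]
  by_cases c1 : ∀ z ∈ l, f1 z = ∞
  · have e : l.map f = l.map f2 := List.map_congr_left fun z hzl => by
      rcases h z with h | h
      · exact h.2
      · rw [h.2, h.1, c1 z hzl]
    rw [e, hz f1 fun z hzl => by rw [c1 z hzl]; exact hinf]
    ring
  by_cases c2 : ∀ z ∈ l, f2 z = ∞
  · have e : l.map f = l.map f1 := List.map_congr_left fun z hzl => by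
      rcases h z with h | h
      · rw [h.2, h.1, c2 z hzl]
      · exact h.2
    rw [e, hz f2 fun z hzl => by rw [c2 z hzl]; exact hinf]
    ring
  push Not at c1 c2
  obtain ⟨x, hx, hx1⟩ := c1
  obtain ⟨y, hy, hy2⟩ := c2
  have hx2 : f2 x = ∞ := (h x).elim (fun h => absurd h.1 hx1) (fun h => h.1)
  have hy1 : f1 y = ∞ := (h y).elim (fun h => h.1) (fun h => absurd h.1 hy2)
  have n1 : ∀ z ∈ l, f1 z ∈ N := fun z hzl => (hl z hzl y hy).1 hy1
  have n2 : ∀ z ∈ l, f2 z ∈ N := fun z hzl => (hl z hzl x hx).2 hx2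
  have n : ∀ z ∈ l, f z ∈ N := fun z hzl => by
    rcases h z with h | h
    · rw [h.2]; exact n2 z hzl
    · rw [h.2]; exact n1 z hzl
  rw [hz f n, hz f1 n1, hz f2 n2]
  ring

end union

/-! ## additivity for 528's sum -/

section padd

open Crest.Agent.R090.Grp528

variable {F} {U V : Type} [TopologicalSpace U] [TopologicalSpace V] [T2Space U]
  [LocallyCompactSpace U]

/-- `h (f + g) = h f + h g` -/
theorem omap_padd [T2Space V] [LocallyCompactSpace V] (f g : PMap (U × Io) V) (x : hO F V) :
    omap F (padd f g) x = omap F f x + omap F g x := by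
  have hu : IsUnion (padd f g) (padd f (PMap.zero _ _)) (padd (PMap.zero _ _) g) := by
    intro p
    obtain ⟨⟨t, u⟩, rfl⟩ := smI_surjective (U := U) p
    simp only [padd_smI]
    split_ifs
    · exact Or.inr ⟨rfl, rfl⟩
    · exact Or.inl ⟨rfl, rfl⟩
  rw [omap_union hu, omap_homotopic (padd_zero f), omap_homotopic (zero_padd g)]

end padd

end Crest.Agent.R090.CohO811
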