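import Crest.Agent.R090.Puppe_962

/-!
# Row 90, leaf CPAIR: the pairing of mapping cones (owner helper349)

Data: `f : PMap X Y`, `g : PMap DY DX`, pairings `eX : PMap (DX × X) E`, `eY : PMap (DY × Y) E` and a
homotopy `H` from `eX ∘ (g ∧ 1)` to `eY ∘ (1 ∧ f)`.
Output: `cpair : PMap (MC g × MC f) (E × Io)` with
* `cpair_qq : cpair (sm (q g b r) (q f x s)) = sm (H (λ, sm b x)) (qI (r * s))`,
* `cpair_qi : cpair (sm (q g b r) (i f y)) = sm (eY (sm b y)) (qI r)`,
* `cpair_iq : cpair (sm (i g a) (q f x s)) = sm (eX (sm a x)) (qI s)`,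
* `cpair_ii : cpair (sm (i g a) (i f y)) = ∞`,
* the two strict squares `cpair_comp_i_left`, `cpair_comp_i_right`.
-/

set_option autoImplicit false
set_option linter.unusedSectionVars false

open Topology Filter Set

namespace Crest.Agent.R090.ConePair349

open OnePoint Sp962
open scoped unitInterval

/-! ## a tube lemma for `sm` -/

section tube

variable {U V : Type*} [TopologicalSpace U] [TopologicalSpace V] [T2Space U] [T2Space V]
  [LocallyCompactSpace U] [LocallyCompactSpace V]

theorem tendsto_sm_right {α : Type*} {l : Filter α} {h : α → OnePoint U} {g : α → OnePoint V}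
    (hg : Tendsto g l (𝓝 ∞)) : Tendsto (fun z => sm (h z) (g z)) l (𝓝 ∞) := by
  rw [tendsto_nhds]
  intro N hN hmem
  have hS : IsOpen ((fun p : OnePoint U × OnePoint V => sm p.1 p.2) ⁻¹' N) :=
    hN.preimage continuous_sm
  have hsub : (univ : Set (OnePoint U)) ×ˢ ({∞} : Set (OnePoint V)) ⊆
      (fun p : OnePoint U × OnePoint V => sm p.1 p.2) ⁻¹' N := by
    rintro ⟨a, b⟩ ⟨_, hb⟩
    rw [mem_singleton_iff] at hb
    simp only at hb
    subst hb
    simpa using hmem
  obtain ⟨u, v, _, hv, hu, hv', huv⟩ := generalized_tube_lemma isCompact_univ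
    (isCompact_singleton (x := (∞ : OnePoint V))) hS hsub
  filter_upwards [hg (hv.mem_nhds (hv' rfl))] with z hz
  exact huv (show (h z, g z) ∈ u ×ˢ v from ⟨hu (mem_univ _), hz⟩)

theorem tendsto_sm_left {α : Type*} {l : Filter α} {h : α → OnePoint U} {g : α → OnePoint V}
    (hg : Tendsto h l (𝓝 ∞)) : Tendsto (fun z => sm (h z) (g z)) l (𝓝 ∞) := by
  rw [tendsto_nhds]
  intro N hN hmem
  have hS : IsOpen ((fun p : OnePoint U × OnePoint V => sm p.1 p.2) ⁻¹' N) :=
    hN.preimage continuous_sm
  have hsub : ({∞} : Set (OnePoint U)) ×ˢ (univ : Set (OnePoint V)) ⊆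
      (fun p : OnePoint U × OnePoint V => sm p.1 p.2) ⁻¹' N := by
    rintro ⟨a, b⟩ ⟨ha, _⟩
    rw [mem_singleton_iff] at ha
    simp only at ha
    subst ha
    simpa using hmem
  obtain ⟨u, v, hu, _, hu', hv', huv⟩ := generalized_tube_lemma
    (isCompact_singleton (x := (∞ : OnePoint U))) isCompact_univ hS hsub
  filter_upwards [hg (hu.mem_nhds (hu' rfl))] with z hz
  exact huv (show (h z, g z) ∈ u ×ˢ v from ⟨hz, hv' (mem_univ _)⟩)

end tube

/-! ## associativity and shuffles on `sm` -/

section assoc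

variable {A B C D : Type*} [TopologicalSpace A] [TopologicalSpace B] [TopologicalSpace C]
  [TopologicalSpace D]

theorem ofHomeo_assoc_sm (a : OnePoint A) (b : OnePoint B) (c : OnePoint C) :
    PMap.ofHomeo (Homeomorph.prodAssoc A B C) (sm (sm a b) c) = sm a (sm b c) := by
  induction a using OnePoint.rec with
  | infty => simp
  | coe a =>
    induction b using OnePoint.rec with
    | infty => simp
    | coe b =>
      induction c using OnePoint.rec with
      | infty => simp
      | coe c => rfl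

theorem ofHomeo_assoc_symm_sm (a : OnePoint A) (b : OnePoint B) (c : OnePoint C) :
    PMap.ofHomeo (Homeomorph.prodAssoc A B C).symm (sm a (sm b c)) = sm (sm a b) c := by
  induction a using OnePoint.rec with
  | infty => simp
  | coe a =>
    induction b using OnePoint.rec with
    | infty => simp
    | coe b =>
      induction c using OnePoint.rec with
      | infty => simp
      | coe c => rfl

theorem ofHomeo_comm_sm (a : OnePoint A) (b : OnePoint B) :
    PMap.ofHomeo (Homeomorph.prodComm A B) (sm a b) = sm b a := by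
  induction a using OnePoint.rec with
  | infty => simp
  | coe a =>
    induction b using OnePoint.rec with
    | infty => simp
    | coe b => rfl

/-- `(A × B) × C ≃ (A × C) × B` -/
def shuf (A B C : Type*) [TopologicalSpace A] [TopologicalSpace B] [TopologicalSpace C] :
    (A × B) × C ≃ₜ (A × C) × B where
  toFun p := ((p.1.1, p.2), p.1.2)
  invFun p := ((p.1.1, p.2), p.1.2)
  left_inv _ := rfl
  right_inv _ := rfl
  continuous_toFun := by fun_prop
  continuous_invFun := by fun_prop

theorem ofHomeo_shuf_sm (a : OnePoint A) (b : OnePoint B) (c : OnePoint C) :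
    PMap.ofHomeo (shuf A B C) (sm (sm a b) c) = sm (sm a c) b := by
  induction a using OnePoint.rec with
  | infty => simp
  | coe a =>
    induction b using OnePoint.rec with
    | infty => simp
    | coe b =>
      induction c using OnePoint.rec with
      | infty => simp
      | coe c => rfl

end assoc

/-! ## the parameter -/

/-- `λ (r,s) = (1-r)/((1-r)+(1-s))` -/
noncomputable def lam (r s : ℝ) : ℝ := (1 - r) / ((1 - r) + (1 - s))

theorem lam_one_left (s : ℝ) : lam 1 s = 0 := by simp [lam]

theorem lam_one_right {r : ℝ} (hr : r < 1) : lam r 1 = 1 := by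
  have : (1 - r) ≠ 0 := by linarith
  simp [lam, this]

theorem continuousAt_lam {r s : ℝ} (h : (1 - r) + (1 - s) ≠ 0) :
    ContinuousAt (fun p : ℝ × ℝ => lam p.1 p.2) (r, s) := by
  unfold lam
  refine ContinuousAt.div ?_ ?_ h
  · fun_prop
  · fun_prop

/-! ## the pairing -/

section pairing

variable {X Y DX DY E : Type*} [TopologicalSpace X] [TopologicalSpace Y] [TopologicalSpace DX]
  [TopologicalSpace DY] [TopologicalSpace E]
variable [T2Space X] [LocallyCompactSpace X] [T2Space Y] [LocallyCompactSpace Y]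
  [T2Space DX] [LocallyCompactSpace DX] [T2Space DY] [LocallyCompactSpace DY]
  [T2Space E] [LocallyCompactSpace E]

/-- input of the cone pairing -/
structure Dat (f : PMap X Y) (g : PMap DY DX) (eX : PMap (DX × X) E) (eY : PMap (DY × Y) E) where
  /-- the homotopy -/
  H : I × OnePoint (DY × X) → OnePoint E
  cont : Continuous H
  zero : ∀ (b : OnePoint DY) (x : OnePoint X), H (0, sm b x) = eX (sm (g b) x)
  one : ∀ (b : OnePoint DY) (x : OnePoint X), H (1, sm b x) = eY (sm b (f x))
  inf : ∀ t, H (t, ∞) = ∞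

/-- the data exist as soon as the two composites are homotopic -/
theorem exists_dat {f : PMap X Y} {g : PMap DY DX} {eX : PMap (DX × X) E} {eY : PMap (DY × Y) E}
    (h : (eX.comp (g.smash (PMap.id X))).Homotopic (eY.comp ((PMap.id DY).smash f))) :
    Nonempty (Dat f g eX eY) := by
  obtain ⟨H, hH, H0, H1, Hi⟩ := h.exists
  refine ⟨⟨H, hH, fun b x => ?_, fun b x => ?_, Hi⟩⟩
  · rw [H0, PMap.comp_apply, PMap.smash_sm]; rfl
  · rw [H1, PMap.comp_apply, PMap.smash_sm]; rfl

variable {f : PMap X Y} {g : PMap DY DX} {eX : PMap (DX × X) E} {eY : PMap (DY × Y) E}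

namespace Dat

variable (D : Dat f g eX eY)

/-- value on two cone points -/
noncomputable def val (b : OnePoint DY) (r : ℝ) (x : OnePoint X) (s : ℝ) : OnePoint (E × Io) :=
  sm (D.H (cl (lam r s), sm b x)) (qI (r * s))

theorem val_inf_left (r : ℝ) (x : OnePoint X) (s : ℝ) : D.val ∞ r x s = ∞ := by
  simp [val, D.inf]

theorem val_inf_right (b : OnePoint DY) (r : ℝ) (s : ℝ) : D.val b r ∞ s = ∞ := by
  simp [val, D.inf]

theorem val_zero_left (b : OnePoint DY) (x : OnePoint X) (s : ℝ) : D.val b 0 x s = ∞ := by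
  simp [val]

theorem val_zero_right (b : OnePoint DY) (r : ℝ) (x : OnePoint X) : D.val b r x 0 = ∞ := by
  simp [val]

theorem val_one_left (b : OnePoint DY) (x : OnePoint X) (s : ℝ) :
    D.val b 1 x s = sm (eX (sm (g b) x)) (qI s) := by
  rw [val, one_mul, lam_one_left, cl_zero, D.zero]

theorem val_one_right (b : OnePoint DY) {r : ℝ} (hr : r ≤ 1) (x : OnePoint X) :
    D.val b r x 1 = sm (eY (sm b (f x))) (qI r) := by
  rcases eq_or_lt_of_le hr with rfl | hr
  · rw [val, mul_one, qI_one, sm_inf_right, sm_inf_right]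
  · rw [val, mul_one, lam_one_right hr, cl_one, D.one]

theorem continuous_val :
    Continuous (fun p : (OnePoint DY × I) × (OnePoint X × I) =>
      D.val p.1.1 p.1.2 p.2.1 p.2.2) := by
  rw [continuous_iff_continuousAt]
  rintro ⟨⟨b, r⟩, ⟨x, s⟩⟩
  by_cases h : (1 - (r : ℝ)) + (1 - (s : ℝ)) = 0
  · have hr : (r : ℝ) = 1 := by have := r.2.2; have := s.2.2; linarith
    have hs : (s : ℝ) = 1 := by have := r.2.2; have := s.2.2; linarith
    have hv : D.val b r x s = ∞ := by rw [val, hr, hs, mul_one, qI_one, sm_inf_right]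
    change Tendsto _ _ (𝓝 (D.val b r x s))
    rw [hv]
    refine tendsto_sm_right ?_
    have hc : Continuous (fun p : (OnePoint DY × I) × (OnePoint X × I) =>
        qI ((p.1.2 : ℝ) * (p.2.2 : ℝ))) := continuous_qI.comp (by fun_prop)
    have h1 : qI ((r : ℝ) * (s : ℝ)) = ∞ := by rw [hr, hs, mul_one, qI_one]
    have := hc.tendsto ((b, r), (x, s))
    simp only [h1] at this
    exact this
  · have h1 : ContinuousAt (fun p : (OnePoint DY × I) × (OnePoint X × I) =>
        lam (p.1.2 : ℝ) (p.2.2 : ℝ)) ((b, r), (x, s)) := by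
      refine ContinuousAt.comp (g := fun p : ℝ × ℝ => lam p.1 p.2)
        (f := fun p : (OnePoint DY × I) × (OnePoint X × I) => ((p.1.2 : ℝ), (p.2.2 : ℝ)))
        (continuousAt_lam h) ?_
      exact Continuous.continuousAt (by fun_prop)
    have h2 : ContinuousAt (fun p : (OnePoint DY × I) × (OnePoint X × I) =>
        D.H (cl (lam (p.1.2 : ℝ) (p.2.2 : ℝ)), sm p.1.1 p.2.1)) ((b, r), (x, s)) := by
      refine ContinuousAt.comp (g := D.H)
        (f := fun p : (OnePoint DY × I) × (OnePoint X × I) =>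
          (cl (lam (p.1.2 : ℝ) (p.2.2 : ℝ)), sm p.1.1 p.2.1)) D.cont.continuousAt ?_
      refine ContinuousAt.prodMk (continuous_cl.continuousAt.comp h1) ?_
      exact Continuous.continuousAt (Continuous.sm962 (by fun_prop) (by fun_prop))
    have h3 : ContinuousAt (fun p : (OnePoint DY × I) × (OnePoint X × I) =>
        qI ((p.1.2 : ℝ) * (p.2.2 : ℝ))) ((b, r), (x, s)) :=
      Continuous.continuousAt (continuous_qI.comp (by fun_prop))
    exact ContinuousAt.comp (g := fun q : OnePoint E × OnePoint Io => sm q.1 q.2)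
      (f := fun p : (OnePoint DY × I) × (OnePoint X × I) =>
        (D.H (cl (lam (p.1.2 : ℝ) (p.2.2 : ℝ)), sm p.1.1 p.2.1), qI ((p.1.2 : ℝ) * (p.2.2 : ℝ))))
      continuous_sm.continuousAt (h2.prodMk h3)

/-- `b` a cone point of height `r`, paired with `MC f` -/
noncomputable def L1 (b : OnePoint DY) (r : ℝ) (w : OnePoint (MC f)) : OnePoint (E × Io) :=
  MC.lift f (fun x s => D.val b r x s) (fun y => sm (eY (sm b y)) (qI r)) w

theorem L1_i (b : OnePoint DY) (r : ℝ) (y : OnePoint Y) :
    D.L1 b r (MC.i f y) = sm (eY (sm b y)) (qI r) := MC.lift_i f _ _ y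

theorem L1_q (b : OnePoint DY) {r : ℝ} (hr : r ≤ 1) (x : OnePoint X) {s : ℝ}
    (hs : s ∈ Icc (0 : ℝ) 1) : D.L1 b r (MC.q f x s) = D.val b r x s := by
  refine MC.lift_q f _ _ ?_ ?_ ?_ x hs
  · intro t; rw [D.val_inf_right]; simp
  · intro a; rw [D.val_zero_right]; simp
  · intro a; rw [D.val_one_right b hr]

/-- a point `a` of `DX`, paired with `MC f` -/
noncomputable def L2 (_D : Dat f g eX eY) (a : OnePoint DX) (w : OnePoint (MC f)) :
    OnePoint (E × Io) :=
  MC.lift f (fun x s => sm (eX (sm a x)) (qI s)) (fun _ => ∞) w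

theorem L2_i (a : OnePoint DX) (y : OnePoint Y) : D.L2 a (MC.i f y) = ∞ := MC.lift_i f _ _ y

theorem L2_q (a : OnePoint DX) (x : OnePoint X) {s : ℝ}
    (hs : s ∈ Icc (0 : ℝ) 1) : D.L2 a (MC.q f x s) = sm (eX (sm a x)) (qI s) := by
  refine MC.lift_q f _ _ ?_ ?_ ?_ x hs
  · intro t; simp
  · intro a; simp
  · intro a; simp

theorem L1_inf (r : ℝ) (hr : r ≤ 1) (w : OnePoint (MC f)) : D.L1 ∞ r w = ∞ := by
  revert w
  refine MC.cases f ?_ ?_
  · intro x s hs; rw [D.L1_q ∞ hr x hs, D.val_inf_left]
  · intro y; rw [D.L1_i]; simp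

theorem L2_inf (w : OnePoint (MC f)) : D.L2 ∞ w = ∞ := by
  revert w
  refine MC.cases f ?_ ?_
  · intro x s hs; rw [D.L2_q ∞ x hs]; simp
  · intro y; rw [D.L2_i]

theorem L1_zero (b : OnePoint DY) (w : OnePoint (MC f)) : D.L1 b 0 w = ∞ := by
  revert w
  refine MC.cases f ?_ ?_
  · intro x s hs; rw [D.L1_q b zero_le_one x hs, D.val_zero_left]
  · intro y; rw [D.L1_i]; simp

theorem L1_one (b : OnePoint DY) (w : OnePoint (MC f)) : D.L1 b 1 w = D.L2 (g b) w := by
  revert w
  refine MC.cases f ?_ ?_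
  · intro x s hs; rw [D.L1_q b le_rfl x hs, D.val_one_left, D.L2_q _ x hs]
  · intro y; rw [D.L1_i, D.L2_i]; simp

/-- the raw pairing -/
noncomputable def P (z : OnePoint (MC g)) (w : OnePoint (MC f)) : OnePoint (E × Io) :=
  MC.lift g (fun b r => D.L1 b (min r 1) w) (fun a => D.L2 a w) z

theorem P_i (a : OnePoint DX) (w : OnePoint (MC f)) : D.P (MC.i g a) w = D.L2 a w :=
  MC.lift_i g _ _ a

theorem P_q (b : OnePoint DY) {r : ℝ} (hr : r ∈ Icc (0 : ℝ) 1) (w : OnePoint (MC f)) :
    D.P (MC.q g b r) w = D.L1 b r w := by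
  have := MC.lift_q g (fun b r => D.L1 b (min r 1) w) (fun a => D.L2 a w) (by
    intro t; rw [D.L1_inf _ (min_le_right _ _), D.L2_inf]) (by
    intro a; rw [min_eq_left zero_le_one, D.L1_zero, D.L2_inf]) (by
    intro a; rw [min_self, D.L1_one]) b hr
  rw [min_eq_left hr.2] at this
  exact this

theorem P_inf_left (w : OnePoint (MC f)) : D.P ∞ w = ∞ := by
  change D.L2 ∞ w = ∞
  exact D.L2_inf w

theorem P_inf_right (z : OnePoint (MC g)) : D.P z ∞ = ∞ := by
  revert z
  refine MC.cases g ?_ ?_
  · intro b r hr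
    rw [D.P_q b hr]
    have := D.L1_i b r ∞
    rw [PMap.map_inf] at this
    rw [this]; simp
  · intro a
    rw [D.P_i]
    have := D.L2_i a ∞
    rw [PMap.map_inf] at this
    exact this

theorem continuous_P : Continuous (fun p : OnePoint (MC f) × OnePoint (MC g) => D.P p.2 p.1) := by
  refine MC.continuous_of g ?_ ?_
  · have e : (fun p : OnePoint (MC f) × (OnePoint DY × I) => D.P (MC.q g p.2.1 p.2.2) p.1) =
        fun p => D.L1 p.2.1 p.2.2 p.1 := by
      funext p
      exact D.P_q p.2.1 p.2.2.2 p.1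
    change Continuous (fun p : OnePoint (MC f) × (OnePoint DY × I) =>
      D.P (MC.q g p.2.1 p.2.2) p.1)
    rw [e]
    have h : Continuous (fun p : (OnePoint DY × I) × OnePoint (MC f) =>
        D.L1 p.1.1 p.1.2 p.2) := by
      refine MC.continuous_of f ?_ ?_
      · have e' : (fun p : (OnePoint DY × I) × (OnePoint X × I) =>
            D.L1 p.1.1 p.1.2 (MC.q f p.2.1 p.2.2)) =
            fun p => D.val p.1.1 p.1.2 p.2.1 p.2.2 := by
          funext p
          exact D.L1_q p.1.1 p.1.2.2.2 p.2.1 p.2.2.2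
        change Continuous (fun p : (OnePoint DY × I) × (OnePoint X × I) =>
            D.L1 p.1.1 p.1.2 (MC.q f p.2.1 p.2.2))
        rw [e']
        exact D.continuous_val
      · have e' : (fun p : (OnePoint DY × I) × OnePoint Y =>
            D.L1 p.1.1 p.1.2 (MC.i f p.2)) =
            fun p => sm (eY (sm p.1.1 p.2)) (qI p.1.2) := by
          funext p
          exact D.L1_i p.1.1 p.1.2 p.2
        change Continuous (fun p : (OnePoint DY × I) × OnePoint Y =>
            D.L1 p.1.1 p.1.2 (MC.i f p.2))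
        rw [e']
        exact (eY.cont.comp (Continuous.sm962 (by fun_prop) (by fun_prop))).sm962
          (continuous_qI.comp (by fun_prop))
    exact h.comp (continuous_snd.prodMk continuous_fst)
  · have e : (fun p : OnePoint (MC f) × OnePoint DX => D.P (MC.i g p.2) p.1) =
        fun p => D.L2 p.2 p.1 := by
      funext p
      exact D.P_i p.2 p.1
    change Continuous (fun p : OnePoint (MC f) × OnePoint DX => D.P (MC.i g p.2) p.1)
    rw [e]
    have h : Continuous (fun p : OnePoint DX × OnePoint (MC f) => D.L2 p.1 p.2) := by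
      refine MC.continuous_of f ?_ ?_
      · have e' : (fun p : OnePoint DX × (OnePoint X × I) =>
            D.L2 p.1 (MC.q f p.2.1 p.2.2)) =
            fun p => sm (eX (sm p.1 p.2.1)) (qI p.2.2) := by
          funext p
          exact D.L2_q p.1 p.2.1 p.2.2.2
        change Continuous (fun p : OnePoint DX × (OnePoint X × I) =>
            D.L2 p.1 (MC.q f p.2.1 p.2.2))
        rw [e']
        exact (eX.cont.comp (Continuous.sm962 (by fun_prop) (by fun_prop))).sm962
          (continuous_qI.comp (by fun_prop))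
      · have e' : (fun p : OnePoint DX × OnePoint Y => D.L2 p.1 (MC.i f p.2)) =
            fun _ => ∞ := by
          funext p
          exact D.L2_i p.1 p.2
        change Continuous (fun p : OnePoint DX × OnePoint Y => D.L2 p.1 (MC.i f p.2))
        rw [e']
        exact continuous_const
    exact h.comp (continuous_snd.prodMk continuous_fst)

/-- **the cone pairing** -/
noncomputable def cpair : PMap (MC g × MC f) (E × Io) where
  toFun z := z.elim ∞ fun p => D.P p.1 p.2
  cont := by
    refine continuous_of_sm ?_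
    have : (fun p : OnePoint (MC g) × OnePoint (MC f) =>
        (sm p.1 p.2).elim ∞ fun p => D.P p.1 p.2) = fun p => D.P p.1 p.2 := by
      funext p
      obtain ⟨z, w⟩ := p
      induction z using OnePoint.rec with
      | infty => rw [sm_inf_left, D.P_inf_left]; rfl
      | coe z =>
        induction w using OnePoint.rec with
        | infty => rw [sm_inf_right, D.P_inf_right]; rfl
        | coe w => rfl
    rw [this]
    exact D.continuous_P.comp (continuous_snd.prodMk continuous_fst)
  map_inf := rfl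

theorem cpair_sm (z : OnePoint (MC g)) (w : OnePoint (MC f)) : D.cpair (sm z w) = D.P z w := by
  induction z using OnePoint.rec with
  | infty => rw [sm_inf_left, D.P_inf_left]; rfl
  | coe z =>
    induction w using OnePoint.rec with
    | infty => rw [sm_inf_right, D.P_inf_right]; rfl
    | coe w => rfl

theorem cpair_qq (b : OnePoint DY) {r : ℝ} (hr : r ∈ Icc (0 : ℝ) 1) (x : OnePoint X) {s : ℝ}
    (hs : s ∈ Icc (0 : ℝ) 1) : D.cpair (sm (MC.q g b r) (MC.q f x s)) =
      sm (D.H (cl (lam r s), sm b x)) (qI (r * s)) := by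
  rw [D.cpair_sm, D.P_q b hr, D.L1_q b hr.2 x hs, val]

theorem cpair_qi (b : OnePoint DY) {r : ℝ} (hr : r ∈ Icc (0 : ℝ) 1) (y : OnePoint Y) :
    D.cpair (sm (MC.q g b r) (MC.i f y)) = sm (eY (sm b y)) (qI r) := by
  rw [D.cpair_sm, D.P_q b hr, D.L1_i]

theorem cpair_iq (a : OnePoint DX) (x : OnePoint X) {s : ℝ}
    (hs : s ∈ Icc (0 : ℝ) 1) : D.cpair (sm (MC.i g a) (MC.q f x s)) =
      sm (eX (sm a x)) (qI s) := by
  rw [D.cpair_sm, D.P_i, D.L2_q a x hs]

theorem cpair_ii (a : OnePoint DX) (y : OnePoint Y) :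
    D.cpair (sm (MC.i g a) (MC.i f y)) = ∞ := by
  rw [D.cpair_sm, D.P_i, D.L2_i]

/-- first square, pointwise -/
theorem cpair_i_sm (a : OnePoint DX) (w : OnePoint (MC f)) :
    D.cpair (sm (MC.i g a) w) = (eX.smash (PMap.id Io))
      (PMap.ofHomeo (Homeomorph.prodAssoc DX X Io).symm (sm a (MC.p f w))) := by
  revert w
  refine MC.cases f ?_ ?_
  · intro x s hs
    rw [D.cpair_iq a x hs, MC.p_q, ofHomeo_assoc_symm_sm, PMap.smash_sm]; rfl
  · intro y
    rw [D.cpair_ii, MC.p_i, sm_inf_right, PMap.map_inf, PMap.map_inf]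

/-- second square, pointwise -/
theorem cpair_sm_i (z : OnePoint (MC g)) (y : OnePoint Y) :
    D.cpair (sm z (MC.i f y)) = (eY.smash (PMap.id Io))
      (PMap.ofHomeo (shuf DY Io Y) (sm (MC.p g z) y)) := by
  revert z
  refine MC.cases g ?_ ?_
  · intro b r hr
    rw [D.cpair_qi b hr y, MC.p_q, ofHomeo_shuf_sm, PMap.smash_sm]; rfl
  · intro a
    rw [D.cpair_ii, MC.p_i, sm_inf_left, PMap.map_inf, PMap.map_inf]

/-- **first square** (strict): on `DX × MC f` the cone pairing is `eX ∧ 1` after the pinch map -/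
theorem cpair_comp_i_left : D.cpair.comp ((MC.i g).smash (PMap.id (MC f))) =
    (eX.smash (PMap.id Io)).comp ((PMap.ofHomeo (Homeomorph.prodAssoc DX X Io).symm).comp
      ((PMap.id DX).smash (MC.p f))) := by
  refine PMap.ext fun p => ?_
  obtain ⟨a, w⟩ := p
  have h : (((a, w) : DX × MC f) : OnePoint (DX × MC f)) =
      sm (a : OnePoint DX) (w : OnePoint (MC f)) := rfl
  rw [h]
  simp only [PMap.comp_apply, PMap.smash_sm, PMap.id_apply]
  exact D.cpair_i_sm a w

/-- **second square** (strict): on `MC g × Y` the cone pairing is `eY ∧ 1` after the pinch map -/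
theorem cpair_comp_i_right : D.cpair.comp ((PMap.id (MC g)).smash (MC.i f)) =
    (eY.smash (PMap.id Io)).comp ((PMap.ofHomeo (shuf DY Io Y)).comp
      ((MC.p g).smash (PMap.id Y))) := by
  refine PMap.ext fun p => ?_
  obtain ⟨z, y⟩ := p
  have h : (((z, y) : MC g × Y) : OnePoint (MC g × Y)) =
      sm (z : OnePoint (MC g)) (y : OnePoint Y) := rfl
  rw [h]
  simp only [PMap.comp_apply, PMap.smash_sm, PMap.id_apply]
  exact D.cpair_sm_i z y

end Dat

end pairing

end Crest.Agent.R090.ConePair349
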