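import Crest.Agent.R090.MCSm_962
import Crest.Agent.R090.St2_528
import Crest.Agent.R090.CovSt_128

/-!
# Row 90, T1: contravariant exactness in the stable category (owner helper962)

For `f : PMap U V` and an arbitrary fixed `D` (any target `W`):
* `ex1` : `g : St (V × D) W`, `g ∘ (f ∧ 1) = 0` ⟹ `g = k ∘ (i ∧ 1)`;
* `ex2` : `g : St (MC f × D) W`, `g ∘ (i ∧ 1) = 0` ⟹ `g = k ∘ (p ∧ 1)`;
* `ex3` : `g : St ((U × Io) × D) W`, `g ∘ (p ∧ 1) = 0` ⟹ `g = k ∘ ((f ∧ 1) ∧ 1)`.
The same without `D` (`ex1'`, `ex2'`, `ex3'`) and with `D` on the left (`ex1L`, …).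
-/

set_option autoImplicit false
set_option linter.unusedSectionVars false

open Topology Filter Set

namespace Crest.Agent.R090.ContraSt962

open OnePoint Crest.Agent.R090.Sp962 Crest.Agent.R090.Grp528 Crest.Agent.R090.St528
  Crest.Agent.R090.CovSt128
open scoped unitInterval

universe u v w x y

section

variable {A : Type u} {B : Type v} {C : Type x} {W : Type w}
variable [TopologicalSpace A] [TopologicalSpace B] [TopologicalSpace C] [TopologicalSpace W]
variable [T2Space A] [LocallyCompactSpace A] [T2Space B] [LocallyCompactSpace B]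
  [T2Space C] [LocallyCompactSpace C] [T2Space W] [LocallyCompactSpace W]

/-- a stable map killed by an unstable one (on the right), at a finite level -/
theorem exists_level_right (i : PMap A B) (h : St B W) (hi : h.comp (St.ofP i) = 0) :
    ∃ (n : ℕ) (h0 : PMap (S B n) (S W n)), h = St.of n (HC.mk h0) ∧
      (h0.comp (i.smash (PMap.id (Fin n → ℂ)))).Null := by
  obtain ⟨n, _, a, rfl⟩ := h.exists_of_ge 0
  rw [St.ofP, St.map_eq_of _ n, St.of_comp_of, ← St.of_zero n, St.of_eq_iff] at hi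
  obtain ⟨k, hk⟩ := hi
  have hz : stN (hzero (S A n) (S W n)) k = hzero _ _ := by
    clear hk
    induction k with
    | zero => rfl
    | succ k ih => rw [stN_succ, ih, st_hzero]; rfl
  rw [stN_comp, stN_lv, hz] at hk
  obtain ⟨h0, hh0⟩ := HC.mk_surj (stN a k)
  refine ⟨n + k, h0, ?_, ?_⟩
  · rw [hh0, St.of_stN]
  · rw [← hh0] at hk
    exact HC.mk_eq.1 hk

/-- stable middle exactness (first variable) from levelwise middle exactness -/
theorem exact_of_levels {i : PMap A B} {j : PMap B C}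
    (H : ∀ (n : ℕ) (g : PMap (B × (Fin n → ℂ)) (W × (Fin n → ℂ))),
      (g.comp (i.smash (PMap.id (Fin n → ℂ)))).Null →
      ∃ k : PMap (C × (Fin n → ℂ)) (W × (Fin n → ℂ)),
        g.Homotopic (k.comp (j.smash (PMap.id (Fin n → ℂ)))))
    (g : St B W) (hg : g.comp (St.ofP i) = 0) : ∃ k : St C W, k.comp (St.ofP j) = g := by
  obtain ⟨n, g0, rfl, hn⟩ := exists_level_right i g hg
  obtain ⟨k0, hk0⟩ := H n g0 hn
  refine ⟨St.of n (HC.mk k0), ?_⟩
  rw [St.ofP, St.map_eq_of _ n, St.of_comp_of]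
  congr 1
  exact (HC.sound hk0).symm

theorem comp_map_assoc (c : St C W) (b : HC B C) (a : HC A B) :
    (c.comp (St.map b)).comp (St.map a) = c.comp (St.map (b.comp a)) := by
  rw [St.map_comp, St.comp_assoc]

theorem comp_ofP_assoc (c : St C W) (b : PMap B C) (a : PMap A B) :
    (c.comp (St.ofP b)).comp (St.ofP a) = c.comp (St.ofP (b.comp a)) := by
  rw [St.ofP_comp, St.comp_assoc]

end

/-! ## space level, smashed with `E` -/

section space

variable {U : Type u} {V : Type v} {E : Type y} {T : Type w}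
variable [TopologicalSpace U] [TopologicalSpace V] [TopologicalSpace E] [TopologicalSpace T]
variable [T2Space U] [LocallyCompactSpace U] [T2Space V] [LocallyCompactSpace V]
  [T2Space E] [LocallyCompactSpace E]

theorem sp1 (f : PMap U V) (g : PMap (V × E) T) (hg : (g.comp (f.smash (PMap.id E))).Null) :
    ∃ k : PMap (MC f × E) T, k.comp ((MC.i f).smash (PMap.id E)) = g := by
  obtain ⟨k, hk⟩ := MC.exists_desc _ g hg
  refine ⟨k.comp (PMap.ofHomeo (MC.smR f E).symm), ?_⟩
  rw [← MC.smR_i, PMap.comp_assoc, ← PMap.comp_assoc (PMap.ofHomeo (MC.smR f E).symm),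
    PMap.ofHomeo_symm_comp, PMap.id_comp, hk]

theorem p_smR (f : PMap U V) : MC.p (f.smash (PMap.id E)) =
    (PMap.ofHomeo (MC.swp U E Io).symm).comp
      (((MC.p f).smash (PMap.id E)).comp (PMap.ofHomeo (MC.smR f E))) := by
  rw [MC.smR_p, ← PMap.comp_assoc, PMap.ofHomeo_symm_comp, PMap.id_comp]

theorem sp2 [T2Space T] (f : PMap U V) (g : PMap (MC f × E) T)
    (hg : (g.comp ((MC.i f).smash (PMap.id E))).Null) :
    ∃ k : PMap ((U × Io) × E) T, g.Homotopic (k.comp ((MC.p f).smash (PMap.id E))) := by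
  obtain ⟨k, hk⟩ := MC.exists_p (f.smash (PMap.id E)) (g.comp (PMap.ofHomeo (MC.smR f E))) (by
    rw [PMap.comp_assoc, MC.smR_i]; exact hg)
  refine ⟨k.comp (PMap.ofHomeo (MC.swp U E Io).symm), ?_⟩
  have h2 := PMap.Homotopic.comp_right hk (PMap.ofHomeo (MC.smR f E).symm)
  rw [PMap.comp_assoc, PMap.ofHomeo_comp_symm, PMap.comp_id, p_smR, PMap.comp_assoc,
    PMap.comp_assoc, PMap.comp_assoc, PMap.ofHomeo_comp_symm, PMap.comp_id] at h2
  exact h2

theorem swp_nat {U' : Type*} [TopologicalSpace U'] [T2Space U'] [LocallyCompactSpace U']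
    {G : Type*} [TopologicalSpace G] [T2Space G] [LocallyCompactSpace G] (f : PMap U U') :
    ((f.smash (PMap.id E)).smash (PMap.id G)).comp (PMap.ofHomeo (MC.swp U E G).symm) =
      (PMap.ofHomeo (MC.swp U' E G).symm).comp ((f.smash (PMap.id G)).smash (PMap.id E)) := by
  refine PMap.ext fun p => ?_
  obtain ⟨⟨a, t⟩, e⟩ := p
  change ((f.smash (PMap.id E)).smash (PMap.id G)) (((a, e), t) : (U × E) × G) =
    PMap.ofHomeo (MC.swp U' E G).symm (sm (sm (f a) (t : OnePoint G)) (e : OnePoint E))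
  rw [PMap.smash_coe, PMap.smash_coe]
  exact (MC.swp_sm (f a) (t : OnePoint G) (e : OnePoint E)).symm

theorem sp3 (f : PMap U V) (g : PMap ((U × Io) × E) T)
    (hg : (g.comp ((MC.p f).smash (PMap.id E))).Null) :
    ∃ k : PMap ((V × Io) × E) T,
      g.Homotopic (k.comp ((f.smash (PMap.id Io)).smash (PMap.id E))) := by
  obtain ⟨k, hk⟩ := MC.exists_susp (f.smash (PMap.id E))
    (g.comp (PMap.ofHomeo (MC.swp U E Io))) (by
    rw [PMap.comp_assoc, ← MC.smR_p, ← PMap.comp_assoc]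
    exact PMap.Null.comp_right hg _)
  refine ⟨k.comp (PMap.ofHomeo (MC.swp V E Io).symm), ?_⟩
  have h2 := PMap.Homotopic.comp_right hk (PMap.ofHomeo (MC.swp U E Io).symm)
  rw [PMap.comp_assoc, PMap.ofHomeo_comp_symm, PMap.comp_id, PMap.comp_assoc, swp_nat] at h2
  exact h2

end space

/-! ## the stable exact sequences -/

section cone

variable {U : Type u} {V : Type v} {W : Type w} {D : Type y}
variable [TopologicalSpace U] [TopologicalSpace V] [TopologicalSpace W] [TopologicalSpace D]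
variable [T2Space U] [LocallyCompactSpace U] [T2Space V] [LocallyCompactSpace V]
  [T2Space W] [LocallyCompactSpace W] [T2Space D] [LocallyCompactSpace D]

/-- exactness at `V` -/
theorem ex1' (f : PMap U V) (g : St V W) (h : g.comp (St.ofP f) = 0) :
    ∃ k : St (MC f) W, k.comp (St.ofP (MC.i f)) = g :=
  exact_of_levels (fun n g hg => by
    obtain ⟨k, hk⟩ := sp1 f g hg
    exact ⟨k, hk ▸ PMap.Homotopic.refl _⟩) g h

/-- exactness at `MC f` -/
theorem ex2' (f : PMap U V) (g : St (MC f) W) (h : g.comp (St.ofP (MC.i f)) = 0) :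
    ∃ k : St (U × Io) W, k.comp (St.ofP (MC.p f)) = g :=
  exact_of_levels (fun _ g hg => sp2 f g hg) g h

/-- exactness at `U × Io` -/
theorem ex3' (f : PMap U V) (g : St (U × Io) W) (h : g.comp (St.ofP (MC.p f)) = 0) :
    ∃ k : St (V × Io) W, k.comp (St.ofP (f.smash (PMap.id Io))) = g :=
  exact_of_levels (fun _ g hg => sp3 f g hg) g h

/-! ### with `D` on the right -/

/-- exactness at `V × D` -/
theorem ex1 (f : PMap U V) (g : St (V × D) W) (h : g.comp (St.ofP (f.smash (PMap.id D))) = 0) :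
    ∃ k : St (MC f × D) W, k.comp (St.ofP ((MC.i f).smash (PMap.id D))) = g := by
  obtain ⟨k, hk⟩ := ex1' _ g h
  refine ⟨k.comp (St.ofP (PMap.ofHomeo (MC.smR f D).symm)), ?_⟩
  rw [comp_ofP_assoc, ← MC.smR_i, ← PMap.comp_assoc, PMap.ofHomeo_symm_comp, PMap.id_comp, hk]

/-- exactness at `MC f × D` -/
theorem ex2 (f : PMap U V) (g : St (MC f × D) W)
    (h : g.comp (St.ofP ((MC.i f).smash (PMap.id D))) = 0) :
    ∃ k : St ((U × Io) × D) W, k.comp (St.ofP ((MC.p f).smash (PMap.id D))) = g := by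
  obtain ⟨k, hk⟩ := ex2' (f.smash (PMap.id D)) (g.comp (St.ofP (PMap.ofHomeo (MC.smR f D)))) (by
    rw [comp_ofP_assoc, MC.smR_i]; exact h)
  refine ⟨k.comp (St.ofP (PMap.ofHomeo (MC.swp U D Io).symm)), ?_⟩
  have h2 := congrArg (fun s => s.comp (St.ofP (PMap.ofHomeo (MC.smR f D).symm))) hk
  simp only [comp_ofP_assoc] at h2
  rw [PMap.ofHomeo_comp_symm, St.ofP_id, St.comp_id, p_smR, PMap.comp_assoc, PMap.comp_assoc,
    PMap.ofHomeo_comp_symm, PMap.comp_id] at h2
  rw [comp_ofP_assoc]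
  exact h2

/-- exactness at `(U × Io) × D` -/
theorem ex3 (f : PMap U V) (g : St ((U × Io) × D) W)
    (h : g.comp (St.ofP ((MC.p f).smash (PMap.id D))) = 0) :
    ∃ k : St ((V × Io) × D) W,
      k.comp (St.ofP ((f.smash (PMap.id Io)).smash (PMap.id D))) = g := by
  obtain ⟨k, hk⟩ := ex3' (f.smash (PMap.id D)) (g.comp (St.ofP (PMap.ofHomeo (MC.swp U D Io)))) (by
    rw [comp_ofP_assoc, ← MC.smR_p, ← comp_ofP_assoc, h, St.zero_comp])
  refine ⟨k.comp (St.ofP (PMap.ofHomeo (MC.swp V D Io).symm)), ?_⟩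
  have h2 := congrArg (fun s => s.comp (St.ofP (PMap.ofHomeo (MC.swp U D Io).symm))) hk
  simp only [comp_ofP_assoc] at h2
  rw [PMap.ofHomeo_comp_symm, St.ofP_id, St.comp_id, swp_nat] at h2
  rw [comp_ofP_assoc]
  exact h2

/-! ### with `D` on the left -/

theorem exact_right_left {A : Type*} {B : Type*} {C : Type*} [TopologicalSpace A]
    [TopologicalSpace B] [TopologicalSpace C] [T2Space A] [T2Space B] [T2Space C]
    [LocallyCompactSpace A] [LocallyCompactSpace B] [LocallyCompactSpace C]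
    (i : PMap A B) (j : PMap B C)
    (H : ∀ g : St (B × D) W, g.comp (St.ofP (i.smash (PMap.id D))) = 0 →
      ∃ k : St (C × D) W, k.comp (St.ofP (j.smash (PMap.id D))) = g)
    (g : St (D × B) W) (hg : g.comp (St.ofP ((PMap.id D).smash i)) = 0) :
    ∃ k : St (D × C) W, k.comp (St.ofP ((PMap.id D).smash j)) = g := by
  obtain ⟨k, hk⟩ := H (g.comp (St.ofP (PMap.ofHomeo (Homeomorph.prodComm B D)))) (by
    rw [comp_ofP_assoc, swap_smash, ← comp_ofP_assoc, hg, St.zero_comp])
  refine ⟨k.comp (St.ofP (PMap.ofHomeo (Homeomorph.prodComm D C))), ?_⟩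
  rw [comp_ofP_assoc, swap_smash, ← comp_ofP_assoc, hk, comp_ofP_assoc]
  have e : (PMap.ofHomeo (Homeomorph.prodComm B D)).comp
      (PMap.ofHomeo (Homeomorph.prodComm D B)) = PMap.id (D × B) := PMap.ext fun _ => rfl
  rw [e, St.ofP_id, St.comp_id]

/-- exactness at `D × V` -/
theorem ex1L (f : PMap U V) (g : St (D × V) W) (h : g.comp (St.ofP ((PMap.id D).smash f)) = 0) :
    ∃ k : St (D × MC f) W, k.comp (St.ofP ((PMap.id D).smash (MC.i f))) = g :=
  exact_right_left f (MC.i f) (ex1 f) g h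

/-- exactness at `D × MC f` -/
theorem ex2L (f : PMap U V) (g : St (D × MC f) W)
    (h : g.comp (St.ofP ((PMap.id D).smash (MC.i f))) = 0) :
    ∃ k : St (D × (U × Io)) W, k.comp (St.ofP ((PMap.id D).smash (MC.p f))) = g :=
  exact_right_left (MC.i f) (MC.p f) (ex2 f) g h

/-- exactness at `D × (U × Io)` -/
theorem ex3L (f : PMap U V) (g : St (D × (U × Io)) W)
    (h : g.comp (St.ofP ((PMap.id D).smash (MC.p f))) = 0) :
    ∃ k : St (D × (V × Io)) W,
      k.comp (St.ofP ((PMap.id D).smash (f.smash (PMap.id Io)))) = g :=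
  exact_right_left (MC.p f) (f.smash (PMap.id Io)) (ex3 f) g h

/-! ### compositions vanish -/

theorem ofP_i_comp (f : PMap U V) : (St.ofP (MC.i f)).comp (St.ofP f) = 0 := by
  rw [← St.ofP_comp, St.ofP_null (MC.i_comp_null f)]

theorem ofP_p_comp_i (f : PMap U V) : (St.ofP (MC.p f)).comp (St.ofP (MC.i f)) = 0 := by
  rw [← St.ofP_comp, MC.p_comp_i, St.ofP_zero]

end cone

end Crest.Agent.R090.ContraSt962
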