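import Crest.Agent.R090.Cone_962

/-!
# Row 90, T1: covariant exactness, unstable ladder (owner helper128)

`f : PMap X Y`, `h : PMap W Y`, `i ∘ h : W → MC f` null homotopic ⟹ there is
`k : PMap (W × Io) (X × Io)` with `(f ∧ 1) ∘ k` homotopic to `h ∧ 1`.
-/

set_option autoImplicit false
set_option linter.unusedSectionVars false

open Topology Filter Set

namespace Crest.Agent.R090.Sp962

open OnePoint
open scoped unitInterval

universe u v w x

/-! ## maps out of a suspension -/

section ofS

variable {W : Type u} {Z : Type v} [TopologicalSpace W] [TopologicalSpace Z]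
  [T2Space W] [LocallyCompactSpace W]

theorem continuous_smqI : Continuous (fun p : OnePoint W × I => sm p.1 (qI p.2)) :=
  continuous_fst.sm962 (continuous_qI.comp (continuous_subtype_val.comp continuous_snd))

theorem smqI_surjective : Function.Surjective (fun p : OnePoint W × I => sm p.1 (qI p.2)) := by
  intro z
  obtain ⟨⟨a, s⟩, rfl⟩ := sm_surjective z
  obtain ⟨t, rfl⟩ := qI_surjective s
  exact ⟨(a, t), rfl⟩

/-- raw map out of the suspension -/
noncomputable def liftS (F : OnePoint W → ℝ → OnePoint Z) (z : OnePoint (W × Io)) : OnePoint Z :=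
  z.elim ∞ fun p => F p.1 p.2

theorem liftS_sm (F : OnePoint W → ℝ → OnePoint Z) (hinf : ∀ t, F ∞ t = ∞) (h0 : ∀ a, F a 0 = ∞)
    (h1 : ∀ a, F a 1 = ∞) (a : OnePoint W) {t : ℝ} (ht : t ∈ Icc (0 : ℝ) 1) :
    liftS F (sm a (qI t)) = F a t := by
  rcases eq_or_lt_of_le ht.1 with h | h
  · rw [← h, qI_zero, sm_inf_right, h0]; rfl
  rcases eq_or_lt_of_le ht.2 with h' | h'
  · rw [h', qI_one, sm_inf_right, h1]; rfl
  induction a using OnePoint.rec with
  | infty => rw [sm_inf_left, hinf]; rfl
  | coe a => rw [qI_of_mem ⟨h, h'⟩]; rfl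

/-- pointed map out of the suspension -/
noncomputable def ofS (F : OnePoint W → ℝ → OnePoint Z)
    (hF : Continuous (fun p : OnePoint W × I => F p.1 p.2)) (hinf : ∀ t, F ∞ t = ∞)
    (h0 : ∀ a, F a 0 = ∞) (h1 : ∀ a, F a 1 = ∞) : PMap (W × Io) Z where
  toFun := liftS F
  cont := by
    refine (continuous_smqI.isClosedMap.isQuotientMap continuous_smqI
      smqI_surjective).continuous_iff.2 ?_
    have : (liftS F) ∘ (fun p : OnePoint W × I => sm p.1 (qI p.2)) = fun p => F p.1 p.2 := by
      funext p
      exact liftS_sm F hinf h0 h1 p.1 p.2.2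
    rw [this]
    exact hF
  map_inf := rfl

theorem ofS_sm (F : OnePoint W → ℝ → OnePoint Z)
    (hF : Continuous (fun p : OnePoint W × I => F p.1 p.2)) (hinf : ∀ t, F ∞ t = ∞)
    (h0 : ∀ a, F a 0 = ∞) (h1 : ∀ a, F a 1 = ∞) (a : OnePoint W) {t : ℝ}
    (ht : t ∈ Icc (0 : ℝ) 1) : ofS F hF hinf h0 h1 (sm a (qI t)) = F a t :=
  liftS_sm F hinf h0 h1 a ht

/-- homotopies between maps out of a suspension -/
theorem Homotopic_of_S {f g : PMap (W × Io) Z} (F : I × (OnePoint W × I) → OnePoint Z)
    (hF : Continuous F) (hf : ∀ a t, F (0, (a, t)) = f (sm a (qI t)))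
    (hg : ∀ a t, F (1, (a, t)) = g (sm a (qI t)))
    (hinf : ∀ r t, F (r, (∞, t)) = ∞) (h0 : ∀ r a, F (r, (a, 0)) = ∞)
    (h1 : ∀ r a, F (r, (a, 1)) = ∞) : f.Homotopic g := by
  let G : I × OnePoint (W × Io) → OnePoint Z := fun p =>
    p.2.elim ∞ fun z => F (p.1, ((z.1 : OnePoint W), ⟨z.2.1, z.2.2.1.le, z.2.2.2.le⟩))
  have hG : ∀ (r : I) (a : OnePoint W) (t : I), G (r, sm a (qI t)) = F (r, (a, t)) := by
    intro r a t
    rcases eq_or_lt_of_le t.2.1 with h | h
    · have ht : t = 0 := Subtype.ext h.symm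
      subst ht
      rw [Set.Icc.coe_zero, qI_zero, sm_inf_right, h0]
      rfl
    rcases eq_or_lt_of_le t.2.2 with h' | h'
    · have ht : t = 1 := Subtype.ext h'
      subst ht
      rw [Set.Icc.coe_one, qI_one, sm_inf_right, h1]
      rfl
    induction a using OnePoint.rec with
    | infty => rw [sm_inf_left, hinf]; rfl
    | coe a => rw [qI_of_mem ⟨h, h'⟩]; rfl
  have hc : Continuous (fun p : I × (OnePoint W × I) => (p.1, sm p.2.1 (qI p.2.2))) :=
    continuous_fst.prodMk (continuous_smqI.comp continuous_snd)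
  have hs : Function.Surjective
      (fun p : I × (OnePoint W × I) => (p.1, sm p.2.1 (qI p.2.2))) := by
    rintro ⟨k, q⟩
    obtain ⟨p, hp⟩ := smqI_surjective q
    exact ⟨(k, p), by simpa using hp⟩
  refine PMap.Homotopic.of G ?_ ?_ ?_ (fun _ => rfl)
  · refine (hc.isClosedMap.isQuotientMap hc hs).continuous_iff.2 ?_
    have : G ∘ (fun p : I × (OnePoint W × I) => (p.1, sm p.2.1 (qI p.2.2))) = F := by
      funext p
      exact hG p.1 p.2.1 p.2.2
    rw [this]
    exact hF
  · rintro ⟨a, t⟩
    have := hf a ⟨t.1, t.2.1.le, t.2.2.le⟩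
    simp only [qI_coe, sm_coe] at this
    rw [← this]
    rfl
  · rintro ⟨a, t⟩
    have := hg a ⟨t.1, t.2.1.le, t.2.2.le⟩
    simp only [qI_coe, sm_coe] at this
    rw [← this]
    rfl

end ofS

/-! ## the ladder -/

section ladder

variable {X : Type u} {Y : Type v} {W : Type w}
variable [TopologicalSpace X] [TopologicalSpace Y] [TopologicalSpace W]
variable [T2Space X] [LocallyCompactSpace X] [T2Space Y] [LocallyCompactSpace Y]
  [T2Space W] [LocallyCompactSpace W]

/-- `Ĝ_l : MC f → Y ∧ Io`, `(a, t) ↦ (f a, t - l)`, `y ↦ (y, 1 - l)` -/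
noncomputable def gh (f : PMap X Y) (l : ℝ) (z : OnePoint (MC f)) : OnePoint (Y × Io) :=
  MC.lift f (fun a t => sm (f a) (qI (t - l))) (fun y => sm y (qI (1 - l))) z

@[simp] theorem gh_inf (f : PMap X Y) (l : ℝ) : gh f l ∞ = ∞ := by
  change sm (∞ : OnePoint Y) (qI (1 - l)) = ∞
  simp

@[simp] theorem gh_i (f : PMap X Y) (l : ℝ) (y : OnePoint Y) :
    gh f l (MC.i f y) = sm y (qI (1 - l)) := MC.lift_i f _ _ y

theorem gh_q (f : PMap X Y) {l : ℝ} (hl : 0 ≤ l) (a : OnePoint X) {t : ℝ} (ht : t ∈ Icc (0 : ℝ) 1) :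
    gh f l (MC.q f a t) = sm (f a) (qI (t - l)) := by
  refine MC.lift_q f _ _ ?_ ?_ ?_ a ht
  · intro t; simp
  · intro a
    rw [qI_of_le (by linarith)]; simp
  · intro a; rfl

theorem continuous_gh (f : PMap X Y) :
    Continuous (fun p : I × OnePoint (MC f) => gh f p.1 p.2) := by
  refine MC.continuous_of f ?_ ?_
  · have : (fun p : I × (OnePoint X × I) => gh f p.1 (MC.q f p.2.1 p.2.2)) =
        fun p => sm (f p.2.1) (qI ((p.2.2 : ℝ) - p.1)) := by
      funext p
      exact gh_q f p.1.2.1 p.2.1 p.2.2.2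
    change Continuous (fun p : I × (OnePoint X × I) => gh f p.1 (MC.q f p.2.1 p.2.2))
    rw [this]
    exact (f.cont.comp (by fun_prop)).sm962 (continuous_qI.comp (by fun_prop))
  · have : (fun p : I × OnePoint Y => gh f p.1 (MC.i f p.2)) =
        fun p => sm p.2 (qI (1 - (p.1 : ℝ))) := by
      funext p
      exact gh_i f _ _
    change Continuous (fun p : I × OnePoint Y => gh f p.1 (MC.i f p.2))
    rw [this]
    exact continuous_snd.sm962 (continuous_qI.comp (by fun_prop))

theorem gh_zero (f : PMap X Y) (z : OnePoint (MC f)) :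
    gh f 0 z = f.smash (PMap.id Io) (MC.p f z) := by
  revert z
  refine MC.cases f ?_ ?_
  · intro a t ht
    rw [gh_q f le_rfl a ht, MC.p_q, PMap.smash_sm, sub_zero]
    rfl
  · intro y
    rw [gh_i, MC.p_i, sub_zero, qI_one, sm_inf_right, PMap.map_inf]

theorem gh_one (f : PMap X Y) (z : OnePoint (MC f)) : gh f 1 z = ∞ := by
  revert z
  refine MC.cases f ?_ ?_
  · intro a t ht
    rw [gh_q f zero_le_one a ht, qI_of_le (by linarith [ht.2]), sm_inf_right]
  · intro y
    rw [gh_i, sub_self, qI_zero, sm_inf_right]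

end ladder

/-! ## the abstract ladder -/

section abs

variable {A : Type u} {B : Type v} {C : Type x} {W : Type w}
variable [TopologicalSpace A] [TopologicalSpace B] [TopologicalSpace C] [TopologicalSpace W]
variable [T2Space A] [LocallyCompactSpace A] [T2Space B] [LocallyCompactSpace B]
  [T2Space C] [LocallyCompactSpace C] [T2Space W] [LocallyCompactSpace W]

/-- the data which give covariant exactness of `A → B → C` -/
structure Lad (F : PMap A B) (i : PMap B C) where
  /-- the pinch map -/
  p : PMap C (A × Io)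
  /-- the sliding homotopy -/
  γ : I × OnePoint C → OnePoint (B × Io)
  cont : Continuous γ
  γ_i : ∀ l y, γ (l, i y) = sm y (qI (1 - (l : ℝ)))
  γ_zero : ∀ z, γ (0, z) = F.smash (PMap.id Io) (p z)
  γ_one : ∀ z, γ (1, z) = ∞
  p_i : ∀ y, p (i y) = ∞

theorem Lad.γ_inf {F : PMap A B} {i : PMap B C} (L : Lad F i) (l : I) : L.γ (l, ∞) = ∞ := by
  have := L.γ_i l ∞
  rwa [PMap.map_inf, sm_inf_left] at this

/-- **the abstract ladder** -/
theorem Lad.exists_ladder {F : PMap A B} {i : PMap B C} (L : Lad F i) (h : PMap W B)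
    (hn : (i.comp h).Null) : ∃ k : PMap (W × Io) (A × Io),
      ((F.smash (PMap.id Io)).comp k).Homotopic (h.smash (PMap.id Io)) := by
  obtain ⟨H, hH, H0, H1, Hi⟩ := hn.exists
  -- the cone map
  let N : OnePoint W → ℝ → OnePoint C := fun w s =>
    H (Set.projIcc (0 : ℝ) 1 zero_le_one (1 - s), w)
  have hN : Continuous (fun p : OnePoint W × ℝ => N p.1 p.2) :=
    hH.comp ((continuous_projIcc.comp (by fun_prop)).prodMk continuous_fst)
  have N0 : ∀ w, N w 0 = ∞ := by
    intro w
    have : Set.projIcc (0 : ℝ) 1 zero_le_one (1 - 0) = 1 := by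
      rw [sub_zero]; exact Set.projIcc_right _
    change H (Set.projIcc (0 : ℝ) 1 zero_le_one (1 - 0), w) = ∞
    rw [this, H1]; rfl
  have N1 : ∀ w, N w 1 = i (h w) := by
    intro w
    have : Set.projIcc (0 : ℝ) 1 zero_le_one (1 - 1) = 0 := by
      rw [sub_self]; exact Set.projIcc_left _
    change H (Set.projIcc (0 : ℝ) 1 zero_le_one (1 - 1), w) = _
    rw [this, H0]; rfl
  have Ni : ∀ s, N ∞ s = ∞ := fun s => Hi _
  let K : OnePoint W → ℝ → OnePoint (A × Io) := fun w s => L.p (N w s)
  have hK : Continuous (fun p : OnePoint W × I => K p.1 p.2) :=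
    L.p.cont.comp (hN.comp (continuous_fst.prodMk (continuous_subtype_val.comp continuous_snd)))
  refine ⟨ofS K hK (fun t => by simp only [K, Ni, PMap.map_inf])
    (fun a => by simp only [K, N0, PMap.map_inf]) (fun a => by simp only [K, N1, L.p_i]), ?_⟩
  -- the middle maps
  let M : I × (OnePoint W × I) → OnePoint (B × Io) := fun p =>
    if (p.2.2 : ℝ) ≤ 1 / 2 then L.γ (p.1, N p.2.1 (2 * p.2.2))
    else sm (h p.2.1) (qI (2 * p.2.2 - p.1))
  have hM : Continuous M := by
    refine Continuous.if_le ?_ ?_ (continuous_subtype_val.comp (continuous_snd.comp continuous_snd))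
      continuous_const ?_
    · exact L.cont.comp (continuous_fst.prodMk
        (hN.comp ((continuous_fst.comp continuous_snd).prodMk (by fun_prop))))
    · exact (h.cont.comp (by fun_prop)).sm962 (continuous_qI.comp (by fun_prop))
    · intro p hp
      have h2 : 2 * (p.2.2 : ℝ) = 1 := by rw [hp]; norm_num
      rw [h2, N1, L.γ_i]
  have Mi : ∀ r t, M (r, (∞, t)) = ∞ := by
    intro r t
    simp only [M, Ni, L.γ_inf, PMap.map_inf, sm_inf_left, ite_self]
  have M0 : ∀ r a, M (r, (a, 0)) = ∞ := by
    intro r a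
    simp only [M, Set.Icc.coe_zero, mul_zero, N0, L.γ_inf]
    rw [if_pos (by norm_num)]
  have M1 : ∀ r a, M (r, (a, 1)) = ∞ := by
    intro r a
    simp only [M, Set.Icc.coe_one]
    rw [if_neg (by norm_num), qI_of_ge (by have := r.2.2; linarith), sm_inf_right]
  -- the intermediate maps as pointed maps
  have hMr : ∀ r : I, ∃ m : PMap (W × Io) (B × Io), ∀ a (t : I), m (sm a (qI t)) = M (r, (a, t)) := by
    intro r
    refine ⟨ofS (fun a t => M (r, (a, Set.projIcc (0 : ℝ) 1 zero_le_one t))) ?_ ?_ ?_ ?_, ?_⟩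
    · exact hM.comp (continuous_const.prodMk (continuous_fst.prodMk
        (continuous_projIcc.comp (by fun_prop))))
    · intro t; exact Mi _ _
    · intro a; rw [Set.projIcc_left]; exact M0 _ _
    · intro a; rw [Set.projIcc_right]; exact M1 _ _
    · intro a t
      rw [ofS_sm _ _ _ _ _ a t.2, Set.projIcc_val]
  obtain ⟨m0, hm0⟩ := hMr 0
  obtain ⟨m1, hm1⟩ := hMr 1
  have hm : m0.Homotopic m1 := by
    refine Homotopic_of_S M hM ?_ ?_ Mi M0 M1
    · intro a t; exact (hm0 a t).symm
    · intro a t; exact (hm1 a t).symm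
  -- left end
  have hleft : ((F.smash (PMap.id Io)).comp (ofS K hK (fun t => by simp only [K, Ni, PMap.map_inf])
    (fun a => by simp only [K, N0, PMap.map_inf])
    (fun a => by simp only [K, N1, L.p_i]))).Homotopic m0 := by
    refine Homotopic_of_S (fun p => L.γ (0, N p.2.1 (min 1 ((1 + (p.1 : ℝ)) * p.2.2)))) ?_ ?_ ?_
      ?_ ?_ ?_
    · exact L.cont.comp (continuous_const.prodMk
        (hN.comp ((continuous_fst.comp continuous_snd).prodMk (by fun_prop))))
    · intro a t
      rw [PMap.comp_apply, ofS_sm _ _ _ _ _ a t.2]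
      simp only [Set.Icc.coe_zero, add_zero, one_mul]
      rw [min_eq_right t.2.2, L.γ_zero]
    · intro a t
      rw [hm0]
      simp only [M, Set.Icc.coe_zero, Set.Icc.coe_one, sub_zero]
      split_ifs with ht
      · rw [min_eq_right (by linarith)]
        norm_num
      · push Not at ht
        rw [min_eq_left (by linarith), N1, L.γ_i, Set.Icc.coe_zero, sub_zero, qI_one,
          sm_inf_right, qI_of_ge (by linarith), sm_inf_right]
    · intro r t
      simp only [Ni, L.γ_inf]
    · intro r a
      simp only [Set.Icc.coe_zero, mul_zero]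
      rw [min_eq_right zero_le_one, N0, L.γ_inf]
    · intro r a
      simp only [Set.Icc.coe_one, mul_one]
      rw [min_eq_left (by have := r.2.1; linarith), N1, L.γ_i, Set.Icc.coe_zero, sub_zero,
        qI_one, sm_inf_right]
  -- right end
  have hright : m1.Homotopic (h.smash (PMap.id Io)) := by
    refine Homotopic_of_S (fun p => sm (h p.2.1) (qI ((2 - (p.1 : ℝ)) * p.2.2 - (1 - p.1)))) ?_ ?_ ?_
      ?_ ?_ ?_
    · exact (h.cont.comp (by fun_prop)).sm962 (continuous_qI.comp (by fun_prop))
    · intro a t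
      rw [hm1]
      simp only [M, Set.Icc.coe_zero, Set.Icc.coe_one, sub_zero]
      split_ifs with ht
      · rw [L.γ_one, qI_of_le (by linarith), sm_inf_right]
      · rfl
    · intro a t
      rw [PMap.smash_sm]
      simp only [Set.Icc.coe_one, PMap.id_apply]
      congr 2
      ring
    · intro r t
      simp
    · intro r a
      simp only [Set.Icc.coe_zero, mul_zero]
      rw [qI_of_le (by have := r.2.2; linarith), sm_inf_right]
    · intro r a
      simp only [Set.Icc.coe_one, mul_one]
      rw [qI_of_ge (by linarith), sm_inf_right]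
  exact hleft.trans (hm.trans hright)

end abs

section ladder2

variable {X : Type u} {Y : Type v} {W : Type w}
variable [TopologicalSpace X] [TopologicalSpace Y] [TopologicalSpace W]
variable [T2Space X] [LocallyCompactSpace X] [T2Space Y] [LocallyCompactSpace Y]
  [T2Space W] [LocallyCompactSpace W]

/-- the ladder data of the mapping cone -/
noncomputable def ladMC (f : PMap X Y) : Lad f (MC.i f) where
  p := MC.p f
  γ q := gh f q.1 q.2
  cont := continuous_gh f
  γ_i _ _ := gh_i f _ _
  γ_zero z := gh_zero f z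
  γ_one z := gh_one f z
  p_i y := MC.p_i f y

/-- **the ladder** (covariant exactness, unstable form) -/
theorem exists_ladder (f : PMap X Y) (h : PMap W Y) (hn : ((MC.i f).comp h).Null) :
    ∃ k : PMap (W × Io) (X × Io),
      ((f.smash (PMap.id Io)).comp k).Homotopic (h.smash (PMap.id Io)) :=
  (ladMC f).exists_ladder h hn

end ladder2

/-! ## smashing the ladder data with a fixed object -/

section smashLad

variable {A : Type u} {B : Type v} {C : Type x} {D : Type w}
variable [TopologicalSpace A] [TopologicalSpace B] [TopologicalSpace C] [TopologicalSpace D]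
variable [T2Space A] [LocallyCompactSpace A] [T2Space B] [LocallyCompactSpace B]
  [T2Space C] [LocallyCompactSpace C] [T2Space D] [LocallyCompactSpace D]

/-- `(A × Io) × D ≃ (A × D) × Io` -/
def shR (A : Type u) (D : Type w) [TopologicalSpace A] [TopologicalSpace D] :
    (A × Io) × D ≃ₜ (A × D) × Io where
  toFun p := ((p.1.1, p.2), p.1.2)
  invFun p := ((p.1.1, p.2), p.1.2)
  left_inv _ := rfl
  right_inv _ := rfl
  continuous_toFun := by fun_prop
  continuous_invFun := by fun_prop

theorem shR_sm (a : OnePoint A) (t : OnePoint Io) (d : OnePoint D) :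
    PMap.ofHomeo (shR A D) (sm (sm a t) d) = sm (sm a d) t := by
  induction a using OnePoint.rec with
  | infty => simp
  | coe a =>
    induction t using OnePoint.rec with
    | infty => simp
    | coe t =>
      induction d using OnePoint.rec with
      | infty => simp
      | coe d => rfl

/-- smashing the ladder data on the right -/
noncomputable def Lad.smR {F : PMap A B} {i : PMap B C} (L : Lad F i) (D : Type w)
    [TopologicalSpace D] [T2Space D] [LocallyCompactSpace D] :
    Lad (F.smash (PMap.id D)) (i.smash (PMap.id D)) where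
  p := (PMap.ofHomeo (shR A D)).comp (L.p.smash (PMap.id D))
  γ q := PMap.ofHomeo (shR B D) (q.2.elim ∞ fun c => sm (L.γ (q.1, c.1)) (c.2 : OnePoint D))
  cont := by
    refine (PMap.cont _).comp (continuous_of_sm' ?_)
    have : (fun p : I × (OnePoint C × OnePoint D) =>
        ((sm p.2.1 p.2.2).elim ∞ fun c => sm (L.γ (p.1, c.1)) (c.2 : OnePoint D) :
          OnePoint ((B × Io) × D))) =
        fun p => sm (L.γ (p.1, p.2.1)) p.2.2 := by
      funext p
      obtain ⟨l, c, d⟩ := p
      induction c using OnePoint.rec with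
      | infty => simp [L.γ_inf]
      | coe c =>
        induction d using OnePoint.rec with
        | infty => simp
        | coe d => rfl
    change Continuous (fun p : I × (OnePoint C × OnePoint D) =>
        ((sm p.2.1 p.2.2).elim ∞ fun c => sm (L.γ (p.1, c.1)) (c.2 : OnePoint D) :
          OnePoint ((B × Io) × D)))
    rw [this]
    exact (L.cont.comp (by fun_prop)).sm962 (by fun_prop)
  γ_i l y := by
    have key : ∀ (c : OnePoint C) (d : OnePoint D),
        ((sm c d).elim ∞ fun c => sm (L.γ (l, c.1)) (c.2 : OnePoint D) :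
          OnePoint ((B × Io) × D)) = sm (L.γ (l, c)) d := by
      intro c d
      induction c using OnePoint.rec with
      | infty => simp [L.γ_inf]
      | coe c =>
        induction d using OnePoint.rec with
        | infty => simp
        | coe d => rfl
    obtain ⟨⟨b, d⟩, rfl⟩ := sm_surjective y
    simp only [PMap.smash_sm, PMap.id_apply]
    rw [key, L.γ_i, shR_sm]
  γ_zero z := by
    obtain ⟨⟨c, d⟩, rfl⟩ := sm_surjective z
    have key : ((sm c d).elim ∞ fun c => sm (L.γ (0, c.1)) (c.2 : OnePoint D) :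
          OnePoint ((B × Io) × D)) = sm (L.γ (0, c)) d := by
      induction c using OnePoint.rec with
      | infty => simp [L.γ_inf]
      | coe c =>
        induction d using OnePoint.rec with
        | infty => simp
        | coe d => rfl
    simp only
    rw [key, L.γ_zero, PMap.comp_apply, PMap.smash_sm, PMap.id_apply]
    obtain ⟨⟨a, t⟩, hat⟩ := sm_surjective (L.p c)
    simp only at hat
    rw [← hat, PMap.smash_sm, PMap.id_apply, shR_sm, shR_sm, PMap.smash_sm, PMap.smash_sm]
    rfl
  γ_one z := by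
    induction z using OnePoint.rec with
    | infty => rfl
    | coe z =>
      change PMap.ofHomeo (shR B D) (sm (L.γ (1, z.1)) (z.2 : OnePoint D)) = ∞
      rw [L.γ_one, sm_inf_left, PMap.map_inf]
  p_i y := by
    obtain ⟨⟨b, d⟩, rfl⟩ := sm_surjective y
    simp only [PMap.smash_sm, PMap.comp_apply]
    rw [L.p_i, sm_inf_left, PMap.map_inf]

end smashLad

end Crest.Agent.R090.Sp962
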