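import Crest.Agent.R090.AS1_58
import Crest.Agent.R090.Sp_962

/-!
# Row 90, HOM: the cross product of Alexander-Spanier classes, cochain level (helper965)

Everything is *local*: `EqAt x φ ψ` says that the list cochains `φ`, `ψ` agree on all lists in a
neighbourhood of `x`.  `IsCr g χ` says that the cochain `χ` on `(U × V)⁺` vanishes near `∞` and
agrees locally on `U × V` with the cochain `g` on `U⁺ × V⁺`.  Existence is `exists_isCr`,
uniqueness up to locally zero cochains is `IsCr.unique`.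
-/

set_option autoImplicit false
set_option linter.unusedSectionVars false

open Filter Topology Set OnePoint

namespace Crest.Agent.R090.Cross965

open Crest.Agent.R090.AS58 Crest.Agent.R090.Sp962

variable {F : Type} [CommRing F] {X Y Z : Type} [TopologicalSpace X] [TopologicalSpace Y]
  [TopologicalSpace Z]

/-- `φ` and `ψ` agree on all lists in a neighbourhood of `x` -/
def EqAt (x : X) (φ ψ : List X → F) : Prop :=
  ∃ N ∈ 𝓝 x, ∀ l : List X, (∀ y ∈ l, y ∈ N) → φ l = ψ l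

namespace EqAt

variable {x : X} {φ φ' ψ ψ' χ : List X → F}

theorem rfl' : EqAt x φ φ := ⟨univ, univ_mem, fun _ _ => rfl⟩

theorem of_eq (h : φ = ψ) : EqAt x φ ψ := h ▸ rfl'

theorem symm (h : EqAt x φ ψ) : EqAt x ψ φ := by
  obtain ⟨N, hN, h⟩ := h
  exact ⟨N, hN, fun l hl => (h l hl).symm⟩

theorem trans (h : EqAt x φ ψ) (h' : EqAt x ψ χ) : EqAt x φ χ := by
  obtain ⟨N, hN, h⟩ := h
  obtain ⟨N', hN', h'⟩ := h'
  exact ⟨N ∩ N', inter_mem hN hN', fun l hl =>
    (h l fun y hy => (hl y hy).1).trans (h' l fun y hy => (hl y hy).2)⟩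

theorem add (h : EqAt x φ ψ) (h' : EqAt x φ' ψ') : EqAt x (φ + φ') (ψ + ψ') := by
  obtain ⟨N, hN, h⟩ := h
  obtain ⟨N', hN', h'⟩ := h'
  exact ⟨N ∩ N', inter_mem hN hN', fun l hl => by
    rw [Pi.add_apply, Pi.add_apply, h l fun y hy => (hl y hy).1, h' l fun y hy => (hl y hy).2]⟩

theorem sub (h : EqAt x φ ψ) (h' : EqAt x φ' ψ') : EqAt x (φ - φ') (ψ - ψ') := by
  obtain ⟨N, hN, h⟩ := h
  obtain ⟨N', hN', h'⟩ := h'
  exact ⟨N ∩ N', inter_mem hN hN', fun l hl => by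
    rw [Pi.sub_apply, Pi.sub_apply, h l fun y hy => (hl y hy).1, h' l fun y hy => (hl y hy).2]⟩

theorem neg (h : EqAt x φ ψ) : EqAt x (-φ) (-ψ) := by
  obtain ⟨N, hN, h⟩ := h
  exact ⟨N, hN, fun l hl => by rw [Pi.neg_apply, Pi.neg_apply, h l hl]⟩

theorem smul (c : F) (h : EqAt x φ ψ) : EqAt x (c • φ) (c • ψ) := by
  obtain ⟨N, hN, h⟩ := h
  exact ⟨N, hN, fun l hl => by rw [Pi.smul_apply, Pi.smul_apply, h l hl]⟩

theorem d (h : EqAt x φ ψ) : EqAt x (AS58.d φ) (AS58.d ψ) := by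
  obtain ⟨N, hN, h⟩ := h
  exact ⟨N, hN, fun l hl => d_congr l φ ψ fun m hm => h m fun y hy => hl y (hm hy)⟩

theorem ev (h : EqAt x φ ψ) : EqAt x (AS58.ev φ) (AS58.ev ψ) := by
  obtain ⟨N, hN, h⟩ := h
  exact ⟨N, hN, fun l hl => by rw [ev_apply, ev_apply, h l hl]⟩

theorem sub_zero_iff : EqAt x (φ - ψ) 0 ↔ EqAt x φ ψ := by
  constructor
  · intro h
    have := h.add (rfl' (x := x) (φ := ψ))
    simpa using this
  · intro h
    have := h.sub (rfl' (x := x) (φ := ψ))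
    simpa using this

end EqAt

theorem EqAt.pull {f : X → Y} {x : X} (hf : ContinuousAt f x) {φ ψ : List Y → F}
    (h : EqAt (f x) φ ψ) : EqAt x (AS58.pull f φ) (AS58.pull f ψ) := by
  obtain ⟨N, hN, h⟩ := h
  refine ⟨f ⁻¹' N, hf hN, fun l hl => h _ fun y hy => ?_⟩
  obtain ⟨z, hz, rfl⟩ := List.mem_map.1 hy
  exact hl z hz

/-- pull backs along functions that agree near `x` -/
theorem EqAt.pull_congr {f g : X → Y} {x : X} (h : f =ᶠ[𝓝 x] g) (φ : List Y → F) :
    EqAt x (AS58.pull f φ) (AS58.pull g φ) := by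
  refine ⟨{y | f y = g y}, h, fun l hl => ?_⟩
  rw [pull_apply, pull_apply, List.map_congr_left hl]

theorem EqAt.cr {x : X} {y : Y} {φ φ' : List X → F} {ψ ψ' : List Y → F} (h : EqAt x φ φ')
    (h' : EqAt y ψ ψ') : EqAt (x, y) (AS58.cr φ ψ) (AS58.cr φ' ψ') := by
  obtain ⟨N, hN, h⟩ := h
  obtain ⟨N', hN', h'⟩ := h'
  refine ⟨N ×ˢ N', prod_mem_nhds hN hN', fun l hl => cr_congr l φ φ' ψ ψ' ?_ ?_⟩
  · intro m hm
    refine h m fun z hz => ?_
    obtain ⟨w, hw, rfl⟩ := List.mem_map.1 (hm hz)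
    exact (hl w hw).1
  · intro m hm
    refine h' m fun z hz => ?_
    obtain ⟨w, hw, rfl⟩ := List.mem_map.1 (hm hz)
    exact (hl w hw).2

theorem EqAt.rc {x : X} {y : Y} {φ φ' : List X → F} {ψ ψ' : List Y → F} (h : EqAt x φ φ')
    (h' : EqAt y ψ ψ') : EqAt (x, y) (AS58.rc φ ψ) (AS58.rc φ' ψ') := by
  obtain ⟨N, hN, h⟩ := h
  obtain ⟨N', hN', h'⟩ := h'
  refine ⟨N ×ˢ N', prod_mem_nhds hN hN', fun l hl => rc_congr l φ φ' ψ ψ' ?_ ?_⟩
  · intro m hm
    refine h m fun z hz => ?_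
    obtain ⟨w, hw, rfl⟩ := List.mem_map.1 (hm hz)
    exact (hl w hw).1
  · intro m hm
    refine h' m fun z hz => ?_
    obtain ⟨w, hw, rfl⟩ := List.mem_map.1 (hm hz)
    exact (hl w hw).2

theorem EqAt.c1 {x : X} {y : Y} {φ φ' : List X → F} {ψ ψ' : List Y → F} (h : EqAt x φ φ')
    (h' : EqAt y ψ ψ') : EqAt (x, y) (AS58.c1 φ ψ) (AS58.c1 φ' ψ') := by
  obtain ⟨N, hN, h⟩ := h
  obtain ⟨N', hN', h'⟩ := h'
  refine ⟨N ×ˢ N', prod_mem_nhds hN hN', fun l hl => c1_congr l φ φ' ψ ψ' ?_ ?_⟩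
  · intro m hm
    refine h m fun z hz => ?_
    obtain ⟨w, hw, rfl⟩ := List.mem_map.1 (hm hz)
    exact (hl w hw).1
  · intro m hm
    refine h' m fun z hz => ?_
    obtain ⟨w, hw, rfl⟩ := List.mem_map.1 (hm hz)
    exact (hl w hw).2

/-! ## lists in the range of a map -/

theorem exists_map_eq {A B : Type} {f : A → B} {N : Set A} :
    ∀ l : List B, (∀ y ∈ l, y ∈ f '' N) → ∃ m : List A, m.map f = l ∧ ∀ x ∈ m, x ∈ N := by
  intro l
  induction l with
  | nil => exact fun _ => ⟨[], rfl, fun x hx => absurd hx (by simp)⟩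
  | cons b l ih =>
    intro h
    obtain ⟨a, ha, rfl⟩ := h b (by simp)
    obtain ⟨m, rfl, hm⟩ := ih fun y hy => h y (by simp [hy])
    refine ⟨a :: m, rfl, fun x hx => ?_⟩
    rcases List.mem_cons.1 hx with rfl | hx
    exacts [ha, hm x hx]

theorem EqAt.of_pull {f : X → Y} (hf : IsOpenEmbedding f) {x : X} {φ ψ : List Y → F}
    (h : EqAt x (AS58.pull f φ) (AS58.pull f ψ)) : EqAt (f x) φ ψ := by
  obtain ⟨N, hN, h⟩ := h
  refine ⟨f '' N, hf.isOpenMap.image_mem_nhds hN, fun l hl => ?_⟩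
  obtain ⟨m, rfl, hm⟩ := exists_map_eq l hl
  exact h m hm

/-! ## extension of a cochain on `U⁺ × V⁺` to `(U × V)⁺` -/

section ext

variable {U V W U' V' : Type} [TopologicalSpace U] [TopologicalSpace V] [TopologicalSpace W]
  [TopologicalSpace U'] [TopologicalSpace V']

/-- set theoretic section of `U⁺ × V⁺ → (U × V)⁺` -/
def sec (z : OnePoint (U × V)) : OnePoint U × OnePoint V :=
  z.elim (∞, ∞) fun p => ((p.1 : OnePoint U), (p.2 : OnePoint V))

@[simp] theorem sec_coe (p : U × V) :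
    sec (p : OnePoint (U × V)) = ((p.1 : OnePoint U), (p.2 : OnePoint V)) := rfl

@[simp] theorem sec_inf : sec (∞ : OnePoint (U × V)) = (∞, ∞) := rfl

/-- `U → U⁺` -/
abbrev co (U : Type) : U → OnePoint U := (↑)

/-- `U × V → U⁺ × V⁺` -/
abbrev coco (U V : Type) : U × V → OnePoint U × OnePoint V := Prod.map (co U) (co V)

/-- `χ` is an extension by zero at `∞` of the cochain `g` restricted to `U × V` -/
structure IsCr (g : List (OnePoint U × OnePoint V) → F) (χ : List (OnePoint (U × V)) → F) :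
    Prop where
  inf : EqAt ∞ χ 0
  fin : ∀ p : U × V, EqAt p (pull (co (U × V)) χ) (pull (coco U V) g)

/-- a cochain on `U⁺ × V⁺` that vanishes near `{∞} × V⁺` and `U⁺ × {∞}`, very strongly -/
structure Adm (g : List (OnePoint U × OnePoint V) → F) : Prop where
  left : ∃ N ∈ 𝓝 (∞ : OnePoint U), ∀ l, (∀ z ∈ l, z.1 ∈ N) → g l = 0
  right : ∃ N ∈ 𝓝 (∞ : OnePoint V), ∀ l, (∀ z ∈ l, z.2 ∈ N) → g l = 0

theorem nhds_inf_prod {N : Set (OnePoint U)} {M : Set (OnePoint V)} (hN : N ∈ 𝓝 ∞)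
    (hM : M ∈ 𝓝 ∞) : {z : OnePoint (U × V) | (sec z).1 ∈ N ∨ (sec z).2 ∈ M} ∈ 𝓝 ∞ := by
  obtain ⟨K, ⟨hK, hK'⟩, h⟩ := (hasBasis_nhds_infty).mem_iff.1 hN
  obtain ⟨L, ⟨hL, hL'⟩, h'⟩ := (hasBasis_nhds_infty).mem_iff.1 hM
  refine (hasBasis_nhds_infty).mem_iff.2 ⟨K ×ˢ L, ⟨hK.prod hL, hK'.prod hL'⟩, ?_⟩
  rintro z (⟨p, hp, rfl⟩ | rfl)
  · simp only [mem_compl_iff, mem_prod, not_and_or] at hp
    rcases hp with hp | hp
    · exact Or.inl (h (Or.inl ⟨p.1, hp, rfl⟩))
    · exact Or.inr (h' (Or.inl ⟨p.2, hp, rfl⟩))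
  · exact Or.inl (mem_of_mem_nhds hN)

theorem sep_nhds [T2Space U] [LocallyCompactSpace U] {N : Set (OnePoint U)} (hN : N ∈ 𝓝 ∞) :
    ∃ N' ∈ 𝓝 (∞ : OnePoint U), N' ⊆ N ∧
      ∀ u : U, ∃ A ∈ 𝓝 u, ∀ a ∈ A, ∀ b ∈ A, (a : OnePoint U) ∈ N' → (b : OnePoint U) ∈ N := by
  obtain ⟨N', hN', hc, hs⟩ := exists_mem_nhds_isClosed_subset (interior_mem_nhds.2 hN)
  refine ⟨N', hN', hs.trans interior_subset, fun u => ?_⟩
  by_cases h : (u : OnePoint U) ∈ N'
  · refine ⟨(co U) ⁻¹' interior N, ?_, fun a _ b hb _ => interior_subset hb⟩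
    exact (continuous_coe.continuousAt (x := u)).preimage_mem_nhds
      (isOpen_interior.mem_nhds (hs h))
  · refine ⟨(co U) ⁻¹' N'ᶜ, ?_, fun a ha b _ h => absurd h ha⟩
    exact (continuous_coe.continuousAt (x := u)).preimage_mem_nhds (hc.isOpen_compl.mem_nhds h)

open Classical in
/-- **existence of extensions** -/
theorem exists_isCr [T2Space U] [LocallyCompactSpace U] [T2Space V] [LocallyCompactSpace V]
    {g : List (OnePoint U × OnePoint V) → F} (hg : Adm g) : ∃ χ, IsCr g χ := by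
  obtain ⟨N, hN, h1⟩ := hg.left
  obtain ⟨M, hM, h2⟩ := hg.right
  obtain ⟨N', hN', hNN, h3⟩ := sep_nhds hN
  obtain ⟨M', hM', hMM, h4⟩ := sep_nhds hM
  refine ⟨fun l => if (∀ z ∈ l, ∀ w ∈ l, ((sec z).1 ∈ N' → (sec w).1 ∈ N) ∧
    ((sec z).2 ∈ M' → (sec w).2 ∈ M)) then g (l.map sec) else 0, ⟨_, nhds_inf_prod hN' hM', ?_⟩, ?_⟩
  · intro l hl
    change ite _ _ _ = (0 : F)
    split_ifs with h
    · cases l with
      | nil => exact h1 _ (fun z hz => absurd hz (by simp))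
      | cons z l =>
        rcases hl z (by simp) with hz | hz
        · refine h1 _ fun w hw => ?_
          obtain ⟨w', hw', rfl⟩ := List.mem_map.1 hw
          exact (h z (by simp) w' hw').1 hz
        · refine h2 _ fun w hw => ?_
          obtain ⟨w', hw', rfl⟩ := List.mem_map.1 hw
          exact (h z (by simp) w' hw').2 hz
    · rfl
  · rintro ⟨u, v⟩
    obtain ⟨A, hA, h5⟩ := h3 u
    obtain ⟨B, hB, h6⟩ := h4 v
    refine ⟨A ×ˢ B, prod_mem_nhds hA hB, fun l hl => ?_⟩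
    rw [pull_apply, pull_apply, if_pos, List.map_map]
    · rfl
    · intro z hz w hw
      obtain ⟨z', hz', rfl⟩ := List.mem_map.1 hz
      obtain ⟨w', hw', rfl⟩ := List.mem_map.1 hw
      exact ⟨h5 _ (hl z' hz').1 _ (hl w' hw').1, h6 _ (hl z' hz').2 _ (hl w' hw').2⟩

/-- a cochain on `U⁺` is locally zero as soon as it is so at `∞` and at the points of `U` -/
theorem eqAt_all {φ ψ : List (OnePoint U) → F} (h : EqAt ∞ φ ψ)
    (h' : ∀ u : U, EqAt u (pull (co U) φ) (pull (co U) ψ)) (z : OnePoint U) : EqAt z φ ψ := by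
  induction z using OnePoint.rec with
  | infty => exact h
  | coe u => exact EqAt.of_pull isOpenEmbedding_coe (h' u)

/-- **uniqueness** -/
theorem IsCr.unique {g g' : List (OnePoint U × OnePoint V) → F}
    {χ χ' : List (OnePoint (U × V)) → F} (h : IsCr g χ) (h' : IsCr g' χ')
    (hg : ∀ p : U × V, EqAt p (pull (coco U V) g) (pull (coco U V) g')) (z : OnePoint (U × V)) :
    EqAt z χ χ' :=
  eqAt_all (h.inf.trans h'.inf.symm) (fun p => ((h.fin p).trans (hg p)).trans (h'.fin p).symm) z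

theorem IsCr.add {g g' : List (OnePoint U × OnePoint V) → F}
    {χ χ' : List (OnePoint (U × V)) → F} (h : IsCr g χ) (h' : IsCr g' χ') :
    IsCr (g + g') (χ + χ') where
  inf := by simpa using h.inf.add h'.inf
  fin p := by
    rw [map_add, map_add]
    exact (h.fin p).add (h'.fin p)

theorem IsCr.sub {g g' : List (OnePoint U × OnePoint V) → F}
    {χ χ' : List (OnePoint (U × V)) → F} (h : IsCr g χ) (h' : IsCr g' χ') :
    IsCr (g - g') (χ - χ') where
  inf := by simpa using h.inf.sub h'.inf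
  fin p := by
    rw [map_sub, map_sub]
    exact (h.fin p).sub (h'.fin p)

theorem IsCr.smul (c : F) {g : List (OnePoint U × OnePoint V) → F}
    {χ : List (OnePoint (U × V)) → F} (h : IsCr g χ) : IsCr (c • g) (c • χ) where
  inf := by simpa using h.inf.smul c
  fin p := by
    rw [_root_.map_smul, _root_.map_smul]
    exact (h.fin p).smul c

theorem IsCr.d {g : List (OnePoint U × OnePoint V) → F}
    {χ : List (OnePoint (U × V)) → F} (h : IsCr g χ) : IsCr (AS58.d g) (AS58.d χ) where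
  inf := by simpa using h.inf.d
  fin p := by
    rw [← d_pull, ← d_pull]
    exact (h.fin p).d

theorem IsCr.ev {g : List (OnePoint U × OnePoint V) → F}
    {χ : List (OnePoint (U × V)) → F} (h : IsCr g χ) : IsCr (AS58.ev g) (AS58.ev χ) where
  inf := by simpa using h.inf.ev
  fin p := by
    rw [← ev_pull, ← ev_pull]
    exact (h.fin p).ev

theorem IsCr.congr {g g' : List (OnePoint U × OnePoint V) → F}
    {χ : List (OnePoint (U × V)) → F} (h : IsCr g χ)
    (hg : ∀ p : U × V, EqAt p (pull (coco U V) g) (pull (coco U V) g')) : IsCr g' χ :=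
  ⟨h.inf, fun p => (h.fin p).trans (hg p)⟩

end ext

end Crest.Agent.R090.Cross965
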