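import Crest.Agent.R090.ATrace_253
import Crest.Agent.R090.Kun_493

/-!
# Row 90, leaf A-TRACE: binding to 285's `CohX` and 493's Künneth class (owner helper253)
-/

set_option autoImplicit false
set_option linter.unusedSectionVars false

namespace Crest.Agent.R090.CohT253

open Topology Set Crest.Agent.R090.Sp962 Crest.Agent.R090.Pi568 Crest.Agent.R090.Orb389
open Crest.Agent.R090.QU389 Crest.Agent.R090.HSt285 Crest.Agent.R090.Kun493

variable {F : Type} [Field F]

/-- the cross product of 285's structure in the form of `Cross` -/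
def crossOf (H : CohX F) : Cross H.toCoh where
  x := H.cr _ _
  nat f g a b := H.cr_map f g a b
  assoc a b c := H.cr_assoc a b c
  eps_x a b := H.eps_cr a b
  comm_even {U V} _ _ _ _ _ _ a b ha := by
    rw [← H.cr_comm_even a b ha, ← H.map_comp]
    have : (PMap.ofHomeo (Homeomorph.prodComm V U)).comp (PMap.ofHomeo (Homeomorph.prodComm U V)) =
        PMap.id (U × V) := PMap.ext fun _ => rfl
    rw [this, H.map_id]
  comm_odd {U V} _ _ _ _ _ _ a b ha := by
    have h := H.cr_comm_odd a (H.eps V b) ha
    rw [H.eps_eps] at h
    rw [← h, ← H.map_comp]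
    have : (PMap.ofHomeo (Homeomorph.prodComm V U)).comp (PMap.ofHomeo (Homeomorph.prodComm U V)) =
        PMap.id (U × V) := PMap.ext fun _ => rfl
    rw [this, H.map_id]

theorem kue_of_KU {H : CohX F} {U V : Type} [TopologicalSpace U] [T2Space U]
    [LocallyCompactSpace U] [TopologicalSpace V] [T2Space V] [LocallyCompactSpace V]
    (h : KU H U) : (crossOf H).Kue U V := h V

end Crest.Agent.R090.CohT253
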