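import Crest.Agent.R090.CrossL_965
import Crest.Agent.R090.AS3_58

/-!
# Row 90, HOM: the cross product of Alexander-Spanier classes (helper965)

`cross : hU F U →ₗ hU F V →ₗ hU F (U × V)`: bilinear, natural, associative, graded commutative,
compatible with the parity operator and with connecting maps.
-/

set_option autoImplicit false
set_option linter.unusedSectionVars false

open Filter Topology Set OnePoint

namespace Crest.Agent.R090.Cross965

open Crest.Agent.R090.AS58 Crest.Agent.R090.Sp962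

section local'

variable {F : Type} [CommRing F] {X : Type} [TopologicalSpace X]

theorem mem_Sp_iff {x0 : X} {φ : List X → F} : φ ∈ Sp F ({x0} : Set X) ↔ EqAt x0 φ 0 :=
  mem_Sp_singleton

theorem EqAt.of_mem_LZ {φ : List X → F} (h : φ ∈ LZ F X) (x : X) : EqAt x φ 0 := by
  obtain ⟨W, hW, h⟩ := h
  have h1 : W ∈ 𝓝 (x, x) := nhds_le_nhdsSet (mem_diagonal x) hW
  rw [nhds_prod_eq, mem_prod_self_iff] at h1
  obtain ⟨t, ht, ht'⟩ := h1
  exact ⟨t, ht, fun l hl => h l fun a ha b hb => ht' ⟨hl a ha, hl b hb⟩⟩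

theorem EqAt.of_sub_mem_LZ {φ ψ : List X → F} (h : φ - ψ ∈ LZ F X) (x : X) : EqAt x φ ψ :=
  EqAt.sub_zero_iff.1 (EqAt.of_mem_LZ h x)

/-- local characterisation of locally zero cochains -/
theorem mem_LZ_of_eqAt [CompactSpace X] [T2Space X] [Nonempty X] {φ : List X → F}
    (h : ∀ x, EqAt x φ 0) : φ ∈ LZ F X := by
  let _ := uniformSpaceOfCompactR1 (γ := X)
  have hU : uniformity X = 𝓝ˢ (diagonal X) := nhdsSet_diagonal_eq_uniformity.symm
  choose N hN h using h
  obtain ⟨V, hV, hL⟩ := lebesgue_number_lemma_nhds' (K := (univ : Set X)) isCompact_univ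
    (U := fun x _ => N x) (fun x _ => hN x)
  refine ⟨V, hU ▸ hV, fun l hl => ?_⟩
  cases l with
  | nil =>
    obtain ⟨x⟩ := ‹Nonempty X›
    exact h x [] (fun y hy => absurd hy (by simp))
  | cons x l =>
    obtain ⟨⟨y, _⟩, hy⟩ := hL x (mem_univ x)
    exact h y _ fun z hz => hy (hl x (by simp) z hz)

theorem sub_mem_LZ_of_eqAt [CompactSpace X] [T2Space X] [Nonempty X] {φ ψ : List X → F}
    (h : ∀ x, EqAt x φ ψ) : φ - ψ ∈ LZ F X :=
  mem_LZ_of_eqAt fun x => EqAt.sub_zero_iff.2 (h x)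

end local'

variable {F : Type} [CommRing F]

/-! ## more algebra of `rc`, `c1` -/

section alg

variable {X Y : Type}

theorem rc_zero_left (ψ : List Y → F) : rc (0 : List X → F) ψ = 0 := by
  funext l
  have := rc_smul_left l (0 : F) (0 : List X → F) ψ
  simpa using this

theorem rc_zero_right (φ : List X → F) : rc φ (0 : List Y → F) = 0 := by
  funext l
  have := rc_smul_right l (0 : F) φ (0 : List Y → F)
  simpa using this

theorem c1_zero_left (ψ : List Y → F) : c1 (0 : List X → F) ψ = 0 := by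
  funext l
  have := c1_smul_left l (0 : F) (0 : List X → F) ψ
  simpa using this

theorem c1_zero_right_apply (l : List (X × Y)) : ∀ φ : List X → F,
    c1 φ (0 : List Y → F) l = 0 := by
  induction l with
  | nil => intro φ; rfl
  | cons z l ih =>
    intro φ
    rw [c1_cons, ih, map_zero, rc_zero_right]
    simp

theorem c1_zero_right (φ : List X → F) : c1 φ (0 : List Y → F) = 0 :=
  funext fun l => c1_zero_right_apply l φ

theorem pull_rc {X' Y' : Type} (f : X' → X) (g : Y' → Y) (l : List (X' × Y')) :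
    ∀ (φ : List X → F) (ψ : List Y → F),
    rc φ ψ (l.map (Prod.map f g)) = rc (pull f φ) (pull g ψ) l := by
  induction l with
  | nil => intro φ ψ; rfl
  | cons z l ih =>
    intro φ ψ
    obtain ⟨x, y⟩ := z
    rw [List.map_cons, rc_cons, rc_cons, ih, ev_pull]
    have e : cs y (pull g ψ) = pull g (cs (g y) ψ) := rfl
    simp only [Prod.map_apply, e, pull_apply, List.map_cons, List.map_nil, List.map_map]
    rfl

theorem pull_rc' {X' Y' : Type} (f : X' → X) (g : Y' → Y) (φ : List X → F) (ψ : List Y → F) :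
    pull (Prod.map f g) (rc φ ψ) = rc (pull f φ) (pull g ψ) :=
  funext fun l => pull_rc f g l φ ψ

theorem pull_c1 {X' Y' : Type} (f : X' → X) (g : Y' → Y) (l : List (X' × Y')) :
    ∀ (φ : List X → F) (ψ : List Y → F),
    c1 φ ψ (l.map (Prod.map f g)) = c1 (pull f φ) (pull g ψ) l := by
  induction l with
  | nil => intro φ ψ; rfl
  | cons z l ih =>
    intro φ ψ
    obtain ⟨x, y⟩ := z
    rw [List.map_cons, c1_cons, c1_cons, ih, pull_rc, ← ev_pull]
    rfl

theorem pull_c1' {X' Y' : Type} (f : X' → X) (g : Y' → Y) (φ : List X → F) (ψ : List Y → F) :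
    pull (Prod.map f g) (c1 φ ψ) = c1 (pull f φ) (pull g ψ) :=
  funext fun l => pull_c1 f g l φ ψ

theorem c1_homotopy (φ : List X → F) (ψ : List Y → F) :
    cr φ ψ - rc φ ψ - d (c1 φ ψ) = c1 (d φ) ψ + c1 (ev φ) (d ψ) := by
  funext l
  have := c1_homotopy_apply l φ ψ
  simp only [Pi.sub_apply, Pi.add_apply]
  linear_combination -this

/-- part of even degree -/
def pe (φ : List X → F) : List X → F := fun l => if Even l.length then 0 else φ l

/-- part of odd degree -/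
def po (φ : List X → F) : List X → F := fun l => if Even l.length then φ l else 0

theorem pe_add_po (φ : List X → F) : pe φ + po φ = φ := by
  funext l
  by_cases h : Even l.length <;> simp [pe, po, h]

theorem ev_pe (φ : List X → F) : ev (pe φ) = pe φ := by
  funext l
  by_cases h : Even l.length
  · simp [pe, h, ev_apply]
  · simp [pe, h, ev_apply, (Nat.not_even_iff_odd.1 h).neg_one_pow]

theorem ev_po (φ : List X → F) : ev (po φ) = - po φ := by
  funext l
  by_cases h : Even l.length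
  · simp [po, h, ev_apply]
  · simp [po, h, ev_apply]

theorem cs_pe (x : X) (φ : List X → F) : cs x (pe φ) = po (cs x φ) := by
  funext l
  by_cases h : Even l.length <;> simp [pe, po, h, Nat.even_add_one]

theorem cs_po (x : X) (φ : List X → F) : cs x (po φ) = pe (cs x φ) := by
  funext l
  by_cases h : Even l.length <;> simp [pe, po, h, Nat.even_add_one]

theorem pe_sub (φ ψ : List X → F) : pe (φ - ψ) = pe φ - pe ψ := by
  funext l
  by_cases h : Even l.length <;> simp [pe, h]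

theorem po_sub (φ ψ : List X → F) : po (φ - ψ) = po φ - po ψ := by
  funext l
  by_cases h : Even l.length <;> simp [po, h]

theorem d_pe_po (l : List X) : ∀ φ : List X → F,
    d (pe φ) l = po (d φ) l ∧ d (po φ) l = pe (d φ) l := by
  induction l with
  | nil => intro φ; simp [pe, po]
  | cons x l ih =>
    intro φ
    have e1 : po (d φ) (x :: l) = pe (φ - d (cs x φ)) l := by
      rw [← cs_d, ← cs_po]; rfl
    have e2 : pe (d φ) (x :: l) = po (φ - d (cs x φ)) l := by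
      rw [← cs_d, ← cs_pe]; rfl
    rw [d_cons, d_cons, cs_pe, cs_po, (ih _).1, (ih _).2, e1, e2, pe_sub, po_sub]
    exact ⟨rfl, rfl⟩

theorem d_pe (φ : List X → F) : d (pe φ) = po (d φ) := funext fun l => (d_pe_po l φ).1

theorem d_po (φ : List X → F) : d (po φ) = pe (d φ) := funext fun l => (d_pe_po l φ).2

/-- `rc` for `φ` even is the opposite cross product -/
theorem rc_swap_even (l : List (Y × X)) : ∀ (φ : List X → F) (ψ : List Y → F), ev φ = φ →
    rc φ ψ (l.map Prod.swap) = cr ψ φ l := by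
  induction l with
  | nil => intro φ ψ _; rfl
  | cons z l ih =>
    intro φ ψ h
    obtain ⟨y, x⟩ := z
    rw [List.map_cons, rc_cons, cr_cons, h, ih _ _ h, List.map_map]
    rfl

theorem cr_ev_cs (φ : List X → F) (ψ : List Y → F) (y : Y) (l : List (Y × X)) :
    cr (cs y (ev ψ)) φ l = - cr (ev (cs y ψ)) φ l := by
  rw [cs_ev, cr_neg_left]; rfl

/-- `rc` for `φ` odd is the opposite cross product with sign -/
theorem rc_swap_odd (l : List (Y × X)) : ∀ (φ : List X → F) (ψ : List Y → F), ev φ = -φ →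
    rc φ ψ (l.map Prod.swap) = cr (ev ψ) φ l := by
  induction l with
  | nil => intro φ ψ _; rfl
  | cons z l ih =>
    intro φ ψ h
    obtain ⟨y, x⟩ := z
    rw [List.map_cons, rc_cons, cr_cons, h, rc_neg_left, ih _ _ h, List.map_map, cr_ev_cs]
    have : ev ψ [y] = ψ [y] := by simp [ev_apply]
    simp only [Prod.swap_prod_mk, this]
    rfl

end alg

/-! ## local calculus on cocycles -/

section coc

variable {U V W U' V' : Type} [TopologicalSpace U] [TopologicalSpace V] [TopologicalSpace W]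
  [TopologicalSpace U'] [TopologicalSpace V']

theorem eqAt_co {φ ψ : List (OnePoint U) → F} {u : U} (h : EqAt (u : OnePoint U) φ ψ) :
    EqAt u (pull (co U) φ) (pull (co U) ψ) := h.pull continuous_coe.continuousAt

theorem eqAt_inf_snd {φ : List (OnePoint U) → F} (h : EqAt ∞ φ 0) (g : List (OnePoint U × OnePoint V) → F)
    (hg : ∀ l, (∀ m : List (OnePoint U), m ⊆ l.map Prod.fst → φ m = 0) → g l = 0) :
    ∃ N ∈ 𝓝 (∞ : OnePoint U), ∀ l, (∀ z ∈ l, z.1 ∈ N) → g l = 0 := by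
  obtain ⟨N, hN, h⟩ := h
  refine ⟨N, hN, fun l hl => hg l fun m hm => h m fun y hy => ?_⟩
  obtain ⟨w, hw, rfl⟩ := List.mem_map.1 (hm hy)
  exact hl w hw

theorem eqAt_inf_fst {ψ : List (OnePoint V) → F} (h : EqAt ∞ ψ 0) (g : List (OnePoint U × OnePoint V) → F)
    (hg : ∀ l, (∀ m : List (OnePoint V), m ⊆ l.map Prod.snd → ψ m = 0) → g l = 0) :
    ∃ N ∈ 𝓝 (∞ : OnePoint V), ∀ l, (∀ z ∈ l, z.2 ∈ N) → g l = 0 := by
  obtain ⟨N, hN, h⟩ := h
  refine ⟨N, hN, fun l hl => hg l fun m hm => h m fun y hy => ?_⟩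
  obtain ⟨w, hw, rfl⟩ := List.mem_map.1 (hm hy)
  exact hl w hw

theorem adm_cr {φ : List (OnePoint U) → F} {ψ : List (OnePoint V) → F}
    (h : EqAt ∞ φ 0) (h' : EqAt ∞ ψ 0) : Adm (cr φ ψ) where
  left := eqAt_inf_snd h _ fun l hl => by
    rw [cr_congr l φ 0 ψ ψ (fun m hm => hl m hm) (fun _ _ => rfl), cr_zero_left]; rfl
  right := eqAt_inf_fst h' _ fun l hl => by
    rw [cr_congr l φ φ ψ 0 (fun _ _ => rfl) (fun m hm => hl m hm), cr_zero_right]; rfl

theorem adm_rc {φ : List (OnePoint U) → F} {ψ : List (OnePoint V) → F}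
    (h : EqAt ∞ φ 0) (h' : EqAt ∞ ψ 0) : Adm (rc φ ψ) where
  left := eqAt_inf_snd h _ fun l hl => by
    rw [rc_congr l φ 0 ψ ψ (fun m hm => hl m hm) (fun _ _ => rfl), rc_zero_left]; rfl
  right := eqAt_inf_fst h' _ fun l hl => by
    rw [rc_congr l φ φ ψ 0 (fun _ _ => rfl) (fun m hm => hl m hm), rc_zero_right]; rfl

theorem adm_c1 {φ : List (OnePoint U) → F} {ψ : List (OnePoint V) → F}
    (h : EqAt ∞ φ 0) (h' : EqAt ∞ ψ 0) : Adm (c1 φ ψ) where
  left := eqAt_inf_snd h _ fun l hl => by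
    rw [c1_congr l φ 0 ψ ψ (fun m hm => hl m hm) (fun _ _ => rfl), c1_zero_left]; rfl
  right := eqAt_inf_fst h' _ fun l hl => by
    rw [c1_congr l φ φ ψ 0 (fun _ _ => rfl) (fun m hm => hl m hm), c1_zero_right]; rfl

theorem IsCr.zero : IsCr (0 : List (OnePoint U × OnePoint V) → F) (0 : List (OnePoint (U × V)) → F) where
  inf := EqAt.rfl'
  fin p := by rw [map_zero, map_zero]; exact EqAt.rfl'

/-- the local Leibniz rule for cocycles in the second variable -/
theorem eqAt_d_cr {φ : List (OnePoint U) → F} {ψ : List (OnePoint V) → F} (h0 : φ [] = 0)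
    (h0' : ψ [] = 0) (hψ : ∀ z, EqAt z (d ψ) 0) (p : U × V) :
    EqAt p (pull (coco U V) (d (cr φ ψ))) (pull (coco U V) (cr (d φ) ψ)) := by
  rw [cr_leibniz h0 h0', map_add]
  have h : EqAt p (pull (coco U V) (cr (ev φ) (d ψ))) 0 := by
    rw [pull_cr']
    have := (EqAt.rfl' (x := p.1) (φ := pull (co U) (ev φ))).cr (eqAt_co (hψ (p.2 : OnePoint V)))
    rwa [map_zero, cr_zero_right] at this
  simpa using (EqAt.rfl' (x := p) (φ := pull (coco U V) (cr (d φ) ψ))).add h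

theorem eqAt_cr_congr {φ φ' : List (OnePoint U) → F} {ψ ψ' : List (OnePoint V) → F}
    (h : ∀ z, EqAt z φ φ') (h' : ∀ z, EqAt z ψ ψ') (p : U × V) :
    EqAt p (pull (coco U V) (cr φ ψ)) (pull (coco U V) (cr φ' ψ')) := by
  rw [pull_cr', pull_cr']
  exact (eqAt_co (h (p.1 : OnePoint U))).cr (eqAt_co (h' (p.2 : OnePoint V)))

theorem eqAt_rc_congr {φ φ' : List (OnePoint U) → F} {ψ ψ' : List (OnePoint V) → F}
    (h : ∀ z, EqAt z φ φ') (h' : ∀ z, EqAt z ψ ψ') (p : U × V) :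
    EqAt p (pull (coco U V) (rc φ ψ)) (pull (coco U V) (rc φ' ψ')) := by
  rw [pull_rc', pull_rc']
  exact (eqAt_co (h (p.1 : OnePoint U))).rc (eqAt_co (h' (p.2 : OnePoint V)))

theorem eqAt_c1_congr {φ φ' : List (OnePoint U) → F} {ψ ψ' : List (OnePoint V) → F}
    (h : ∀ z, EqAt z φ φ') (h' : ∀ z, EqAt z ψ ψ') (p : U × V) :
    EqAt p (pull (coco U V) (c1 φ ψ)) (pull (coco U V) (c1 φ' ψ')) := by
  rw [pull_c1', pull_c1']
  exact (eqAt_co (h (p.1 : OnePoint U))).c1 (eqAt_co (h' (p.2 : OnePoint V)))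

/-- cocycles, unfolded -/
theorem zc_iff [T2Space U] [LocallyCompactSpace U] {φ : List (OnePoint U) → F} :
    φ ∈ Zc F {(∞ : OnePoint U)} ↔ EqAt ∞ φ 0 ∧ ∀ z, EqAt z (d φ) 0 := by
  constructor
  · rintro ⟨h1, h2⟩
    exact ⟨mem_Sp_iff.1 h1, fun z => EqAt.of_mem_LZ h2 z⟩
  · rintro ⟨h1, h2⟩
    exact ⟨mem_Sp_iff.2 h1, mem_LZ_of_eqAt h2⟩

theorem EqAt.nil {X : Type} [TopologicalSpace X] {x : X} {φ ψ : List X → F} (h : EqAt x φ ψ) :
    φ [] = ψ [] := by
  obtain ⟨N, _, h⟩ := h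
  exact h [] (fun y hy => absurd hy (by simp))

variable [T2Space U] [LocallyCompactSpace U] [T2Space V] [LocallyCompactSpace V]

theorem bc_iff {φ : List (OnePoint U) → F} :
    φ ∈ Bc F {(∞ : OnePoint U)} ↔ ∃ α : List (OnePoint U) → F, EqAt ∞ α 0 ∧ ∀ z, EqAt z φ (d α) := by
  rw [mem_Bc]
  constructor
  · rintro ⟨α, h1, h2⟩
    exact ⟨α, mem_Sp_iff.1 h1, fun z => EqAt.of_sub_mem_LZ h2 z⟩
  · rintro ⟨α, h1, h2⟩
    exact ⟨α, mem_Sp_iff.2 h1, sub_mem_LZ_of_eqAt h2⟩

theorem isCr_zc {φ : List (OnePoint U) → F} {ψ : List (OnePoint V) → F}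
    (hφ : φ ∈ Zc F {(∞ : OnePoint U)}) (hψ : ψ ∈ Zc F {(∞ : OnePoint V)})
    {χ : List (OnePoint (U × V)) → F} (h : IsCr (cr φ ψ) χ) :
    χ ∈ Zc F {(∞ : OnePoint (U × V))} := by
  rw [zc_iff] at hφ hψ ⊢
  refine ⟨h.inf, fun z => ?_⟩
  refine IsCr.unique h.d IsCr.zero (fun p => ?_) z
  refine (eqAt_d_cr (by simpa using hφ.1.nil) (by simpa using hψ.1.nil) hψ.2 p).trans ?_
  have := eqAt_cr_congr hφ.2 (fun z => EqAt.rfl' (x := z) (φ := ψ)) p
  rwa [cr_zero_left] at this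

theorem exists_cr {φ : List (OnePoint U) → F} {ψ : List (OnePoint V) → F}
    (h : EqAt ∞ φ 0) (h' : EqAt ∞ ψ 0) : ∃ χ, IsCr (cr φ ψ) χ := exists_isCr (adm_cr h h')

theorem isCr_bc_left {φ : List (OnePoint U) → F} {ψ : List (OnePoint V) → F}
    (hφ : φ ∈ Bc F {(∞ : OnePoint U)}) (hψ : ψ ∈ Zc F {(∞ : OnePoint V)})
    {χ : List (OnePoint (U × V)) → F} (h : IsCr (cr φ ψ) χ) :
    χ ∈ Bc F {(∞ : OnePoint (U × V))} := by
  rw [bc_iff] at hφ ⊢
  rw [zc_iff] at hψ
  obtain ⟨α, h1, h2⟩ := hφ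
  obtain ⟨β, hβ⟩ := exists_cr h1 hψ.1
  refine ⟨β, hβ.inf, fun z => IsCr.unique h hβ.d (fun p => ?_) z⟩
  refine EqAt.trans ?_ (eqAt_d_cr (by simpa using h1.nil) (by simpa using hψ.1.nil) hψ.2 p).symm
  exact eqAt_cr_congr h2 (fun z => EqAt.rfl') p

theorem isCr_bc_right {φ : List (OnePoint U) → F} {ψ : List (OnePoint V) → F}
    (hφ : φ ∈ Zc F {(∞ : OnePoint U)}) (hψ : ψ ∈ Bc F {(∞ : OnePoint V)})
    {χ : List (OnePoint (U × V)) → F} (h : IsCr (cr φ ψ) χ) :
    χ ∈ Bc F {(∞ : OnePoint (U × V))} := by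
  rw [bc_iff] at hψ ⊢
  rw [zc_iff] at hφ
  obtain ⟨α, h1, h2⟩ := hψ
  have hev : EqAt ∞ (ev φ) 0 := by simpa using hφ.1.ev
  obtain ⟨β, hβ⟩ := exists_cr hev h1
  refine ⟨β, hβ.inf, fun z => IsCr.unique h hβ.d (fun p => ?_) z⟩
  rw [cr_leibniz (by simpa using hev.nil) (by simpa using h1.nil), map_add, ev_ev]
  have e1 := eqAt_cr_congr (fun z => EqAt.rfl' (x := z) (φ := φ)) h2 p
  have e2 : EqAt p (pull (coco U V) (cr (d (ev φ)) α)) 0 := by
    have h3 : ∀ z, EqAt z (d (ev φ)) 0 := by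
      intro z
      rw [d_ev]
      simpa using (hφ.2 z).ev.neg
    have := eqAt_cr_congr h3 (fun z => EqAt.rfl' (x := z) (φ := α)) p
    rwa [cr_zero_left, map_zero] at this
  have e3 := e2.add (EqAt.rfl' (x := p) (φ := pull (coco U V) (cr φ (d α))))
  rw [zero_add] at e3
  exact e1.trans e3.symm

end coc

/-! ## the cross product of classes -/

section cross

variable {U V W U' V' : Type} [TopologicalSpace U] [TopologicalSpace V] [TopologicalSpace W]
  [TopologicalSpace U'] [TopologicalSpace V'] [T2Space U] [LocallyCompactSpace U] [T2Space V]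
  [LocallyCompactSpace V] [T2Space W] [LocallyCompactSpace W] [T2Space U']
  [LocallyCompactSpace U'] [T2Space V'] [LocallyCompactSpace V']

/-- a cochain representing the cross product -/
noncomputable def crCh (φ : Zc F {(∞ : OnePoint U)}) (ψ : Zc F {(∞ : OnePoint V)}) :
    List (OnePoint (U × V)) → F :=
  (exists_cr (zc_iff.1 φ.2).1 (zc_iff.1 ψ.2).1).choose

theorem crCh_spec (φ : Zc F {(∞ : OnePoint U)}) (ψ : Zc F {(∞ : OnePoint V)}) :
    IsCr (cr φ.1 ψ.1) (crCh φ ψ) :=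
  (exists_cr (zc_iff.1 φ.2).1 (zc_iff.1 ψ.2).1).choose_spec

/-- the cross product of cocycles -/
noncomputable def crF (φ : Zc F {(∞ : OnePoint U)}) (ψ : Zc F {(∞ : OnePoint V)}) :
    hU F (U × V) :=
  Hc.mk (crCh φ ψ) (isCr_zc φ.2 ψ.2 (crCh_spec φ ψ))

theorem mk_eq_of_isCr {g : List (OnePoint U × OnePoint V) → F}
    {χ χ' : List (OnePoint (U × V)) → F} (h : IsCr g χ) (h' : IsCr g χ')
    (hz : χ ∈ Zc F {(∞ : OnePoint (U × V))}) (hz' : χ' ∈ Zc F {(∞ : OnePoint (U × V))}) :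
    Hc.mk χ hz = Hc.mk χ' hz' := by
  rw [Hc.mk_eq_mk]
  exact LZ_le_Bc _ (sub_mem_LZ_of_eqAt fun z => IsCr.unique h h' (fun _ => EqAt.rfl') z)

theorem crF_eq (φ : Zc F {(∞ : OnePoint U)}) (ψ : Zc F {(∞ : OnePoint V)})
    {χ : List (OnePoint (U × V)) → F} (h : IsCr (cr φ.1 ψ.1) χ) :
    crF φ ψ = Hc.mk χ (isCr_zc φ.2 ψ.2 h) := mk_eq_of_isCr (crCh_spec φ ψ) h _ _

/-- the cross product of cocycles, bilinear -/
noncomputable def crZ : Zc F {(∞ : OnePoint U)} →ₗ[F] Zc F {(∞ : OnePoint V)} →ₗ[F] hU F (U × V) :=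
  LinearMap.mk₂ F crF
    (fun φ φ' ψ => by
      have h : IsCr (cr (φ + φ').1 ψ.1) (crCh φ ψ + crCh φ' ψ) := by
        have := (crCh_spec φ ψ).add (crCh_spec φ' ψ)
        rwa [← cr_add_left'] at this
      rw [crF_eq _ _ h]; rfl)
    (fun c φ ψ => by
      have h : IsCr (cr (c • φ).1 ψ.1) (c • crCh φ ψ) := by
        have := (crCh_spec φ ψ).smul c
        have e : cr (c • φ).1 ψ.1 = c • cr φ.1 ψ.1 := funext fun l => by
          simpa using cr_smul_left l c φ.1 ψ.1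
        rwa [e]
      rw [crF_eq _ _ h]; rfl)
    (fun φ ψ ψ' => by
      have h : IsCr (cr φ.1 (ψ + ψ').1) (crCh φ ψ + crCh φ ψ') := by
        have := (crCh_spec φ ψ).add (crCh_spec φ ψ')
        rwa [← cr_add_right'] at this
      rw [crF_eq _ _ h]; rfl)
    (fun c φ ψ => by
      have h : IsCr (cr φ.1 (c • ψ).1) (c • crCh φ ψ) := by
        have := (crCh_spec φ ψ).smul c
        have e : cr φ.1 (c • ψ).1 = c • cr φ.1 ψ.1 := funext fun l => by
          simpa using cr_smul_right l c φ.1 ψ.1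
        rwa [e]
      rw [crF_eq _ _ h]; rfl)

variable (F U V) in
/-- **the cross product** -/
noncomputable def cross : hU F U →ₗ[F] hU F V →ₗ[F] hU F (U × V) :=
  (Submodule.liftQ _ (LinearMap.flip (Submodule.liftQ _ (crZ (F := F) (U := U) (V := V)) (by
    intro φ hφ
    rw [LinearMap.mem_ker]
    ext ψ
    exact Hc.mk_eq_zero.2 (isCr_bc_left hφ ψ.2 (crCh_spec φ ψ))))) (by
    intro ψ hψ
    rw [LinearMap.mem_ker]
    ext φ
    exact Hc.mk_eq_zero.2 (isCr_bc_right φ.2 hψ (crCh_spec φ ψ)))).flip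

theorem cross_mk {φ : List (OnePoint U) → F} {ψ : List (OnePoint V) → F}
    (hφ : φ ∈ Zc F {(∞ : OnePoint U)}) (hψ : ψ ∈ Zc F {(∞ : OnePoint V)})
    {χ : List (OnePoint (U × V)) → F} (h : IsCr (cr φ ψ) χ) :
    cross F U V (Hc.mk φ hφ) (Hc.mk ψ hψ) = Hc.mk χ (isCr_zc hφ hψ h) :=
  crF_eq ⟨φ, hφ⟩ ⟨ψ, hψ⟩ h

/-! ### naturality -/

theorem pull_co_sm (χ : List (OnePoint (U × V)) → F) : pull (co (U × V)) χ =
    pull (coco U V) (pull (fun p : OnePoint U × OnePoint V => sm p.1 p.2) χ) := by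
  rw [← pull_comp]; rfl

/-- an extension pulled back to `U⁺ × V⁺` -/
theorem IsCr.sm {g : List (OnePoint U × OnePoint V) → F} {χ : List (OnePoint (U × V)) → F}
    (h : IsCr g χ) (hg : Adm g) (z : OnePoint U × OnePoint V) :
    EqAt z (pull (fun p : OnePoint U × OnePoint V => sm p.1 p.2) χ) g := by
  have hc : ∀ z : OnePoint U × OnePoint V,
      ContinuousAt (fun p : OnePoint U × OnePoint V => Sp962.sm p.1 p.2) z :=
    fun z => continuous_sm.continuousAt
  have hinf : ∀ z : OnePoint U × OnePoint V, Sp962.sm z.1 z.2 = ∞ →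
      EqAt z (pull (fun p : OnePoint U × OnePoint V => Sp962.sm p.1 p.2) χ) 0 := by
    intro z hz
    have := EqAt.pull (hc z) (φ := χ) (ψ := 0) (by rw [hz]; exact h.inf)
    rwa [map_zero] at this
  obtain ⟨a, b⟩ := z
  induction a using OnePoint.rec with
  | infty =>
    refine (hinf _ (sm_inf_left _)).trans (EqAt.symm ?_)
    obtain ⟨N, hN, h1⟩ := hg.left
    exact ⟨N ×ˢ univ, prod_mem_nhds hN univ_mem, fun l hl => h1 l fun z hz => (hl z hz).1⟩
  | coe a =>
    induction b using OnePoint.rec with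
    | infty =>
      refine (hinf _ (sm_inf_right _)).trans (EqAt.symm ?_)
      obtain ⟨N, hN, h1⟩ := hg.right
      exact ⟨univ ×ˢ N, prod_mem_nhds univ_mem hN, fun l hl => h1 l fun z hz => (hl z hz).2⟩
    | coe b =>
      have hopen : IsOpenEmbedding (coco U V) :=
        isOpenEmbedding_coe.prodMap isOpenEmbedding_coe
      have := h.fin (a, b)
      rw [pull_co_sm] at this
      exact EqAt.of_pull (f := coco U V) hopen (x := (a, b)) this

theorem IsCr.of_sm {g : List (OnePoint U × OnePoint V) → F} {χ : List (OnePoint (U × V)) → F}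
    (h : EqAt ∞ χ 0) (h' : ∀ z : OnePoint U × OnePoint V,
      EqAt z (pull (fun p : OnePoint U × OnePoint V => Sp962.sm p.1 p.2) χ) g) : IsCr g χ where
  inf := h
  fin p := by
    have hc : ContinuousAt (coco U V) p :=
      (isOpenEmbedding_coe.prodMap isOpenEmbedding_coe).continuous.continuousAt
    rw [pull_co_sm]
    exact EqAt.pull hc (h' (coco U V p))

/-- **naturality** at cochain level -/
theorem IsCr.smash {g : List (OnePoint V × OnePoint V') → F} {χ : List (OnePoint (V × V')) → F}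
    (h : IsCr g χ) (hg : Adm g) (f : PMap U V) (f' : PMap U' V') :
    IsCr (pull (Prod.map f f') g) (pull (f.smash f') χ) := by
  refine IsCr.of_sm ?_ fun z => ?_
  · have := EqAt.pull (f := f.smash f') (x := ∞) (f.smash f').cont.continuousAt (φ := χ) (ψ := 0)
      (by rw [(f.smash f').map_inf]; exact h.inf)
    rwa [map_zero] at this
  · rw [← pull_comp]
    have e : (f.smash f').toFun ∘ (fun p : OnePoint U × OnePoint U' => Sp962.sm p.1 p.2) =
        (fun p : OnePoint V × OnePoint V' => Sp962.sm p.1 p.2) ∘ (Prod.map f f') := by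
      funext p
      exact PMap.smash_sm f f' p.1 p.2
    rw [e, pull_comp]
    exact EqAt.pull (f.cont.prodMap f'.cont).continuousAt (h.sm hg (Prod.map f f' z))

theorem cross_map (f : PMap U V) (g : PMap U' V') (x : hU F V) (y : hU F V') :
    hmap F (f.smash g) (cross F V V' x y) = cross F U U' (hmap F f x) (hmap F g y) := by
  obtain ⟨φ, hφ, rfl⟩ := Hc.mk_surj x
  obtain ⟨ψ, hψ, rfl⟩ := Hc.mk_surj y
  have h1 := (zc_iff.1 hφ).1
  have h2 := (zc_iff.1 hψ).1
  obtain ⟨χ, hχ⟩ := exists_cr h1 h2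
  have h3 := hχ.smash (adm_cr h1 h2) f g
  rw [pull_cr'] at h3
  rw [cross_mk hφ hψ hχ, hmap_mk, hmap_mk, hmap_mk, cross_mk _ _ h3]

/-! ### parity -/

theorem eps_cross (x : hU F U) (y : hU F V) :
    heps F (U × V) (cross F U V x y) = cross F U V (heps F U x) (heps F V y) := by
  obtain ⟨φ, hφ, rfl⟩ := Hc.mk_surj x
  obtain ⟨ψ, hψ, rfl⟩ := Hc.mk_surj y
  obtain ⟨χ, hχ⟩ := exists_cr (zc_iff.1 hφ).1 (zc_iff.1 hψ).1
  have h3 := hχ.ev
  rw [ev_cr] at h3
  rw [cross_mk hφ hψ hχ, heps, heps, heps, Hc.ev_mk, Hc.ev_mk, Hc.ev_mk, cross_mk _ _ h3]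

/-! ### associativity -/

theorem cross_assoc (x : hU F U) (y : hU F V) (z : hU F W) :
    hmap F (PMap.ofHomeo (Homeomorph.prodAssoc U V W)) (cross F U (V × W) x (cross F V W y z)) =
      cross F (U × V) W (cross F U V x y) z := by
  obtain ⟨φ, hφ, rfl⟩ := Hc.mk_surj x
  obtain ⟨ψ, hψ, rfl⟩ := Hc.mk_surj y
  obtain ⟨ω, hω, rfl⟩ := Hc.mk_surj z
  obtain ⟨χ1, h1⟩ := exists_cr (zc_iff.1 hφ).1 (zc_iff.1 hψ).1
  obtain ⟨χ2, h2⟩ := exists_cr h1.inf (zc_iff.1 hω).1
  obtain ⟨χ3, h3⟩ := exists_cr (zc_iff.1 hψ).1 (zc_iff.1 hω).1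
  obtain ⟨χ4, h4⟩ := exists_cr (zc_iff.1 hφ).1 h3.inf
  rw [cross_mk hψ hω h3, cross_mk _ _ h4, cross_mk hφ hψ h1, cross_mk _ _ h2, hmap_mk,
    Hc.mk_eq_mk]
  refine LZ_le_Bc _ (sub_mem_LZ_of_eqAt fun z => ?_)
  have hA := EqAt.pull (f := PMap.ofHomeo (Homeomorph.prodAssoc U V W)) (x := ∞)
    (PMap.ofHomeo (Homeomorph.prodAssoc U V W)).cont.continuousAt (φ := χ4) (ψ := 0)
    (by rw [PMap.map_inf]; exact h4.inf)
  rw [map_zero] at hA
  refine eqAt_all (hA.trans h2.inf.symm) (fun p => ?_) z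
  obtain ⟨⟨u, v⟩, w⟩ := p
  -- right hand side
  have e2 : EqAt ((u, v), w) (pull (co ((U × V) × W)) χ2)
      (cr (cr (pull (co U) φ) (pull (co V) ψ)) (pull (co W) ω)) := by
    refine (h2.fin ((u, v), w)).trans ?_
    rw [pull_cr']
    refine EqAt.cr ?_ EqAt.rfl'
    have := h1.fin (u, v)
    rwa [pull_cr'] at this
  have e4 : EqAt (u, (v, w)) (pull (co (U × V × W)) χ4)
      (cr (pull (co U) φ) (cr (pull (co V) ψ) (pull (co W) ω))) := by
    refine (h4.fin (u, (v, w))).trans ?_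
    rw [pull_cr']
    refine EqAt.cr EqAt.rfl' ?_
    have := h3.fin (v, w)
    rwa [pull_cr'] at this
  refine EqAt.trans ?_ e2.symm
  have e5 : pull (co ((U × V) × W)) (pull (PMap.ofHomeo (Homeomorph.prodAssoc U V W)) χ4) =
      pull (Homeomorph.prodAssoc U V W) (pull (co (U × V × W)) χ4) := by
    rw [← pull_comp, ← pull_comp]
    rfl
  rw [e5]
  have e6 := EqAt.pull (f := Homeomorph.prodAssoc U V W) (x := ((u, v), w))
    (Homeomorph.prodAssoc U V W).continuous.continuousAt e4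
  refine e6.trans (EqAt.of_eq ?_)
  funext l
  rw [pull_apply, ← cr_assoc_apply, List.map_map]
  congr 1
  conv_rhs => rw [← List.map_id l]
  rfl

/-! ### graded commutativity -/

theorem pe_eqAt {X : Type} [TopologicalSpace X] {x : X} {φ ψ : List X → F} (h : EqAt x φ ψ) :
    EqAt x (pe φ) (pe ψ) := by
  obtain ⟨N, hN, h⟩ := h
  exact ⟨N, hN, fun l hl => by simp only [pe, h l hl]⟩

theorem po_eqAt {X : Type} [TopologicalSpace X] {x : X} {φ ψ : List X → F} (h : EqAt x φ ψ) :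
    EqAt x (po φ) (po ψ) := by
  obtain ⟨N, hN, h⟩ := h
  exact ⟨N, hN, fun l hl => by simp only [po, h l hl]⟩

theorem pe_zero {X : Type} : pe (0 : List X → F) = 0 := by funext l; simp [pe]

theorem po_zero {X : Type} : po (0 : List X → F) = 0 := by funext l; simp [po]

theorem pe_zc {φ : List (OnePoint U) → F} (h : φ ∈ Zc F {(∞ : OnePoint U)}) :
    pe φ ∈ Zc F {(∞ : OnePoint U)} := by
  rw [zc_iff] at h ⊢
  refine ⟨by have := pe_eqAt h.1; rwa [pe_zero] at this, fun z => ?_⟩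
  rw [d_pe]
  have := po_eqAt (h.2 z)
  rwa [po_zero] at this

theorem po_zc {φ : List (OnePoint U) → F} (h : φ ∈ Zc F {(∞ : OnePoint U)}) :
    po φ ∈ Zc F {(∞ : OnePoint U)} := by
  rw [zc_iff] at h ⊢
  refine ⟨by have := po_eqAt h.1; rwa [po_zero] at this, fun z => ?_⟩
  rw [d_po]
  have := pe_eqAt (h.2 z)
  rwa [pe_zero] at this

/-- the class of `rc` equals the class of `cr` -/
theorem mk_rc {φ : List (OnePoint U) → F} {ψ : List (OnePoint V) → F}
    (hφ : φ ∈ Zc F {(∞ : OnePoint U)}) (hψ : ψ ∈ Zc F {(∞ : OnePoint V)})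
    {χ χ' : List (OnePoint (U × V)) → F} (h : IsCr (cr φ ψ) χ) (h' : IsCr (rc φ ψ) χ') :
    χ - χ' ∈ Bc F {(∞ : OnePoint (U × V))} := by
  rw [zc_iff] at hφ hψ
  obtain ⟨γ, hγ⟩ := exists_isCr (adm_c1 hφ.1 hψ.1)
  rw [bc_iff]
  refine ⟨γ, hγ.inf, fun z => ?_⟩
  refine IsCr.unique (h.sub h') hγ.d (fun p => ?_) z
  rw [← EqAt.sub_zero_iff, ← map_sub, c1_homotopy, map_add]
  have e1 := eqAt_c1_congr hφ.2 (fun z => EqAt.rfl' (x := z) (φ := ψ)) p
  have e2 := eqAt_c1_congr (fun z => EqAt.rfl' (x := z) (φ := ev φ)) hψ.2 p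
  rw [c1_zero_left, map_zero] at e1
  rw [c1_zero_right, map_zero] at e2
  simpa using e1.add e2

theorem cross_comm_even_mk {φ : List (OnePoint U) → F} {ψ : List (OnePoint V) → F}
    (hφ : φ ∈ Zc F {(∞ : OnePoint U)}) (hψ : ψ ∈ Zc F {(∞ : OnePoint V)})
    {σ : List (OnePoint V) → F} (hσ : σ ∈ Zc F {(∞ : OnePoint V)})
    (hs : ∀ l : List (OnePoint V × OnePoint U), rc φ ψ (l.map Prod.swap) = cr σ φ l) :
    hmap F (PMap.ofHomeo (Homeomorph.prodComm V U)) (cross F U V (Hc.mk φ hφ) (Hc.mk ψ hψ)) =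
      cross F V U (Hc.mk σ hσ) (Hc.mk φ hφ) := by
  have h1 := (zc_iff.1 hφ).1
  have h2 := (zc_iff.1 hψ).1
  have h3 := (zc_iff.1 hσ).1
  obtain ⟨χ, hχ⟩ := exists_cr h1 h2
  obtain ⟨χ', hχ'⟩ := exists_isCr (adm_rc h1 h2)
  obtain ⟨χ2, hχ2⟩ := exists_cr h3 h1
  have hz : χ' ∈ Zc F {(∞ : OnePoint (U × V))} := by
    have e := (Zc F {(∞ : OnePoint (U × V))}).sub_mem (isCr_zc hφ hψ hχ)
      (Bc_le_Zc _ (mk_rc hφ hψ hχ hχ'))
    simpa using e
  have e : cross F U V (Hc.mk φ hφ) (Hc.mk ψ hψ) = Hc.mk χ' hz := by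
    rw [cross_mk hφ hψ hχ, Hc.mk_eq_mk]
    exact mk_rc hφ hψ hχ hχ'
  rw [e, cross_mk hσ hφ hχ2, hmap_mk, Hc.mk_eq_mk]
  refine LZ_le_Bc _ (sub_mem_LZ_of_eqAt fun z => ?_)
  have hA := EqAt.pull (f := PMap.ofHomeo (Homeomorph.prodComm V U)) (x := ∞)
    (PMap.ofHomeo (Homeomorph.prodComm V U)).cont.continuousAt (φ := χ') (ψ := 0)
    (by rw [PMap.map_inf]; exact hχ'.inf)
  rw [map_zero] at hA
  refine eqAt_all (hA.trans hχ2.inf.symm) (fun p => ?_) z
  obtain ⟨v, u⟩ := p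
  refine EqAt.trans ?_ (hχ2.fin (v, u)).symm
  have e5 : pull (co (V × U)) (pull (PMap.ofHomeo (Homeomorph.prodComm V U)) χ') =
      pull (Homeomorph.prodComm V U) (pull (co (U × V)) χ') := by
    rw [← pull_comp, ← pull_comp]
    rfl
  rw [e5]
  have e6 := EqAt.pull (f := Homeomorph.prodComm V U) (x := (v, u))
    (Homeomorph.prodComm V U).continuous.continuousAt (hχ'.fin (u, v))
  refine e6.trans (EqAt.of_eq ?_)
  funext l
  rw [pull_apply, pull_apply, pull_apply, ← hs, List.map_map, List.map_map]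
  rfl

theorem even_split (x : hU F U) : ∃ a b : hU F U, x = a + b ∧ heps F U a = a ∧ heps F U b = -b ∧
    (∀ y : hU F V, hmap F (PMap.ofHomeo (Homeomorph.prodComm V U)) (cross F U V a y) =
      cross F V U y a) ∧
    (∀ y : hU F V, hmap F (PMap.ofHomeo (Homeomorph.prodComm V U)) (cross F U V b y) =
      cross F V U (heps F V y) b) := by
  obtain ⟨φ, hφ, rfl⟩ := Hc.mk_surj x
  refine ⟨Hc.mk _ (pe_zc hφ), Hc.mk _ (po_zc hφ), ?_, ?_, ?_, ?_, ?_⟩
  · rw [Hc.mk_add]
    congr 1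
    exact (pe_add_po φ).symm
  · rw [heps, Hc.ev_mk]
    congr 1
    exact ev_pe φ
  · rw [heps, Hc.ev_mk]
    change _ = Hc.mk (-po φ) ((Zc F _).neg_mem (po_zc hφ))
    congr 1
    exact ev_po φ
  · intro y
    obtain ⟨ψ, hψ, rfl⟩ := Hc.mk_surj y
    exact cross_comm_even_mk (pe_zc hφ) hψ hψ (fun l => rc_swap_even l _ _ (ev_pe φ))
  · intro y
    obtain ⟨ψ, hψ, rfl⟩ := Hc.mk_surj y
    exact cross_comm_even_mk (po_zc hφ) hψ (ev_mem_Zc hψ) (fun l => rc_swap_odd l _ _ (ev_po φ))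

theorem cross_comm_even (x : hU F U) (y : hU F V) (h : heps F U x = x) :
    hmap F (PMap.ofHomeo (Homeomorph.prodComm V U)) (cross F U V x y) = cross F V U y x := by
  obtain ⟨a, b, rfl, ha, hb, h1, h2⟩ := even_split (V := V) x
  obtain ⟨c, e, rfl, hc, he, -, -⟩ := even_split (V := U) y
  have h3 : b + b = 0 := by
    rw [map_add, ha, hb] at h
    have : (a + b) - (a + -b) = 0 := sub_eq_zero.2 h.symm
    calc b + b = (a + b) - (a + -b) := by abel
      _ = 0 := this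
  have h4 : cross F V U e b + cross F V U e b = 0 := by rw [← map_add, h3, map_zero]
  simp only [map_add, LinearMap.add_apply, h1, h2, hc, he, map_neg, LinearMap.neg_apply]
  have h5 : - cross F V U e b = cross F V U e b := neg_eq_of_add_eq_zero_left h4
  rw [h5]
  abel

theorem cross_comm_odd (x : hU F U) (y : hU F V) (h : heps F U x = -x) :
    hmap F (PMap.ofHomeo (Homeomorph.prodComm V U)) (cross F U V x y) =
      cross F V U (heps F V y) x := by
  obtain ⟨a, b, rfl, ha, hb, h1, h2⟩ := even_split (V := V) x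
  obtain ⟨c, e, rfl, hc, he, -, -⟩ := even_split (V := U) y
  have h3 : a + a = 0 := by
    rw [map_add, ha, hb] at h
    have : (a + -b) - -(a + b) = 0 := sub_eq_zero.2 h
    calc a + a = (a + -b) - -(a + b) := by abel
      _ = 0 := this
  have h4 : cross F V U e a + cross F V U e a = 0 := by rw [← map_add, h3, map_zero]
  simp only [map_add, LinearMap.add_apply, h1, h2, hc, he, map_neg, LinearMap.neg_apply]
  have h5 : - cross F V U e a = cross F V U e a := neg_eq_of_add_eq_zero_left h4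
  rw [h5]
  abel

/-! ### connecting maps -/

/-- `δ(x × y) = δ x × y`, cochain level: `d φ ≡ c^* ω` modulo locally zero cochains, `c` any
pointed map (the collapse `U⁺ → O⁺`) -/
theorem d_cross {O : Type} [TopologicalSpace O] [T2Space O] [LocallyCompactSpace O]
    {φ : List (OnePoint U) → F} {ψ : List (OnePoint V) → F} {ω : List (OnePoint O) → F}
    (hφ : φ ∈ Sp F {(∞ : OnePoint U)}) (hψ : ψ ∈ Zc F {(∞ : OnePoint V)})
    (hω : ω ∈ Zc F {(∞ : OnePoint O)}) (c : PMap U O) (h : d φ - pull c ω ∈ LZ F (OnePoint U))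
    {χ : List (OnePoint (U × V)) → F} {θ : List (OnePoint (O × V)) → F} (hχ : IsCr (cr φ ψ) χ)
    (hθ : IsCr (cr ω ψ) θ) :
    d χ - pull (c.smash (PMap.id V)) θ ∈ LZ F (OnePoint (U × V)) := by
  have h1 := mem_Sp_iff.1 hφ
  rw [zc_iff] at hψ hω
  refine sub_mem_LZ_of_eqAt fun z => ?_
  have h2 := hθ.smash (adm_cr hω.1 hψ.1) c (PMap.id V)
  refine IsCr.unique hχ.d h2 (fun p => ?_) z
  refine (eqAt_d_cr (by simpa using h1.nil) (by simpa using hψ.1.nil) hψ.2 p).trans ?_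
  rw [pull_cr' (f := c) (g := PMap.id V)]
  refine eqAt_cr_congr (fun z => EqAt.of_sub_mem_LZ h z) (fun z => EqAt.of_eq ?_) p
  exact (pull_id ψ).symm

end cross

end Crest.Agent.R090.Cross965
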