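import Crest.Agent.R090.Dens_255

/-!
# Row 90, F2 (D2): strict NDR pairs, homotopy extension (owner helper255)
-/

set_option autoImplicit false

open Topology Filter Set

namespace Crest.Agent.R090.Dens255

open OnePoint Sp962
open scoped unitInterval

/-- strict NDR data for a closed subspace `Z` of `M` -/
structure Ndr (M : Type*) [TopologicalSpace M] (Z : Set M) where
  /-- distance to `Z` -/
  φ : M → ℝ
  cφ : Continuous φ
  φ_nonneg : ∀ x, 0 ≤ φ x
  φ_zero : ∀ x, φ x = 0 ↔ x ∈ Z
  /-- the deformation -/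
  h : HMap M M
  h_zero : ∀ x : M, h (0, (x : OnePoint M)) = x
  h_mem : ∀ t (x : M), x ∈ Z → h (t, (x : OnePoint M)) = ∞ ∨
    ∃ z ∈ Z, h (t, (x : OnePoint M)) = (z : OnePoint M)
  h_one : ∀ x : M, φ x ≤ 1 / 2 → h (1, (x : OnePoint M)) = ∞ ∨
    ∃ z ∈ Z, h (1, (x : OnePoint M)) = (z : OnePoint M)

namespace HMap

variable {U V : Type*} [TopologicalSpace U] [TopologicalSpace V]

/-- a homotopy is near `∞` uniformly in time near `∞` -/
theorem eventually_inf (G : HMap U V) {N : Set (OnePoint V)} (hN : N ∈ 𝓝 (∞ : OnePoint V)) :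
    ∀ᶠ x in 𝓝 (∞ : OnePoint U), ∀ t : I, G (t, x) ∈ N := by
  have h : ∀ t ∈ (univ : Set I), ∀ᶠ z : I × OnePoint U in 𝓝 t ×ˢ 𝓝 (∞ : OnePoint U),
      G (z.1, z.2) ∈ N := by
    intro t _
    have h1 : Tendsto G (𝓝 (t, ∞)) (𝓝 (G (t, ∞))) := G.cont.continuousAt
    rw [G.map_inf, nhds_prod_eq] at h1
    exact h1 hN
  have := isCompact_univ.eventually_forall_of_forall_eventually (x₀ := (∞ : OnePoint U))
    (P := fun x t => G (t, x) ∈ N) (K := (univ : Set I)) (by
      intro t ht
      rw [nhds_prod_eq]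
      have h2 := h t ht
      rw [Filter.eventually_swap_iff] at h2
      exact h2)
  filter_upwards [this] with x hx t
  exact hx t (mem_univ _)

open Classical in
/-- reparametrisation of the time by a continuous function on `I × U` -/
noncomputable def reparam (G : HMap U V) (lam : I × U → I) (hlam : Continuous lam) :
    HMap U V where
  toFun p := if h : ∃ x : U, p.2 = (x : OnePoint U) then G (lam (p.1, h.choose), p.2) else ∞
  cont := by
    have key : ∀ (t : I) (x : U), (if h : ∃ y : U, (x : OnePoint U) = (y : OnePoint U) then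
        G (lam (t, h.choose), (x : OnePoint U)) else ∞) = G (lam (t, x), (x : OnePoint U)) := by
      intro t x
      have h : ∃ y : U, (x : OnePoint U) = (y : OnePoint U) := ⟨x, rfl⟩
      rw [dif_pos h, coe_injective h.choose_spec.symm]
    rw [continuous_iff_continuousAt]
    rintro ⟨t, x⟩
    induction x using OnePoint.rec with
    | infty =>
      rw [ContinuousAt]
      have hno : ¬ ∃ x : U, (∞ : OnePoint U) = (x : OnePoint U) := by
        rintro ⟨x, hx⟩; exact (coe_ne_infty x) hx.symm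
      rw [dif_neg hno]
      rw [nhds_prod_eq]
      intro N hN
      have h1 := G.eventually_inf hN
      have h2 : ∀ᶠ z : I × OnePoint U in 𝓝 t ×ˢ 𝓝 (∞ : OnePoint U), ∀ s : I, G (s, z.2) ∈ N :=
        (tendsto_snd (f := 𝓝 t) (g := 𝓝 (∞ : OnePoint U))).eventually h1
      rw [Filter.mem_map]
      filter_upwards [h2] with z hz
      obtain ⟨s, y⟩ := z
      change (if h : ∃ x : U, y = (x : OnePoint U) then G (lam (s, h.choose), y) else ∞) ∈ N
      split_ifs with h
      · exact hz _
      · exact mem_of_mem_nhds hN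
    | coe x =>
      have he : IsOpenEmbedding (Prod.map (id : I → I) ((↑) : U → OnePoint U)) :=
        IsOpenEmbedding.id.prodMap isOpenEmbedding_coe
      refine (he.continuousAt_iff (x := ((t, x) : I × U))).1 ?_
      have e : ((fun p : I × OnePoint U => if h : ∃ x : U, p.2 = (x : OnePoint U) then
          G (lam (p.1, h.choose), p.2) else ∞) ∘ (Prod.map (id : I → I) ((↑) : U → OnePoint U))) =
          fun p : I × U => G (lam p, (p.2 : OnePoint U)) := by
        funext p
        exact key p.1 p.2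
      rw [e]
      exact (G.cont.comp (hlam.prodMk (continuous_coe.comp continuous_snd))).continuousAt
  map_inf t := by
    have hno : ¬ ∃ x : U, (∞ : OnePoint U) = (x : OnePoint U) := by
      rintro ⟨x, hx⟩; exact (coe_ne_infty x) hx.symm
    change (if h : ∃ x : U, (∞ : OnePoint U) = (x : OnePoint U) then
      G (lam (t, h.choose), ∞) else ∞) = ∞
    rw [dif_neg hno]

@[simp] theorem reparam_coe (G : HMap U V) (lam : I × U → I) (hlam : Continuous lam) (t : I)
    (x : U) : G.reparam lam hlam (t, (x : OnePoint U)) = G (lam (t, x), (x : OnePoint U)) := by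
  classical
  have h : ∃ y : U, (x : OnePoint U) = (y : OnePoint U) := ⟨x, rfl⟩
  change (if h : ∃ y : U, (x : OnePoint U) = (y : OnePoint U) then
    G (lam (t, h.choose), (x : OnePoint U)) else ∞) = _
  rw [dif_pos h, coe_injective h.choose_spec.symm]

/-- pasting of homotopies along closed subspaces -/
theorem paste [T2Space U] [LocallyCompactSpace U] {C₁ C₂ : Set U} (h1 : IsClosed C₁)
    (h2 : IsClosed C₂) (h : ∀ x, x ∈ C₁ ∨ x ∈ C₂) (G₁ : HMap C₁ V) (G₂ : HMap C₂ V)
    (hG : ∀ t x (hx1 : x ∈ C₁) (hx2 : x ∈ C₂),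
      G₁ (t, ((⟨x, hx1⟩ : C₁) : OnePoint C₁)) = G₂ (t, ((⟨x, hx2⟩ : C₂) : OnePoint C₂))) :
    ∃ G : HMap U V,
      (∀ t x (hx : x ∈ C₁), G (t, (x : OnePoint U)) = G₁ (t, ((⟨x, hx⟩ : C₁) : OnePoint C₁))) ∧
      (∀ t x (hx : x ∈ C₂), G (t, (x : OnePoint U)) = G₂ (t, ((⟨x, hx⟩ : C₂) : OnePoint C₂))) := by
  classical
  let f : I → U → OnePoint V := fun t x =>
    if hx : x ∈ C₁ then G₁ (t, ((⟨x, hx⟩ : C₁) : OnePoint C₁))
    else G₂ (t, ((⟨x, (h x).resolve_left hx⟩ : C₂) : OnePoint C₂))
  have f1 : ∀ t x (hx : x ∈ C₁), f t x = G₁ (t, ((⟨x, hx⟩ : C₁) : OnePoint C₁)) := by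
    intro t x hx
    exact dif_pos hx
  have f2 : ∀ t x (hx : x ∈ C₂), f t x = G₂ (t, ((⟨x, hx⟩ : C₂) : OnePoint C₂)) := by
    intro t x hx
    by_cases hx1 : x ∈ C₁
    · rw [f1 t x hx1, hG t x hx1 hx]
    · exact dif_neg hx1
  let g : I × OnePoint U → OnePoint V := fun p => p.2.elim ∞ (f p.1)
  have hi1 := PMap.ofClosed (Subtype.val : C₁ → U) h1.isClosedEmbedding_subtypeVal
  let e1 : I × OnePoint C₁ → I × OnePoint U := fun p => (p.1, OnePoint.map Subtype.val p.2)
  let e2 : I × OnePoint C₂ → I × OnePoint U := fun p => (p.1, OnePoint.map Subtype.val p.2)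
  have c1 : Continuous e1 := continuous_fst.prodMk
    ((PMap.ofClosed (Subtype.val : C₁ → U) h1.isClosedEmbedding_subtypeVal).cont.comp
      continuous_snd)
  have c2 : Continuous e2 := continuous_fst.prodMk
    ((PMap.ofClosed (Subtype.val : C₂ → U) h2.isClosedEmbedding_subtypeVal).cont.comp
      continuous_snd)
  have q : IsQuotientMap (Sum.elim e1 e2) := by
    refine (c1.sumElim c2).isClosedMap.isQuotientMap (c1.sumElim c2) ?_
    rintro ⟨t, x⟩
    induction x using OnePoint.rec with
    | infty => exact ⟨Sum.inl (t, ∞), rfl⟩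
    | coe x =>
      rcases h x with hx | hx
      · exact ⟨Sum.inl (t, ((⟨x, hx⟩ : C₁) : OnePoint C₁)), rfl⟩
      · exact ⟨Sum.inr (t, ((⟨x, hx⟩ : C₂) : OnePoint C₂)), rfl⟩
  have hg : Continuous g := by
    rw [q.continuous_iff, continuous_sum_dom]
    constructor
    · have : (g ∘ Sum.elim e1 e2) ∘ Sum.inl = G₁ := by
        funext p
        obtain ⟨t, x⟩ := p
        induction x using OnePoint.rec with
        | infty => exact (G₁.map_inf t).symm
        | coe x => exact f1 t x.1 x.2
      rw [this]; exact G₁.cont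
    · have : (g ∘ Sum.elim e1 e2) ∘ Sum.inr = G₂ := by
        funext p
        obtain ⟨t, x⟩ := p
        induction x using OnePoint.rec with
        | infty => exact (G₂.map_inf t).symm
        | coe x => exact f2 t x.1 x.2
      rw [this]; exact G₂.cont
  exact ⟨⟨g, hg, fun _ => rfl⟩, fun t x hx => f1 t x hx, fun t x hx => f2 t x hx⟩

end HMap

end Crest.Agent.R090.Dens255
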