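import Crest.Agent.R090.Cyl_349
import Crest.Agent.R090.Ndr_255

/-!
# Row 90: the pair `(Cyl f, source)` as a strict NDR pair in the form of `Ndr_255` (owner helper349)
-/

set_option autoImplicit false
set_option linter.unusedSectionVars false

open Topology Filter Set

namespace Crest.Agent.R090.Cyl349

open OnePoint Sp962 Dens255
open scoped unitInterval

namespace Cyl

variable {U V : Type*} [TopologicalSpace U] [TopologicalSpace V]
variable [T2Space U] [T2Space V] [LocallyCompactSpace U] [LocallyCompactSpace V]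

/-- the source end is closed -/
theorem isClosed_range_iU (f : PMap U V) : IsClosed (range (iU f)) :=
  (isClosedEmbedding_iU f).isClosed_range

/-- the target end is closed -/
theorem isClosed_range_iV (f : PMap U V) : IsClosed (range (iV f)) :=
  (isClosedEmbedding_iV f).isClosed_range

instance factClosed (f : PMap U V) : Fact (IsClosed (range (iU f))) := ⟨isClosed_range_iU f⟩

/-- the NDR homotopy as an `HMap` -/
noncomputable def pushH (f : PMap U V) : HMap (Cyl f) (Cyl f) :=
  ⟨push f, continuous_push f, fun _ => rfl⟩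

@[simp] theorem pushH_apply (f : PMap U V) (p : I × OnePoint (Cyl f)) : pushH f p = push f p := rfl

/-- **`(Cyl f, U)` is a strict NDR pair** -/
noncomputable def ndr (f : PMap U V) : Ndr (Cyl f) (range (iU f)) where
  φ := ht f
  cφ := continuous_ht f
  φ_nonneg := ht_nonneg f
  φ_zero := ht_eq_zero f
  h := pushH f
  h_zero x := push_zero f x
  h_mem t x hx := by
    obtain ⟨a, rfl⟩ := hx
    exact Or.inr ⟨iU f a, ⟨a, rfl⟩, push_iU f t a⟩
  h_one x hx := by
    obtain ⟨a, ha⟩ := push_one f x hx
    exact Or.inr ⟨iU f a, ⟨a, rfl⟩, ha⟩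

/-- the source as the closed subspace `range (iU f)` -/
noncomputable def homU (f : PMap U V) : U ≃ₜ range (iU f) :=
  (isClosedEmbedding_iU f).isEmbedding.toHomeomorph

@[simp] theorem homU_coe (f : PMap U V) (a : U) : (homU f a : Cyl f) = iU f a := rfl

theorem iU_homU_symm (f : PMap U V) (z : range (iU f)) : iU f ((homU f).symm z) = z := by
  rw [← homU_coe, Homeomorph.apply_symm_apply]

/-- the retraction restricted to `range (iU f)` is `f` -/
theorem ret_range (f : PMap U V) (z : range (iU f)) :
    ret f ((z : Cyl f) : OnePoint (Cyl f)) = f ((homU f).symm z : U) := by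
  rw [← iU_homU_symm f z, ret_iU]

/-- the map classifying a neighbourhood of a closed subset: `X` compact Hausdorff,
`κ : X → OnePoint V`, `Z₁ ⊆ int Z₀` closed, `f : PMap U V` together with `c : Z₀ → U` continuous
such that `f (c x) = κ x`: there is `ψ : X → OnePoint (Cyl f)` continuous with `ret (ψ x) = κ x`
and `ψ x = c x` (in the source end) for `x ∈ Z₁` -/
theorem exists_classify {X : Type*} [TopologicalSpace X] [NormalSpace X] (f : PMap U V)
    (κ : X → OnePoint V) (hκ : Continuous κ) {Z₀ Z₁ : Set X} (h₀ : IsClosed Z₀) (h₁ : IsClosed Z₁)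
    (h : Z₁ ⊆ interior Z₀) (c : X → OnePoint U) (hc : ContinuousOn c Z₀)
    (hfc : ∀ x ∈ Z₀, f (c x) = κ x) :
    ∃ ψ : X → OnePoint (Cyl f), Continuous ψ ∧ (∀ x, ret f (ψ x) = κ x) ∧
      ∀ x ∈ Z₁, ψ x = top f (c x) := by
  have hd : Disjoint Z₁ (interior Z₀)ᶜ := by
    rw [Set.disjoint_compl_right_iff_subset]; exact h
  obtain ⟨s, hs1, hs0, hs⟩ := exists_continuous_zero_one_of_isClosed h₁
    isOpen_interior.isClosed_compl hd
  classical
  let ψ : X → OnePoint (Cyl f) := fun x => if x ∈ Z₀ then q f (c x) (s x) else i f (κ x)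
  have hfr : ∀ x ∈ frontier Z₀, s x = 1 := by
    intro x hx
    exact hs0 (fun hx' => hx.2 hx')
  refine ⟨ψ, ?_, ?_, ?_⟩
  · refine continuous_if ?_ ?_ ?_
    · intro x hx
      have hx0 : x ∈ Z₀ := h₀.frontier_subset hx
      rw [hfr x hx, q_one, hfc x hx0]
    · have hcl : closure {x | x ∈ Z₀} = Z₀ := h₀.closure_eq
      rw [hcl]
      exact (continuous_q f).comp_continuousOn (hc.prodMk s.continuous.continuousOn)
    · exact ((i f).cont.comp hκ).continuousOn
  · intro x
    change ret f (if x ∈ Z₀ then q f (c x) (s x) else i f (κ x)) = κ x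
    split_ifs with hx
    · rw [ret_q, hfc x hx]
    · rw [ret_i]
  · intro x hx
    have hx0 : x ∈ Z₀ := interior_subset (h hx)
    change (if x ∈ Z₀ then q f (c x) (s x) else i f (κ x)) = top f (c x)
    rw [if_pos hx0, hs1 hx]; rfl

end Cyl

end Crest.Agent.R090.Cyl349
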