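import Crest.Agent.R090.Ho_962
import Crest.Agent.R090.Deg_513

/-!
# Row 90, leaf DEG in `PMap` form (helper513)
-/

set_option autoImplicit false

open Topology Filter Set

namespace Crest.Agent.R090.Deg513

open OnePoint Crest.Agent.R090.Sp962

variable {V W : Type*} [NormedAddCommGroup V] [NormedSpace ℝ V] [ProperSpace V]
  [NormedAddCommGroup W] [NormedSpace ℝ W] [ProperSpace W]

omit [ProperSpace V] [ProperSpace W] in
theorem affC_zero_eq (A : V ≃L[ℝ] W) : affC A 0 = (PMap.ofHomeo A.toHomeomorph).toC := by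
  ext x
  have h3 : (fun v : V => A (v - 0)) = A.toHomeomorph := by
    funext v; simp
  rw [affC_apply, h3]
  rfl

/-- **DEG**, differentiable version. -/
theorem homotopic_of_hasFDerivAt (f : PMap V W) (x0 : V)
    (huniq : ∀ x : V, f x = ((0 : W) : OnePoint W) → x = x0) (g : V → W)
    (hfg : ∀ᶠ v : V in 𝓝 x0, f (v : OnePoint V) = (g v : OnePoint W)) (hg0 : g x0 = 0)
    (A : V ≃L[ℝ] W) (hA : HasFDerivAt g (A : V →L[ℝ] W) x0) :
    f.Homotopic (PMap.ofHomeo A.toHomeomorph) := by
  have huniq' : ∀ x, f x = ((0 : W) : OnePoint W) → x = (x0 : OnePoint V) := by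
    intro x hx
    induction x using OnePoint.rec with
    | infty => rw [f.map_inf] at hx; exact absurd hx (OnePoint.infty_ne_coe _)
    | coe v => rw [huniq v hx]
  obtain ⟨H, h0, h1, hi⟩ :=
    exists_homotopy_affine f f.continuous f.map_inf x0 huniq' g hfg hg0 A hA
  have e1 : (affC A x0).HomotopicRel f.toC {∞} := by
    refine ⟨⟨⟨H, fun x => h0 x, fun x => h1 x⟩, ?_⟩⟩
    intro t x hx
    rw [mem_singleton_iff] at hx
    subst hx
    show H (t, ∞) = affC A x0 ∞
    rw [hi]
    rfl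
  have e2 := affC_homotopic A x0
  rw [affC_zero_eq] at e2
  exact e1.symm.trans e2

/-- **DEG**, sign version. -/
theorem homotopic_of_segment (f : PMap V W) (x0 : V)
    (huniq : ∀ x : V, f x = ((0 : W) : OnePoint W) → x = x0) (L : V ≃L[ℝ] W)
    {δ : ℝ} (hδ : 0 < δ) (g : V → W)
    (hg : ∀ v : V, ‖v - x0‖ ≤ δ → f (v : OnePoint V) = (g v : OnePoint W))
    (hseg : ∀ v : V, v ≠ x0 → ‖v - x0‖ ≤ δ → ∀ t ∈ Icc (0 : ℝ) 1,
      (1 - t) • g v + t • L (v - x0) ≠ 0) :
    f.Homotopic (PMap.ofHomeo L.toHomeomorph) := by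
  have huniq' : ∀ x, f x = ((0 : W) : OnePoint W) → x = (x0 : OnePoint V) := by
    intro x hx
    induction x using OnePoint.rec with
    | infty => rw [f.map_inf] at hx; exact absurd hx (OnePoint.infty_ne_coe _)
    | coe v => rw [huniq v hx]
  have e := deg_homotopic f.toC f.map_inf x0 huniq' L hδ g hg hseg
  rw [affC_zero_eq] at e
  exact e

end Crest.Agent.R090.Deg513
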