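import Crest.Agent.R090.AS2_58

/-!
# Row 90, block HOM (helper812): DESC, strong excision for `Hc` (relative homeomorphisms)

`q : (X, A) → (Y, B)` continuous, `X`, `Y` compact, `Y` Hausdorff, `B` closed, `A = q ⁻¹' B`,
`q` bijective from `X \ A` onto `Y \ B`.  Then `pull q : Sp B / LZ → Sp A / LZ` is bijective
(`exists_desc`, `mem_LZ_of_pull`) and `Hc.map F q : Hc F B → Hc F A` is bijective (`bij`).
-/

set_option autoImplicit false
set_option linter.unusedSectionVars false
set_option linter.style.haveILetI false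

open Filter Topology Set

namespace Crest.Agent.R090.Desc812

open AS58

variable {F : Type} [CommRing F] {X Y : Type} [TopologicalSpace X] [TopologicalSpace Y]

/-- relative homeomorphism of pairs -/
structure RelHomeo (q : X → Y) (A : Set X) (B : Set Y) : Prop where
  cont : Continuous q
  closed : IsClosed B
  mem_iff : ∀ x, x ∈ A ↔ q x ∈ B
  surj : ∀ y, y ∉ B → ∃ x, q x = y
  inj : ∀ x x', q x ∉ B → q x = q x' → x = x'

namespace RelHomeo

variable {q : X → Y} {A : Set X} {B : Set Y}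

theorem mapsTo (h : RelHomeo q A B) : MapsTo q A B := fun x hx => (h.mem_iff x).1 hx

theorem closedA (h : RelHomeo q A B) : IsClosed A := by
  have : A = q ⁻¹' B := by
    ext x
    exact h.mem_iff x
  rw [this]
  exact h.closed.preimage h.cont

/-- a set theoretic section on the complement of `B` -/
theorem exists_section (h : RelHomeo q A B) [Nonempty X] :
    ∃ s : Y → X, (∀ y, y ∉ B → q (s y) = y) ∧ ∀ x, q x ∉ B → s (q x) = x := by
  classical
  choose! s hs using h.surj
  exact ⟨s, hs, fun x hx => (h.inj x _ hx (hs _ hx).symm).symm⟩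

/-- every cochain supported away from `A` descends, up to locally zero ones -/
theorem exists_desc (h : RelHomeo q A B) [CompactSpace X] [T2Space Y] {φ : List X → F}
    (hφ : φ ∈ Sp F A) : ∃ ψ ∈ Sp F B, pull q ψ - φ ∈ LZ F X := by
  classical
  rcases isEmpty_or_nonempty X with hX | hX
  · refine ⟨0, Submodule.zero_mem _, ?_⟩
    have : pull q (0 : List Y → F) - φ = 0 := by
      funext l
      cases l with
      | nil => simp [Sp_nil hφ]
      | cons x l => exact (hX.false x).elim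
    rw [this]
    exact Submodule.zero_mem _
  obtain ⟨s, hs, hs'⟩ := h.exists_section
  obtain ⟨N, hN, W, hW, hz⟩ := hφ
  obtain ⟨N', hN', hAN, hNN⟩ := mem_nhdsSet_iff_exists.1 hN
  -- the neighbourhood of `B`
  set M : Set Y := (q '' N'ᶜ)ᶜ with hM
  have hcl : IsClosed (q '' N'ᶜ) := (hN'.isClosed_compl.isCompact.image h.cont).isClosed
  have hMo : IsOpen M := hcl.isOpen_compl
  have hBM : B ⊆ M := by
    rintro y hy ⟨x, hx, rfl⟩
    exact hx (hAN ((h.mem_iff x).2 hy))
  have hMN : ∀ x, q x ∈ M → x ∈ N' := by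
    intro x hx
    by_contra hc
    exact hx ⟨x, hc, rfl⟩
  refine ⟨fun l => if Inn M l then 0 else φ (l.map s),
    ⟨M, hMo.mem_nhdsSet.2 hBM, univ, univ_mem, fun l hl _ => if_pos hl⟩, ?_⟩
  -- the smallness
  have hW1 : (((q ⁻¹' M)ᶜ ×ˢ A) ∪ (A ×ˢ (q ⁻¹' M)ᶜ))ᶜ ∈ 𝓝ˢ (diagonal X) := by
    have hc1 : IsClosed (q ⁻¹' M)ᶜ := (hMo.preimage h.cont).isClosed_compl
    refine IsOpen.mem_nhdsSet (IsClosed.isOpen_compl (self :=
      (hc1.prod h.closedA).union (h.closedA.prod hc1))) |>.2 ?_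
    rintro ⟨x, y⟩ hxy
    simp only [mem_diagonal_iff] at hxy
    subst hxy
    rintro (⟨h1, h2⟩ | ⟨h1, h2⟩)
    · exact h1 (hBM ((h.mem_iff _).1 h2))
    · exact h2 (hBM ((h.mem_iff _).1 h1))
  refine ⟨W ∩ (((q ⁻¹' M)ᶜ ×ˢ A) ∪ (A ×ˢ (q ⁻¹' M)ᶜ))ᶜ, inter_mem hW hW1, fun l hl => ?_⟩
  rw [Pi.sub_apply, pull_apply]
  by_cases hc : Inn M (l.map q)
  · rw [if_pos hc, hz l, sub_zero]
    · intro x hx
      exact hNN (hMN x (hc _ (List.mem_map_of_mem hx)))
    · exact hl.mono inter_subset_left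
  · rw [if_neg hc, List.map_map]
    have hex : ∃ x ∈ l, q x ∉ M := by
      by_contra hne
      push Not at hne
      apply hc
      intro y hy
      obtain ⟨x, hx, rfl⟩ := List.mem_map.1 hy
      exact hne x hx
    obtain ⟨x, hx, hxM⟩ := hex
    have hid : l.map (s ∘ q) = l := by
      conv_rhs => rw [← List.map_id l]
      refine List.map_congr_left fun z hz => ?_
      refine hs' z fun hzB => ?_
      have := (hl x hx z hz).2
      exact this (Or.inl ⟨hxM, (h.mem_iff z).2 hzB⟩)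
    rw [hid, sub_self]

/-- cochains away from `B` are detected on `X` -/
theorem mem_LZ_of_pull (h : RelHomeo q A B) [CompactSpace X] [CompactSpace Y] [T2Space Y]
    {ψ : List Y → F} (hψ : ψ ∈ Sp F B) (hp : pull q ψ ∈ LZ F X) : ψ ∈ LZ F Y := by
  rcases isEmpty_or_nonempty X with hX | hX
  · have hB : B = univ := by
      ext y
      simp only [mem_univ, iff_true]
      by_contra hc
      obtain ⟨x, _⟩ := h.surj y hc
      exact hX.false x
    obtain ⟨N, hN, W, hW, hz⟩ := hψ
    refine ⟨W, hW, fun l hl => hz l (fun x _ => ?_) hl⟩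
    rw [hB, nhdsSet_univ, mem_top] at hN
    rw [hN]
    trivial
  obtain ⟨s, hs, hs'⟩ := h.exists_section
  obtain ⟨N, hN, W, hW, hz⟩ := hψ
  obtain ⟨V, hV, hp⟩ := hp
  obtain ⟨N', hN', hBN, hNN⟩ := mem_nhdsSet_iff_exists.1 hN
  obtain ⟨V', hV', hDV, hVV⟩ := mem_nhdsSet_iff_exists.1 hV
  obtain ⟨M, hM, hBM, hMN⟩ := normal_exists_closure_subset h.closed hN' hBN
  -- first smallness: one entry outside `N'`, all entries outside `closure M`
  have hW1 : ((N'ᶜ ×ˢ closure M) ∪ (closure M ×ˢ N'ᶜ))ᶜ ∈ 𝓝ˢ (diagonal Y) := by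
    have hc1 : IsClosed N'ᶜ := hN'.isClosed_compl
    refine IsOpen.mem_nhdsSet (IsClosed.isOpen_compl (self :=
      (hc1.prod isClosed_closure).union (isClosed_closure.prod hc1))) |>.2 ?_
    rintro ⟨x, y⟩ hxy
    simp only [mem_diagonal_iff] at hxy
    subst hxy
    rintro (⟨h1, h2⟩ | ⟨h1, h2⟩)
    · exact h1 (hMN h2)
    · exact h2 (hMN h1)
  -- second smallness
  set C : Set (X × X) := V'ᶜ ∩ ((q ⁻¹' M)ᶜ ×ˢ (q ⁻¹' M)ᶜ) with hC
  have hMc : IsClosed (q ⁻¹' M)ᶜ := (hM.preimage h.cont).isClosed_compl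
  have hCc : IsClosed C := hV'.isClosed_compl.inter (hMc.prod hMc)
  have hW2 : (Prod.map q q '' C)ᶜ ∈ 𝓝ˢ (diagonal Y) := by
    have hcl : IsClosed (Prod.map q q '' C) :=
      (hCc.isCompact.image (h.cont.prodMap h.cont)).isClosed
    refine hcl.isOpen_compl.mem_nhdsSet.2 ?_
    rintro ⟨x, y⟩ hxy
    simp only [mem_diagonal_iff] at hxy
    subst hxy
    rintro ⟨⟨a, b⟩, ⟨hab, ha, hb⟩, he⟩
    simp only [Prod.map_apply, Prod.mk.injEq] at he
    have haB : q a ∉ B := fun hc => ha (hBM hc)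
    have : a = b := h.inj a b haB (he.1.trans he.2.symm)
    subst this
    exact hab (hDV rfl)
  refine ⟨W ∩ (((N'ᶜ ×ˢ closure M) ∪ (closure M ×ˢ N'ᶜ))ᶜ ∩ (Prod.map q q '' C)ᶜ),
    inter_mem hW (inter_mem hW1 hW2), fun l hl => ?_⟩
  by_cases hc : Inn N' l
  · exact hz l (hc.mono hNN) (hl.mono inter_subset_left)
  · have hex : ∃ y ∈ l, y ∉ N' := by
      by_contra hne
      push Not at hne
      exact hc hne
    obtain ⟨y, hy, hyN⟩ := hex
    have hout : ∀ z ∈ l, z ∉ closure M := fun z hz hzM =>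
      (hl y hy z hz).2.1 (Or.inl ⟨hyN, hzM⟩)
    have hqs : ∀ z ∈ l, q (s z) = z := fun z hz => hs z fun hzB => hout z hz (subset_closure (hBM hzB))
    have hid : (l.map s).map q = l := by
      rw [List.map_map]
      conv_rhs => rw [← List.map_id l]
      exact List.map_congr_left fun z hz => hqs z hz
    have hp' := hp (l.map s) (by
      intro a ha b hb
      obtain ⟨z, hz, rfl⟩ := List.mem_map.1 ha
      obtain ⟨w, hw, rfl⟩ := List.mem_map.1 hb
      by_contra hcon
      refine (hl z hz w hw).2.2 ⟨(s z, s w), ⟨fun hv => hcon (hVV hv), ?_, ?_⟩, ?_⟩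
      · intro hm
        rw [mem_preimage, hqs z hz] at hm
        exact hout z hz (subset_closure hm)
      · intro hm
        rw [mem_preimage, hqs w hw] at hm
        exact hout w hw (subset_closure hm)
      · simp only [Prod.map_apply, hqs z hz, hqs w hw])
    rwa [pull_apply, hid] at hp'

theorem injective (h : RelHomeo q A B) [CompactSpace X] [CompactSpace Y] [T2Space Y]
    (hAB : MapsTo q A B) : Function.Injective (Hc.map F q h.cont hAB) := by
  rw [injective_iff_map_eq_zero]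
  intro x hx
  obtain ⟨φ, hφ, rfl⟩ := Hc.mk_surj x
  rw [Hc.map_mk, Hc.mk_eq_zero, mem_Bc] at hx
  obtain ⟨χ, hχ, hx⟩ := hx
  obtain ⟨ψ, hψ, hψ'⟩ := h.exists_desc hχ
  rw [Hc.mk_eq_zero, mem_Bc]
  refine ⟨ψ, hψ, h.mem_LZ_of_pull (Submodule.sub_mem _ hφ.1 (d_mem_Sp hψ)) ?_⟩
  have e : pull q (φ - d ψ) = (pull q φ - d χ) - d (pull q ψ - χ) := by
    rw [map_sub, map_sub, d_pull]
    abel
  rw [e]
  exact Submodule.sub_mem _ hx (d_mem_LZ hψ')

theorem surjective (h : RelHomeo q A B) [CompactSpace X] [CompactSpace Y] [T2Space Y]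
    (hAB : MapsTo q A B) : Function.Surjective (Hc.map F q h.cont hAB) := by
  intro x
  obtain ⟨φ, hφ, rfl⟩ := Hc.mk_surj x
  obtain ⟨ψ, hψ, hψ'⟩ := h.exists_desc hφ.1
  have hd : d ψ ∈ LZ F Y := by
    refine h.mem_LZ_of_pull (d_mem_Sp hψ) ?_
    have e : pull q (d ψ) = d φ + d (pull q ψ - φ) := by
      rw [map_sub, d_pull]
      abel
    rw [e]
    exact Submodule.add_mem _ hφ.2 (d_mem_LZ hψ')
  have hZ : ψ ∈ Zc F B := ⟨hψ, hd⟩
  refine ⟨Hc.mk ψ hZ, ?_⟩
  rw [Hc.map_mk, Hc.mk_eq_mk]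
  exact LZ_le_Bc A hψ'

/-- **strong excision**: a relative homeomorphism of compact pairs induces a bijection -/
theorem bij (h : RelHomeo q A B) [CompactSpace X] [CompactSpace Y] [T2Space Y]
    (hAB : MapsTo q A B) : Function.Bijective (Hc.map F q h.cont hAB) :=
  ⟨h.injective hAB, h.surjective hAB⟩

variable (F) in
/-- strong excision as an isomorphism -/
noncomputable def equiv (h : RelHomeo q A B) [CompactSpace X] [CompactSpace Y] [T2Space Y] :
    Hc F B ≃ₗ[F] Hc F A :=
  LinearEquiv.ofBijective (Hc.map F q h.cont h.mapsTo) (h.bij h.mapsTo)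

@[simp] theorem equiv_apply (h : RelHomeo q A B) [CompactSpace X] [CompactSpace Y] [T2Space Y]
    (x : Hc F B) : h.equiv F x = Hc.map F q h.cont h.mapsTo x := rfl

theorem map_equiv_symm (h : RelHomeo q A B) [CompactSpace X] [CompactSpace Y] [T2Space Y]
    (x : Hc F A) : Hc.map F q h.cont h.mapsTo ((h.equiv F).symm x) = x :=
  (h.equiv F).apply_symm_apply x

end RelHomeo

/-! ### the literal forms -/

/-- DESC for a quotient map collapsing a closed set to one point -/
theorem relHomeo_point {q : X → Y} (hq : Continuous q) [T1Space Y] {A : Set X} {y0 : Y}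
    (hA : ∀ x, x ∈ A ↔ q x = y0) (hs : ∀ y, y ≠ y0 → ∃ x, q x = y)
    (hi : ∀ x x', q x ≠ y0 → q x = q x' → x = x') : RelHomeo q A {y0} where
  cont := hq
  closed := isClosed_singleton
  mem_iff := hA
  surj := hs
  inj := hi

theorem desc {q : X → Y} (hq : Continuous q) [CompactSpace X] [CompactSpace Y] [T2Space Y]
    {A : Set X} {y0 : Y} (hA : ∀ x, x ∈ A ↔ q x = y0) (hs : ∀ y, y ≠ y0 → ∃ x, q x = y)
    (hi : ∀ x x', q x ≠ y0 → q x = q x' → x = x') (hAB : MapsTo q A {y0}) :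
    Function.Bijective (Hc.map F q hq hAB) :=
  (relHomeo_point hq hA hs hi).bij hAB

/-- excision of a closed subset: `Y = K ∪ B` -/
theorem relHomeo_subtype {K B : Set Y} (hB : IsClosed B) (hKB : K ∪ B = univ) :
    RelHomeo (Subtype.val : K → Y) (Subtype.val ⁻¹' B) B where
  cont := continuous_subtype_val
  closed := hB
  mem_iff := fun _ => Iff.rfl
  surj := fun y hy => by
    have : y ∈ K ∪ B := by rw [hKB]; trivial
    exact ⟨⟨y, this.resolve_right hy⟩, rfl⟩
  inj := fun x x' _ e => Subtype.ext e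

/-- a homeomorphism of pairs -/
theorem relHomeo_homeomorph (e : X ≃ₜ Y) {B : Set Y} (hB : IsClosed B) :
    RelHomeo e (e ⁻¹' B) B where
  cont := e.continuous
  closed := hB
  mem_iff := fun _ => Iff.rfl
  surj := fun y _ => ⟨e.symm y, e.apply_symm_apply y⟩
  inj := fun _ _ _ h => e.injective h

end Crest.Agent.R090.Desc812
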