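import Crest.Agent.R090.CatCone_314
import Crest.Agent.R090.FMSB_554

/-!
# Row 90, DUAL: duals of sphere-built spaces in the stable category (helper865)

* `pp_of_SB : SB M → PP D0 X M`;
* `exists_dual_st` : for `M` sphere-built and `r : St X M` there are a sphere `ℝ^k`, a space `B`,
  `g : St ℝ^k (B × M)`, `u : St (X × B) ℝ^k` with `(u ∧ 1_M) ∘ (1_X ∧ g) = (1 ∧ r) ∘ swap`;
* `exists_dual_M` : the case `X = M`, `r = 1`, in the form used by `HStX_285`.
-/

set_option autoImplicit false
set_option linter.unusedSectionVars false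

open Topology Filter Set CategoryTheory MonoidalCategory

noncomputable section

namespace Crest.Agent.R090.DualSt865

open OnePoint Crest.Agent.R090.Sp962 Crest.Agent.R090.Grp528 Crest.Agent.R090.St528
  Crest.Agent.R090.Sm202 Crest.Agent.R090.StCat865 Crest.Agent.R090.CatCone314
  Crest.Agent.R090.FM554

/-- `(Fin n → ℝ) × Io ≃ (Fin (n+1) → ℝ)` -/
def sphSucc (n : ℕ) : (Fin n → ℝ) × Io ≃ₜ (Fin (n + 1) → ℝ) :=
  ((Homeomorph.refl (Fin n → ℝ)).prodCongr
    (ioHomeo.symm.trans (Homeomorph.funUnique (Fin 1) ℝ).symm)).trans (Fin.appendHomeomorph n 1)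

theorem pp_sphere (X : LC) (n : ℕ) : Dual698.PP D0 X (LC.of (Fin n → ℝ)) := by
  induction n with
  | zero =>
    exact pp_homeo
      { toFun := fun _ => 0
        invFun := fun _ => ()
        left_inv := fun _ => rfl
        right_inv := fun _ => Subsingleton.elim _ _
        continuous_toFun := continuous_const
        continuous_invFun := continuous_const } (pp_unit X)
  | succ n ih => exact pp_homeo (sphSucc n) (pp_susp ih)

/-- sphere-built spaces have the two properties -/
theorem pp_of_SB (X : LC) {M : Type} [TopologicalSpace M] [T2Space M] [LocallyCompactSpace M]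
    (hM : SB M) : Dual698.PP D0 X (LC.of M) := by
  refine SB.induction (P := fun M _ _ _ => Dual698.PP D0 X (LC.of M)) (fun n => pp_sphere X n)
    (fun P Q _ _ _ _ _ _ f hP hQ => pp_cone f hP hQ) (fun P Q _ _ _ _ _ _ e hP => ?_) hM
  obtain ⟨f, g, h1, h2⟩ := e
  refine Dual698.PP_iso D0 (W := LC.of P) (W' := LC.of Q)
    { hom := St.ofP f
      inv := St.ofP g
      hom_inv_id := ?_
      inv_hom_id := ?_ } hP
  · change (St.ofP g).comp (St.ofP f) = St.id P
    rw [← St.ofP_comp, St.ofP_congr h1, St.ofP_id]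
  · change (St.ofP f).comp (St.ofP g) = St.id Q
    rw [← St.ofP_comp, St.ofP_congr h2, St.ofP_id]

section

variable {X M : Type} [TopologicalSpace X] [T2Space X] [LocallyCompactSpace X]
  [TopologicalSpace M] [T2Space M] [LocallyCompactSpace M]

/-- **one-sided duality**, the sphere as an object -/
theorem exists_dual_obj (hM : SB M) (r : St X M) :
    ∃ (E : LC) (k : ℕ) (_ : E ≃ₜ (Fin k → ℝ)) (B : LC) (g : St E (B × M)) (u : St (X × B) E),
      (u.smR M).comp ((sh (Homeomorph.prodAssoc X B M).symm).comp (g.smL X)) =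
        (r.smL E).comp (sh (Homeomorph.prodComm X E)) := by
  obtain ⟨E, B, g, u, ⟨k, ⟨e⟩⟩, h⟩ := Dual698.exists_dual D0 (pp_of_SB (LC.of X) hM)
    (r : LC.of X ⟶ LC.of M)
  refine ⟨E, k, e, B, g, u, ?_⟩
  have h' : ((u.smR M).comp (sh (asC X B M).symm)).comp (g.smL X) =
      (r.smL E).comp (sh (Homeomorph.prodComm X E)) := h
  rw [← h', St.comp_assoc]
  rfl

/-- **one-sided duality** -/
theorem exists_dual_st (hM : SB M) (r : St X M) :
    ∃ (k : ℕ) (B : LC) (g : St (Fin k → ℝ) (B × M)) (u : St (X × B) (Fin k → ℝ)),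
      (u.smR M).comp ((sh (Homeomorph.prodAssoc X B M).symm).comp (g.smL X)) =
        (r.smL (Fin k → ℝ)).comp (sh (Homeomorph.prodComm X (Fin k → ℝ))) := by
  obtain ⟨E, k, e, B, g, u, h⟩ := exists_dual_obj hM r
  refine ⟨k, B, g.comp (sh e.symm), (sh e).comp u, ?_⟩
  rw [smR_comp, smL_comp]
  have h1 : ((sh e).smR M).comp ((u.smR M).comp
      ((sh (Homeomorph.prodAssoc X B M).symm).comp ((g.smL X).comp ((sh e.symm).smL X)))) =
      ((sh e).smR M).comp (((u.smR M).comp
      ((sh (Homeomorph.prodAssoc X B M).symm).comp (g.smL X))).comp ((sh e.symm).smL X)) := by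
    simp only [St.comp_assoc]
  rw [St.comp_assoc, h1, h]
  -- naturality of `(1 ∧ r) ∘ swap` in the sphere
  have h2 : (sh (Homeomorph.prodComm X E)).comp ((sh e.symm).smL X) =
      ((sh e.symm).smR X).comp (sh (Homeomorph.prodComm X (Fin k → ℝ))) := by
    rw [smL_sh, smR_sh, ← sh_trans, ← sh_trans]
    exact sh_ext fun _ => rfl
  have h3 : ((sh e).smR M).comp ((r.smL E).comp ((sh e.symm).smR X)) = r.smL (Fin k → ℝ) := by
    rw [← interchange, ← St.comp_assoc, ← smR_comp, sh_comp_symm, smR_id, St.id_comp]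
  rw [St.comp_assoc (r.smL E), h2, ← St.comp_assoc (r.smL E), ← St.comp_assoc, h3]

/-- the case `X = M`, `r = 1`, unbundled -/
theorem exists_dual_M (hM : SB M) :
    ∃ (k : ℕ) (B : Type) (_ : TopologicalSpace B) (_ : T2Space B) (_ : LocallyCompactSpace B)
      (g : St (Fin k → ℝ) (B × M)) (u : St (M × B) (Fin k → ℝ)),
      (u.smR M).comp ((sh (Homeomorph.prodAssoc M B M).symm).comp (g.smL M)) =
        sh (Homeomorph.prodComm M (Fin k → ℝ)) := by
  obtain ⟨k, B, g, u, h⟩ := exists_dual_st hM (St.id M)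
  refine ⟨k, B, inferInstance, inferInstance, inferInstance, g, u, ?_⟩
  rw [h, smL_id, St.id_comp]

/-- the general case, unbundled -/
theorem exists_dual_X (hM : SB M) (r : St X M) :
    ∃ (k : ℕ) (B : Type) (_ : TopologicalSpace B) (_ : T2Space B) (_ : LocallyCompactSpace B)
      (g : St (Fin k → ℝ) (B × M)) (u : St (X × B) (Fin k → ℝ)),
      (u.smR M).comp ((sh (Homeomorph.prodAssoc X B M).symm).comp (g.smL X)) =
        (r.smL (Fin k → ℝ)).comp (sh (Homeomorph.prodComm X (Fin k → ℝ))) := by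
  obtain ⟨k, B, g, u, h⟩ := exists_dual_st hM r
  exact ⟨k, B, inferInstance, inferInstance, inferInstance, g, u, h⟩

end

end Crest.Agent.R090.DualSt865
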