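import Mathlib

/-!
# Borsuk homotopy extension with sphere target (row 90)

`NE T`: `T` is a neighbourhood extensor for compact Hausdorff spaces.  Spheres and one-point
compactifications of finite dimensional real vector spaces are `NE`; `hep` is the homotopy
extension property for a closed set in a compact Hausdorff space and an `NE` target.
-/

noncomputable section

namespace Crest.R090.Hep865

open Set Topology unitInterval Function

universe u v w

/-- `T` is a neighbourhood extensor for compact Hausdorff spaces (function form). -/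
def NE (T : Type v) [TopologicalSpace T] : Prop :=
  ∀ (X : Type u) [TopologicalSpace X] [CompactSpace X] [T2Space X] (C : Set X) (g : X → T),
    IsClosed C → ContinuousOn g C →
      ∃ (h : X → T) (U : Set X), IsOpen U ∧ C ⊆ U ∧ ContinuousOn h U ∧ EqOn h g C

/-- `NE` is invariant under homeomorphism. -/
theorem NE.of_homeo {T : Type v} {T' : Type w} [TopologicalSpace T] [TopologicalSpace T']
    (e : T ≃ₜ T') (h : NE.{u} T) : NE.{u} T' := by
  intro X _ _ _ C g hC hg
  obtain ⟨h', U, hU, hCU, hh, hE⟩ := h X C (e.symm ∘ g) hC (e.symm.continuous.comp_continuousOn hg)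
  refine ⟨e ∘ h', U, hU, hCU, e.continuous.comp_continuousOn hh, fun x hx => ?_⟩
  simp [hE hx]

/-- Spheres of finite dimensional real normed spaces are `NE`. -/
theorem NE.sphere (E : Type v) [NormedAddCommGroup E] [NormedSpace ℝ E] [FiniteDimensional ℝ E] :
    NE.{u} (Metric.sphere (0 : E) 1) := by
  intro X _ _ _ C g hC hg
  have : TietzeExtension.{u, v} E := RCLike.instTietzeExtensionTVS (𝕜 := ℝ)
  let g0 : C(C, E) := ⟨fun c => (g c : E),
    continuous_subtype_val.comp (continuousOn_iff_continuous_restrict.1 hg)⟩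
  obtain ⟨G, hG⟩ := g0.exists_restrict_eq hC
  have hGC : ∀ x (hx : x ∈ C), G x = (g x : E) := fun x hx => by
    have := congrArg (fun k : C(C, E) => k ⟨x, hx⟩) hG
    simpa [g0] using this
  let U : Set X := {x | G x ≠ 0}
  have hU : IsOpen U := isOpen_ne_fun G.continuous continuous_const
  have hnorm : ∀ x, x ∈ U → ‖(‖G x‖)⁻¹ • G x‖ = 1 := fun x hx => by
    have : ‖G x‖ ≠ 0 := norm_ne_zero_iff.2 hx
    rw [norm_smul, norm_inv, norm_norm, inv_mul_cancel₀ this]
  classical
  let h : X → Metric.sphere (0 : E) 1 := fun x =>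
    if hx : x ∈ U then ⟨(‖G x‖)⁻¹ • G x, by simpa using hnorm x hx⟩ else g x
  refine ⟨h, U, hU, ?_, ?_, ?_⟩
  · intro x hx
    have : ‖(g x : E)‖ = 1 := by simpa using (g x).2
    show G x ≠ 0
    rw [hGC x hx]
    intro h0
    rw [h0] at this
    simp at this
  · rw [continuousOn_iff_continuous_restrict, Topology.IsInducing.subtypeVal.continuous_iff]
    have : (Subtype.val ∘ U.domRestrict h) = fun x : U => (‖G x‖)⁻¹ • G x := by
      funext x
      have hx := x.2
      show ((h x : Metric.sphere (0 : E) 1) : E) = _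
      simp only [h, dif_pos hx]
    rw [this]
    refine Continuous.smul (Continuous.inv₀ (G.continuous.comp continuous_subtype_val).norm ?_)
      (G.continuous.comp continuous_subtype_val)
    intro x
    exact norm_ne_zero_iff.2 x.2
  · intro x hx
    have h1 : ‖(g x : E)‖ = 1 := by simp
    have hxU : x ∈ U := by
      show G x ≠ 0
      rw [hGC x hx]
      intro h0
      rw [h0] at h1
      simp at h1
    apply Subtype.ext
    simp only [h, dif_pos hxU]
    rw [hGC x hx, h1]
    simp

/-- The one-point compactification of a finite dimensional real vector space is `NE`. -/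
theorem NE.onePoint (V : Type v) [AddCommGroup V] [Module ℝ V] [FiniteDimensional ℝ V]
    [TopologicalSpace V] [IsTopologicalAddGroup V] [ContinuousSMul ℝ V] [T2Space V] :
    NE.{u} (OnePoint V) :=
  NE.of_homeo (onePointEquivSphereOfFinrankEq (ι := Fin (Module.finrank ℝ V + 1)) (by simp)).symm
    (NE.sphere _)

/-- **Borsuk homotopy extension**: function form. -/
theorem hep {T : Type v} [TopologicalSpace T] (hT : NE.{u} T) {X : Type u} [TopologicalSpace X]
    [CompactSpace X] [T2Space X] {A : Set X} (hA : IsClosed A) {f : X → T} (hf : Continuous f)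
    {H : X → I → T} (hH : ContinuousOn (uncurry H) (A ×ˢ (univ : Set I)))
    (h0 : ∀ a ∈ A, H a 0 = f a) :
    ∃ G : X → I → T, Continuous (uncurry G) ∧ (∀ x, G x 0 = f x) ∧ ∀ a ∈ A, ∀ t, G a t = H a t := by
  classical
  let C : Set (X × I) := (univ ×ˢ {0}) ∪ (A ×ˢ univ)
  let g : X × I → T := fun p => if p.2 = 0 then f p.1 else H p.1 p.2
  have hC1 : IsClosed ((univ : Set X) ×ˢ ({0} : Set I)) := isClosed_univ.prod isClosed_singleton
  have hC2 : IsClosed (A ×ˢ (univ : Set I)) := hA.prod isClosed_univ
  have hC : IsClosed C := hC1.union hC2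
  have hg : ContinuousOn g C := by
    refine ContinuousOn.union_of_isClosed ?_ ?_ hC1 hC2
    · refine ((hf.comp continuous_fst).continuousOn).congr ?_
      rintro ⟨x, t⟩ ⟨-, ht⟩
      simp only [mem_singleton_iff] at ht
      simp [g, ht]
    · refine hH.congr ?_
      rintro ⟨x, t⟩ ⟨hx, -⟩
      by_cases ht : t = 0
      · simp only [g, ht, if_true, uncurry_apply_pair]
        exact (h0 x hx).symm
      · simp [g, ht]
  obtain ⟨h, U, hU, hCU, hh, hE⟩ := hT (X × I) C g hC hg
  -- the tube
  let V : Set X := {x | ∀ t : I, (x, t) ∈ U}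
  have hV : IsOpen V := by
    have hVc : Vᶜ = Prod.fst '' Uᶜ := by
      ext x
      simp only [V, mem_compl_iff, mem_ofPred_eq, not_forall, mem_image, Prod.exists,
        exists_and_right, exists_eq_right]
    rw [← isClosed_compl_iff, hVc]
    exact isClosedMap_fst_of_compactSpace _ hU.isClosed_compl
  have hAV : A ⊆ V := fun a ha t => hCU (Or.inr ⟨ha, mem_univ t⟩)
  obtain ⟨φ, hφ0, hφ1, hφ⟩ := exists_continuous_zero_one_of_isClosed hV.isClosed_compl hA
    (disjoint_compl_left_iff_subset.2 hAV)
  let ψ : X → I := fun x => ⟨φ x, hφ x⟩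
  have hψ : Continuous ψ := φ.continuous.subtype_mk _
  have hmem : ∀ x (t : I), (x, ψ x * t) ∈ U := by
    intro x t
    by_cases hx : x ∈ V
    · exact hx _
    · have : ψ x = 0 := Subtype.ext (hφ0 hx)
      rw [this, zero_mul]
      exact hCU (Or.inl ⟨mem_univ x, rfl⟩)
  refine ⟨fun x t => h (x, ψ x * t), ?_, ?_, ?_⟩
  · exact hh.comp_continuous (continuous_fst.prodMk ((hψ.comp continuous_fst).mul continuous_snd))
      (fun p => hmem p.1 p.2)
  · intro x
    have : h (x, ψ x * 0) = g (x, 0) := by
      rw [mul_zero]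
      exact hE (Or.inl ⟨mem_univ x, rfl⟩)
    simpa [g] using this
  · intro a ha t
    have h1 : ψ a = 1 := Subtype.ext (hφ1 ha)
    have : h (a, ψ a * t) = g (a, t) := by
      rw [h1, one_mul]
      exact hE (Or.inr ⟨ha, mem_univ t⟩)
    show h (a, ψ a * t) = _
    rw [this]
    by_cases ht : t = 0
    · simp only [g, ht, if_true]
      exact (h0 a ha).symm
    · simp [g, ht]

end Crest.R090.Hep865
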