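import Crest.Agent.R090.Puppe_962
import Crest.Agent.R090.Hep_865

/-!
# Row 90, leaf EX (helper503): Borsuk exactness for arbitrary closed subspaces, sphere targets

`OC i e`: `i : F → U` closed embedding, `e : O → U` open embedding, `range e = (range i)ᶜ`.
The target `V` is any space with `Hep865.NE (OnePoint V)` (every f.d. real vector space).

* `OC.exists_coll`    : `g ∘ incl` null ⟹ `g ≃ g' ∘ coll`;
* `OC.collapse_inj`   : if `F` is contractible, `g₀ ∘ coll ≃ g₁ ∘ coll ⟹ g₀ ≃ g₁`;
* `OC.cone`           : `F × Ic → MC incl ← O` is an `OC`, `OC.c : PMap (MC incl) O`;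
* `OC.exists_delta`   : `y ∘ coll` null ⟹ `y ∘ c ≃ w ∘ p`;
* `OC.c_inj`          : `g₀ ∘ c ≃ g₁ ∘ c ⟹ g₀ ≃ g₁`; `OC.c_surj`;
* `OC.map` naturality.
-/

set_option autoImplicit false
set_option linter.unusedSectionVars false
set_option linter.unusedTactic false

open Topology Filter Set

namespace Crest.Agent.R090.Exc503

open OnePoint Crest.Agent.R090.Sp962 Crest.R090.Hep865
open scoped unitInterval

universe u v w x u' v' w'

/-! ## preliminaries -/

theorem continuousOn_range_iff {X : Type*} {Y : Type*} {Z : Type*} [TopologicalSpace X]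
    [TopologicalSpace Y] [TopologicalSpace Z] {j : X → Y} (hj : IsEmbedding j) {f : Y → Z} :
    ContinuousOn f (range j) ↔ Continuous (f ∘ j) := by
  constructor
  · intro h
    exact h.comp_continuous hj.continuous fun x => mem_range_self x
  · intro h
    rw [continuousOn_iff_continuous_domRestrict]
    have : (range j).domRestrict f = (f ∘ j) ∘ hj.toHomeomorph.symm := by
      funext y
      obtain ⟨x, rfl⟩ := hj.toHomeomorph.surjective y
      simp [Set.domRestrict]
    rw [this]
    exact h.comp hj.toHomeomorph.symm.continuous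

/-- homotopy extension along a closed embedding -/
theorem hepE {T : Type v} [TopologicalSpace T] (hT : NE.{u} T) {X : Type u} [TopologicalSpace X]
    [CompactSpace X] [T2Space X] {A : Type w} [TopologicalSpace A] {j : A → X}
    (hj : IsClosedEmbedding j) {f : X → T} (hf : Continuous f) {H : A → I → T}
    (hH : Continuous (fun p : A × I => H p.1 p.2)) (h0 : ∀ a, H a 0 = f (j a)) :
    ∃ G : X → I → T, Continuous (fun p : X × I => G p.1 p.2) ∧ (∀ x, G x 0 = f x) ∧
      ∀ a t, G (j a) t = H a t := by
  classical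
  let H' : X → I → T := fun x t => if hx : ∃ a, j a = x then H hx.choose t else f x
  have hH' : ∀ a t, H' (j a) t = H a t := by
    intro a t
    have hx : ∃ a', j a' = j a := ⟨a, rfl⟩
    have : H' (j a) t = H hx.choose t := dif_pos hx
    rw [this, hj.injective hx.choose_spec]
  have hc : ContinuousOn (Function.uncurry H') ((range j) ×ˢ (univ : Set I)) := by
    have he : IsEmbedding (Prod.map j (id : I → I)) := hj.isEmbedding.prodMap IsEmbedding.id
    have hr : (range j) ×ˢ (univ : Set I) = range (Prod.map j (id : I → I)) := by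
      rw [range_prodMap, range_id]
    rw [hr, continuousOn_range_iff he]
    have : Function.uncurry H' ∘ Prod.map j (id : I → I) = fun p : A × I => H p.1 p.2 := by
      funext p
      exact hH' p.1 p.2
    rw [this]
    exact hH
  obtain ⟨G, hG, G0, GA⟩ := hep hT hj.isClosed_range hf hc (by
    rintro _ ⟨a, rfl⟩
    rw [hH', h0])
  refine ⟨G, hG, G0, fun a t => ?_⟩
  rw [GA _ (mem_range_self a), hH']

/-! ## open-closed decompositions -/

/-- open-closed decomposition -/
structure OC {F : Type u} {U : Type v} {O : Type w} [TopologicalSpace F] [TopologicalSpace U]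
    [TopologicalSpace O] (i : F → U) (e : O → U) : Prop where
  ci : IsClosedEmbedding i
  oe : IsOpenEmbedding e
  compl : range e = (range i)ᶜ

namespace OC

variable {F : Type u} {U : Type v} {O : Type w} {V : Type x}
variable [TopologicalSpace F] [TopologicalSpace U] [TopologicalSpace O] [TopologicalSpace V]
variable {i : F → U} {e : O → U}

/-- the standard pair of a closed set -/
theorem of_isClosed {A : Set U} (hA : IsClosed A) :
    OC ((↑) : A → U) ((↑) : (Aᶜ : Set U) → U) where
  ci := hA.isClosedEmbedding_subtypeVal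
  oe := hA.isOpen_compl.isOpenEmbedding_subtypeVal
  compl := by rw [Subtype.range_coe, Subtype.range_coe]

/-- inclusion `F⁺ → U⁺` -/
def incl (h : OC i e) : PMap F U := PMap.ofClosed i h.ci

@[simp] theorem incl_coe (h : OC i e) (a : F) : h.incl a = (i a : OnePoint U) := rfl

theorem injective_incl (h : OC i e) : Function.Injective h.incl := by
  intro a b hab
  induction a using OnePoint.rec with
  | infty =>
    induction b using OnePoint.rec with
    | infty => rfl
    | coe b => exact absurd hab.symm (coe_ne_infty _)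
  | coe a =>
    induction b using OnePoint.rec with
    | infty => exact absurd hab (coe_ne_infty _)
    | coe b => rw [h.ci.injective (coe_injective hab)]

section T2U

variable [T2Space U]

/-- collapse `U⁺ → O⁺` -/
noncomputable def coll (h : OC i e) : PMap U O := PMap.ofOpen e h.oe

theorem coll_e (h : OC i e) (y : O) : h.coll (e y : OnePoint U) = y := PMap.ofOpen_coe e h.oe y

theorem coll_i (h : OC i e) (a : F) : h.coll (i a : OnePoint U) = ∞ :=
  PMap.ofOpen_of_notMem e h.oe (by
    rw [h.compl]
    exact fun hn => hn (mem_range_self a))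

@[simp] theorem coll_incl (h : OC i e) (a : OnePoint F) : h.coll (h.incl a) = ∞ := by
  induction a using OnePoint.rec with
  | infty => simp
  | coe a => exact h.coll_i a

theorem coll_comp_incl (h : OC i e) : h.coll.comp h.incl = PMap.zero F O :=
  PMap.ext fun a => h.coll_incl a

/-- points of `U⁺` -/
theorem cases (h : OC i e) {P : OnePoint U → Prop} (h1 : ∀ a, P (h.incl a))
    (h2 : ∀ y, P (e y : OnePoint U)) (z : OnePoint U) : P z := by
  induction z using OnePoint.rec with
  | infty => simpa using h1 ∞
  | coe z =>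
    by_cases hz : z ∈ range i
    · obtain ⟨a, rfl⟩ := hz
      exact h1 a
    · have : z ∈ range e := by rw [h.compl]; exact hz
      obtain ⟨y, rfl⟩ := this
      exact h2 y

theorem coll_surjective (h : OC i e) : Function.Surjective h.coll := by
  intro y
  induction y using OnePoint.rec with
  | infty => exact ⟨∞, h.coll.map_inf⟩
  | coe y => exact ⟨_, h.coll_e y⟩

theorem eq_of_coll_eq (h : OC i e) {Z : Sort*} {g : OnePoint U → Z} (z0 : Z)
    (hg : ∀ a, g (h.incl a) = z0) {x y : OnePoint U} (hxy : h.coll x = h.coll y) : g x = g y := by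
  have key : ∀ x y : OnePoint U, h.coll x = h.coll y → g x = g y := by
    refine h.cases (fun a => h.cases (fun b _ => ?_) (fun y hy => ?_))
      (fun y => h.cases (fun b hy => ?_) (fun y' hy => ?_))
    · rw [hg, hg]
    · rw [coll_incl, coll_e] at hy
      exact absurd hy.symm (coe_ne_infty _)
    · rw [coll_incl, coll_e] at hy
      exact absurd hy (coe_ne_infty _)
    · rw [coll_e, coll_e] at hy
      rw [coe_injective hy]
  exact key x y hxy

end T2U

section main

variable [T2Space F] [T2Space U] [T2Space O] [LocallyCompactSpace F] [LocallyCompactSpace U]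
  [LocallyCompactSpace O] [T2Space V]

theorem isClosedEmbedding_incl (h : OC i e) : IsClosedEmbedding h.incl :=
  h.incl.cont.isClosedEmbedding h.injective_incl

/-- **(X1)** middle exactness for sphere targets -/
theorem exists_coll (hT : NE.{v} (OnePoint V)) (h : OC i e) (g : PMap U V)
    (hg : (g.comp h.incl).Null) : ∃ g' : PMap O V, g.Homotopic (g'.comp h.coll) := by
  obtain ⟨K, hK, K0, K1, Ki⟩ := hg.exists
  obtain ⟨G, hG, G0, GA⟩ := hepE hT h.isClosedEmbedding_incl g.cont
    (H := fun a t => K (t, a)) (hK.comp (continuous_snd.prodMk continuous_fst)) (fun a => K0 a)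
  have Gi : ∀ t, G ∞ t = ∞ := by
    intro t
    have := GA ∞ t
    rw [h.incl.map_inf] at this
    rw [this, Ki]
  let g1 : PMap U V := ⟨fun x => G x 1, hG.comp (continuous_id.prodMk continuous_const), Gi 1⟩
  obtain ⟨g', hg'⟩ := PMap.exists_factor h.coll h.coll_surjective g1
    (fun x y hxy => h.eq_of_coll_eq (∞ : OnePoint V) (g := g1) (fun a => by
      change G (h.incl a) 1 = ∞
      rw [GA, K1]; rfl) hxy)
  refine ⟨g', ?_⟩
  rw [hg']
  exact PMap.Homotopic.of (fun p => G p.2 p.1) (hG.comp (continuous_snd.prodMk continuous_fst))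
    (fun x => G0 x) (fun x => rfl) (fun t => Gi t)

/-- **(X2)** injectivity of the collapse of a contractible closed subspace -/
theorem collapse_inj (hT : NE.{v} (OnePoint V)) (h : OC i e) (hF : (PMap.id F).Null)
    {g₀ g₁ : PMap O V} (hg : (g₀.comp h.coll).Homotopic (g₁.comp h.coll)) :
    g₀.Homotopic g₁ := by
  classical
  obtain ⟨H, hH, H0, H1, Hi⟩ := hg.exists
  obtain ⟨K, hK, K0, K1, Ki⟩ := hF.exists
  let X := I × OnePoint U
  let A1 : Set X := univ ×ˢ range h.incl
  let A2 : Set X := ({0, 1} : Set I) ×ˢ univ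
  have hA1 : IsClosed A1 := isClosed_univ.prod h.isClosedEmbedding_incl.isClosed_range
  have hA2 : IsClosed A2 := (Set.toFinite _).isClosed.prod isClosed_univ
  let L : X → I → OnePoint V := fun p s =>
    if hx : ∃ a, h.incl a = p.2 then H (p.1, h.incl (K (s, hx.choose))) else H p
  have hL1 : ∀ (t : I) (a : OnePoint F) (s : I), L (t, h.incl a) s = H (t, h.incl (K (s, a))) := by
    intro t a s
    have hx : ∃ a', h.incl a' = h.incl a := ⟨a, rfl⟩
    have : L (t, h.incl a) s = H (t, h.incl (K (s, hx.choose))) := dif_pos hx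
    rw [this, h.injective_incl hx.choose_spec]
  have hend : ∀ (t : I), t ∈ ({0, 1} : Set I) → ∀ a, H (t, h.incl a) = ∞ := by
    intro t ht a
    rcases ht with rfl | ht
    · rw [H0]; simp
    · rw [mem_singleton_iff] at ht
      subst ht
      rw [H1]; simp
  have hL2 : ∀ (t : I), t ∈ ({0, 1} : Set I) → ∀ x s, L (t, x) s = H (t, x) := by
    intro t ht x s
    by_cases hx : ∃ a, h.incl a = x
    · obtain ⟨a, rfl⟩ := hx
      rw [hL1, hend t ht, hend t ht]
    · exact dif_neg hx
  have hLc : ContinuousOn (Function.uncurry L) ((A1 ∪ A2) ×ˢ (univ : Set I)) := by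
    rw [union_prod]
    refine ContinuousOn.union_of_isClosed ?_ ?_ (hA1.prod isClosed_univ) (hA2.prod isClosed_univ)
    · let J : (I × OnePoint F) × I → X × I := Prod.map (Prod.map id h.incl) id
      have hJ : IsEmbedding J :=
        (IsEmbedding.id.prodMap h.isClosedEmbedding_incl.isEmbedding).prodMap IsEmbedding.id
      have hr : A1 ×ˢ (univ : Set I) = range J := by
        have e1 : range J = range (Prod.map (id : I → I) h.incl) ×ˢ range (id : I → I) :=
          range_prodMap
        rw [e1, range_prodMap, range_id]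
      rw [hr, continuousOn_range_iff hJ]
      have : Function.uncurry L ∘ J = fun p : (I × OnePoint F) × I =>
          H (p.1.1, h.incl (K (p.2, p.1.2))) := by
        funext p
        exact hL1 p.1.1 p.1.2 p.2
      rw [this]
      exact hH.comp (Continuous.prodMk (by fun_prop)
        (h.incl.cont.comp (hK.comp (by fun_prop))))
    · refine ContinuousOn.congr (f := fun p : X × I => H p.1) (hH.comp continuous_fst).continuousOn ?_
      rintro ⟨⟨t, x⟩, s⟩ ⟨⟨ht, _⟩, _⟩
      exact hL2 t ht x s
  have h0 : ∀ p ∈ A1 ∪ A2, L p 0 = H p := by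
    rintro ⟨t, x⟩ (⟨_, ⟨a, rfl⟩⟩ | ⟨ht, _⟩)
    · rw [hL1, K0]; rfl
    · exact hL2 t ht x 0
  obtain ⟨G, hG, G0, GA⟩ := hep hT (hA1.union hA2) hH hLc h0
  let N : I × OnePoint U → OnePoint V := fun p => G p 1
  have hN : Continuous N := hG.comp (continuous_id.prodMk continuous_const)
  have N0 : ∀ x, N (0, x) = g₀.comp h.coll x := fun x => by
    change G (0, x) 1 = _
    rw [GA _ (Or.inr ⟨by simp, mem_univ _⟩), hL2 0 (by simp), H0]
  have N1 : ∀ x, N (1, x) = g₁.comp h.coll x := fun x => by
    change G (1, x) 1 = _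
    rw [GA _ (Or.inr ⟨by simp, mem_univ _⟩), hL2 1 (by simp), H1]
  have NF : ∀ t a, N (t, h.incl a) = ∞ := fun t a => by
    change G (t, h.incl a) 1 = _
    rw [GA _ (Or.inl ⟨mem_univ _, mem_range_self a⟩), hL1, K1]
    change H (t, h.incl ∞) = ∞
    rw [h.incl.map_inf, Hi]
  -- descend
  let s : OnePoint O → OnePoint U := fun y => (h.coll_surjective y).choose
  have hs : ∀ y, h.coll (s y) = y := fun y => (h.coll_surjective y).choose_spec
  let M : I × OnePoint O → OnePoint V := fun p => N (p.1, s p.2)
  have hMN : ∀ t x, M (t, h.coll x) = N (t, x) := fun t x =>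
    h.eq_of_coll_eq (∞ : OnePoint V) (g := fun z => N (t, z)) (fun a => NF t a) (hs _)
  have hM : Continuous M := by
    have hq : IsQuotientMap (Prod.map (id : I → I) h.coll) := by
      have hc : Continuous (Prod.map (id : I → I) h.coll) := continuous_id.prodMap h.coll.cont
      exact hc.isClosedMap.isQuotientMap hc (Function.surjective_id.prodMap h.coll_surjective)
    rw [hq.continuous_iff]
    have : M ∘ Prod.map (id : I → I) h.coll = N := by
      funext p
      exact hMN p.1 p.2
    rw [this]
    exact hN
  refine PMap.Homotopic.of M hM ?_ ?_ ?_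
  · intro y
    change N (0, s y) = g₀ y
    rw [N0]
    change g₀ (h.coll (s y)) = _
    rw [hs]
  · intro y
    change N (1, s y) = g₁ y
    rw [N1]
    change g₁ (h.coll (s y)) = _
    rw [hs]
  · intro t
    have := hMN t ∞
    rw [h.coll.map_inf] at this
    rw [this]
    have := NF t ∞
    rwa [h.incl.map_inf] at this

/-- surjectivity of the collapse of a contractible closed subspace -/
theorem collapse_surj (hT : NE.{v} (OnePoint V)) (h : OC i e) (hF : (PMap.id F).Null)
    (g : PMap U V) : ∃ g' : PMap O V, g.Homotopic (g'.comp h.coll) :=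
  h.exists_coll hT g (by
    have := hF.comp_left (g.comp h.incl)
    rwa [PMap.comp_id] at this)

end main

/-! ### stability under products -/

section prod

variable {W : Type w'} [TopologicalSpace W]

theorem prodRight (h : OC i e) (W : Type w') [TopologicalSpace W] :
    OC (Prod.map i (id : W → W)) (Prod.map e (id : W → W)) where
  ci := h.ci.prodMap IsClosedEmbedding.id
  oe := h.oe.prodMap IsOpenEmbedding.id
  compl := by
    rw [range_prodMap, range_prodMap, range_id, h.compl]
    ext p
    simp

theorem prodLeft (h : OC i e) (W : Type w') [TopologicalSpace W] :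
    OC (Prod.map (id : W → W) i) (Prod.map (id : W → W) e) where
  ci := IsClosedEmbedding.id.prodMap h.ci
  oe := IsOpenEmbedding.id.prodMap h.oe
  compl := by
    rw [range_prodMap, range_prodMap, range_id, h.compl]
    ext p
    simp

variable [T2Space F] [T2Space U] [T2Space O] [LocallyCompactSpace F] [LocallyCompactSpace U]
  [LocallyCompactSpace O] [T2Space W] [LocallyCompactSpace W]

theorem prodRight_incl (h : OC i e) : (h.prodRight W).incl = h.incl.smash (PMap.id W) :=
  PMap.ext fun _ => rfl

theorem prodLeft_incl (h : OC i e) : (h.prodLeft W).incl = (PMap.id W).smash h.incl :=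
  PMap.ext fun _ => rfl

theorem prodRight_coll (h : OC i e) : (h.prodRight W).coll = h.coll.smash (PMap.id W) := by
  refine PMap.ext fun p => ?_
  refine (h.prodRight W).cases (P := fun z => (h.prodRight W).coll z = h.coll.smash (PMap.id W) z)
    ?_ ?_ (p : OnePoint (U × W))
  · intro a
    rw [coll_incl]
    induction a using OnePoint.rec with
    | infty => simp
    | coe a =>
      obtain ⟨a, b⟩ := a
      change _ = h.coll.smash (PMap.id W) ((i a, b) : U × W)
      rw [PMap.smash_coe, h.coll_i, sm_inf_left]
  · rintro ⟨y, b⟩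
    rw [coll_e]
    change _ = h.coll.smash (PMap.id W) ((e y, b) : U × W)
    rw [PMap.smash_coe, h.coll_e]
    rfl

theorem prodLeft_coll (h : OC i e) : (h.prodLeft W).coll = (PMap.id W).smash h.coll := by
  refine PMap.ext fun p => ?_
  refine (h.prodLeft W).cases (P := fun z => (h.prodLeft W).coll z = (PMap.id W).smash h.coll z)
    ?_ ?_ (p : OnePoint (W × U))
  · intro a
    rw [coll_incl]
    induction a using OnePoint.rec with
    | infty => simp
    | coe a =>
      obtain ⟨b, a⟩ := a
      change _ = (PMap.id W).smash h.coll ((b, i a) : W × U)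
      rw [PMap.smash_coe, h.coll_i, sm_inf_right]
  · rintro ⟨b, y⟩
    rw [coll_e]
    change _ = (PMap.id W).smash h.coll ((b, e y) : W × U)
    rw [PMap.smash_coe, h.coll_e]
    rfl

end prod

/-! ### the mapping cone of the inclusion -/

section cone

variable [T2Space F] [T2Space U] [T2Space O] [LocallyCompactSpace F] [LocallyCompactSpace U]
  [LocallyCompactSpace O] [T2Space V]

/-- `F × Ic → MC incl` -/
noncomputable def ic (h : OC i e) : F × Ic → MC h.incl := fun p =>
  if ht : (p.2 : ℝ) < 1 then MC.inl (p.1, ⟨p.2, p.2.2.1, ht⟩) else MC.inr (i p.1)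

/-- `O → MC incl` -/
def ec (h : OC i e) : O → MC h.incl := fun y => MC.inr (e y)

theorem ic_eq_q (h : OC i e) (p : F × Ic) :
    (h.ic p : OnePoint (MC h.incl)) = MC.q h.incl p.1 p.2 := by
  obtain ⟨a, t, ht0, ht1⟩ := p
  by_cases ht : t < 1
  · rw [MC.q_of_mem h.incl a ⟨ht0, ht⟩]
    change (h.ic (a, ⟨t, ht0, ht1⟩) : OnePoint (MC h.incl)) = _
    rw [ic, dif_pos ht]
  · rw [MC.q_of_ge h.incl a (not_lt.1 ht)]
    change (h.ic (a, ⟨t, ht0, ht1⟩) : OnePoint (MC h.incl)) = _
    rw [ic, dif_neg ht]
    rfl

end cone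

end OC

/-- the value of the cone coordinate in `[0,1]` -/
noncomputable def valC (b : OnePoint Ic) : ℝ := b.elim 0 fun t => (t : ℝ)

@[simp] theorem valC_inf : valC ∞ = 0 := rfl
@[simp] theorem valC_coe (t : Ic) : valC t = t := rfl

theorem valC_mem (b : OnePoint Ic) : valC b ∈ Icc (0 : ℝ) 1 := by
  induction b using OnePoint.rec with
  | infty => exact ⟨le_rfl, zero_le_one⟩
  | coe t => exact ⟨t.2.1.le, t.2.2⟩

theorem valC_qC (t : I) : valC (qC t) = t := by
  rcases eq_or_lt_of_le t.2.1 with h | h
  · rw [← h, qC_zero]; rfl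
  · rw [qC_of_mem (mem_Ioc.2 ⟨h, t.2.2⟩)]; rfl

@[simp] theorem qC_valC (b : OnePoint Ic) : qC (valC b) = b := by
  induction b using OnePoint.rec with
  | infty => simp
  | coe t => simp

@[fun_prop] theorem continuous_valC : Continuous valC := by
  have hc : Continuous (fun t : I => qC t) := continuous_qC.comp continuous_subtype_val
  have hs : Function.Surjective (fun t : I => qC t) := qC_surjective
  rw [(hc.isClosedMap.isQuotientMap hc hs).continuous_iff]
  have : valC ∘ (fun t : I => qC t) = fun t : I => (t : ℝ) := funext valC_qC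
  rw [this]
  exact continuous_subtype_val

/-- `Ic` is contractible -/
theorem null_Ic : (PMap.id Ic).Null := by
  refine PMap.Homotopic.of (fun p => qC (valC p.2 * (1 - p.1))) ?_ ?_ ?_ ?_
  · exact continuous_qC.comp (by fun_prop)
  · intro t
    change qC (valC t * (1 - ((0 : I) : ℝ))) = _
    rw [Set.Icc.coe_zero, sub_zero, mul_one, qC_valC]; rfl
  · intro t
    change qC (valC t * (1 - ((1 : I) : ℝ))) = _
    rw [Set.Icc.coe_one, sub_self, mul_zero, qC_zero]; rfl
  · intro t
    change qC (valC ∞ * (1 - (t : ℝ))) = _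
    rw [valC_inf, zero_mul, qC_zero]

/-- `F × Ic` is contractible -/
theorem null_cone (F : Type u) [TopologicalSpace F] [T2Space F] [LocallyCompactSpace F] :
    (PMap.id (F × Ic)).Null := by
  rw [← PMap.smash_id]
  exact PMap.Null.smash_right _ null_Ic

namespace OC

variable {F : Type u} {U : Type v} {O : Type w} {V : Type x}
variable [TopologicalSpace F] [TopologicalSpace U] [TopologicalSpace O] [TopologicalSpace V]
variable {i : F → U} {e : O → U}

section cone

variable [T2Space F] [T2Space U] [T2Space O] [LocallyCompactSpace F] [LocallyCompactSpace U]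
  [LocallyCompactSpace O] [T2Space V]

/-- the cone as a pointed map -/
noncomputable def coneMap (h : OC i e) : PMap (F × Ic) (MC h.incl) where
  toFun z := z.elim ∞ fun p => (h.ic p : OnePoint (MC h.incl))
  cont := by
    refine continuous_of_sm ?_
    have : (fun p : OnePoint F × OnePoint Ic => (sm p.1 p.2).elim ∞ fun p =>
        (h.ic p : OnePoint (MC h.incl))) = fun p => MC.q h.incl p.1 (valC p.2) := by
      funext p
      obtain ⟨a, b⟩ := p
      induction a using OnePoint.rec with
      | infty => simp
      | coe a =>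
        induction b using OnePoint.rec with
        | infty => simp
        | coe b => exact h.ic_eq_q (a, b)
    rw [this]
    exact (MC.continuous_q h.incl).comp
      (continuous_fst.prodMk (continuous_valC.comp continuous_snd))
  map_inf := rfl

@[simp] theorem coneMap_coe (h : OC i e) (p : F × Ic) :
    h.coneMap p = (h.ic p : OnePoint (MC h.incl)) := rfl

theorem ic_injective (h : OC i e) : Function.Injective h.ic := by
  rintro ⟨a, t⟩ ⟨b, s⟩ hab
  unfold ic at hab
  split_ifs at hab with h1 h2 h2
  · simp only [MC.inl.injEq, Prod.mk.injEq] at hab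
    obtain ⟨h3, h4⟩ := hab
    exact Prod.ext h3 (Subtype.ext (congrArg (fun z : Io => (z : ℝ)) h4))
  · simp only [MC.inr.injEq] at hab
    have ht : (t : ℝ) = 1 := le_antisymm t.2.2 (not_lt.1 h1)
    have hs : (s : ℝ) = 1 := le_antisymm s.2.2 (not_lt.1 h2)
    exact Prod.ext (h.ci.injective hab) (Subtype.ext (ht.trans hs.symm))

theorem isClosedEmbedding_ic (h : OC i e) : IsClosedEmbedding h.ic := by
  have h1 : IsClosedEmbedding h.coneMap := h.coneMap.cont.isClosedEmbedding (by
    intro a b hab
    induction a using OnePoint.rec with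
    | infty =>
      induction b using OnePoint.rec with
      | infty => rfl
      | coe b => exact absurd hab.symm (coe_ne_infty _)
    | coe a =>
      induction b using OnePoint.rec with
      | infty => exact absurd hab (coe_ne_infty _)
      | coe b => rw [h.ic_injective (coe_injective hab)])
  have h2 : IsEmbedding (((↑) : MC h.incl → OnePoint (MC h.incl)) ∘ h.ic) := by
    have : ((↑) : MC h.incl → OnePoint (MC h.incl)) ∘ h.ic = h.coneMap ∘ ((↑) : F × Ic → _) := rfl
    rw [this]
    exact h1.isEmbedding.comp isOpenEmbedding_coe.isEmbedding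
  have h3 : IsEmbedding h.ic := isOpenEmbedding_coe.isEmbedding.of_comp_iff.1 h2
  refine ⟨h3, ?_⟩
  have h4 : range h.ic = ((↑) : MC h.incl → OnePoint (MC h.incl)) ⁻¹' (range h.coneMap) := by
    ext z
    constructor
    · rintro ⟨p, rfl⟩
      exact ⟨p, rfl⟩
    · rintro ⟨p, hp⟩
      induction p using OnePoint.rec with
      | infty => exact absurd hp.symm (coe_ne_infty _)
      | coe p => exact ⟨p, coe_injective hp⟩
  rw [h4]
  exact h1.isClosed_range.preimage continuous_coe

theorem range_ec (h : OC i e) : range h.ec = (range h.ic)ᶜ := by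
  ext z
  constructor
  · rintro ⟨y, rfl⟩ ⟨⟨a, t⟩, hp⟩
    unfold ic ec at hp
    split_ifs at hp
    · simp only [MC.inr.injEq] at hp
      have : e y ∈ (range i)ᶜ := by rw [← h.compl]; exact mem_range_self y
      exact this ⟨a, hp⟩
  · intro hz
    rcases z with ⟨a, t⟩ | y
    · exfalso
      apply hz
      refine ⟨(a, ⟨t, t.2.1, t.2.2.le⟩), ?_⟩
      rw [ic, dif_pos t.2.2]
    · have : y ∉ range i := by
        rintro ⟨a, rfl⟩
        apply hz
        refine ⟨(a, one'), ?_⟩
        rw [ic, dif_neg (by simp [one'])]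
      rw [← mem_compl_iff, ← h.compl] at this
      obtain ⟨y, rfl⟩ := this
      exact ⟨y, rfl⟩

theorem isEmbedding_inr (f : PMap F U) : IsEmbedding (MC.inr : U → MC f) := by
  have h1 : Function.Injective (MC.i f) := by
    intro a b hab
    induction a using OnePoint.rec with
    | infty =>
      induction b using OnePoint.rec with
      | infty => rfl
      | coe b => exact absurd hab.symm (coe_ne_infty _)
    | coe a =>
      induction b using OnePoint.rec with
      | infty => exact absurd hab (coe_ne_infty _)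
      | coe b =>
        have := coe_injective hab
        rw [MC.inr.injEq] at this
        rw [this]
  have h2 : IsClosedEmbedding (MC.i f) := (MC.i f).cont.isClosedEmbedding h1
  have h3 : IsEmbedding (((↑) : MC f → OnePoint (MC f)) ∘ (MC.inr : U → MC f)) := by
    have : ((↑) : MC f → OnePoint (MC f)) ∘ (MC.inr : U → MC f) =
        MC.i f ∘ ((↑) : U → OnePoint U) := rfl
    rw [this]
    exact h2.isEmbedding.comp isOpenEmbedding_coe.isEmbedding
  exact isOpenEmbedding_coe.isEmbedding.of_comp_iff.1 h3

/-- **(X3)** `F × Ic → MC incl ← O` -/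
theorem cone (h : OC i e) : OC h.ic h.ec where
  ci := h.isClosedEmbedding_ic
  oe := by
    refine ⟨(isEmbedding_inr h.incl).comp h.oe.isEmbedding, ?_⟩
    change IsOpen (range h.ec)
    rw [h.range_ec]
    exact h.isClosedEmbedding_ic.isClosed_range.isOpen_compl
  compl := h.range_ec

/-- the collapse `MC incl → O` of the cone -/
noncomputable def c (h : OC i e) : PMap (MC h.incl) O := h.cone.coll

theorem c_i (h : OC i e) (x : OnePoint U) : h.c (MC.i h.incl x) = h.coll x := by
  revert x
  refine h.cases ?_ ?_
  · intro a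
    rw [coll_incl]
    have : MC.i h.incl (h.incl a) = h.cone.incl (sm a (one' : OnePoint Ic)) := by
      induction a using OnePoint.rec with
      | infty => simp
      | coe a =>
        change _ = ((h.ic (a, one') : MC h.incl) : OnePoint (MC h.incl))
        rw [h.ic_eq_q]
        change _ = MC.q h.incl a ((one' : Ic) : ℝ)
        rw [show ((one' : Ic) : ℝ) = 1 from rfl, MC.q_one]
    rw [this]
    exact h.cone.coll_incl _
  · intro y
    rw [coll_e]
    exact h.cone.coll_e y

theorem c_comp_i (h : OC i e) : h.c.comp (MC.i h.incl) = h.coll := PMap.ext fun x => h.c_i x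

theorem c_q (h : OC i e) (a : OnePoint F) {t : ℝ} (ht : t ∈ Icc (0 : ℝ) 1) :
    h.c (MC.q h.incl a t) = ∞ := by
  have : MC.q h.incl a t = h.cone.incl (sm a (qC t)) := by
    rcases eq_or_lt_of_le ht.1 with h0 | h0
    · rw [← h0]; simp
    · induction a using OnePoint.rec with
      | infty => simp
      | coe a =>
        rw [qC_of_mem ⟨h0, ht.2⟩]
        exact (h.ic_eq_q (a, ⟨t, h0, ht.2⟩)).symm
  rw [this]
  exact h.cone.coll_incl _

theorem c_inj (hT : NE.{max u v} (OnePoint V)) (h : OC i e) {g₀ g₁ : PMap O V}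
    (hg : (g₀.comp h.c).Homotopic (g₁.comp h.c)) : g₀.Homotopic g₁ :=
  h.cone.collapse_inj hT (null_cone F) hg

theorem c_surj (hT : NE.{max u v} (OnePoint V)) (h : OC i e) (g : PMap (MC h.incl) V) :
    ∃ g' : PMap O V, g.Homotopic (g'.comp h.c) :=
  h.cone.collapse_surj hT (null_cone F) g

/-- **(X4)** connecting exactness -/
theorem exists_delta (h : OC i e) (y : PMap O V) (hy : (y.comp h.coll).Null) :
    ∃ w : PMap (F × Io) V, (y.comp h.c).Homotopic (w.comp (MC.p h.incl)) := by
  refine MC.exists_p h.incl (y.comp h.c) ?_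
  have : (y.comp h.c).comp (MC.i h.incl) = y.comp h.coll := by
    rw [PMap.comp_assoc, c_comp_i]
  rw [this]
  exact hy

end cone

end OC

/-! ## strict maps of pairs -/

section map

variable {F : Type u} {U : Type v} {O : Type w}
variable [TopologicalSpace F] [TopologicalSpace U] [TopologicalSpace O]
variable {i : F → U} {e : O → U}
variable {F' : Type u'} {U' : Type v'} {O' : Type w'}
variable [TopologicalSpace F'] [TopologicalSpace U'] [TopologicalSpace O']
variable {i' : F' → U'} {e' : O' → U'}
variable [T2Space F] [T2Space U] [T2Space O] [LocallyCompactSpace F] [LocallyCompactSpace U]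
  [LocallyCompactSpace O]
variable [T2Space F'] [T2Space U'] [T2Space O'] [LocallyCompactSpace F'] [LocallyCompactSpace U']
  [LocallyCompactSpace O']

/-- functoriality of mapping cones for strict squares -/
noncomputable def mcMap {f : PMap F U} {f' : PMap F' U'} (φ : PMap F F') (ψ : PMap U U')
    (hsq : ψ.comp f = f'.comp φ) : PMap (MC f) (MC f') :=
  MC.desc f ((MC.i f').comp ψ) (fun a t => MC.q f' (φ a) t)
    ((MC.continuous_q f').comp ((φ.cont.comp continuous_fst).prodMk
      (continuous_subtype_val.comp continuous_snd)))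
    (fun t => by simp) (fun a => by simp)
    (fun a => by
      rw [MC.q_one]
      change MC.i f' (f'.comp φ a) = MC.i f' (ψ (f a))
      rw [← hsq]; rfl)

theorem mcMap_i {f : PMap F U} {f' : PMap F' U'} (φ : PMap F F') (ψ : PMap U U')
    (hsq : ψ.comp f = f'.comp φ) (y : OnePoint U) :
    mcMap φ ψ hsq (MC.i f y) = MC.i f' (ψ y) := MC.desc_i _ _ _ _ _ _ _ _

theorem mcMap_q {f : PMap F U} {f' : PMap F' U'} (φ : PMap F F') (ψ : PMap U U')
    (hsq : ψ.comp f = f'.comp φ) (a : OnePoint F) {t : ℝ} (ht : t ∈ Icc (0 : ℝ) 1) :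
    mcMap φ ψ hsq (MC.q f a t) = MC.q f' (φ a) t := MC.desc_q _ _ _ _ _ _ _ _ ht

theorem mcMap_comp_i {f : PMap F U} {f' : PMap F' U'} (φ : PMap F F') (ψ : PMap U U')
    (hsq : ψ.comp f = f'.comp φ) :
    (mcMap φ ψ hsq).comp (MC.i f) = (MC.i f').comp ψ := PMap.ext fun y => mcMap_i φ ψ hsq y

theorem p_comp_mcMap {f : PMap F U} {f' : PMap F' U'} (φ : PMap F F') (ψ : PMap U U')
    (hsq : ψ.comp f = f'.comp φ) :
    (MC.p f').comp (mcMap φ ψ hsq) = (φ.smash (PMap.id Io)).comp (MC.p f) := by
  refine PMap.ext fun z => ?_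
  refine MC.cases f (P := fun z => (MC.p f').comp (mcMap φ ψ hsq) z =
    (φ.smash (PMap.id Io)).comp (MC.p f) z) ?_ ?_ (z : OnePoint (MC f))
  · intro a t ht
    change MC.p f' (mcMap φ ψ hsq (MC.q f a t)) = φ.smash (PMap.id Io) (MC.p f (MC.q f a t))
    rw [mcMap_q _ _ _ _ ht, MC.p_q, MC.p_q, PMap.smash_sm]
    rfl
  · intro y
    change MC.p f' (mcMap φ ψ hsq (MC.i f y)) = φ.smash (PMap.id Io) (MC.p f (MC.i f y))
    rw [mcMap_i, MC.p_i, MC.p_i, PMap.map_inf]

/-- naturality of the collapse `c` -/
theorem OC.c_comp_mcMap (h : OC i e) (h' : OC i' e') (φ : PMap F F') (ψ : PMap U U')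
    (χ : PMap O O') (hsq : ψ.comp h.incl = h'.incl.comp φ)
    (hsq' : h'.coll.comp ψ = χ.comp h.coll) :
    h'.c.comp (mcMap φ ψ hsq) = χ.comp h.c := by
  refine PMap.ext fun z => ?_
  refine MC.cases h.incl (P := fun z => h'.c.comp (mcMap φ ψ hsq) z =
    χ.comp h.c z) ?_ ?_ (z : OnePoint (MC h.incl))
  · intro a t ht
    change h'.c (mcMap φ ψ hsq (MC.q h.incl a t)) = χ (h.c (MC.q h.incl a t))
    rw [mcMap_q _ _ _ _ ht, h'.c_q _ ht, h.c_q _ ht, PMap.map_inf]
  · intro y
    change h'.c (mcMap φ ψ hsq (MC.i h.incl y)) = χ (h.c (MC.i h.incl y))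
    rw [mcMap_i, h'.c_i, h.c_i]
    exact congrArg (fun k : PMap U O' => k y) hsq'

/-- the open part of a strict map of pairs: a map `ψ` with `ψ (F⁺) ⊆ F'⁺` induces `O → O'` -/
theorem OC.exists_open (h : OC i e) (h' : OC i' e') (φ : PMap F F') (ψ : PMap U U')
    (hsq : ψ.comp h.incl = h'.incl.comp φ) :
    ∃ χ : PMap O O', χ.comp h.coll = h'.coll.comp ψ := by
  refine PMap.exists_factor h.coll h.coll_surjective (h'.coll.comp ψ) ?_
  intro x y hxy
  refine h.eq_of_coll_eq (∞ : OnePoint O') (g := h'.coll.comp ψ) (fun a => ?_) hxy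
  change h'.coll (ψ.comp h.incl a) = ∞
  rw [hsq]
  exact h'.coll_incl _

end map

end Crest.Agent.R090.Exc503
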