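import Crest.Agent.R090.SpineDefs_796
import Crest.Agent.R090.Prod_202
import Crest.Agent.R090.St3_528

/-!
# Row 90, leaf EXTRACT, part 1 (owner helper305): the ideal `I_q(M, Z)` in source form

* `SNull` is a two-sided ideal, closed under `∧ W`;
* `SMono ρ` : precomposition with `ρ ∧ 1_W` is injective on stable maps into spheres;
  `SNull (b ∘ ρ) → SNull b`;
* desuspension `SNull (a ∧ 1_F) → SNull a` for a sphere `F`;
* the same for `IdQ`.
-/

set_option autoImplicit false
set_option linter.unusedSectionVars false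

open Topology Filter Set

namespace Crest.Agent.R090.Ext305

open Crest.Agent.R090.Sp962 Crest.Agent.R090.Grp528 Crest.Agent.R090.St528
open Crest.Agent.R090.Sm202 Crest.Agent.R090.Spine

variable {X X' Y Y' Z W W' T : Type}
variable [TopologicalSpace X] [T2Space X] [LocallyCompactSpace X]
variable [TopologicalSpace X'] [T2Space X'] [LocallyCompactSpace X']
variable [TopologicalSpace Y] [T2Space Y] [LocallyCompactSpace Y]
variable [TopologicalSpace Y'] [T2Space Y'] [LocallyCompactSpace Y']
variable [TopologicalSpace Z] [T2Space Z] [LocallyCompactSpace Z]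
variable [TopologicalSpace W] [T2Space W] [LocallyCompactSpace W]
variable [TopologicalSpace W'] [T2Space W'] [LocallyCompactSpace W']
variable [TopologicalSpace T] [T2Space T] [LocallyCompactSpace T]

/-! ## shuffles -/

theorem tens_eq_prod (a : St X X') (b : St Y Y') : tens a b = a.prod b := (prod_eq' a b).symm

/-- `(a ∧ 1_W) ∧ 1_W' = a ∧ 1_(W × W')` -/
theorem smR_smR (a : St X Y) :
    (a.smR W).smR W' =
      (sh (asC Y W W').symm).comp ((a.smR (W × W')).comp (sh (asC X W W'))) := by
  have h := prod_assoc a (St.id W) (St.id W')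
  rw [prod_id_id, prod_id_right, prod_id_right, prod_id_right] at h
  rw [← h]
  simp only [St.comp_assoc, sh_symm_comp, sh_symm_comp_assoc, St.comp_id]

/-- `((1_W ∧ a) ∧ 1_W') = 1_W ∧ (a ∧ 1_W')` -/
theorem smL_smR (a : St X Y) :
    (a.smL W).smR W' =
      (sh (asC W Y W').symm).comp (((a.smR W').smL W).comp (sh (asC W X W'))) := by
  have h := prod_assoc (St.id W) a (St.id W')
  rw [prod_id_right, prod_id_right, prod_id_left, prod_id_left] at h
  rw [← h]
  simp only [St.comp_assoc, sh_symm_comp, sh_symm_comp_assoc, St.comp_id]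

/-- exchange of the last two factors -/
theorem smR_swR (a : St X Y) :
    (a.smR W).smR W' =
      (sh (swR Y W W').symm).comp (((a.smR W').smR W).comp (sh (swR X W W'))) := by
  rw [smR_smR, smR_smR (W := W') (W' := W), smR_eq_smL (W := W × W'), smR_eq_smL (W := W' × W)]
  have h : a.smL (W' × W) = (sh ((Homeomorph.prodComm W W').prodCongr (Homeomorph.refl Y))).comp
      ((a.smL (W × W')).comp
        (sh ((Homeomorph.prodComm W W').prodCongr (Homeomorph.refl X)).symm)) := by
    have e1 := prod_comp (sh (Homeomorph.prodComm W W')) (sh (Homeomorph.prodComm W W').symm)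
      (St.id Y) a
    have e2 := prod_comp (St.id (W × W')) (sh (Homeomorph.prodComm W W').symm) a (St.id X)
    rw [sh_comp_symm, prod_id_left, St.id_comp] at e1
    rw [St.id_comp, St.comp_id, prod_id_left] at e2
    rw [← sh_refl, prod_sh] at e1 e2
    rw [e1, e2]
    rfl
  rw [h]
  simp only [St.comp_assoc, ← sh_trans]
  simp only [← St.comp_assoc, ← sh_trans]
  rfl

/-! ## null classes on spheres -/

theorem snull_zero : SNull (0 : St X X') := fun T _ _ _ j g => by
  rw [smR_zero, St.comp_zero]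

theorem _root_.Crest.Agent.R090.Spine.SNull.add {a b : St X X'} (ha : SNull a) (hb : SNull b) :
    SNull (a + b) := fun T _ _ _ j g => by
  rw [smR_add, St.comp_add, ha T j g, hb T j g, add_zero]

theorem _root_.Crest.Agent.R090.Spine.SNull.neg {a : St X X'} (ha : SNull a) : SNull (-a) :=
  fun T _ _ _ j g => by
    rw [smR_neg, St.comp_neg, ha T j g, neg_zero]

theorem _root_.Crest.Agent.R090.Spine.SNull.nsmul {a : St X X'} (ha : SNull a) (n : ℕ) :
    SNull (n • a) := fun T _ _ _ j g => by
  rw [smR_nsmul, St.comp_nsmul, ha T j g, smul_zero]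

theorem _root_.Crest.Agent.R090.Spine.SNull.zsmul {a : St X X'} (ha : SNull a) (n : ℤ) :
    SNull (n • a) := fun T _ _ _ j g => by
  rw [smR_zsmul, St.comp_zsmul, ha T j g, smul_zero]

theorem _root_.Crest.Agent.R090.Spine.SNull.comp {a : St X X'} (ha : SNull a) (b : St W X) :
    SNull (a.comp b) := fun T _ _ _ j g => by
  rw [smR_comp, ← St.comp_assoc, ha T j g, St.zero_comp]

theorem _root_.Crest.Agent.R090.Spine.SNull.lcomp {a : St X X'} (ha : SNull a) (b : St X' Y) :
    SNull (b.comp a) := fun T _ _ _ j g => by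
  rw [smR_comp, ← St.comp_assoc, ha T j]

theorem _root_.Crest.Agent.R090.Spine.SNull.smR {a : St X X'} (ha : SNull a) (W : Type)
    [TopologicalSpace W] [T2Space W] [LocallyCompactSpace W] : SNull (a.smR W) :=
  fun T _ _ _ j g => by
    rw [smR_smR, ← St.comp_assoc, ← St.comp_assoc, ha (W × T) j, St.zero_comp]

theorem _root_.Crest.Agent.R090.Spine.SNull.smL {a : St X X'} (ha : SNull a) (W : Type)
    [TopologicalSpace W] [T2Space W] [LocallyCompactSpace W] : SNull (a.smL W) := by
  rw [smL_eq_smR]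
  exact ((ha.smR W).comp _).lcomp _

theorem snull_conj {a : St X Y} {b : St X' Y'} (e : X ≃ₜ X') (e' : Y ≃ₜ Y')
    (h : b = (sh e').comp (a.comp (sh e.symm))) : SNull b ↔ SNull a := by
  constructor
  · intro hb
    have h2 : a = (sh e'.symm).comp (b.comp (sh e)) := by
      rw [h]
      simp only [St.comp_assoc, sh_symm_comp, sh_symm_comp_assoc, St.comp_id]
    rw [h2]
    exact (hb.comp _).lcomp _
  · intro ha
    rw [h]
    exact (ha.comp _).lcomp _

/-- spheres as targets, up to homeomorphism -/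
theorem _root_.Crest.Agent.R090.Spine.SNull.target {a : St X X'} (ha : SNull a) {E : Type}
    [TopologicalSpace E] [T2Space E] [LocallyCompactSpace E] {j : ℕ} (e : E ≃ₜ (Fin j → ℝ))
    (g : St (X' × T) E) : g.comp (a.smR T) = 0 := by
  have h := ha T j ((sh e).comp g)
  have h2 : g = (sh e.symm).comp ((sh e).comp g) := by rw [sh_symm_comp_assoc]
  rw [h2, St.comp_assoc, h, St.comp_zero]

/-! ## desuspension -/

section desusp

variable {E : Type} [NormedAddCommGroup E] [NormedSpace ℂ E] [FiniteDimensional ℂ E]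

/-- `a ∧ 1_E = 0` implies `a = 0` for a finite dimensional complex space `E` -/
theorem smR_eq_zero (a : St X Y) (h : a.smR E = 0) : a = 0 := by
  obtain ⟨n, -, a, rfl⟩ := a.exists_of_ge 0
  rw [smR_of] at h
  obtain ⟨k, hk⟩ := St.of_eq_zero_iff.1 h
  rw [stN_levR] at hk
  have h2 : (stN a k).smash (h1 E) = hzero _ _ := by
    rw [levR] at hk
    refine conj_injective (swR X (Fin (n + k) → ℂ) E) (swR Y (Fin (n + k) → ℂ) E) ?_
    rw [hk, conj_hzero]
  have h3 := lev_smash (F := E) (stN a k)
  rw [h2, conj_hzero, lev_fin_eq_of, St.of_stN] at h3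
  rw [← h3, St.lev, levN, conj_hzero, St.of_zero]

end desusp

/-- real and imaginary parts of the coordinates -/
noncomputable def reIm (k : ℕ) : (Fin k → ℝ) × (Fin k → ℝ) ≃ₜ (Fin k → ℂ) where
  toFun p i := Complex.equivRealProdCLM.symm (p.1 i, p.2 i)
  invFun v := (fun i => (v i).re, fun i => (v i).im)
  left_inv p := by
    refine Prod.ext ?_ ?_ <;> funext i <;> simp
  right_inv v := by
    funext i
    exact Complex.ext (by simp) (by simp)
  continuous_toFun := by fun_prop
  continuous_invFun := by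
    refine Continuous.prodMk ?_ ?_ <;> refine continuous_pi fun i => ?_
    · exact Complex.continuous_re.comp (continuous_apply i)
    · exact Complex.continuous_im.comp (continuous_apply i)

/-- `smR` along a homeomorphic space -/
theorem smR_homeo (a : St X Y) (e : W ≃ₜ W') :
    a.smR W' = (sh ((Homeomorph.refl Y).prodCongr e)).comp
      ((a.smR W).comp (sh ((Homeomorph.refl X).prodCongr e).symm)) := by
  have e1 := prod_comp (St.id Y) a (sh e) (sh e.symm)
  have e2 := prod_comp a (St.id X) (St.id W) (sh e.symm)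
  rw [sh_comp_symm, prod_id_right, St.id_comp] at e1
  rw [St.comp_id, St.id_comp, prod_id_right] at e2
  rw [e1, e2, ← sh_refl, ← sh_refl, prod_sh, prod_sh]
  rfl

/-- **`a ∧ 1_F = 0` implies `a = 0`** for a sphere `F` -/
theorem smR_sphere_eq_zero {k : ℕ} (e : W ≃ₜ (Fin k → ℝ)) (a : St X Y) (h : a.smR W = 0) :
    a = 0 := by
  refine smR_eq_zero (E := Fin k → ℂ) a ?_
  have h1 : (a.smR W).smR W = 0 := by rw [h, smR_zero]
  rw [smR_smR] at h1
  have h2 : a.smR (W × W) = 0 := by
    have : a.smR (W × W) = (sh (asC Y W W)).comp (((sh (asC Y W W).symm).comp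
        ((a.smR (W × W)).comp (sh (asC X W W)))).comp (sh (asC X W W).symm)) := by
      simp only [St.comp_assoc, sh_comp_symm, sh_comp_symm_assoc, St.comp_id]
    rw [this, h1, St.zero_comp, St.comp_zero]
  rw [smR_homeo a ((e.prodCongr e).trans (reIm k)), h2, St.zero_comp, St.comp_zero]

theorem _root_.Crest.Agent.R090.Spine.SNull.of_smR {k : ℕ} (e : W ≃ₜ (Fin k → ℝ)) {a : St X Y}
    (h : SNull (a.smR W)) : SNull a := fun T _ _ _ j g => by
  refine smR_sphere_eq_zero e _ ?_
  rw [smR_comp, smR_swR, ← St.comp_assoc, ← St.comp_assoc,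
    h.target (((Homeomorph.refl _).prodCongr e).trans (Fin.appendHomeomorph j k)), St.zero_comp]

/-! ## injectivity on spheres -/

/-- precomposition with `ρ ∧ 1_W` is injective on stable maps into spheres -/
def SMono (ρ : St X Y) : Prop :=
  ∀ (W : Type) [TopologicalSpace W] [T2Space W] [LocallyCompactSpace W] (m : ℕ)
    (a : St (Y × W) (Fin m → ℝ)), a.comp (ρ.smR W) = 0 → a = 0

theorem SMono.smR {ρ : St X Y} (h : SMono ρ) (W : Type) [TopologicalSpace W] [T2Space W]
    [LocallyCompactSpace W] : SMono (ρ.smR W) := fun W' _ _ _ m a ha => by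
  have h1 : (a.comp (sh (asC Y W W').symm)).comp (ρ.smR (W × W')) = 0 := by
    have : (a.comp (sh (asC Y W W').symm)).comp (ρ.smR (W × W')) =
        (a.comp ((ρ.smR W).smR W')).comp (sh (asC X W W').symm) := by
      rw [smR_smR]
      simp only [St.comp_assoc, sh_comp_symm, St.comp_id]
    rw [this, ha, St.zero_comp]
  have h2 := h (W × W') m _ h1
  have h3 : a = (a.comp (sh (asC Y W W').symm)).comp (sh (asC Y W W')) := by
    rw [St.comp_assoc, sh_symm_comp, St.comp_id]
  rw [h3, h2, St.zero_comp]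

theorem SMono.conj {ρ : St X Y} (h : SMono ρ) (e : X ≃ₜ X') (e' : Y ≃ₜ Y') :
    SMono ((sh e').comp (ρ.comp (sh e.symm))) := fun W _ _ _ m a ha => by
  rw [smR_comp, smR_comp, smR_sh, smR_sh] at ha
  have h1 : (a.comp (sh (e'.prodCongr (Homeomorph.refl W)))).comp (ρ.smR W) = 0 := by
    have : (a.comp (sh (e'.prodCongr (Homeomorph.refl W)))).comp (ρ.smR W) =
        (a.comp ((sh (e'.prodCongr (Homeomorph.refl W))).comp ((ρ.smR W).comp
          (sh (e.symm.prodCongr (Homeomorph.refl W)))))).comp
          (sh (e.prodCongr (Homeomorph.refl W))) := by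
      simp only [St.comp_assoc, ← sh_trans]
      have e3 : (e.prodCongr (Homeomorph.refl W)).trans (e.symm.prodCongr (Homeomorph.refl W)) =
          Homeomorph.refl _ := Homeomorph.ext fun p => by
        obtain ⟨x, w⟩ := p
        exact Prod.ext (e.symm_apply_apply x) rfl
      rw [e3, sh_refl, St.comp_id]
    rw [this, ha, St.zero_comp]
  have h2 := h W m _ h1
  have h3 : a = (a.comp (sh (e'.prodCongr (Homeomorph.refl W)))).comp
      (sh (e'.symm.prodCongr (Homeomorph.refl W))) := by
    rw [St.comp_assoc, ← sh_trans]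
    have e3 : (e'.symm.prodCongr (Homeomorph.refl W)).trans
        (e'.prodCongr (Homeomorph.refl W)) = Homeomorph.refl _ :=
      Homeomorph.ext fun p => by
        obtain ⟨x, w⟩ := p
        exact Prod.ext (e'.apply_symm_apply x) rfl
    rw [e3, sh_refl, St.comp_id]
  rw [h3, h2, St.zero_comp]

theorem SMono.smL {ρ : St X Y} (h : SMono ρ) (W : Type) [TopologicalSpace W] [T2Space W]
    [LocallyCompactSpace W] : SMono (ρ.smL W) := by
  rw [smL_eq_smR]
  exact (h.smR W).conj _ _

theorem _root_.Crest.Agent.R090.Spine.SNull.of_comp {ρ : St X Y} (hρ : SMono ρ) {a : St Y Z}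
    (h : SNull (a.comp ρ)) : SNull a := fun T _ _ _ j g => by
  refine hρ T j _ ?_
  rw [St.comp_assoc, ← smR_comp, h T j g]

/-! ## the external product with a fixed map -/

theorem tens_comp_right (i : St W W') (a : St Y Z) (b : St X Y) :
    tens i (a.comp b) = (tens i a).comp (b.smL W) := by
  have h := prod_comp i (St.id W) a b
  rw [St.comp_id, prod_id_left] at h
  rw [tens_eq_prod, tens_eq_prod, h]

theorem tens_comp_left (i : St W W') (a : St Y Z) (b : St X Y) :
    tens i (a.comp b) = (a.smL W').comp (tens i b) := by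
  have h := prod_comp (St.id W') i a b
  rw [St.id_comp, prod_id_left] at h
  rw [tens_eq_prod, tens_eq_prod, h]

theorem tens_smR (i : St W W') (a : St X Y) (T : Type) [TopologicalSpace T] [T2Space T]
    [LocallyCompactSpace T] :
    tens i (a.smR T) =
      (sh (asC W' Y T)).comp (((tens i a).smR T).comp (sh (asC W X T).symm)) := by
  have h := prod_assoc i a (St.id T)
  rw [prod_id_right, prod_id_right] at h
  rw [tens_eq_prod, tens_eq_prod, h]

theorem tens_nsmul (n : ℕ) (i : St W W') (a : St X Y) : tens i (n • a) = n • tens i a := by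
  rw [tens_eq_prod, tens_eq_prod, prod_nsmul]

theorem tens_zsmul (n : ℤ) (i : St W W') (a : St X Y) : tens i (n • a) = n • tens i a := by
  rw [tens_eq_prod, tens_eq_prod, prod_zsmul]

theorem tens_neg (i : St W W') (a : St X Y) : tens i (-a) = -tens i a := by
  rw [tens_eq_prod, tens_eq_prod, prod_neg]

theorem tens_sh_left (i : St W W') (e : Y ≃ₜ Z) (b : St X Y) :
    tens i ((sh e).comp b) = (sh ((Homeomorph.refl W').prodCongr e)).comp (tens i b) := by
  rw [tens_comp_left, smL_sh]

/-! ## the ideal -/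

section ideal

variable {M : Type} [TopologicalSpace M] [T2Space M] [LocallyCompactSpace M]
variable {q : ℕ} {A : Set M} [Fact (IsClosed A)]

/-- transfer of the ideal condition -/
theorem idQ_mono {a : St X X'} {b : St Y Y'} (ha : IdQ q A a)
    (h : ∀ (P P' : Type) [TopologicalSpace P] [T2Space P] [LocallyCompactSpace P]
      [TopologicalSpace P'] [T2Space P'] [LocallyCompactSpace P'] (i : St P P') (n : ℕ),
      SNull (n • tens i a) → SNull (n • tens i b)) : IdQ q A b := by
  obtain ⟨l, hl⟩ := ha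
  refine ⟨l, fun K s => ?_⟩
  obtain ⟨n, hn, hs⟩ := hl K s
  exact ⟨n, hn, h _ _ _ _ hs⟩

theorem _root_.Crest.Agent.R090.Spine.IdQ.comp {a : St X X'} (ha : IdQ q A a) (b : St Y X) :
    IdQ q A (a.comp b) := idQ_mono ha fun P P' _ _ _ _ _ _ i n h => by
  rw [tens_comp_right, ← St.nsmul_comp]
  exact h.comp _

theorem _root_.Crest.Agent.R090.Spine.IdQ.lcomp {a : St X X'} (ha : IdQ q A a) (b : St X' Y) :
    IdQ q A (b.comp a) := idQ_mono ha fun P P' _ _ _ _ _ _ i n h => by
  rw [tens_comp_left, ← St.comp_nsmul]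
  exact h.lcomp _

theorem _root_.Crest.Agent.R090.Spine.IdQ.smR {a : St X X'} (ha : IdQ q A a) (T : Type)
    [TopologicalSpace T] [T2Space T] [LocallyCompactSpace T] :
    IdQ q A (a.smR T) := idQ_mono ha fun P P' _ _ _ _ _ _ i n h => by
  rw [tens_smR, ← St.comp_nsmul, ← St.nsmul_comp, ← smR_nsmul]
  exact ((h.smR T).comp _).lcomp _

theorem _root_.Crest.Agent.R090.Spine.IdQ.smL {a : St X X'} (ha : IdQ q A a) (T : Type)
    [TopologicalSpace T] [T2Space T] [LocallyCompactSpace T] : IdQ q A (a.smL T) := by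
  rw [smL_eq_smR]
  exact ((ha.smR T).comp _).lcomp _

theorem _root_.Crest.Agent.R090.Spine.IdQ.zsmul {a : St X X'} (ha : IdQ q A a) (z : ℤ) :
    IdQ q A (z • a) := idQ_mono ha fun P P' _ _ _ _ _ _ i n h => by
  rw [tens_zsmul, smul_comm]
  exact h.zsmul z

theorem _root_.Crest.Agent.R090.Spine.IdQ.neg {a : St X X'} (ha : IdQ q A a) :
    IdQ q A (-a) := idQ_mono ha fun P P' _ _ _ _ _ _ i n h => by
  rw [tens_neg, smul_neg]
  exact h.neg

/-- desuspension of the ideal -/
theorem _root_.Crest.Agent.R090.Spine.IdQ.of_smR {k : ℕ} (e : T ≃ₜ (Fin k → ℝ)) {a : St X Y}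
    (ha : IdQ q A (a.smR T)) : IdQ q A a := idQ_mono ha fun P P' _ _ _ _ _ _ i n h => by
  rw [tens_smR, ← St.comp_nsmul, ← St.nsmul_comp, ← smR_nsmul] at h
  refine SNull.of_smR e ((snull_conj (asC P X T) (asC P' Y T) rfl).1 h)

/-- `a ∘ ρ ∈ I` implies `a ∈ I` if `ρ` is injective on spheres -/
theorem _root_.Crest.Agent.R090.Spine.IdQ.of_comp {ρ : St X Y} (hρ : SMono ρ) {a : St Y Z}
    (ha : IdQ q A (a.comp ρ)) : IdQ q A a := idQ_mono ha fun P P' _ _ _ _ _ _ i n h => by
  rw [tens_comp_right, ← St.nsmul_comp] at h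
  exact SNull.of_comp (hρ.smL P) h

/-- division by an integer prime to `q` -/
theorem _root_.Crest.Agent.R090.Spine.IdQ.of_zsmul (hq : q.Prime) {z : ℤ} (hz : ¬ (q : ℤ) ∣ z)
    {a : St X Y} (ha : IdQ q A (z • a)) : IdQ q A a := by
  obtain ⟨l, hl⟩ := ha
  refine ⟨l, fun K s => ?_⟩
  obtain ⟨n, hn, hs⟩ := hl K s
  refine ⟨n * z.natAbs, fun h => ?_, ?_⟩
  · rcases (Nat.Prime.dvd_mul hq).1 h with h | h
    · exact hn h
    · exact hz (Int.natCast_dvd.2 h)
  · rw [tens_zsmul] at hs
    rw [mul_smul]
    have h1 : (z.natAbs : ℕ) • tens (St.ofP (iotaP A K s l)) a =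
        z • tens (St.ofP (iotaP A K s l)) a ∨ (z.natAbs : ℕ) • tens (St.ofP (iotaP A K s l)) a =
        -(z • tens (St.ofP (iotaP A K s l)) a) := by
      rw [← natCast_zsmul]
      rcases Int.natAbs_eq z with h2 | h2
      · left; rw [← h2]
      · right; rw [← neg_smul, h2, neg_neg, Int.natAbs_neg, Int.natAbs_natCast]
    rcases h1 with h1 | h1
    · rw [h1]; exact hs
    · rw [h1, smul_neg]; exact hs.neg

end ideal

end Crest.Agent.R090.Ext305
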