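import Crest.Agent.R090.IdQ_669
import Crest.Agent.R090.SmIso_528

/-!
# Row 90, A-IDEAL: desuspension in the ideal (owner helper669)
-/

set_option autoImplicit false
set_option linter.unusedSectionVars false

open Topology Filter Set

noncomputable section

namespace Crest.Agent.R090.IdS669

open OnePoint Crest.Agent.R090.Sp962 Crest.Agent.R090.St528 Crest.Agent.R090.Dens255
  Crest.Agent.R090.Sm202 Crest.Agent.R090.SmX669 Crest.Agent.R090.Spine

universe u

/-- `(X × S) × (P × Y) ≃ (X × (P × Y)) × S` -/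
def sw5 (X S P Y : Type) [TopologicalSpace X] [TopologicalSpace S] [TopologicalSpace P]
    [TopologicalSpace Y] : (X × S) × (P × Y) ≃ₜ (X × (P × Y)) × S where
  toFun a := ((a.1.1, a.2), a.1.2)
  invFun a := ((a.1.1, a.2), a.1.2)
  left_inv _ := rfl
  right_inv _ := rfl
  continuous_toFun := by fun_prop
  continuous_invFun := by fun_prop

/-- `S` is a sphere up to homeomorphism: `ℝ^N × S` is some `ℝ^m` for every `N` -/
def SphH (S : Type) [TopologicalSpace S] : Prop :=
  ∀ N : ℕ, ∃ m : ℕ, Nonempty ((Fin N → ℝ) × S ≃ₜ (Fin m → ℝ))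

theorem sphH_real (a : ℕ) : SphH (Fin a → ℝ) := fun N =>
  ⟨N + a, ⟨(Fin.appendHomeomorph N a)⟩⟩

variable {X X' : Type} [TopologicalSpace X] [TopologicalSpace X']
variable [T2Space X] [T2Space X'] [LocallyCompactSpace X] [LocallyCompactSpace X']
variable {P P' : Type} [TopologicalSpace P] [TopologicalSpace P']
variable [T2Space P] [T2Space P'] [LocallyCompactSpace P] [LocallyCompactSpace P']
variable {Y : Type} [TopologicalSpace Y] [T2Space Y] [LocallyCompactSpace Y]

theorem smR_smR_sw5 (S : Type) [TopologicalSpace S] [T2Space S] [LocallyCompactSpace S]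
    (g : St X X') :
    (sh (sw5 X' S P Y)).comp (St.smR (P × Y) (St.smR S g)) =
      (St.smR S (St.smR (P × Y) g)).comp (sh (sw5 X S P Y)) := by
  have h1 := smR_smR g S (P × Y)
  have h2 := smR_homeo (Homeomorph.prodComm S (P × Y)) g
  have h3 := smR_smR g (P × Y) S
  have e1 : ∀ (X : Type) [TopologicalSpace X], (Homeomorph.prodAssoc X S (P × Y)).trans
      (((Homeomorph.refl X).prodCongr (Homeomorph.prodComm S (P × Y))).trans
        (Homeomorph.prodAssoc X (P × Y) S).symm) = sw5 X S P Y :=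
    fun X _ => Homeomorph.ext fun _ => rfl
  rw [← e1 X, ← e1 X', sh_trans, sh_trans, sh_trans, sh_trans]
  have h4 : (St.smR S (St.smR (P × Y) g)).comp (sh (Homeomorph.prodAssoc X (P × Y) S).symm) =
      (sh (Homeomorph.prodAssoc X' (P × Y) S).symm).comp (St.smR ((P × Y) × S) g) := by
    have h5 := congrArg (fun z => ((sh (Homeomorph.prodAssoc X' (P × Y) S).symm).comp z).comp
      (sh (Homeomorph.prodAssoc X (P × Y) S).symm)) h3
    simp only [sh_symm_comp_assoc, St.comp_assoc, sh_comp_symm, St.comp_id] at h5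
    exact h5
  rw [← St.comp_assoc (St.smR S (St.smR (P × Y) g)), ← St.comp_assoc (St.smR S _) (sh _), h4,
    St.comp_assoc _ (St.smR _ g), h2, St.comp_assoc, St.comp_assoc, St.comp_assoc, St.comp_assoc,
    ← h1]

theorem sphH_complex (a : ℕ) : SphH (Fin a → ℂ) := fun N => by
  have e : (Fin a → ℂ) ≃L[ℝ] (Fin (2 * a) → ℝ) :=
    ContinuousLinearEquiv.ofFinrankEq (by
      rw [Module.finrank_fin_fun, Module.finrank_pi_fintype]
      simp [Complex.finrank_real_complex, mul_comm])
  exact ⟨N + 2 * a, ⟨((Homeomorph.refl _).prodCongr e.toHomeomorph).trans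
    (Fin.appendHomeomorph N (2 * a))⟩⟩

theorem sw5_io (S : Type) [TopologicalSpace S] [T2Space S] [LocallyCompactSpace S]
    (k : PMap P P') :
    (sh (sw5 X S P' Y)).comp (io (X × S) k Y) =
      (St.smR S (io X k Y)).comp (sh (sw5 X S P Y)) := by
  rw [sh, io, io, smR_ofP, sh, ← St.ofP_comp, ← St.ofP_comp]
  refine ofP_ext fun x => ?_
  obtain ⟨⟨x, s⟩, ⟨p, y⟩⟩ := x
  simp only [PMap.comp_apply, PMap.smash_coe, PMap.id_apply, PMap.ofHomeo_coe]
  change _ = (((PMap.id X).smash (k.smash (PMap.id Y))).smash (PMap.id S))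
      ((((x, (p, y)), s) : (X × (P × Y)) × S) : OnePoint _)
  simp only [PMap.smash_coe, PMap.id_apply]
  generalize k (p : OnePoint P) = q
  induction q using OnePoint.rec with
  | infty => simp [PMap.map_inf]
  | coe q => rfl

/-- **desuspension** -/
theorem Kill.of_smR {n : ℕ} {k : PMap P P'} {g : St X X'} (S : Type) [TopologicalSpace S]
    [T2Space S] [LocallyCompactSpace S] [SmIso528.Sus.{0} S] (hS : SphH S)
    (h : Kill n k (g.smR S)) : Kill n k g := fun Y _ _ _ N y => by
  obtain ⟨m, ⟨e⟩⟩ := hS N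
  have h1 := h Y m ((sh e).comp ((y.smR S).comp (sh (sw5 X' S P' Y))))
  rw [St.comp_assoc (sh e), St.comp_assoc (y.smR S), smR_smR_sw5, St.comp_assoc (sh e),
    St.comp_assoc (y.smR S), St.comp_assoc (St.smR S (St.smR (P' × Y) g)), sw5_io,
    ← St.comp_assoc (St.smR S (St.smR (P' × Y) g)), ← St.comp_assoc (y.smR S), ← smR_comp,
    ← smR_comp, ← St.comp_assoc (sh e), ← St.nsmul_comp, comp_sh_eq_zero, ← St.comp_nsmul,
    sh_comp_eq_zero, ← smR_nsmul, SmIso528.smR_eq_zero, ← St.comp_assoc] at h1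
  exact h1

variable {M : Type} [TopologicalSpace M] [T2Space M] [LocallyCompactSpace M]
variable {q : ℕ} {Z : Set M} [hZ : Fact (IsClosed Z)]

/-- **desuspension in the ideal** -/
theorem idQ_of_smR {g : St X X'} (S : Type) [TopologicalSpace S] [T2Space S]
    [LocallyCompactSpace S] [SmIso528.Sus.{0} S] (hS : SphH S) (h : IdQ q Z (g.smR S)) :
    IdQ q Z g := by
  obtain ⟨l, hl⟩ := idQ_iff.1 h
  refine idQ_iff.2 ⟨l, fun K s s' h => ?_⟩
  obtain ⟨n, hn, H⟩ := hl K s s' h
  exact ⟨n, hn, H.of_smR S hS⟩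

theorem idQ_of_smL {g : St X X'} (S : Type) [TopologicalSpace S] [T2Space S]
    [LocallyCompactSpace S] [SmIso528.Sus.{0} S] (hS : SphH S) (h : IdQ q Z (g.smL S)) :
    IdQ q Z g := by
  refine idQ_of_smR S hS ?_
  rw [smR_eq_smL]
  exact (h.comp_right _).comp_left _

/-- conjugation by homeomorphisms -/
theorem idQ_conj {T T' : Type} [TopologicalSpace T] [T2Space T] [LocallyCompactSpace T]
    [TopologicalSpace T'] [T2Space T'] [LocallyCompactSpace T'] (e : T ≃ₜ X) (e' : X' ≃ₜ T')
    {g : St X X'} : IdQ q Z ((sh e').comp (g.comp (sh e))) ↔ IdQ q Z g := by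
  refine ⟨fun h => ?_, fun h => (h.comp_right _).comp_left _⟩
  have := (h.comp_right (sh e.symm)).comp_left (sh e'.symm)
  simpa only [St.comp_assoc, sh_symm_comp_assoc, sh_comp_symm, St.comp_id] using this

/-- **from the identity of a sphere to the identity of `S⁰`** -/
theorem idQ_unit_of_id (S : Type) [TopologicalSpace S] [T2Space S]
    [LocallyCompactSpace S] [SmIso528.Sus.{0} S] (hS : SphH S) (h : IdQ q Z (St.id S)) :
    IdQ q Z (St.id Unit) := by
  refine idQ_of_smR S hS ?_
  rw [smR_id]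
  have := (h.comp_right (sh (Homeomorph.punitProd S))).comp_left
    (sh (Homeomorph.punitProd S).symm)
  rwa [St.id_comp, sh_symm_comp] at this

/-- `m • 1_S ∈ I ⇒ m • 1_{S⁰} ∈ I` -/
theorem idQ_zsmul_unit (S : Type) [TopologicalSpace S] [T2Space S]
    [LocallyCompactSpace S] [SmIso528.Sus.{0} S] (hS : SphH S) {m : ℤ}
    (h : IdQ q Z (m • St.id S)) : IdQ q Z (m • St.id Unit) := by
  refine idQ_of_smR S hS ?_
  rw [smR_zsmul, smR_id]
  have := (h.comp_right (sh (Homeomorph.punitProd S))).comp_left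
    (sh (Homeomorph.punitProd S).symm)
  rwa [St.zsmul_comp, St.comp_zsmul, St.id_comp, sh_symm_comp] at this

end Crest.Agent.R090.IdS669
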