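import Crest.Agent.R090.FMExtr_554
import Crest.Agent.R090.AStart_923
import Crest.Agent.R090.DualSt_865
import Crest.Agent.R090.HopfG_297
import Crest.Agent.R090.IdD_669
import Crest.Agent.R090.Sph3_285

/-!
# Row 90, block (A): extraction for sphere-built spaces, `ExtractStmt` (helper554, second of 285)
-/

set_option autoImplicit false
set_option linter.unusedSectionVars false
set_option linter.style.haveILetI false

open Topology Filter Set unitInterval

namespace Crest.Agent.R090.FM554

open OnePoint Crest.Agent.R090.Sp962 Crest.Agent.R090.Sm202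
open Crest.Agent.R090.St528 (St S)
open Crest.Agent.R090.Spine (IdQ)
open Crest.Agent.R090.Kun493 (CC KX KU)
open Crest.Agent.R090.HSt285

section

variable {F : Type} [Field F] {H : CohX F}

/-- **extraction for sphere-built spaces** -/
theorem extr_SB (K : KX H) (R : RSusp H) (h2 : (2 : F) ≠ 0) (M : Type) [TopologicalSpace M]
    [T2Space M] [LocallyCompactSpace M] (hM : SB M) : Extr H M := by
  intro φ
  obtain ⟨k, B, _, _, _, g, u, tri⟩ := DualSt865.exists_dual_M hM
  obtain ⟨z, hz⟩ := Hopf297.hopf (E := Fin k → ℝ)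
    (u.comp ((φ.smR B).comp ((sh (Homeomorph.prodComm B M)).comp g)))
  refine ⟨z, R.Lst_eq_of_KU h2 (KU_of_SB K hM) k g u tri φ z hz, ?_⟩
  intro q hq Q _ _ _ Z _ hφ
  refine IdS669.idQ_zsmul_unit (Fin k → ℝ) (IdS669.sphH_real k) ?_
  rw [← hz]
  exact ((hφ.smR B).comp_right _).comp_left _

end

open AAsm923 in
/-- **EXTRACT** -/
theorem extractStmt {H : CohX ℚ} (K : KX H) (R : RSusp H) : ExtractStmt (goodP H) (lef H) := by
  intro U _ _ _ hU φ
  obtain ⟨z, hz, hI⟩ := extract_of_SB K (extr_SB K R two_ne_zero) U hU.model (St.ofP φ)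
  refine ⟨z, Or.inl ?_, hI⟩
  rw [← hz, H.Lst_ofP]
  rfl

end Crest.Agent.R090.FM554
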