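import Crest.Agent.R090.F0Emb_933
import Crest.Agent.R090.HasCells_933

/-!
# Row 90, leaf F0: cells of `V^{(A)}_{n,j}` and of the complement of the fibre over `W` (helper933)
-/

set_option autoImplicit false
set_option linter.unusedSectionVars false
set_option linter.unusedSimpArgs false
set_option linter.unusedVariables false

open Topology Filter Set Matrix
open scoped Kronecker ComplexOrder
open Crest.Agent.R090.F0Defs806 (IsV V continuous_mk continuous_val)

namespace Crest.Agent.R090.F0_933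

variable {ι : Type} [Fintype ι] [DecidableEq ι] {J : ℕ} {A : Type}

/-- the coordinate projection onto `ℂ^S` -/
def pS (S : Finset ι) : Matrix ι ι ℂ := Matrix.diagonal fun i => if i ∈ S then 1 else 0

theorem isPr_pS (S : Finset ι) : IsPr (pS S) := by
  refine ⟨?_, ?_⟩
  · rw [pS, diagonal_mul_diagonal]
    congr 1; funext i
    by_cases h : i ∈ S <;> simp [h]
  · rw [pS, diagonal_conjTranspose]
    congr 1; funext i
    by_cases h : i ∈ S <;> simp [h]

theorem trace_pS (S : Finset ι) : (pS S).trace = (S.card : ℂ) := by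
  rw [pS, trace_diagonal, Finset.sum_ite_mem]
  simp

theorem pS_mul_of_disjoint {S T : Finset ι} (h : Disjoint S T) : pS S * pS T = 0 := by
  rw [pS, pS, diagonal_mul_diagonal, ← diagonal_zero]
  congr 1; funext i
  by_cases h1 : i ∈ S
  · have : i ∉ T := Finset.disjoint_left.1 h h1
    simp [this]
  · simp [h1]

theorem pS_insert {k : ι} {S : Finset ι} (h : k ∉ S) : pS (insert k S) = pS {k} + pS S := by
  rw [pS, pS, pS, diagonal_add]
  congr 1; funext i
  by_cases h1 : i = k
  · subst h1; simp [h]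
  · simp [h1]

theorem p0_add (p q : Matrix ι ι ℂ) : p0 J (p + q) = p0 J p + p0 J q := by
  rw [p0, p0, p0, add_kronecker]

/-- the fibre `{a : A → ℂ^ι | p_S a = a}` is `ℂ^(A × S)` -/
def wvHomeo (S : Finset ι) : WV A (pS S) ≃ₜ (S × A → ℂ) where
  toFun a x := a.1 x.1 x.2
  invFun f := ⟨Matrix.of fun i α => if h : i ∈ S then f (⟨i, h⟩, α) else 0, by
    ext i α
    rw [pS, diagonal_mul]
    by_cases h : i ∈ S <;> simp [h]⟩
  left_inv a := by
    obtain ⟨a, ha⟩ := a
    apply Subtype.ext
    ext i α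
    simp only [Matrix.of_apply]
    by_cases h : i ∈ S
    · simp [h]
    · rw [← ha, pS, diagonal_mul]
      simp [h]
  right_inv f := by
    funext x
    obtain ⟨⟨i, hi⟩, α⟩ := x
    simp [hi]
  continuous_toFun := by
    refine continuous_pi fun x => ?_
    exact (continuous_subtype_val (p := fun a : Matrix ι A ℂ => pS S * a = a)).matrix_elem _ _
  continuous_invFun := by
    refine Continuous.subtype_mk (continuous_matrix fun i α => ?_) _
    simp only [Matrix.of_apply]
    by_cases h : i ∈ S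
    · simp only [h, dif_pos]
      exact continuous_apply _
    · simp only [h, dif_neg, not_false_iff]
      exact continuous_const

/-- any finite power of `ℂ` -/
theorem exists_finHomeo (T : Type) [Finite T] : ∃ k, Nonempty ((T → ℂ) ≃ₜ (Fin k → ℂ)) := by
  obtain ⟨k, ⟨e⟩⟩ := Finite.exists_equiv_fin T
  exact ⟨k, ⟨Homeomorph.piCongrLeft (Y := fun _ => ℂ) e⟩⟩

/-- the closed condition `W ⊆ K` -/
def Cl (J : ℕ) (A : Type) (p : Matrix ι ι ℂ) (j : ℕ) : Set (V (bs ι J) A j) :=
  {x | x.1.1 * p0 J p = p0 J p}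

theorem isClosed_Cl (p : Matrix ι ι ℂ) (j : ℕ) : IsClosed (Cl J A p j) := isClosed_emb p

/-- input OPEN: the open part `{e_k ∉ K}` -/
def OpenPart : Prop := ∀ (ι : Type) [Fintype ι] [DecidableEq ι] (k : ι) (J : ℕ) (A : Type)
  [Fintype A] (j : ℕ), ∃ (B : Type) (_ : Fintype B),
    Nonempty (((Cl J A (pS {k}) j)ᶜ : Set (V (bs ι J) A j)) ≃ₜ V (bs {i : ι // i ≠ k} J) B j)

/-- rank zero -/
theorem hasCells_zero (A : Type) : HasCells (V (bs ι J) A 0) 1 := by
  have key : ∀ x : V (bs ι J) A 0, x.1.1 = 0 := by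
    intro x
    have h1 : ((x.1.1)ᴴ * x.1.1).trace = 0 := by
      rw [x.2.herm, x.2.idem, x.2.tr]; simp
    exact (trace_conjTranspose_mul_self_eq_zero_iff).1 h1
  have key2 : ∀ x : V (bs ι J) A 0, x.1.2 = 0 := by
    intro x
    rw [← x.2.vec, key x, Matrix.zero_mul]
  have pt : V (bs ι J) A 0 := ⟨(0, 0), ⟨by simp, by simp, by simp, by simp, by simp⟩⟩
  refine HasCells.cell _ 0 ?_
  refine { toFun := fun _ => 0, invFun := fun _ => pt, left_inv := ?_, right_inv := ?_,
           continuous_toFun := continuous_const, continuous_invFun := continuous_const }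
  · intro x
    exact V.ext ((key pt).trans (key x).symm) ((key2 pt).trans (key2 x).symm)
  · intro x
    exact Subsingleton.elim _ _

/-- no coefficients -/
theorem isEmpty_V [IsEmpty ι] (A : Type) (j : ℕ) : IsEmpty (V (bs ι J) A (j + 1)) := by
  refine ⟨fun x => ?_⟩
  have h := x.2.tr
  rw [Matrix.trace, Finset.univ_eq_empty, Finset.sum_empty] at h
  exact (Nat.cast_ne_zero (R := ℂ)).2 (Nat.succ_ne_zero j) h.symm

theorem hasCells_V (HO : OpenPart) (n : ℕ) : ∀ (ι : Type) [Fintype ι] [DecidableEq ι]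
    (_ : Fintype.card ι = n) (A : Type) [Fintype A] (J j : ℕ) (_ : j ≤ J + 1),
    HasCells (V (bs ι J) A j) (n.multichoose j) := by
  induction n with
  | zero =>
    intro ι _ _ hn A _ J j hj
    have : IsEmpty ι := Fintype.card_eq_zero_iff.1 hn
    cases j with
    | zero => simpa using hasCells_zero A
    | succ j =>
      have := isEmpty_V (ι := ι) (J := J) A j
      simpa using HasCells.empty (V (bs ι J) A (j + 1))
  | succ n ihn =>
    intro ι _ _ hn A _ J j
    have hne : Nonempty ι := Fintype.card_pos_iff.1 (by omega)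
    obtain ⟨k⟩ := hne
    have hcard : Fintype.card {i : ι // i ≠ k} = n := by
      rw [Fintype.card_subtype_compl]; simp [hn]
    induction j with
    | zero => intro _; simpa using hasCells_zero A
    | succ j ihj =>
      intro hj
      have h1 : HasCells (Cl J A (pS {k}) (j + 1)) ((n + 1).multichoose j) := by
        obtain ⟨m, ⟨e⟩⟩ := exists_finHomeo (({k} : Finset ι) × A)
        exact ((ihj (by omega)).prod ((wvHomeo {k}).trans e)).congr
          (embHomeo (by omega) (isPr_pS {k}) (by rw [trace_pS]; simp)).symm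
      obtain ⟨B, hB, ⟨e⟩⟩ := HO ι k J A (j + 1)
      have h2 : HasCells ((Cl J A (pS {k}) (j + 1))ᶜ : Set (V (bs ι J) A (j + 1)))
          (n.multichoose (j + 1)) := (ihn _ hcard B J (j + 1) hj).congr e
      have h3 := HasCells.glue _ _ (isClosed_Cl (pS {k}) (j + 1)) _ _ h1 h2
      rw [Nat.multichoose_succ_succ, add_comm (n.multichoose (j + 1))]
      exact h3

/-! ### the complement of the fibre -/

theorem gamH_mul_p0' {p q : Matrix ι ι ℂ} (hp : IsPr p) (hpq : p * q = 0) :
    (gam J p)ᴴ * p0 J q = p0 J q := by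
  have h1 : amp J p * p0 J q = 0 := by
    rw [p0_eq, ← Matrix.mul_assoc, amp, amp, ← mul_kronecker_mul, hpq, zero_kronecker,
      Matrix.zero_mul]
  rw [gamH hp, Matrix.add_mul, Matrix.sub_mul, Matrix.mul_assoc, bs_mul_p0, Matrix.mul_zero, h1,
    Matrix.one_mul, zero_add, sub_zero]

theorem gam_mul_p0' {p q : Matrix ι ι ℂ} (hpq : p * q = 0) :
    gam J p * p0 J q = p0 J q := by
  have h1 : amp J p * p0 J q = 0 := by
    rw [p0_eq, ← Matrix.mul_assoc, amp, amp, ← mul_kronecker_mul, hpq, zero_kronecker,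
      Matrix.zero_mul]
  rw [gam, Matrix.add_mul, Matrix.sub_mul, Matrix.mul_assoc, h1, Matrix.mul_zero,
    Matrix.one_mul, zero_add, sub_zero]

/-- `W ⊕ W' ⊆ W ⊕ γ K ↔ W' ⊆ K` -/
theorem prodP_mem_iff {j : ℕ} (hj : j ≤ J) {p q : Matrix ι ι ℂ} (hp : IsPr p) (hpq : p * q = 0)
    (hqp : q * p = 0)
    {P : Matrix (HI ι J) (HI ι J) ℂ} {v : Matrix (HI ι J) A ℂ} (H : IsV (bs ι J) j P v) :
    prodP J p P * p0 J (p + q) = p0 J (p + q) ↔ P * p0 J q = p0 J q := by
  have h1 := EJ_mul hj H
  have e0 : p0 J p * p0 J q = 0 := by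
    rw [p0_eq, p0_eq, Matrix.mul_assoc, ← Matrix.mul_assoc (E0 ι J), E0_mul_amp,
      ← Matrix.mul_assoc, ← Matrix.mul_assoc, amp, amp, ← mul_kronecker_mul, hpq, zero_kronecker,
      Matrix.zero_mul, Matrix.zero_mul]
  have e1 : prodP J p P * p0 J (p + q) = p0 J p + gam J p * (P * p0 J q) := by
    rw [prodP, p0_add]
    simp only [Matrix.mul_add, Matrix.add_mul, Matrix.mul_assoc, p0_idem hp, gamH_mul_p0 hp,
      gamH_mul_p0' hp hpq, Matrix.mul_zero, add_zero, zero_add, e0]
  rw [e1, p0_add, add_right_inj]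
  constructor
  · intro h
    have h2 : (gam J p)ᴴ * (gam J p * (P * p0 J q)) = (gam J p)ᴴ * p0 J q := by rw [h]
    rw [gamH_mul_p0' hp hpq, rr (gamH_mul_gam hp), Matrix.sub_mul, Matrix.one_mul,
      Matrix.mul_assoc, rr h1, Matrix.zero_mul, Matrix.mul_zero, sub_zero] at h2
    exact h2
  · intro h
    rw [h, gam_mul_p0' hpq]

theorem multichoose_mono (n j s : ℕ) : (n + 1).multichoose j ≤ (n + 1).multichoose (j + s) := by
  induction s with
  | zero => exact le_rfl
  | succ s ih =>
    refine ih.trans ?_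
    rw [← add_assoc, Nat.multichoose_succ_succ]
    exact Nat.le_add_left _ _

theorem p0_pS_empty : p0 J (pS (∅ : Finset ι)) = 0 := by
  have h0 : pS (∅ : Finset ι) = 0 := by simp [pS]
  rw [h0, p0, zero_kronecker]

/-- swapping two subspace conditions -/
def swapSub {X : Type*} [TopologicalSpace X] (B C : Set X) :
    ({x : B | x.1 ∈ C} : Set B) ≃ₜ ({x : C | x.1 ∈ B} : Set C) where
  toFun x := ⟨⟨x.1.1, x.2⟩, x.1.2⟩
  invFun x := ⟨⟨x.1.1, x.2⟩, x.1.2⟩
  left_inv _ := rfl
  right_inv _ := rfl
  continuous_toFun := by fun_prop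
  continuous_invFun := by fun_prop

/-- a subspace of a subspace -/
def subSub {X : Type*} [TopologicalSpace X] (B C : Set X) (h : C ⊆ B) :
    ({x : B | x.1 ∈ C} : Set B) ≃ₜ C where
  toFun x := ⟨x.1.1, x.2⟩
  invFun x := ⟨⟨x.1, h x.2⟩, x.2⟩
  left_inv _ := rfl
  right_inv _ := rfl
  continuous_toFun := by fun_prop
  continuous_invFun := by fun_prop

/-- **cells of the complement of the fibre over `ℂ^S`** -/
theorem hasCells_compl (HO : OpenPart) {n : ℕ} (hn : Fintype.card ι = n + 1) [Fintype A]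
    (S : Finset ι) : ∀ (j m : ℕ) (_ : j + S.card = m) (_ : m ≤ J + 1),
    HasCells ((Cl J A (pS S) m)ᶜ : Set (V (bs ι J) A m))
      ((n + 1).multichoose m - (n + 1).multichoose j) := by
  induction S using Finset.induction_on with
  | empty =>
    intro j m hjm hj
    simp only [Finset.card_empty, add_zero] at hjm
    subst hjm
    have : IsEmpty ((Cl J A (pS (∅ : Finset ι)) j)ᶜ : Set (V (bs ι J) A j)) := by
      refine ⟨fun x => x.2 ?_⟩
      show _ * p0 J (pS ∅) = p0 J (pS ∅)
      simp only [p0_pS_empty, Matrix.mul_zero]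
    rw [Nat.sub_self]
    exact HasCells.empty _
  | insert k S hk ih =>
    intro j m hjm hj
    rw [Finset.card_insert_of_notMem hk] at hjm
    obtain ⟨m', hm'⟩ : ∃ m', j + S.card = m' := ⟨_, rfl⟩
    obtain rfl : m = m' + 1 := by omega
    have hm'J : m' ≤ J := by omega
    have hdis : Disjoint ({k} : Finset ι) S := by simpa using hk
    have hkS : pS {k} * pS S = 0 := pS_mul_of_disjoint hdis
    have hSk : pS S * pS {k} = 0 := pS_mul_of_disjoint hdis.symm
    have hsum : pS (insert k S) = pS {k} + pS S := pS_insert hk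
    have hcard : Fintype.card {i : ι // i ≠ k} = n := by
      rw [Fintype.card_subtype_compl]; simp [hn]
    -- the closed part
    set C : Set (V (bs ι J) A (m' + 1)) := (Cl J A (pS (insert k S)) (m' + 1))ᶜ with hC
    have hsub : Cl J A (pS (insert k S)) (m' + 1) ⊆ Cl J A (pS {k}) (m' + 1) := by
      intro x hx
      change x.1.1 * p0 J (pS (insert k S)) = p0 J (pS (insert k S)) at hx
      change x.1.1 * p0 J (pS {k}) = p0 J (pS {k})
      have e0 : p0 J (pS (insert k S)) * p0 J (pS {k}) = p0 J (pS {k}) := by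
        rw [hsum, p0_add, Matrix.add_mul, p0_idem (isPr_pS _)]
        have : p0 J (pS S) * p0 J (pS {k}) = 0 := by
          rw [p0, p0, ← mul_kronecker_mul, hSk, zero_kronecker]
        rw [this, add_zero]
      have h2 : x.1.1 * (p0 J (pS (insert k S)) * p0 J (pS {k})) =
          p0 J (pS (insert k S)) * p0 J (pS {k}) := by rw [← Matrix.mul_assoc, hx]
      rwa [e0] at h2
    have h1 : HasCells ({x : C | x.1 ∈ Cl J A (pS {k}) (m' + 1)} : Set C)
        ((n + 1).multichoose m' - (n + 1).multichoose j) := by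
      obtain ⟨t, ⟨e⟩⟩ := exists_finHomeo (({k} : Finset ι) × A)
      have h3 := (ih j m' hm' (by omega)).prod ((wvHomeo (A := A) {k}).trans e)
      have h4 : HasCells ({x : Cl J A (pS {k}) (m' + 1) | x.1 ∈ C} :
          Set (Cl J A (pS {k}) (m' + 1))) ((n + 1).multichoose m' - (n + 1).multichoose j) := by
        refine h3.congr ?_
        refine Homeomorph.trans ?_ (prodPre (WV A (pS {k})) (Cl J A (pS S) m')ᶜ)
        refine (Homeomorph.subtype (embHomeo (A := A) hm'J (isPr_pS {k})
          (by rw [trace_pS]; simp)) ?_).symm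
        intro x
        change x.2 ∉ Cl J A (pS S) m' ↔ _ ∉ Cl J A (pS (insert k S)) (m' + 1)
        rw [not_iff_not, hsum]
        exact (prodP_mem_iff hm'J (isPr_pS {k}) hkS hSk x.2.2).symm
      exact h4.congr (swapSub C (Cl J A (pS {k}) (m' + 1)))
    obtain ⟨B, hB, ⟨e⟩⟩ := HO ι k J A (m' + 1)
    have h2 : HasCells (({x : C | x.1 ∈ Cl J A (pS {k}) (m' + 1)} : Set C)ᶜ : Set C)
        (n.multichoose (m' + 1)) := by
      refine (hasCells_V HO n _ hcard B J (m' + 1) hj).congr (Homeomorph.trans ?_ e)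
      exact subSub C (Cl J A (pS {k}) (m' + 1))ᶜ (compl_subset_compl.2 hsub)
    have hcl : IsClosed ({x : C | x.1 ∈ Cl J A (pS {k}) (m' + 1)} : Set C) :=
      (isClosed_Cl (pS {k}) (m' + 1)).preimage continuous_subtype_val
    have h5 := HasCells.glue _ _ hcl _ _ h1 h2
    have h6 : (n + 1).multichoose (m' + 1) - (n + 1).multichoose j =
        ((n + 1).multichoose m' - (n + 1).multichoose j) + n.multichoose (m' + 1) := by
      have h7 := multichoose_mono n j S.card
      rw [hm'] at h7
      rw [Nat.multichoose_succ_succ]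
      omega
    rw [h6]
    exact h5

end Crest.Agent.R090.F0_933
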