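import Crest.Agent.R090.F0Defs_806

/-!
# Row 90, F0-CLOSED: the closed part `{e ∈ K}` of `V^{(A)}_{j+1}` is `ℂ^A × V^{(A)}_j` (owner helper806)
-/

set_option autoImplicit false
set_option linter.unusedSectionVars false
set_option linter.unusedFintypeInType false
set_option linter.unusedDecidableInType false

open Matrix Topology

namespace Crest.Agent.R090.F0Closed806

open F0Defs806

variable {h A : Type*} [Fintype h] [DecidableEq h] {J : ℕ}

/-! ### the shift matrices -/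

theorem S_mul_conj (J : ℕ) : S (J + 1) * (S (J + 1))ᴴ = 1 - Matrix.single (Fin.last J) (Fin.last J) 1 := by
  ext i k
  rw [Matrix.mul_apply]
  simp only [S_apply, conjTranspose_apply, Matrix.sub_apply, Matrix.one_apply, Matrix.single_apply]
  by_cases hi : (i : ℕ) = J
  · have : i = Fin.last J := Fin.ext hi
    subst this
    rw [Finset.sum_eq_zero]
    · by_cases hk : Fin.last J = k
      · simp [hk]
      · simp [hk]
    · intro b _
      have : ¬ ((b : ℕ) = (Fin.last J : Fin (J + 1)) + 1) := by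
        have := b.2; simp only [Fin.val_last]; omega
      rw [if_neg this, zero_mul]
  · have hlt : (i : ℕ) + 1 < J + 1 := by have := i.2; omega
    rw [Finset.sum_eq_single (⟨i + 1, hlt⟩ : Fin (J + 1))]
    · have h2 : ¬ (Fin.last J = i) := fun h => hi (by rw [← h]; rfl)
      simp only [if_true, one_mul, h2, false_and, if_false, sub_zero]
      by_cases hk : i = k
      · subst hk; simp
      · have : ¬ ((i : ℕ) = k) := fun h => hk (Fin.ext h)
        simp [hk, this]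
    · intro b _ hb
      have : ¬ ((b : ℕ) = i + 1) := fun h => hb (Fin.ext h)
      rw [if_neg this, zero_mul]
    · intro h; exact absurd (Finset.mem_univ _) h

theorem conj_mul_S (J : ℕ) : (S (J + 1))ᴴ * S (J + 1) = 1 - Matrix.single 0 0 1 := by
  ext i k
  rw [Matrix.mul_apply]
  simp only [S_apply, conjTranspose_apply, Matrix.sub_apply, Matrix.one_apply, Matrix.single_apply]
  by_cases hi : (i : ℕ) = 0
  · have : i = 0 := Fin.ext hi
    subst this
    rw [Finset.sum_eq_zero]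
    · by_cases hk : (0 : Fin (J + 1)) = k
      · simp [hk]
      · simp [hk]
    · intro b _
      have : ¬ (((0 : Fin (J + 1)) : ℕ) = b + 1) := by simp
      rw [if_neg this, star_zero, zero_mul]
  · have hlt : (i : ℕ) - 1 < J + 1 := by have := i.2; omega
    rw [Finset.sum_eq_single (⟨i - 1, hlt⟩ : Fin (J + 1))]
    · have h2 : ¬ ((0 : Fin (J + 1)) = i) := fun h => hi (by rw [← h]; rfl)
      have h3 : (i : ℕ) = (i : ℕ) - 1 + 1 := by omega
      have h4 : ((⟨i - 1, hlt⟩ : Fin (J + 1)) : ℕ) = (i : ℕ) - 1 := rfl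
      rw [h4, if_pos h3, star_one, one_mul]
      simp only [h2, false_and, if_false, sub_zero]
      by_cases hk : i = k
      · subst hk; simp [← h3]
      · have : ¬ ((k : ℕ) = (i : ℕ) - 1 + 1) := fun h => hk (Fin.ext (by omega))
        simp [hk, this]
    · intro b _ hb
      have : ¬ ((i : ℕ) = b + 1) := fun h => hb (Fin.ext (by simp only []; omega))
      rw [if_neg this, star_zero, zero_mul]
    · intro h; exact absurd (Finset.mem_univ _) h

theorem S_mul_single (J : ℕ) : S (J + 1) * Matrix.single 0 0 (1 : ℂ) = 0 := by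
  ext i k
  rw [Matrix.mul_apply]
  apply Finset.sum_eq_zero
  intro b _
  rw [Matrix.single_apply, S_apply]
  by_cases hb : (0 : Fin (J + 1)) = b
  · subst hb; simp
  · simp [hb]

/-! ### the block matrices -/

theorem fromBlocks_sub' {l m n o : Type*} (A : Matrix n l ℂ) (B : Matrix n m ℂ) (C : Matrix o l ℂ)
    (D : Matrix o m ℂ) (A' : Matrix n l ℂ) (B' : Matrix n m ℂ) (C' : Matrix o l ℂ) (D' : Matrix o m ℂ) :
    fromBlocks A B C D - fromBlocks A' B' C' D' = fromBlocks (A - A') (B - B') (C - C') (D - D') := by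
  ext i k
  rcases i with i | i <;> rcases k with k | k <;> rfl

/-- the shift on the big space -/
def Z1 (Z : Matrix h h ℂ) (J : ℕ) : Matrix (h ⊕ Fin (J + 1)) (h ⊕ Fin (J + 1)) ℂ :=
  fromBlocks Z 0 0 (S (J + 1))

/-- the projection on the line of `e` -/
def E (h : Type*) [DecidableEq h] (J : ℕ) : Matrix (h ⊕ Fin (J + 1)) (h ⊕ Fin (J + 1)) ℂ :=
  fromBlocks 0 0 0 (Matrix.single 0 0 1)

/-- `γ_e` -/
def Gm (h : Type*) [DecidableEq h] (J : ℕ) : Matrix (h ⊕ Fin (J + 1)) (h ⊕ Fin (J + 1)) ℂ :=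
  fromBlocks 1 0 0 (S (J + 1))ᴴ

theorem Gm_conj : (Gm h J)ᴴ = fromBlocks 1 0 0 (S (J + 1)) := by
  rw [Gm, fromBlocks_conjTranspose]; simp

theorem E_conj : (E h J)ᴴ = E h J := by
  rw [E, fromBlocks_conjTranspose]
  congr 1
  · simp
  · simp
  · simp
  · ext i k
    simp only [conjTranspose_apply, Matrix.single_apply]
    by_cases hi : (0 : Fin (J + 1)) = i <;> by_cases hk : (0 : Fin (J + 1)) = k <;> simp [hi, hk]

theorem E_mul_E : E h J * E h J = E h J := by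
  rw [E, fromBlocks_multiply]; simp

theorem G_mul_Gc : Gm h J * (Gm h J)ᴴ = 1 - E h J := by
  rw [Gm_conj, Gm, E, fromBlocks_multiply, conj_mul_S, ← fromBlocks_one, fromBlocks_sub']
  simp

theorem Z1_mul_E (Z : Matrix h h ℂ) : Z1 Z J * E h J = 0 := by
  rw [Z1, E, fromBlocks_multiply, S_mul_single]; simp

theorem Gc_mul_E : (Gm h J)ᴴ * E h J = 0 := by
  rw [Gm_conj, E, fromBlocks_multiply, S_mul_single]; simp

theorem E_mul_G : E h J * Gm h J = 0 := by
  have := congrArg conjTranspose (Gc_mul_E (h := h) (J := J))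
  rw [conjTranspose_mul, conjTranspose_conjTranspose, E_conj] at this
  simpa using this

theorem Z1_mul_Gc (Z : Matrix h h ℂ) : Z1 Z J * (Gm h J)ᴴ = (Gm h J)ᴴ * Z1 Z J := by
  rw [Gm_conj, Z1, fromBlocks_multiply, fromBlocks_multiply]; simp

/-- the projection on the top degree line -/
def Et (h : Type*) [DecidableEq h] (J : ℕ) : Matrix (h ⊕ Fin (J + 1)) (h ⊕ Fin (J + 1)) ℂ :=
  fromBlocks 0 0 0 (Matrix.single (Fin.last J) (Fin.last J) 1)

theorem Gc_mul_G : (Gm h J)ᴴ * Gm h J = 1 - Et h J := by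
  rw [Gm_conj, Gm, Et, fromBlocks_multiply, S_mul_conj, ← fromBlocks_one, fromBlocks_sub']
  simp

theorem Z1_mul_G (Z : Matrix h h ℂ) : Z1 Z J * Gm h J = Gm h J * Z1 Z J + E h J - Et h J := by
  rw [Gm, Z1, E, Et, fromBlocks_multiply, fromBlocks_multiply, S_mul_conj, conj_mul_S, fromBlocks_add,
    fromBlocks_sub']
  simp

/-! ### consequences of the degree lemma -/

theorem Et_mul_apply (M : Matrix (h ⊕ Fin (J + 1)) A ℂ) (i : h ⊕ Fin (J + 1)) (k : A) :
    (Et h J * M) i k = if i = Sum.inr (Fin.last J) then M (Sum.inr (Fin.last J)) k else 0 := by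
  rw [Matrix.mul_apply, Fintype.sum_sum_type]
  rcases i with i | i
  · simp [Et]
  · simp only [Et, fromBlocks_apply₂₁, fromBlocks_apply₂₂, Matrix.zero_apply, zero_mul,
      Finset.sum_const_zero, zero_add, Matrix.single_apply]
    by_cases hi : Fin.last J = i
    · subst hi; simp
    · have : ¬ (Sum.inr i = (Sum.inr (Fin.last J) : h ⊕ Fin (J + 1))) := fun h => hi (Sum.inr_injective h).symm
      simp [hi, this]

theorem E_mul_apply (M : Matrix (h ⊕ Fin (J + 1)) A ℂ) (i : h ⊕ Fin (J + 1)) (k : A) :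
    (E h J * M) i k = if i = Sum.inr 0 then M (Sum.inr 0) k else 0 := by
  rw [Matrix.mul_apply, Fintype.sum_sum_type]
  rcases i with i | i
  · simp [E]
  · simp only [E, fromBlocks_apply₂₁, fromBlocks_apply₂₂, Matrix.zero_apply, zero_mul,
      Finset.sum_const_zero, zero_add, Matrix.single_apply]
    by_cases hi : 0 = i
    · subst hi; simp
    · have : ¬ (Sum.inr i = (Sum.inr 0 : h ⊕ Fin (J + 1))) := fun h => hi (Sum.inr_injective h).symm
      simp [hi, this]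

theorem Z1_pow (Z : Matrix h h ℂ) (m : ℕ) : (Z1 Z J) ^ m = fromBlocks (Z ^ m) 0 0 ((S (J + 1)) ^ m) := by
  rw [Z1, fromBlocks_diagonal_pow]

theorem Z1_pow_eq_zero {Z : Matrix h h ℂ} (hZ : Z ^ (J + 1) = 0) : (Z1 Z J) ^ (J + 1) = 0 := by
  rw [Z1_pow, hZ, S_pow_eq_zero le_rfl]
  simp

theorem Et_mul_P {Z : Matrix h h ℂ} (hZ : Z ^ (J + 1) = 0) {j : ℕ} (hj : j ≤ J)
    {P : Matrix (h ⊕ Fin (J + 1)) (h ⊕ Fin (J + 1)) ℂ} {v : Matrix (h ⊕ Fin (J + 1)) A ℂ}
    (H : IsV (Z1 Z J) j P v) : Et h J * P = 0 := by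
  have h1 : (Z1 Z J) ^ j * P = 0 := H.pow_mul_eq_zero (Z1_pow_eq_zero hZ)
  have h2 : (Z1 Z J) ^ J * P = 0 := by
    have h3 : (Z1 Z J) ^ J = (Z1 Z J) ^ (J - j) * (Z1 Z J) ^ j := by
      rw [← pow_add]; congr 1; omega
    rw [h3, Matrix.mul_assoc, h1, Matrix.mul_zero]
  ext i k
  rw [Et_mul_apply]
  by_cases hi : i = Sum.inr (Fin.last J)
  · rw [if_pos hi]
    have h3 := congrFun (congrFun h2 (Sum.inr 0)) k
    rw [Z1_pow, Matrix.mul_apply, Fintype.sum_sum_type] at h3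
    simp only [fromBlocks_apply₂₁, fromBlocks_apply₂₂, Matrix.zero_apply, zero_mul,
      Finset.sum_const_zero, zero_add, S_pow_apply] at h3
    rw [Finset.sum_eq_single (Fin.last J)] at h3
    · simpa using h3
    · intro b _ hb
      have : ¬ ((b : ℕ) = ((0 : Fin (J + 1)) : ℕ) + J) := fun h => hb (Fin.ext (by simpa using h))
      rw [if_neg this, zero_mul]
    · intro h; exact absurd (Finset.mem_univ _) h
  · rw [if_neg hi]; rfl

/-- `γ` is isometric on `K` -/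
theorem Gc_G_P {Z : Matrix h h ℂ} (hZ : Z ^ (J + 1) = 0) {j : ℕ} (hj : j ≤ J)
    {P : Matrix (h ⊕ Fin (J + 1)) (h ⊕ Fin (J + 1)) ℂ} {v : Matrix (h ⊕ Fin (J + 1)) A ℂ}
    (H : IsV (Z1 Z J) j P v) : (Gm h J)ᴴ * (Gm h J * P) = P := by
  rw [← Matrix.mul_assoc, Gc_mul_G, Matrix.sub_mul, Et_mul_P hZ hj H, Matrix.one_mul, sub_zero]

theorem P_Gc_G {Z : Matrix h h ℂ} (hZ : Z ^ (J + 1) = 0) {j : ℕ} (hj : j ≤ J)
    {P : Matrix (h ⊕ Fin (J + 1)) (h ⊕ Fin (J + 1)) ℂ} {v : Matrix (h ⊕ Fin (J + 1)) A ℂ}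
    (H : IsV (Z1 Z J) j P v) : P * ((Gm h J)ᴴ * Gm h J) = P := by
  have := congrArg conjTranspose (Gc_G_P hZ hj H)
  rw [conjTranspose_mul, conjTranspose_mul, conjTranspose_conjTranspose, H.herm] at this
  rwa [Matrix.mul_assoc] at this

theorem Gc_G_v {Z : Matrix h h ℂ} (hZ : Z ^ (J + 1) = 0) {j : ℕ} (hj : j ≤ J)
    {P : Matrix (h ⊕ Fin (J + 1)) (h ⊕ Fin (J + 1)) ℂ} {v : Matrix (h ⊕ Fin (J + 1)) A ℂ}
    (H : IsV (Z1 Z J) j P v) : (Gm h J)ᴴ * (Gm h J * v) = v := by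
  conv_lhs => rw [← H.vec]
  rw [← Matrix.mul_assoc (Gm h J), ← Matrix.mul_assoc (Gm h J)ᴴ, Gc_G_P hZ hj H, H.vec]

theorem Z1_G_P {Z : Matrix h h ℂ} (hZ : Z ^ (J + 1) = 0) {j : ℕ} (hj : j ≤ J)
    {P : Matrix (h ⊕ Fin (J + 1)) (h ⊕ Fin (J + 1)) ℂ} {v : Matrix (h ⊕ Fin (J + 1)) A ℂ}
    (H : IsV (Z1 Z J) j P v) : Z1 Z J * (Gm h J * P) = Gm h J * (Z1 Z J * P) + E h J * P := by
  rw [← Matrix.mul_assoc, Z1_mul_G, Matrix.sub_mul, Matrix.add_mul, Et_mul_P hZ hj H, sub_zero,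
    Matrix.mul_assoc]

theorem trace_E : (E h J).trace = 1 := by
  rw [Matrix.trace, Fintype.sum_sum_type]
  simp [E, Matrix.single_apply]

/-! ### the forward map -/

/-- `e ⊗ a` -/
def U (h : Type*) [DecidableEq h] (J : ℕ) (a : A → ℂ) : Matrix (h ⊕ Fin (J + 1)) A ℂ :=
  Matrix.of fun i k => if i = Sum.inr 0 then a k else 0

theorem E_mul_U (a : A → ℂ) : E h J * U h J a = U h J a := by
  ext i k
  rw [E_mul_apply]
  simp [U]

theorem fwd_key {B : Type*} {Z : Matrix h h ℂ} (hZ : Z ^ (J + 1) = 0) {j : ℕ} (hj : j ≤ J)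
    {P : Matrix (h ⊕ Fin (J + 1)) (h ⊕ Fin (J + 1)) ℂ} {v : Matrix (h ⊕ Fin (J + 1)) A ℂ}
    (H : IsV (Z1 Z J) j P v) (X : Matrix (h ⊕ Fin (J + 1)) B ℂ) (hX : P * X = X) :
    (E h J + Gm h J * P * (Gm h J)ᴴ) * (Gm h J * X) = Gm h J * X := by
  have hPX : (Gm h J)ᴴ * (Gm h J * X) = X := by
    conv_lhs => rw [← hX]
    rw [← Matrix.mul_assoc (Gm h J), ← Matrix.mul_assoc (Gm h J)ᴴ, Gc_G_P hZ hj H, hX]
  rw [Matrix.add_mul, ← Matrix.mul_assoc, E_mul_G, Matrix.zero_mul, zero_add, Matrix.mul_assoc,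
    Matrix.mul_assoc, hPX, hX]

theorem fwd_keyE {B : Type*} (P : Matrix (h ⊕ Fin (J + 1)) (h ⊕ Fin (J + 1)) ℂ)
    (X : Matrix (h ⊕ Fin (J + 1)) B ℂ) (hX : E h J * X = X) :
    (E h J + Gm h J * P * (Gm h J)ᴴ) * X = X := by
  rw [Matrix.add_mul, hX]
  have : (Gm h J)ᴴ * X = 0 := by rw [← hX, ← Matrix.mul_assoc, Gc_mul_E, Matrix.zero_mul]
  rw [Matrix.mul_assoc, this, Matrix.mul_zero, add_zero]

theorem fwd_isV {Z : Matrix h h ℂ} (hZ : Z ^ (J + 1) = 0) {j : ℕ} (hj : j ≤ J)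
    {P : Matrix (h ⊕ Fin (J + 1)) (h ⊕ Fin (J + 1)) ℂ} {v : Matrix (h ⊕ Fin (J + 1)) A ℂ}
    (H : IsV (Z1 Z J) j P v) (a : A → ℂ) :
    IsV (Z1 Z J) (j + 1) (E h J + Gm h J * P * (Gm h J)ᴴ) (U h J a + Gm h J * v) := by
  set G := Gm h J with hG
  have hEG : E h J * G = 0 := E_mul_G
  have hGE : Gᴴ * E h J = 0 := Gc_mul_E
  have hEE : E h J * E h J = E h J := E_mul_E
  refine ⟨?_, ?_, ?_, ?_, ?_⟩
  · rw [conjTranspose_add, E_conj, conjTranspose_mul, conjTranspose_mul, conjTranspose_conjTranspose,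
      H.herm, Matrix.mul_assoc]
  · have h2 := fwd_key hZ hj H (P * Gᴴ) (by rw [← Matrix.mul_assoc, H.idem])
    rw [← hG, ← Matrix.mul_assoc G] at h2
    rw [Matrix.mul_add, fwd_keyE _ _ hEE, h2]
  · have h2 : (G * P * Gᴴ).trace = (j : ℂ) := by
      rw [Matrix.mul_assoc, Matrix.trace_mul_comm, Matrix.mul_assoc, P_Gc_G hZ hj H, H.tr]
    rw [Matrix.trace_add, trace_E, h2]
    push_cast; ring
  · have hZP : Z1 Z J * (E h J + G * P * Gᴴ) = G * (Z1 Z J * P * Gᴴ) + E h J * P * Gᴴ := by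
      rw [Matrix.mul_add, Z1_mul_E, zero_add, ← Matrix.mul_assoc, Z1_G_P hZ hj H, Matrix.add_mul,
        Matrix.mul_assoc G, Matrix.mul_assoc]
    rw [hZP, Matrix.mul_add, fwd_key hZ hj H (Z1 Z J * P * Gᴴ), fwd_keyE _ (E h J * P * Gᴴ)]
    · rw [← Matrix.mul_assoc, ← Matrix.mul_assoc, hEE]
    · rw [← Matrix.mul_assoc, H.inv]
  · rw [Matrix.mul_add, fwd_keyE _ _ (E_mul_U a), fwd_key hZ hj H v H.vec]

/-! ### the backward map -/

/-- a hermitian idempotent with `P e e = 1` fixes `e` -/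
theorem col_eq_zero {n : Type*} [Fintype n] [DecidableEq n] {P : Matrix n n ℂ} (hP : Pᴴ = P)
    (hPP : P * P = P) {e : n} (he : P e e = 1) (i : n) (hi : i ≠ e) : P i e = 0 := by
  have h1 : ∀ i, P e i = star (P i e) := fun i => by
    conv_lhs => rw [← hP]
    rfl
  have h2 : ∑ i, ‖P i e‖ ^ 2 = 1 := by
    have h3 : (P * P) e e = 1 := by rw [hPP, he]
    rw [Matrix.mul_apply] at h3
    have h4 : ∀ i, P e i * P i e = ((‖P i e‖ ^ 2 : ℝ) : ℂ) := fun i => by
      rw [h1, Complex.star_def, ← Complex.normSq_eq_conj_mul_self, Complex.normSq_eq_norm_sq]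
    simp only [h4] at h3
    rw [← Complex.ofReal_sum] at h3
    exact_mod_cast h3
  rw [← Finset.add_sum_erase _ _ (Finset.mem_univ e), he] at h2
  have h5 : ∑ i ∈ Finset.univ.erase e, ‖P i e‖ ^ 2 = 0 := by
    have : ‖(1 : ℂ)‖ ^ 2 = 1 := by simp
    linarith
  have h6 := (Finset.sum_eq_zero_iff_of_nonneg (fun i _ => by positivity)).1 h5 i
    (Finset.mem_erase.2 ⟨hi, Finset.mem_univ _⟩)
  simpa using h6

theorem P_mul_E {Z : Matrix h h ℂ} {j : ℕ}
    {P : Matrix (h ⊕ Fin (J + 1)) (h ⊕ Fin (J + 1)) ℂ} {v : Matrix (h ⊕ Fin (J + 1)) A ℂ}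
    (H : IsV (Z1 Z J) j P v) (he : P (Sum.inr 0) (Sum.inr 0) = 1) : P * E h J = E h J := by
  ext i k
  have h1 : (P * E h J) i k = if k = Sum.inr 0 then P i (Sum.inr 0) else 0 := by
    have h2 := congrArg (fun M : Matrix _ _ ℂ => M i k)
      (congrArg conjTranspose (show (E h J * P) = (E h J * P) from rfl))
    have h3 : (P * E h J) = (E h J * P)ᴴ := by
      rw [conjTranspose_mul, E_conj, H.herm]
    rw [h3, conjTranspose_apply, E_mul_apply]
    by_cases hk : k = Sum.inr 0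
    · rw [if_pos hk, if_pos hk]
      conv_rhs => rw [← H.herm]
      rfl
    · rw [if_neg hk, if_neg hk, star_zero]
  have h4 : E h J i k = if k = Sum.inr 0 then (if i = Sum.inr 0 then 1 else 0) else 0 := by
    have := E_mul_apply (1 : Matrix (h ⊕ Fin (J + 1)) (h ⊕ Fin (J + 1)) ℂ) i k
    rw [Matrix.mul_one] at this
    rw [this]
    by_cases hi : i = Sum.inr 0 <;> by_cases hk : k = Sum.inr 0
    · rw [if_pos hi, if_pos hk, hk, if_pos hi, Matrix.one_apply_eq]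
    · have hk' : (Sum.inr 0 : h ⊕ Fin (J + 1)) ≠ k := fun h => hk h.symm
      simp [hi, hk, Matrix.one_apply_ne hk']
    · simp [hi, hk]
    · simp [hi, hk]
  rw [h1, h4]
  by_cases hk : k = Sum.inr 0
  · rw [if_pos hk, if_pos hk]
    by_cases hi : i = Sum.inr 0
    · rw [if_pos hi, hi, he]
    · rw [if_neg hi]; exact col_eq_zero H.herm H.idem he i hi
  · rw [if_neg hk, if_neg hk]

theorem bwd_key {B : Type*} {P : Matrix (h ⊕ Fin (J + 1)) (h ⊕ Fin (J + 1)) ℂ}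
    (hPE : P * E h J = E h J) (X : Matrix (h ⊕ Fin (J + 1)) B ℂ) (hX : P * X = X) :
    ((Gm h J)ᴴ * P * Gm h J) * ((Gm h J)ᴴ * X) = (Gm h J)ᴴ * X := by
  rw [Matrix.mul_assoc ((Gm h J)ᴴ * P), ← Matrix.mul_assoc (Gm h J), G_mul_Gc, Matrix.sub_mul,
    Matrix.one_mul, Matrix.mul_sub, Matrix.mul_assoc, hX, Matrix.mul_assoc (Gm h J)ᴴ P,
    ← Matrix.mul_assoc P, hPE, ← Matrix.mul_assoc (Gm h J)ᴴ, Gc_mul_E, Matrix.zero_mul, sub_zero]

theorem bwd_isV {Z : Matrix h h ℂ} {j : ℕ}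
    {P : Matrix (h ⊕ Fin (J + 1)) (h ⊕ Fin (J + 1)) ℂ} {v : Matrix (h ⊕ Fin (J + 1)) A ℂ}
    (H : IsV (Z1 Z J) (j + 1) P v) (he : P (Sum.inr 0) (Sum.inr 0) = 1) :
    IsV (Z1 Z J) j ((Gm h J)ᴴ * P * Gm h J) ((Gm h J)ᴴ * v) := by
  set G := Gm h J with hG
  have hEG : E h J * G = 0 := E_mul_G
  have hGE : Gᴴ * E h J = 0 := Gc_mul_E
  have hEE : E h J * E h J = E h J := E_mul_E
  have hPE : P * E h J = E h J := P_mul_E H he
  have hGG : G * Gᴴ = 1 - E h J := G_mul_Gc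
  refine ⟨?_, ?_, ?_, ?_, ?_⟩
  · rw [conjTranspose_mul, conjTranspose_mul, conjTranspose_conjTranspose, H.herm, Matrix.mul_assoc]
  · have := bwd_key hPE (P * G) (by rw [← Matrix.mul_assoc, H.idem])
    rwa [← hG, ← Matrix.mul_assoc Gᴴ P G] at this
  · rw [Matrix.mul_assoc, Matrix.trace_mul_comm, Matrix.mul_assoc, hGG, Matrix.mul_sub, Matrix.mul_one,
      hPE, Matrix.trace_sub, H.tr, trace_E]
    push_cast; ring
  · have h1 : Z1 Z J * (Gᴴ * P * G) = Gᴴ * (Z1 Z J * P * G) := by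
      rw [← Matrix.mul_assoc, ← Matrix.mul_assoc, Z1_mul_Gc, Matrix.mul_assoc Gᴴ, Matrix.mul_assoc Gᴴ]
    rw [h1]
    exact bwd_key hPE _ (by rw [← Matrix.mul_assoc, H.inv])
  · exact bwd_key hPE v H.vec

theorem diag_fwd {P : Matrix (h ⊕ Fin (J + 1)) (h ⊕ Fin (J + 1)) ℂ} :
    (E h J + Gm h J * P * (Gm h J)ᴴ) (Sum.inr 0) (Sum.inr 0) = 1 := by
  have h1 : E h J * (E h J + Gm h J * P * (Gm h J)ᴴ) = E h J := by
    rw [Matrix.mul_add, E_mul_E, ← Matrix.mul_assoc, ← Matrix.mul_assoc, E_mul_G]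
    simp
  have h2 := congrFun (congrFun h1 (Sum.inr 0)) (Sum.inr 0)
  rw [E_mul_apply, if_pos rfl] at h2
  rw [h2]
  simp [E]

/-- **F0-CLOSED.** The closed part `{e ∈ K}` of `V^{(A)}_{j+1}` is `ℂ^A × V^{(A)}_j`. -/
noncomputable def closedHomeo [Finite A] (Z : Matrix h h ℂ) (hZ : Z ^ (J + 1) = 0) (j : ℕ) (hj : j ≤ J) :
    ((A → ℂ) × V (Z1 Z J) A j) ≃ₜ
      {x : V (Z1 Z J) A (j + 1) // x.1.1 (Sum.inr 0) (Sum.inr 0) = 1} where
  toFun y := ⟨⟨(E h J + Gm h J * y.2.1.1 * (Gm h J)ᴴ, U h J y.1 + Gm h J * y.2.1.2),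
    fwd_isV hZ hj y.2.2 y.1⟩, diag_fwd⟩
  invFun x := (fun k => x.1.1.2 (Sum.inr 0) k,
    ⟨((Gm h J)ᴴ * x.1.1.1 * Gm h J, (Gm h J)ᴴ * x.1.1.2), bwd_isV x.1.2 x.2⟩)
  left_inv y := by
    refine Prod.ext ?_ (V.ext ?_ ?_)
    · funext k
      have h1 := congrFun (congrFun (show E h J * (U h J y.1 + Gm h J * y.2.1.2) = U h J y.1 by
        rw [Matrix.mul_add, E_mul_U, ← Matrix.mul_assoc, E_mul_G]; simp) (Sum.inr 0)) k
      rw [E_mul_apply, if_pos rfl] at h1
      refine h1.trans ?_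
      simp [U]
    · show (Gm h J)ᴴ * (E h J + Gm h J * y.2.1.1 * (Gm h J)ᴴ) * Gm h J = y.2.1.1
      rw [Matrix.mul_add, Gc_mul_E, zero_add, ← Matrix.mul_assoc, Gc_G_P hZ hj y.2.2, Matrix.mul_assoc,
        P_Gc_G hZ hj y.2.2]
    · show (Gm h J)ᴴ * (U h J y.1 + Gm h J * y.2.1.2) = y.2.1.2
      rw [Matrix.mul_add, Gc_G_v hZ hj y.2.2, ← E_mul_U y.1, ← Matrix.mul_assoc, Gc_mul_E,
        Matrix.zero_mul, zero_add]
  right_inv x := by
    obtain ⟨⟨⟨P, v⟩, H⟩, he⟩ := x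
    have H' : IsV (Z1 Z J) (j + 1) P v := H
    have he' : P (Sum.inr 0) (Sum.inr 0) = 1 := he
    have hPE : P * E h J = E h J := P_mul_E H' he'
    have hEP : E h J * P = E h J := by
      have := congrArg conjTranspose hPE
      rwa [conjTranspose_mul, E_conj, H'.herm] at this
    refine Subtype.ext (V.ext ?_ ?_)
    · show E h J + Gm h J * ((Gm h J)ᴴ * P * Gm h J) * (Gm h J)ᴴ = P
      have : Gm h J * ((Gm h J)ᴴ * P * Gm h J) * (Gm h J)ᴴ =
          (Gm h J * (Gm h J)ᴴ) * P * (Gm h J * (Gm h J)ᴴ) := by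
        simp only [Matrix.mul_assoc]
      rw [this, G_mul_Gc, Matrix.sub_mul, Matrix.one_mul, Matrix.mul_sub, Matrix.mul_one, Matrix.sub_mul,
        hPE, hEP, E_mul_E]
      abel
    · show U h J (fun k => v (Sum.inr 0) k) + Gm h J * ((Gm h J)ᴴ * v) = v
      rw [← Matrix.mul_assoc, G_mul_Gc, Matrix.sub_mul, Matrix.one_mul]
      have : E h J * v = U h J (fun k => v (Sum.inr 0) k) := by
        ext i k
        rw [E_mul_apply]
        simp [U]
      rw [this]; abel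
  continuous_toFun := by
    refine Continuous.subtype_mk (continuous_mk ?_ ?_) _
    · exact continuous_const.add (((continuous_const.matrix_mul
        (continuous_fst.comp ((continuous_val _ j).comp continuous_snd))).matrix_mul continuous_const))
    · refine Continuous.add ?_ (continuous_const.matrix_mul
        (continuous_snd.comp ((continuous_val _ j).comp continuous_snd)))
      refine continuous_matrix fun i k => ?_
      by_cases hi : i = Sum.inr 0
      · simp only [U, Matrix.of_apply, hi, if_true]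
        exact (continuous_apply k).comp continuous_fst
      · simp only [U, Matrix.of_apply, hi, if_false]
        exact continuous_const
  continuous_invFun := by
    have hc : Continuous fun x : {x : V (Z1 Z J) A (j + 1) // x.1.1 (Sum.inr 0) (Sum.inr 0) = 1} =>
        x.1.1 := (continuous_val _ (j + 1)).comp continuous_subtype_val
    refine Continuous.prodMk ?_ (continuous_mk ?_ ?_)
    · exact continuous_pi fun k => (continuous_snd.comp hc).matrix_elem _ _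
    · exact (continuous_const.matrix_mul (continuous_fst.comp hc)).matrix_mul continuous_const
    · exact continuous_const.matrix_mul (continuous_snd.comp hc)

end Crest.Agent.R090.F0Closed806
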