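import Crest.Agent.R090.F0Final_933
import Crest.Agent.R090.GlueC_264
import Crest.Agent.R090.Match_513

/-!
# Row 90, F0-NULL: from the form of I0 (417) to the pair of F1 (owner helper96)

* `I0At a κ` : the pointed map `Z × ℂ^m → Th (a ⊕ m)`, `(z, w) ↦ inc (κ z, w)` is null for some `m`;
* `I0At.congr` : homotopy invariance in `κ`;
* `null_of_I0At` : the output consumed by 737 (`F1`), for every `c`.
-/

set_option autoImplicit false
set_option linter.unusedSectionVars false
set_option linter.unusedFintypeInType false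
set_option linter.unusedDecidableInType false

open Topology Filter Set

namespace Crest.Agent.R090.F0Conv96

open OnePoint Crest.Agent.R090.Sp962 Crest.Agent.R090.Bott513 Crest.Agent.R090.Match513
  Crest.Agent.R090.F0Mul96 Crest.Agent.R090.T5 Crest.Agent.R090.Glue264
open Crest.Agent.R090.F0_933 (bs Flt exists_flt_emb)

noncomputable section

/-- `ℂ^a × ℂ^m = ℂ^{a ⊕ m}` -/
def sumArrow (a : Type) (m : ℕ) : (a → ℂ) × (Fin m → ℂ) ≃ₜ (a ⊕ Fin m → ℂ) :=
  Homeomorph.sumArrowHomeomorphProdArrow.symm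

@[simp] theorem sumArrow_apply (a : Type) (m : ℕ) (x : (a → ℂ) × (Fin m → ℂ)) :
    sumArrow a m x = Sum.elim x.1 x.2 := rfl

section gen

variable {Z : Type*} [TopologicalSpace Z] [CompactSpace Z] [T2Space Z]

/-- `(z, w) ↦ (κ z, w)`, as a pointed map -/
def twist (a : Type) (κ : C(Z, OnePoint (a → ℂ))) (m : ℕ) :
    PMap (Z × (Fin m → ℂ)) (a ⊕ Fin m → ℂ) :=
  (PMap.ofHomeo (sumArrow a m)).comp ((ofC κ).smash (PMap.id (Fin m → ℂ)))

/-- **the output of I0** : after a suspension by `ℂ^m` the map `κ : Z → (ℂ^a)⁺`, followed by the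
inclusion of the fibre of `ℂ^a ⊕ ℂ^m` into the Thom space of the Grassmannian, is null -/
def I0At (a : Type) [Fintype a] [DecidableEq a] (κ : C(Z, OnePoint (a → ℂ))) : Prop :=
  ∃ (m : ℕ) (k : Type) (_ : Fintype k) (_ : DecidableEq k),
    ((fibM (isPr_pInl (a ⊕ Fin m) k) (eInl (a ⊕ Fin m) k)).comp (twist a κ m)).Null

theorem twist_homotopic {a : Type} [Finite a] {κ κ' : C(Z, OnePoint (a → ℂ))}
    (h : κ.Homotopic κ') (m : ℕ) : (twist a κ m).Homotopic (twist a κ' m) :=
  ((ofC_homotopic h).smash (PMap.Homotopic.refl _)).comp_left _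

theorem I0At.congr {a : Type} [Fintype a] [DecidableEq a] {κ κ' : C(Z, OnePoint (a → ℂ))}
    (h : κ.Homotopic κ') (H : I0At a κ) : I0At a κ' := by
  obtain ⟨m, k, i1, i2, hn⟩ := H
  exact ⟨m, k, i1, i2, ((twist_homotopic h m).symm.comp_left _).trans hn⟩

/-! ### the closed piece and its product structure -/

section theta

variable (a : Type) [Fintype a] [DecidableEq a] (m : ℕ) (k : Type) [Fintype k] [DecidableEq k]
variable {J j : ℕ} (hj : j ≤ J)
variable {E' : Type} [TopologicalSpace E'] [T2Space E'] [LocallyCompactSpace E']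
  (er : (a → ℂ) ≃ₜ E')

/-- the small space -/
abbrev VV (a : Type) [Fintype a] [DecidableEq a] (m : ℕ) (k : Type) [Fintype k] [DecidableEq k]
    (J j : ℕ) : Type := F0Defs806.V (bs ((a ⊕ Fin m) ⊕ k) J) Unit j

/-- the embedding of `(ℂ^a ⊕ ℂ^m) × V_j` -/
abbrev embA : (a ⊕ Fin m → ℂ) × VV a m k J j → VV a m k J (j + Fintype.card (a ⊕ Fin m)) :=
  emb hj (isPr_pInl (a ⊕ Fin m) k) (eInl (a ⊕ Fin m) k)

theorem isClosedEmbedding_embA : IsClosedEmbedding (embA a m k hj) :=
  isClosedEmbedding_emb hj _ _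

theorem isClosed_range_embA : IsClosed (range (embA a m k hj)) :=
  (isClosedEmbedding_embA a m k hj).isClosed_range

/-- rearrangement -/
def shuf : E' × ((Fin m → ℂ) × VV a m k J j) ≃ₜ (a ⊕ Fin m → ℂ) × VV a m k J j :=
  ((er.symm.prodCongr (Homeomorph.refl _)).trans
    (Homeomorph.prodAssoc (a → ℂ) (Fin m → ℂ) (VV a m k J j)).symm).trans
      ((sumArrow a m).prodCongr (Homeomorph.refl _))

/-- `A ≃ E' × (ℂ^m × V_j)` -/
def theta : range (embA a m k hj) ≃ₜ E' × ((Fin m → ℂ) × VV a m k J j) :=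
  ((shuf a m k er).trans (isClosedEmbedding_embA a m k hj).isEmbedding.toHomeomorph).symm

theorem theta_symm_coe (x : (a → ℂ)) (w : Fin m → ℂ) (v : VV a m k J j) :
    ((theta a m k hj er).symm (er x, (w, v)) : VV a m k J (j + Fintype.card (a ⊕ Fin m))) =
      embA a m k hj (Sum.elim x w, v) := by
  change embA a m k hj (Sum.elim (er.symm (er x)) w, v) = _
  rw [er.symm_apply_apply]

variable {Z : Type*} [TopologicalSpace Z] [CompactSpace Z] [T2Space Z]

theorem comp_theta (κ : C(Z, OnePoint (a → ℂ))) :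
    (PMap.ofClosed (Subtype.val : range (embA a m k hj) → _)
        (isClosed_range_embA a m k hj).isClosedEmbedding_subtypeVal).comp
      ((PMap.ofHomeo (theta a m k hj er).symm).comp
        (((PMap.ofHomeo er).comp (ofC κ)).smash (PMap.id ((Fin m → ℂ) × VV a m k J j)))) =
    ((PMap.ofClosed (embA a m k hj) (isClosedEmbedding_embA a m k hj)).comp
      ((twist a κ m).smash (PMap.id (VV a m k J j)))).comp
        (PMap.ofHomeo (Homeomorph.prodAssoc Z (Fin m → ℂ) (VV a m k J j)).symm) := by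
  refine PMap.ext fun x => ?_
  obtain ⟨z, w, v⟩ := x
  simp only [PMap.comp_apply, PMap.smash_coe, PMap.ofHomeo_coe, PMap.id_apply, ofC_coe]
  have h1 : ((Homeomorph.prodAssoc Z (Fin m → ℂ) (VV a m k J j)).symm (z, w, v)) = ((z, w), v) :=
    rfl
  rw [h1, PMap.smash_coe, PMap.id_apply]
  change _ = PMap.ofClosed (embA a m k hj) (isClosedEmbedding_embA a m k hj)
    (sm (PMap.ofHomeo (sumArrow a m) (sm (κ z) (w : OnePoint (Fin m → ℂ)))) _)
  generalize κ z = y
  induction y using OnePoint.rec with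
  | infty => rfl
  | coe y =>
    simp only [PMap.ofHomeo_coe, sm_coe, PMap.ofClosed_coe, OnePoint.coe_eq_coe]
    exact theta_symm_coe a m k hj er y w v

/-- the general form -/
theorem null_theta {κ : C(Z, OnePoint (a → ℂ))}
    (hn : ((fibM (isPr_pInl (a ⊕ Fin m) k) (eInl (a ⊕ Fin m) k)).comp (twist a κ m)).Null)
    {f : PMap Z E'} (hf : f.Homotopic ((PMap.ofHomeo er).comp (ofC κ))) :
    ((PMap.ofClosed (Subtype.val : range (embA a m k hj) → _)
        (isClosed_range_embA a m k hj).isClosedEmbedding_subtypeVal).comp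
      ((PMap.ofHomeo (theta a m k hj er).symm).comp
        (f.smash (PMap.id ((Fin m → ℂ) × VV a m k J j))))).Null := by
  have h1 := (null_emb hj (isPr_pInl (a ⊕ Fin m) k) (eInl (a ⊕ Fin m) k) (twist a κ m)
    hn).comp_right (PMap.ofHomeo (Homeomorph.prodAssoc Z (Fin m → ℂ) (VV a m k J j)).symm)
  rw [← comp_theta a m k hj er κ] at h1
  exact (((hf.smash (PMap.Homotopic.refl _)).comp_left _).comp_left _).trans h1

end theta

/-- **F0-NULL, general form**: for every `c` -/
theorem null_of_I0At' {a : Type} [Fintype a] [DecidableEq a] [Nonempty a]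
    {E' : Type} [TopologicalSpace E'] [T2Space E'] [LocallyCompactSpace E']
    (er : (a → ℂ) ≃ₜ E') {κ : C(Z, OnePoint (a → ℂ))} (H : I0At a κ)
    {f : PMap Z E'} (hf : f.Homotopic ((PMap.ofHomeo er).comp (ofC κ))) (c : ℕ) :
    ∃ (m : ℕ) (V B : Type) (_ : TopologicalSpace V) (_ : TopologicalSpace B)
      (_ : T2Space V) (_ : T2Space B) (_ : LocallyCompactSpace V) (_ : LocallyCompactSpace B)
      (_ : SecondCountableTopology V) (_ : SecondCountableTopology B)
      (A : Set B) (hA : IsClosed A) (θ : A ≃ₜ E' × ((Fin m → ℂ) × V)) (D u : ℕ),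
      0 < D ∧ c * u ≤ D ∧ F0_933.HasCells V D ∧ Nonempty (Flt A u) ∧
      ((PMap.ofClosed (Subtype.val : A → B) hA.isClosedEmbedding_subtypeVal).comp
        ((PMap.ofHomeo θ.symm).comp (f.smash (PMap.id ((Fin m → ℂ) × V))))).Null := by
  obtain ⟨m, k, i1, i2, hn⟩ := H
  obtain ⟨j, J, D, u, hj, hD, hcu, hcell, hflt⟩ := exists_flt_emb (a ⊕ Fin m) k c
  exact ⟨m, VV a m k J j, VV a m k J (j + Fintype.card (a ⊕ Fin m)), inferInstance,
    inferInstance, inferInstance, inferInstance, inferInstance, inferInstance, inferInstance,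
    inferInstance, range (embA a m k hj), isClosed_range_embA a m k hj, theta a m k hj er, D, u,
    hD, hcu, hcell, hflt, null_theta a m k hj er hn hf⟩

end gen

/-! ### the torus collapse `fZ` of 264 -/

section torus

variable {p n : ℕ} {Y : Type*} [TopologicalSpace Y] [CompactSpace Y] [T2Space Y]

/-- the torus coordinate on `Z₀` -/
def wZ (Z₀ : Set (Y × TT p n)) : C(Z₀, TT p n) :=
  ⟨fun z => (z : Y × TT p n).2, continuous_snd.comp continuous_subtype_val⟩

theorem fZ_eq (Z₀ : Set (Y × TT p n)) [CompactSpace Z₀] :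
    fZ Z₀ = (PMap.ofHomeo (realH n p)).comp (ofC ((kCc p n).comp (wZ Z₀))) :=
  PMap.ext fun z => tcB_eq_kC (z : Y × TT p n).2

theorem I0At_kC {Z₀ : Set (Y × TT p n)} [CompactSpace Z₀]
    (H : I0At (Fin n × Fin p) ((bottc p n).comp (wZ Z₀))) :
    I0At (Fin n × Fin p) ((kCc p n).comp (wZ Z₀)) :=
  H.congr ((bottc_homotopic p n).comp (ContinuousMap.Homotopic.refl _))

theorem I0At_kC' {Z₀ : Set (Y × TT p n)} [CompactSpace Z₀]
    (H : I0At (Fin n × Fin p) ((nbottc p n).comp (wZ Z₀))) :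
    I0At (Fin n × Fin p) ((kCc p n).comp (wZ Z₀)) :=
  H.congr ((nbottc_homotopic p n).comp (ContinuousMap.Homotopic.refl _))

/-- **F0-NULL** (248's literal output) from I0 for the torus collapse -/
theorem null_of_I0At (hp : 1 ≤ p) (hn : 1 ≤ n) {Z₀ : Set (Y × TT p n)} [CompactSpace Z₀]
    (H : I0At (Fin n × Fin p) ((kCc p n).comp (wZ Z₀))) (c : ℕ) :
    ∃ (m : ℕ) (V B : Type) (_ : TopologicalSpace V) (_ : TopologicalSpace B)
      (_ : T2Space V) (_ : T2Space B) (_ : LocallyCompactSpace V) (_ : LocallyCompactSpace B)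
      (_ : SecondCountableTopology V) (_ : SecondCountableTopology B)
      (A : Set B) (hA : IsClosed A)
      (θ : A ≃ₜ (Fin n × Fin (2 * p) → ℝ) × ((Fin m → ℂ) × V)) (D u : ℕ),
      0 < D ∧ c * u ≤ D ∧ F0_933.HasCells V D ∧ Nonempty (Flt A u) ∧
      ((PMap.ofClosed (Subtype.val : A → B) hA.isClosedEmbedding_subtypeVal).comp
        ((PMap.ofHomeo θ.symm).comp
          ((fZ Z₀).smash (PMap.id ((Fin m → ℂ) × V))))).Null := by
  have : Nonempty (Fin n × Fin p) := ⟨(⟨0, hn⟩, ⟨0, hp⟩)⟩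
  exact null_of_I0At' (realH n p) H (PMap.Homotopic.of_eq (fZ_eq Z₀)) c

end torus

end

end Crest.Agent.R090.F0Conv96
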