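import Mathlib

/-!
# Row 90, leaf F0: the ratio of the numbers of cells tends to one (owner helper933)
-/

set_option autoImplicit false

open Topology Filter

namespace Crest.Agent.R090.F0_933

theorem multichoose_pos (n j : ℕ) : 0 < (n + 1).multichoose j := by
  rw [Nat.multichoose_eq]
  exact Nat.choose_pos (by omega)

theorem succ_mul_multichoose (n j : ℕ) :
    (j + 1) * (n + 1).multichoose (j + 1) = (n + 1 + j) * (n + 1).multichoose j := by
  rw [Nat.multichoose_eq, Nat.multichoose_eq]
  have h1 : n + 1 + (j + 1) - 1 = n + j + 1 := by omega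
  have h2 : n + 1 + j - 1 = n + j := by omega
  rw [h1, h2, mul_comm (j + 1), ← Nat.add_one_mul_choose_eq]
  ring

theorem tendsto_ratio_one (n : ℕ) :
    Tendsto (fun j : ℕ => ((n + 1).multichoose (j + 1) : ℝ) / (n + 1).multichoose j) atTop (𝓝 1) := by
  have h1 : ∀ j : ℕ, ((n + 1).multichoose (j + 1) : ℝ) / (n + 1).multichoose j =
      1 + (n : ℝ) / ((j : ℝ) + 1) := by
    intro j
    have h2 : (0 : ℝ) < (n + 1).multichoose j := by exact_mod_cast multichoose_pos n j
    have h3 : ((j : ℝ) + 1) * (n + 1).multichoose (j + 1) = (n + 1 + j) * (n + 1).multichoose j := by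
      exact_mod_cast succ_mul_multichoose n j
    have h4 : (0 : ℝ) < (j : ℝ) + 1 := by positivity
    rw [div_eq_iff h2.ne']
    field_simp
    linarith
  simp only [h1]
  have h5 : Tendsto (fun j : ℕ => (n : ℝ) / ((j : ℝ) + 1)) atTop (𝓝 0) :=
    tendsto_const_nhds.div_atTop (tendsto_natCast_atTop_atTop.atTop_add tendsto_const_nhds)
  simpa using tendsto_const_nhds.add h5

theorem tendsto_ratio (n s : ℕ) :
    Tendsto (fun j : ℕ => ((n + 1).multichoose (j + s) : ℝ) / (n + 1).multichoose j) atTop (𝓝 1) := by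
  induction s with
  | zero =>
    refine tendsto_const_nhds.congr fun j => ?_
    have h2 : (0 : ℝ) < (n + 1).multichoose j := by exact_mod_cast multichoose_pos n j
    rw [add_zero, div_self h2.ne']
  | succ s ih =>
    have h1 := (tendsto_ratio_one n).comp (tendsto_add_atTop_nat s)
    have h2 := h1.mul ih
    rw [one_mul] at h2
    refine h2.congr fun j => ?_
    have h3 : (0 : ℝ) < (n + 1).multichoose j := by exact_mod_cast multichoose_pos n j
    have h4 : (0 : ℝ) < (n + 1).multichoose (j + s) := by exact_mod_cast multichoose_pos n (j + s)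
    simp only [Function.comp_apply]
    rw [← add_assoc]
    field_simp

/-- `c · u1 ≤ D` for `j` large -/
theorem exists_count (n s c : ℕ) : ∃ j0, ∀ j, j0 ≤ j →
    c * ((n + 1).multichoose (j + s) - (n + 1).multichoose j) ≤ (n + 1).multichoose j := by
  have h1 := tendsto_ratio n s
  have hc : (1 : ℝ) < 1 + 1 / ((c : ℝ) + 1) := by
    have : (0 : ℝ) < 1 / ((c : ℝ) + 1) := by positivity
    linarith
  obtain ⟨j0, hj0⟩ := eventually_atTop.1 (h1.eventually (gt_mem_nhds hc))
  refine ⟨j0, fun j hj => ?_⟩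
  have h2 := hj0 j hj
  have h3 : (0 : ℝ) < (n + 1).multichoose j := by exact_mod_cast multichoose_pos n j
  rw [div_lt_iff₀ h3] at h2
  rcases le_total ((n + 1).multichoose (j + s)) ((n + 1).multichoose j) with h4 | h4
  · rw [Nat.sub_eq_zero_of_le h4]; simp
  · obtain ⟨d, hd⟩ := Nat.exists_eq_add_of_le h4
    rw [hd, Nat.add_sub_cancel_left]
    rw [hd] at h2
    push_cast at h2
    have h5 : (d : ℝ) < 1 / ((c : ℝ) + 1) * (n + 1).multichoose j := by linarith
    have h6 : ((c : ℝ) + 1) * d ≤ (n + 1).multichoose j := by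
      have h7 : (0 : ℝ) < (c : ℝ) + 1 := by positivity
      have h8 := mul_lt_mul_of_pos_left h5 h7
      have h9 : ((c : ℝ) + 1) * (1 / ((c : ℝ) + 1) * ((n + 1).multichoose j : ℝ)) =
          (n + 1).multichoose j := by field_simp
      linarith
    have h7 : (c : ℝ) * d ≤ (n + 1).multichoose j := by
      have : (0 : ℝ) ≤ d := by positivity
      nlinarith
    exact_mod_cast h7

/-- `u1 ≤ ε D` for `j` large -/
theorem exists_count_real (n s : ℕ) (ε : ℝ) (hε : 0 < ε) : ∃ j0, ∀ j, j0 ≤ j →
    (((n + 1).multichoose (j + s) - (n + 1).multichoose j : ℕ) : ℝ) ≤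
      ε * (n + 1).multichoose j := by
  obtain ⟨c, hc⟩ := exists_nat_gt (1 / ε)
  obtain ⟨j0, hj0⟩ := exists_count n s c
  refine ⟨j0, fun j hj => ?_⟩
  have h1 : ((c * ((n + 1).multichoose (j + s) - (n + 1).multichoose j) : ℕ) : ℝ) ≤
      (n + 1).multichoose j := by exact_mod_cast hj0 j hj
  rw [Nat.cast_mul] at h1
  have h2 : (0 : ℝ) < c := lt_trans (by positivity) hc
  have h3 : 1 < ε * c := by
    rw [div_lt_iff₀ hε] at hc; linarith
  have h4 : (0 : ℝ) ≤ (((n + 1).multichoose (j + s) - (n + 1).multichoose j : ℕ) : ℝ) :=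
    Nat.cast_nonneg _
  nlinarith

end Crest.Agent.R090.F0_933
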