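import Crest.Agent.R090.F0ProdTop_96

/-!
# Row 90, leaf F0 (owner helper933): finite dimensional backward-shift invariant subspaces

`ι` a finite index type (`ℂ^ι` = the coefficient space `ℂ^n`), `J` a bound for the degree:
`H = ℂ^ι ⊗ (polynomials of degree ≤ J) = (ι × Fin (J+1) → ℂ)`, `z^* = bs` the backward shift.

This file: the shift and the operators `γ_W = z P_W + (1 - P_W)` with their identities.
-/

set_option autoImplicit false
set_option linter.unusedSectionVars false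
set_option linter.unusedSimpArgs false
set_option linter.unusedVariables false

open Topology Filter Set Matrix
open scoped Kronecker

namespace Crest.Agent.R090.F0_933

/-- Hermitian idempotent matrices -/
structure IsPr {m : Type*} [Fintype m] (P : Matrix m m ℂ) : Prop where
  idem : P * P = P
  herm : Pᴴ = P

section defs

variable (ι : Type) [Fintype ι] [DecidableEq ι] (J : ℕ)

/-- the index type of `H` -/
abbrev HI : Type := ι × Fin (J + 1)

/-- backward shift on `Fin (J+1) → ℂ` -/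
abbrev sh : Matrix (Fin (J + 1)) (Fin (J + 1)) ℂ := F0Defs806.S (J + 1)

/-- backward shift `z^*` on `H` -/
abbrev bs : Matrix (HI ι J) (HI ι J) ℂ := F0Prod96.zS ι (J + 1)

theorem bs_def : bs ι J = (1 : Matrix ι ι ℂ) ⊗ₖ sh J := rfl

variable {ι}

/-- `p ⊗ 1` -/
def amp (p : Matrix ι ι ℂ) : Matrix (HI ι J) (HI ι J) ℂ := p ⊗ₖ (1 : Matrix _ _ ℂ)

/-- `p ⊗ E_00` -/
def p0 (p : Matrix ι ι ℂ) : Matrix (HI ι J) (HI ι J) ℂ :=
  p ⊗ₖ (Matrix.single (0 : Fin (J + 1)) 0 (1 : ℂ))

/-- `γ_W = z P_W + (1 - P_W)` -/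
def gam (p : Matrix ι ι ℂ) : Matrix (HI ι J) (HI ι J) ℂ := (bs ι J)ᴴ * amp J p + (1 - amp J p)

end defs

/-! ## operator identities -/

section ops

variable {ι : Type} [Fintype ι] [DecidableEq ι] {J : ℕ}

/-- projection to degree `0` -/
def E0 (ι : Type) [DecidableEq ι] (J : ℕ) : Matrix (HI ι J) (HI ι J) ℂ :=
  (1 : Matrix ι ι ℂ) ⊗ₖ (Matrix.single (0 : Fin (J + 1)) 0 (1 : ℂ))

/-- projection to degree `J` -/
def EJ (ι : Type) [DecidableEq ι] (J : ℕ) : Matrix (HI ι J) (HI ι J) ℂ :=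
  (1 : Matrix ι ι ℂ) ⊗ₖ (Matrix.single (Fin.last J) (Fin.last J) (1 : ℂ))

theorem sh_apply (x y : Fin (J + 1)) : sh J x y = if (x : ℕ) + 1 = y then 1 else 0 := by
  refine (F0Defs806.S_apply (J + 1) x y).trans ?_
  simp only [eq_comm]

theorem sh_mul_shH : sh J * (sh J)ᴴ = 1 - Matrix.single (Fin.last J) (Fin.last J) (1 : ℂ) := by
  ext x y
  rw [Matrix.mul_apply, Matrix.sub_apply, Matrix.one_apply, Matrix.single_apply]
  simp only [conjTranspose_apply, sh_apply]
  by_cases hx : (x : ℕ) + 1 < J + 1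
  · rw [Finset.sum_eq_single (⟨x + 1, hx⟩ : Fin (J + 1))]
    · have h1 : ¬ (Fin.last J = x ∧ Fin.last J = y) := by
        rintro ⟨h, -⟩; rw [← h] at hx; simp at hx
      rw [if_neg h1]
      by_cases hxy : x = y
      · subst hxy; simp
      · have : ¬ ((y : ℕ) = x) := fun h => hxy (Fin.ext h.symm)
        simp [hxy, this]
    · intro b _ hb
      have : ¬ ((x : ℕ) + 1 = b) := fun h => hb (Fin.ext h.symm)
      simp [this]
    · simp
  · have hx' : x = Fin.last J := by
      apply Fin.ext; rw [Fin.val_last]; omega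
    subst hx'
    rw [Finset.sum_eq_zero]
    · by_cases hxy : Fin.last J = y
      · simp [hxy]
      · simp [hxy]
    · intro b _
      have : ¬ ((Fin.last J : ℕ) + 1 = b) := by
        have := b.isLt; rw [Fin.val_last]; omega
      rw [if_neg this, zero_mul]

theorem shH_mul_sh : (sh J)ᴴ * sh J = 1 - Matrix.single (0 : Fin (J + 1)) 0 (1 : ℂ) := by
  ext x y
  rw [Matrix.mul_apply, Matrix.sub_apply, Matrix.one_apply, Matrix.single_apply]
  simp only [conjTranspose_apply, sh_apply]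
  by_cases hx : (x : ℕ) = 0
  · have hx' : x = 0 := Fin.ext hx
    subst hx'
    rw [Finset.sum_eq_zero]
    · by_cases hxy : (0 : Fin (J+1)) = y
      · simp [hxy]
      · simp [hxy]
    · intro b _
      simp
  · obtain ⟨k, hk⟩ : ∃ k, (x : ℕ) = k + 1 := Nat.exists_eq_succ_of_ne_zero hx
    have hk' : k < J + 1 := by have := x.isLt; omega
    rw [Finset.sum_eq_single (⟨k, hk'⟩ : Fin (J + 1))]
    · have h1 : ¬ ((0 : Fin (J + 1)) = x ∧ (0 : Fin (J + 1)) = y) := by
        rintro ⟨h, -⟩; rw [← h] at hx; simp at hx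
      rw [if_neg h1]
      by_cases hxy : x = y
      · subst hxy; simp [hk]
      · have : ¬ (k + 1 = (y : ℕ)) := fun h => hxy (Fin.ext (hk.trans h))
        simp [hxy, this]
    · intro b _ hb
      have : ¬ ((b : ℕ) + 1 = x) := fun h => hb (Fin.ext (by simpa using (by omega : (b : ℕ) = k)))
      simp [this]
    · simp

theorem single_last_mul_sh : Matrix.single (Fin.last J) (Fin.last J) (1 : ℂ) * sh J = 0 := by
  ext x y
  rw [Matrix.mul_apply]
  simp only [Matrix.single_apply, sh_apply, Matrix.zero_apply]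
  refine Finset.sum_eq_zero fun b _ => ?_
  by_cases h : Fin.last J = b
  · subst h
    have : ¬ ((Fin.last J : ℕ) + 1 = y) := by
      have := y.isLt; rw [Fin.val_last]; omega
    rw [if_neg this, mul_zero]
  · simp [h]

theorem sh_mul_single_zero (J : ℕ) :
    sh J * Matrix.single (0 : Fin (J + 1)) (0 : Fin (J + 1)) (1 : ℂ) = 0 := by
  ext x y
  rw [Matrix.mul_apply]
  simp only [Matrix.single_apply, sh_apply, Matrix.zero_apply]
  refine Finset.sum_eq_zero fun b _ => ?_
  by_cases h : (0 : Fin (J+1)) = b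
  · subst h
    simp
  · simp [h]

theorem sh_pow_apply (k : ℕ) (x y : Fin (J + 1)) :
    (sh J ^ k) x y = if (x : ℕ) + k = y then 1 else 0 := by
  induction k generalizing x y with
  | zero => simp [Matrix.one_apply, Fin.ext_iff]
  | succ k ih =>
    rw [pow_succ', Matrix.mul_apply]
    simp only [sh_apply, ih]
    by_cases hx : (x : ℕ) + 1 < J + 1
    · rw [Finset.sum_eq_single (⟨x + 1, hx⟩ : Fin (J + 1))]
      · simp only [if_true]
        have : ((x : ℕ) + 1 + k = y) ↔ ((x : ℕ) + (k + 1) = y) := by omega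
        simp [this]
      · intro b _ hb
        have : ¬ ((x : ℕ) + 1 = b) := fun h => hb (Fin.ext h.symm)
        simp [this]
      · simp
    · rw [Finset.sum_eq_zero]
      · have : ¬ ((x : ℕ) + (k + 1) = y) := by have := y.isLt; omega
        simp [this]
      · intro b _
        have : ¬ ((x : ℕ) + 1 = b) := by have := b.isLt; omega
        simp [this]

theorem single_last_eq : Matrix.single (Fin.last J) (Fin.last J) (1 : ℂ) =
    Matrix.single (Fin.last J) 0 (1 : ℂ) * sh J ^ J := by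
  ext x y
  rw [Matrix.mul_apply]
  simp only [Matrix.single_apply, sh_pow_apply]
  rw [Finset.sum_eq_single (0 : Fin (J + 1))]
  · by_cases hx : Fin.last J = x
    · by_cases hy : Fin.last J = y
      · subst hx; subst hy; simp
      · have : ¬ (J = (y : ℕ)) := fun h => hy (Fin.ext (by simpa using h))
        simp [hy, this]
    · simp [hx]
  · intro b _ hb
    simp [hb.symm]
  · simp

/-! ### identities on `H` -/

theorem kronecker_sub' {l m n o : Type*} (A : Matrix l m ℂ) (B C : Matrix n o ℂ) :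
    A ⊗ₖ (B - C) = A ⊗ₖ B - A ⊗ₖ C := by
  ext x y
  simp [Matrix.kroneckerMap_apply, mul_sub]

theorem bs_mul_bsH : bs ι J * (bs ι J)ᴴ = 1 - EJ ι J := by
  rw [bs_def, EJ, conjTranspose_kronecker, ← mul_kronecker_mul, sh_mul_shH]
  simp [kronecker_sub']

theorem bsH_mul_bs : (bs ι J)ᴴ * bs ι J = 1 - E0 ι J := by
  rw [bs_def, E0, conjTranspose_kronecker, ← mul_kronecker_mul, shH_mul_sh]
  simp [kronecker_sub']

theorem EJ_mul_bs : EJ ι J * bs ι J = 0 := by
  rw [bs_def, EJ, ← mul_kronecker_mul, single_last_mul_sh, kronecker_zero]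

theorem bs_mul_E0 : bs ι J * E0 ι J = 0 := by
  rw [bs_def, E0, ← mul_kronecker_mul]
  exact (congrArg _ (sh_mul_single_zero J)).trans (kronecker_zero _)

theorem E0_herm : (E0 ι J)ᴴ = E0 ι J := by
  rw [E0, conjTranspose_kronecker]; simp

theorem EJ_herm : (EJ ι J)ᴴ = EJ ι J := by
  rw [EJ, conjTranspose_kronecker]; simp

theorem E0_idem : E0 ι J * E0 ι J = E0 ι J := by
  rw [E0, ← mul_kronecker_mul]; simp

theorem EJ_idem : EJ ι J * EJ ι J = EJ ι J := by
  rw [EJ, ← mul_kronecker_mul]; simp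

theorem E0_mul_bsH : E0 ι J * (bs ι J)ᴴ = 0 := by
  rw [← E0_herm, ← conjTranspose_mul, bs_mul_E0, conjTranspose_zero]

theorem bsH_mul_EJ : (bs ι J)ᴴ * EJ ι J = 0 := by
  rw [← EJ_herm, ← conjTranspose_mul, EJ_mul_bs, conjTranspose_zero]

theorem bs_mul_amp (p : Matrix ι ι ℂ) : bs ι J * amp J p = amp J p * bs ι J := by
  rw [bs_def, amp, ← mul_kronecker_mul, ← mul_kronecker_mul]; simp

theorem E0_mul_amp (p : Matrix ι ι ℂ) : E0 ι J * amp J p = amp J p * E0 ι J := by
  rw [E0, amp, ← mul_kronecker_mul, ← mul_kronecker_mul]; simp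

theorem EJ_mul_amp (p : Matrix ι ι ℂ) : EJ ι J * amp J p = amp J p * EJ ι J := by
  rw [EJ, amp, ← mul_kronecker_mul, ← mul_kronecker_mul]; simp

theorem bsH_mul_amp (p : Matrix ι ι ℂ) : (bs ι J)ᴴ * amp J p = amp J p * (bs ι J)ᴴ := by
  rw [bs_def, amp, conjTranspose_kronecker, ← mul_kronecker_mul, ← mul_kronecker_mul]; simp

theorem p0_eq (p : Matrix ι ι ℂ) : p0 J p = amp J p * E0 ι J := by
  rw [p0, amp, E0, ← mul_kronecker_mul]; simp

theorem amp_idem {p : Matrix ι ι ℂ} (hp : IsPr p) : amp J p * amp J p = amp J p := by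
  rw [amp, ← mul_kronecker_mul, hp.idem]; simp

theorem amp_herm {p : Matrix ι ι ℂ} (hp : IsPr p) : (amp J p)ᴴ = amp J p := by
  rw [amp, conjTranspose_kronecker, hp.herm]; simp

/-- the rewriting system -/
theorem reass {m : Type*} [Fintype m] {A B C : Matrix m m ℂ} (h : A * B = C) (D : Matrix m m ℂ) :
    A * (B * D) = C * D := by rw [← Matrix.mul_assoc, h]

theorem gamH {p : Matrix ι ι ℂ} (hp : IsPr p) :
    (gam J p)ᴴ = amp J p * bs ι J + (1 - amp J p) := by
  rw [gam, conjTranspose_add, conjTranspose_mul, conjTranspose_conjTranspose, conjTranspose_sub,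
    conjTranspose_one, amp_herm hp]

theorem gam_eq (p : Matrix ι ι ℂ) :
    gam J p = amp J p * (bs ι J)ᴴ + (1 - amp J p) := by
  rw [gam, bsH_mul_amp]

theorem gamH_mul_gam {p : Matrix ι ι ℂ} (hp : IsPr p) :
    (gam J p)ᴴ * gam J p = 1 - amp J p * EJ ι J := by
  rw [gamH hp, gam_eq]
  simp only [Matrix.mul_add, Matrix.add_mul, Matrix.mul_sub, Matrix.sub_mul, Matrix.mul_one,
    Matrix.one_mul, Matrix.mul_assoc, reass (bs_mul_amp p), bs_mul_amp p, reass (amp_idem hp),
    amp_idem hp, bs_mul_bsH]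
  abel

theorem gam_mul_gamH {p : Matrix ι ι ℂ} (hp : IsPr p) :
    gam J p * (gam J p)ᴴ = 1 - p0 J p := by
  rw [gamH hp, gam_eq, p0_eq]
  simp only [Matrix.mul_add, Matrix.add_mul, Matrix.mul_sub, Matrix.sub_mul, Matrix.mul_one,
    Matrix.one_mul, Matrix.mul_assoc, reass (bsH_mul_amp p), bsH_mul_amp p, reass (amp_idem hp),
    amp_idem hp, bsH_mul_bs]
  abel

theorem bs_mul_gam (p : Matrix ι ι ℂ) :
    bs ι J * gam J p = gam J p * bs ι J + p0 J p - amp J p * EJ ι J := by
  rw [gam_eq, p0_eq]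
  simp only [Matrix.mul_add, Matrix.add_mul, Matrix.mul_sub, Matrix.sub_mul, Matrix.mul_one,
    Matrix.one_mul, Matrix.mul_assoc, reass (bs_mul_amp p), bs_mul_amp p, bs_mul_bsH, bsH_mul_bs]
  abel

theorem bs_mul_gamH {p : Matrix ι ι ℂ} (hp : IsPr p) :
    bs ι J * (gam J p)ᴴ = (gam J p)ᴴ * bs ι J := by
  rw [gamH hp]
  simp only [Matrix.mul_add, Matrix.add_mul, Matrix.mul_sub, Matrix.sub_mul, Matrix.mul_one,
    Matrix.one_mul, Matrix.mul_assoc, reass (bs_mul_amp p), bs_mul_amp p]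

theorem p0_herm {p : Matrix ι ι ℂ} (hp : IsPr p) : (p0 J p)ᴴ = p0 J p := by
  rw [p0_eq, conjTranspose_mul, E0_herm, amp_herm hp, E0_mul_amp]

theorem p0_idem {p : Matrix ι ι ℂ} (hp : IsPr p) : p0 J p * p0 J p = p0 J p := by
  rw [p0_eq]
  simp only [Matrix.mul_assoc, reass (E0_mul_amp p), reass (amp_idem hp), E0_idem]

theorem p0_mul_gam {p : Matrix ι ι ℂ} (hp : IsPr p) : p0 J p * gam J p = 0 := by
  rw [p0_eq, gam_eq]
  simp only [Matrix.mul_add, Matrix.add_mul, Matrix.mul_sub, Matrix.sub_mul, Matrix.mul_one,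
    Matrix.one_mul, Matrix.mul_assoc, reass (E0_mul_amp p), E0_mul_amp p, reass (amp_idem hp),
    E0_mul_bsH, Matrix.mul_zero]
  abel

theorem gamH_mul_p0 {p : Matrix ι ι ℂ} (hp : IsPr p) : (gam J p)ᴴ * p0 J p = 0 := by
  rw [← p0_herm hp, ← conjTranspose_mul, p0_mul_gam hp, conjTranspose_zero]

theorem bs_mul_p0 (p : Matrix ι ι ℂ) : bs ι J * p0 J p = 0 := by
  rw [p0_eq, ← Matrix.mul_assoc, bs_mul_amp, Matrix.mul_assoc, bs_mul_E0, Matrix.mul_zero]

theorem EJ_mul_gamH {p : Matrix ι ι ℂ} (hp : IsPr p) :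
    amp J p * (EJ ι J * (gam J p)ᴴ) = 0 := by
  rw [gamH hp]
  simp only [Matrix.mul_add, Matrix.add_mul, Matrix.mul_sub, Matrix.sub_mul, Matrix.mul_one,
    Matrix.one_mul, Matrix.mul_assoc, reass (EJ_mul_amp p), EJ_mul_amp p, reass (amp_idem hp),
    EJ_mul_bs, Matrix.mul_zero]
  abel

theorem trace_p0 (p : Matrix ι ι ℂ) : (p0 J p).trace = p.trace := by
  rw [p0, trace_kronecker]; simp

end ops

end Crest.Agent.R090.F0_933
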