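import Mathlib

/-!
# Row 90, F0: the pieces `V^{(a)}_{n,j}` of the polynomial loop space (definitions; owner helper806)

`V Z A j` is the space of pairs `(P, v)`: `P` an orthogonal projection of rank `j` of `ℂ^h` whose image is
invariant under `Z`, `v : A → im P`.
-/

set_option autoImplicit false
set_option linter.unusedSectionVars false
set_option linter.unusedFintypeInType false
set_option linter.unusedDecidableInType false

open Matrix Topology

namespace Crest.Agent.R090.F0Defs806

/-- the backward shift `z^*` on `ℂ^J` -/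
def S (J : ℕ) : Matrix (Fin J) (Fin J) ℂ :=
  Matrix.of fun i j => if (j : ℕ) = i + 1 then 1 else 0

theorem S_apply (J : ℕ) (i j : Fin J) : S J i j = if (j : ℕ) = i + 1 then 1 else 0 := rfl

variable {h h' A A' : Type*} [Fintype h] [DecidableEq h] [Fintype h'] [DecidableEq h']

/-- `P` is an orthogonal projection of rank `j` with `Z`-invariant image containing the columns of `v` -/
structure IsV (Z : Matrix h h ℂ) (j : ℕ) (P : Matrix h h ℂ) (v : Matrix h A ℂ) : Prop where
  herm : Pᴴ = P
  idem : P * P = P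
  tr : P.trace = j
  inv : P * (Z * P) = Z * P
  vec : P * v = v

/-- the space `V^{(A)}_j` of `Z`-invariant projections of rank `j` with vectors in the image -/
def V (Z : Matrix h h ℂ) (A : Type*) (j : ℕ) : Type _ :=
  {x : Matrix h h ℂ × Matrix h A ℂ // IsV Z j x.1 x.2}

instance (Z : Matrix h h ℂ) (j : ℕ) : TopologicalSpace (V Z A j) :=
  inferInstanceAs (TopologicalSpace {x : Matrix h h ℂ × Matrix h A ℂ // IsV Z j x.1 x.2})

instance (Z : Matrix h h ℂ) (j : ℕ) : T2Space (V Z A j) :=
  inferInstanceAs (T2Space {x : Matrix h h ℂ × Matrix h A ℂ // IsV Z j x.1 x.2})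

theorem isClosed_isV (Z : Matrix h h ℂ) (j : ℕ) :
    IsClosed {x : Matrix h h ℂ × Matrix h A ℂ | IsV Z j x.1 x.2} := by
  have h1 : {x : Matrix h h ℂ × Matrix h A ℂ | IsV Z j x.1 x.2} =
      {x | x.1ᴴ = x.1} ∩ {x | x.1 * x.1 = x.1} ∩ {x | x.1.trace = (j : ℂ)} ∩
      {x | x.1 * (Z * x.1) = Z * x.1} ∩ {x | x.1 * x.2 = x.2} := by
    ext x
    constructor
    · intro h
      exact ⟨⟨⟨⟨h.herm, h.idem⟩, h.tr⟩, h.inv⟩, h.vec⟩
    · rintro ⟨⟨⟨⟨a, b⟩, c⟩, d⟩, e⟩
      exact ⟨a, b, c, d, e⟩
  rw [h1]
  refine IsClosed.inter (IsClosed.inter (IsClosed.inter (IsClosed.inter ?_ ?_) ?_) ?_) ?_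
  · exact isClosed_eq (continuous_fst.matrix_conjTranspose) continuous_fst
  · exact isClosed_eq (continuous_fst.matrix_mul continuous_fst) continuous_fst
  · exact isClosed_eq (continuous_fst.matrix_trace) continuous_const
  · exact isClosed_eq (continuous_fst.matrix_mul (continuous_const.matrix_mul continuous_fst))
      (continuous_const.matrix_mul continuous_fst)
  · exact isClosed_eq (continuous_fst.matrix_mul continuous_snd) continuous_snd

instance instLocallyCompactMatrix {a b : Type*} [Finite a] [Finite b] :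
    LocallyCompactSpace (Matrix a b ℂ) :=
  inferInstanceAs (LocallyCompactSpace (a → b → ℂ))

instance [Finite A] (Z : Matrix h h ℂ) (j : ℕ) : LocallyCompactSpace (V Z A j) :=
  (isClosed_isV (A := A) Z j).isClosedEmbedding_subtypeVal.locallyCompactSpace

theorem continuous_val (Z : Matrix h h ℂ) (j : ℕ) : Continuous (fun x : V Z A j => x.1) :=
  continuous_subtype_val

@[ext] theorem V.ext {Z : Matrix h h ℂ} {j : ℕ} {x y : V Z A j} (h1 : x.1.1 = y.1.1)
    (h2 : x.1.2 = y.1.2) : x = y := Subtype.ext (Prod.ext h1 h2)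

/-- a map into `V` is continuous iff both components are -/
theorem continuous_mk {X : Type*} [TopologicalSpace X] {Z : Matrix h h ℂ} {j : ℕ}
    {f : X → V Z A j} (h1 : Continuous fun x => (f x).1.1) (h2 : Continuous fun x => (f x).1.2) :
    Continuous f := by
  refine Continuous.subtype_mk (f := fun x => (f x).1) ?_ (fun x => (f x).2)
  exact h1.prodMk h2

/-! ### reindexing -/

theorem IsV.reindex {Z : Matrix h h ℂ} {j : ℕ} {P : Matrix h h ℂ} {v : Matrix h A ℂ}
    (H : IsV Z j P v) (e : h ≃ h') (f : A ≃ A') :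
    IsV (Z.submatrix e.symm e.symm) j (P.submatrix e.symm e.symm) (v.submatrix e.symm f.symm) := by
  refine ⟨?_, ?_, ?_, ?_, ?_⟩
  · rw [conjTranspose_submatrix, H.herm]
  · rw [submatrix_mul_equiv, H.idem]
  · rw [← H.tr]
    simp only [Matrix.trace, diag_apply, submatrix_apply]
    exact Equiv.sum_comp e.symm (fun i => P i i)
  · rw [submatrix_mul_equiv, submatrix_mul_equiv, H.inv]
  · rw [submatrix_mul_equiv, H.vec]

/-- `V` only depends on the index types up to equivalence -/
def reindexHomeo (Z : Matrix h h ℂ) (j : ℕ) (e : h ≃ h') (f : A ≃ A') :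
    V Z A j ≃ₜ V (Z.submatrix e.symm e.symm) A' j where
  toFun x := ⟨(x.1.1.submatrix e.symm e.symm, x.1.2.submatrix e.symm f.symm), x.2.reindex e f⟩
  invFun x := ⟨(x.1.1.submatrix e e, x.1.2.submatrix e f), by
    have := x.2.reindex e.symm f.symm
    simpa [submatrix_submatrix] using this⟩
  left_inv x := by
    apply V.ext <;> simp [submatrix_submatrix]
  right_inv x := by
    apply V.ext <;> simp [submatrix_submatrix]
  continuous_toFun := by
    refine continuous_mk ?_ ?_
    · exact (continuous_fst.comp (continuous_val Z j)).matrix_submatrix _ _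
    · exact (continuous_snd.comp (continuous_val Z j)).matrix_submatrix _ _
  continuous_invFun := by
    refine continuous_mk ?_ ?_
    · exact (continuous_fst.comp (continuous_val _ j)).matrix_submatrix _ _
    · exact (continuous_snd.comp (continuous_val _ j)).matrix_submatrix _ _

/-! ### powers of the shift -/

theorem S_pow_apply (J m : ℕ) (i j : Fin J) : ((S J) ^ m) i j = if (j : ℕ) = i + m then 1 else 0 := by
  induction m generalizing i j with
  | zero => simp [Matrix.one_apply, Fin.ext_iff, eq_comm]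
  | succ m ih =>
    rw [pow_succ, Matrix.mul_apply]
    simp only [ih, S_apply]
    by_cases hj : (j : ℕ) = i + (m + 1)
    · have hlt : (i : ℕ) + m < J := by have := j.2; omega
      rw [Finset.sum_eq_single (⟨i + m, hlt⟩ : Fin J)]
      · simp only [if_true, one_mul]
        rw [if_pos (show (j : ℕ) = i + m + 1 by omega), if_pos hj]
      · intro b _ hb
        have : (b : ℕ) ≠ i + m := fun h => hb (Fin.ext h)
        simp [this]
      · intro h; exact absurd (Finset.mem_univ _) h
    · rw [if_neg hj]
      apply Finset.sum_eq_zero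
      intro b _
      by_cases hb : (b : ℕ) = i + m
      · have : ¬ ((j : ℕ) = b + 1) := by omega
        simp [this]
      · simp [hb]

theorem S_pow_eq_zero {J m : ℕ} (h : J ≤ m) : (S J) ^ m = 0 := by
  ext i j
  rw [S_pow_apply, if_neg]
  · rfl
  · have := j.2; omega

/-! ### the degree lemma -/

/-- the rank of `K` bounds its degree: `Z^j P = 0` -/
theorem IsV.pow_mul_eq_zero {Z : Matrix h h ℂ} {j : ℕ} {P : Matrix h h ℂ} {v : Matrix h A ℂ}
    (H : IsV Z j P v) {m : ℕ} (hZ : Z ^ m = 0) : Z ^ j * P = 0 := by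
  classical
  -- the image of `P`
  set p : (h → ℂ) →ₗ[ℂ] (h → ℂ) := Matrix.toLin' P with hp
  set z : (h → ℂ) →ₗ[ℂ] (h → ℂ) := Matrix.toLin' Z with hz
  set K : Submodule ℂ (h → ℂ) := LinearMap.range p with hK
  have hpp : p ∘ₗ p = p := by
    rw [hp, ← Matrix.toLin'_mul, H.idem]
  have hpK : ∀ x ∈ K, p x = x := by
    rintro x ⟨y, rfl⟩
    exact LinearMap.congr_fun hpp y
  have hproj : LinearMap.IsProj K p := ⟨fun x => ⟨x, rfl⟩, hpK⟩
  have hfr : Module.finrank ℂ K = j := by
    have h1 := hproj.trace
    have h2 : LinearMap.trace ℂ (h → ℂ) p = P.trace := by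
      rw [hp, Matrix.trace_toLin'_eq]
    rw [h2, H.tr] at h1
    exact_mod_cast h1.symm
  have hzK : ∀ x ∈ K, z x ∈ K := by
    intro x hx
    have h1 : p x = x := hpK x hx
    refine ⟨z x, ?_⟩
    have h2 : p (z (p x)) = z (p x) := by
      have := congrArg (fun M => Matrix.toLin' M x) H.inv
      simpa [hp, hz, Matrix.toLin'_mul] using this
    rw [h1] at h2
    exact h2
  set φ : Module.End ℂ K := z.restrict hzK with hφ
  have hφpow : ∀ (n : ℕ) (x : K), ((φ ^ n) x : h → ℂ) = (z ^ n) (x : h → ℂ) := by
    intro n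
    induction n with
    | zero => intro x; simp
    | succ n ih =>
      intro x
      rw [pow_succ, pow_succ, Module.End.mul_apply, Module.End.mul_apply, ih]
      rfl
  have hzpow : ∀ n, z ^ n = Matrix.toLin' (Z ^ n) := by
    intro n
    induction n with
    | zero => simp [Module.End.one_eq_id]
    | succ n ih => rw [pow_succ, pow_succ, ih, Matrix.toLin'_mul]; rfl
  have hnil : IsNilpotent φ := by
    refine ⟨m, ?_⟩
    ext1 x
    apply Subtype.ext
    rw [hφpow, hzpow, hZ]
    simp
  have hj : φ ^ j = 0 := by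
    have h1 : φ.charpoly = Polynomial.X ^ Module.finrank ℂ K :=
      (LinearMap.isNilpotent_iff_charpoly φ).1 hnil
    have h2 := φ.aeval_self_charpoly
    rw [h1, hfr] at h2
    simpa only [map_pow, Polynomial.aeval_X] using h2
  apply Matrix.toLin'.injective
  rw [Matrix.toLin'_mul, ← hzpow, map_zero]
  refine LinearMap.ext fun x => ?_
  have h1 := hφpow j ⟨p x, ⟨x, rfl⟩⟩
  rw [hj] at h1
  exact h1.symm

end Crest.Agent.R090.F0Defs806
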