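import Crest.Agent.R090.F0Def_933
import Crest.Agent.R090.F0Defs_806

/-!
# Row 90, leaf F0: the product and the closed embedding at a fixed `W` (owner helper933)

For a projection `p` of rank `s` of `ℂ^ι` and `j ≤ J`,
`(a, (P, v)) ↦ (p₀ + γ P γᴴ, a₀ + γ v)` is a homeomorphism from
`{a // p a = a} × V (bs ι J) A j` onto the closed subspace `{P p₀ = p₀}` of `V (bs ι J) A (j + s)`.
-/

set_option autoImplicit false
set_option linter.unusedSectionVars false
set_option linter.unusedSimpArgs false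
set_option linter.unusedVariables false

open Topology Filter Set Matrix
open scoped Kronecker
open Crest.Agent.R090.F0Defs806 (IsV V continuous_mk continuous_val)

namespace Crest.Agent.R090.F0_933

variable {ι : Type} [Fintype ι] [DecidableEq ι] {J : ℕ} {A : Type}

theorem bs_eq : bs ι J = (1 : Matrix ι ι ℂ) ⊗ₖ F0Defs806.S (J + 1) := rfl

theorem bs_pow (k : ℕ) : bs ι J ^ k = (1 : Matrix ι ι ℂ) ⊗ₖ (sh J ^ k) := by
  induction k with
  | zero => simp
  | succ k ih =>
    rw [pow_succ, ih, bs_def, ← mul_kronecker_mul, pow_succ, Matrix.one_mul]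

theorem bs_pow_zero : bs ι J ^ (J + 1) = 0 := by
  rw [bs_pow]
  have : sh J ^ (J + 1) = 0 := by
    ext x y
    rw [sh_pow_apply, if_neg]
    · rfl
    · have := y.isLt; omega
  rw [this, kronecker_zero]

theorem EJ_eq : EJ ι J = ((1 : Matrix ι ι ℂ) ⊗ₖ (Matrix.single (Fin.last J) (0 : Fin (J + 1)) (1 : ℂ))) *
    bs ι J ^ J := by
  rw [bs_pow, EJ, ← mul_kronecker_mul, ← single_last_eq, Matrix.one_mul]

/-- in rank `≤ J` the top degree does not occur -/
theorem EJ_mul {j : ℕ} (hj : j ≤ J) {P : Matrix (HI ι J) (HI ι J) ℂ} {v : Matrix (HI ι J) A ℂ}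
    (H : IsV (bs ι J) j P v) : EJ ι J * P = 0 := by
  have h1 : bs ι J ^ j * P = 0 := H.pow_mul_eq_zero bs_pow_zero
  have h2 : bs ι J ^ J * P = 0 := by
    have h3 : bs ι J ^ J = bs ι J ^ (J - j) * bs ι J ^ j := by
      rw [← pow_add]; congr 1; omega
    rw [h3, Matrix.mul_assoc, h1, Matrix.mul_zero]
  rw [EJ_eq, Matrix.mul_assoc, h2, Matrix.mul_zero]

theorem mul_EJ {j : ℕ} (hj : j ≤ J) {P : Matrix (HI ι J) (HI ι J) ℂ} {v : Matrix (HI ι J) A ℂ}
    (H : IsV (bs ι J) j P v) : P * EJ ι J = 0 := by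
  have := congrArg conjTranspose (EJ_mul hj H)
  rwa [conjTranspose_mul, H.herm, EJ_herm, conjTranspose_zero] at this

theorem EJ_mul_vec {j : ℕ} (hj : j ≤ J) {P : Matrix (HI ι J) (HI ι J) ℂ}
    {v : Matrix (HI ι J) A ℂ} (H : IsV (bs ι J) j P v) : EJ ι J * v = 0 := by
  rw [← H.vec, ← Matrix.mul_assoc, EJ_mul hj H, Matrix.zero_mul]

/-- inclusion of degree `0` -/
def inj0 (ι : Type) [DecidableEq ι] (J : ℕ) : Matrix (HI ι J) ι ℂ :=
  Matrix.of fun x k => if x.1 = k ∧ x.2 = 0 then 1 else 0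

theorem inj0_apply (x : HI ι J) (k : ι) : inj0 ι J x k = if x.1 = k ∧ x.2 = 0 then 1 else 0 := rfl

theorem inj0H_mul_inj0 : (inj0 ι J)ᴴ * inj0 ι J = 1 := by
  ext x y
  rw [Matrix.mul_apply, Fintype.sum_prod_type]
  simp only [conjTranspose_apply, inj0_apply, Matrix.one_apply]
  rw [Finset.sum_eq_single x]
  · rw [Finset.sum_eq_single (0 : Fin (J + 1))]
    · simp
    · intro b _ hb; simp [hb]
    · simp
  · intro b _ hb; simp [hb]
  · simp

theorem inj0_mul_inj0H : inj0 ι J * (inj0 ι J)ᴴ = E0 ι J := by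
  ext x y
  rw [Matrix.mul_apply, E0, kroneckerMap_apply]
  simp only [conjTranspose_apply, inj0_apply, Matrix.one_apply, Matrix.single_apply]
  rw [Finset.sum_eq_single x.1]
  · by_cases h1 : x.1 = y.1 <;> by_cases h2 : x.2 = 0 <;> by_cases h3 : y.2 = 0 <;>
      simp [h1, h2, h3, eq_comm]
  · intro b _ hb; simp [hb.symm]
  · simp

theorem amp_mul_inj0 (p : Matrix ι ι ℂ) : amp J p * inj0 ι J = inj0 ι J * p := by
  ext x y
  rw [Matrix.mul_apply, Matrix.mul_apply, Fintype.sum_prod_type]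
  simp only [amp, kroneckerMap_apply, inj0_apply, Matrix.one_apply]
  rw [Finset.sum_eq_single y, Finset.sum_eq_single x.1, Finset.sum_eq_single x.2]
  · simp
  · intro b _ hb; simp [hb.symm]
  · simp
  · intro b _ hb; simp [hb.symm]
  · simp
  · intro b _ hb; simp [hb]
  · simp

theorem bs_mul_inj0 : bs ι J * inj0 ι J = 0 := by
  have h1 : inj0 ι J = E0 ι J * inj0 ι J := by
    rw [← inj0_mul_inj0H, Matrix.mul_assoc, inj0H_mul_inj0, Matrix.mul_one]
  rw [h1, ← Matrix.mul_assoc, bs_mul_E0, Matrix.zero_mul]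

theorem p0_eq' (p : Matrix ι ι ℂ) : p0 J p = inj0 ι J * (p * (inj0 ι J)ᴴ) := by
  rw [p0_eq, ← inj0_mul_inj0H, ← Matrix.mul_assoc, amp_mul_inj0, Matrix.mul_assoc]

theorem p0_mul_inj0 (p : Matrix ι ι ℂ) : p0 J p * inj0 ι J = inj0 ι J * p := by
  rw [p0_eq', Matrix.mul_assoc, Matrix.mul_assoc, inj0H_mul_inj0, Matrix.mul_one]

theorem gamH_mul_inj0 {p : Matrix ι ι ℂ} (hp : IsPr p) :
    (gam J p)ᴴ * inj0 ι J = inj0 ι J * (1 - p) := by
  rw [gamH hp]
  simp only [Matrix.mul_add, Matrix.add_mul, Matrix.mul_sub, Matrix.sub_mul, Matrix.mul_one,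
    Matrix.one_mul, Matrix.mul_assoc, bs_mul_inj0, amp_mul_inj0, Matrix.mul_zero, zero_add]

theorem inj0H_mul_gam {p : Matrix ι ι ℂ} (hp : IsPr p) :
    (inj0 ι J)ᴴ * gam J p = (1 - p) * (inj0 ι J)ᴴ := by
  have := congrArg conjTranspose (gamH_mul_inj0 (J := J) hp)
  rw [conjTranspose_mul, conjTranspose_conjTranspose, conjTranspose_mul, conjTranspose_sub,
    conjTranspose_one, hp.herm] at this
  exact this

/-! ### the product -/

/-- the product on projections -/
def prodP (J : ℕ) (p : Matrix ι ι ℂ) (P : Matrix (HI ι J) (HI ι J) ℂ) :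
    Matrix (HI ι J) (HI ι J) ℂ :=
  p0 J p + gam J p * (P * (gam J p)ᴴ)

/-- the product on vectors -/
def prodV (J : ℕ) (p : Matrix ι ι ℂ) (a : Matrix ι A ℂ) (v : Matrix (HI ι J) A ℂ) :
    Matrix (HI ι J) A ℂ :=
  inj0 ι J * a + gam J p * v

/-- right associated rewriting rules -/
theorem rr {k l m n : Type*} [Fintype l] [Fintype m] {A : Matrix k l ℂ} {B : Matrix l m ℂ}
    {C : Matrix k m ℂ} (h : A * B = C) (D : Matrix m n ℂ) : A * (B * D) = C * D := by
  rw [← Matrix.mul_assoc, h]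

theorem isV_prod {j s : ℕ} (hj : j ≤ J) {p : Matrix ι ι ℂ} (hp : IsPr p) (hs : p.trace = s)
    {a : Matrix ι A ℂ} (ha : p * a = a) {P : Matrix (HI ι J) (HI ι J) ℂ}
    {v : Matrix (HI ι J) A ℂ} (H : IsV (bs ι J) j P v) :
    IsV (bs ι J) (j + s) (prodP J p P) (prodV J p a v) := by
  have h1 := EJ_mul hj H
  have h2 := mul_EJ hj H
  have hg : (gam J p)ᴴ * (gam J p * P) = P := by
    rw [← Matrix.mul_assoc, gamH_mul_gam hp, Matrix.sub_mul, Matrix.one_mul, Matrix.mul_assoc, h1,
      Matrix.mul_zero, sub_zero]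
  have hgv : (gam J p)ᴴ * (gam J p * v) = v := by
    rw [← Matrix.mul_assoc, gamH_mul_gam hp, Matrix.sub_mul, Matrix.one_mul, Matrix.mul_assoc,
      EJ_mul_vec hj H, Matrix.mul_zero, sub_zero]
  have hg' : (gam J p)ᴴ * (gam J p * (bs ι J * P)) = bs ι J * P := by
    rw [← Matrix.mul_assoc, gamH_mul_gam hp, Matrix.sub_mul, Matrix.one_mul, Matrix.mul_assoc,
      ← Matrix.mul_assoc (EJ ι J), EJ_mul_bs, Matrix.zero_mul, Matrix.mul_zero, sub_zero]
  have hb : bs ι J * (gam J p * P) = gam J p * (bs ι J * P) + p0 J p * P := by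
    rw [← Matrix.mul_assoc, bs_mul_gam, Matrix.sub_mul, Matrix.add_mul, Matrix.mul_assoc,
      Matrix.mul_assoc (amp J p), h1, Matrix.mul_zero, sub_zero]
  have e1 : ∀ {n : Type} (X : Matrix (HI ι J) n ℂ),
      (gam J p)ᴴ * (gam J p * (P * X)) = P * X := by
    intro n X
    rw [← Matrix.mul_assoc (gam J p), ← Matrix.mul_assoc, hg]
  have e2 : ∀ {n : Type} (X : Matrix (HI ι J) n ℂ),
      (gam J p)ᴴ * (gam J p * (bs ι J * (P * X))) = bs ι J * (P * X) := by
    intro n X
    have := congrArg (· * X) hg'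
    simpa only [Matrix.mul_assoc] using this
  have e3 : ∀ {n : Type} (X : Matrix (HI ι J) n ℂ),
      bs ι J * (gam J p * (P * X)) = gam J p * (bs ι J * (P * X)) + p0 J p * (P * X) := by
    intro n X
    have := congrArg (· * X) hb
    simpa only [Matrix.mul_assoc, Matrix.add_mul] using this
  have e4 : ∀ {n : Type} (X : Matrix (HI ι J) n ℂ),
      P * (bs ι J * (P * X)) = bs ι J * (P * X) := by
    intro n X
    have := congrArg (· * X) H.inv
    simpa only [Matrix.mul_assoc, Matrix.add_mul] using this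
  refine ⟨?_, ?_, ?_, ?_, ?_⟩
  · rw [prodP, conjTranspose_add, p0_herm hp, conjTranspose_mul, conjTranspose_mul,
      conjTranspose_conjTranspose, H.herm, Matrix.mul_assoc]
  · rw [prodP]
    simp only [Matrix.mul_add, Matrix.add_mul, Matrix.mul_assoc, p0_idem hp, gamH_mul_p0 hp,
      Matrix.mul_zero, add_zero, rr (p0_mul_gam hp), Matrix.zero_mul, zero_add, e1,
      rr H.idem]
  · rw [prodP, Matrix.trace_add, trace_p0, hs, Matrix.trace_mul_comm, Matrix.mul_assoc,
      gamH_mul_gam hp, Matrix.mul_sub, Matrix.mul_one, ← EJ_mul_amp, ← Matrix.mul_assoc, h2,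
      Matrix.zero_mul, sub_zero, H.tr]
    push_cast
    ring
  · rw [prodP]
    simp only [Matrix.mul_add, Matrix.add_mul, Matrix.mul_assoc, p0_idem hp, gamH_mul_p0 hp,
      Matrix.mul_zero, add_zero, rr (p0_mul_gam hp), Matrix.zero_mul, zero_add, e1, e3, e2, e4,
      rr H.idem, bs_mul_p0, rr (p0_idem hp), rr (gamH_mul_p0 hp)]
  · rw [prodP, prodV]
    simp only [Matrix.mul_add, Matrix.add_mul, Matrix.mul_assoc, rr (p0_mul_inj0 (J := J) p),
      rr (p0_mul_gam hp), Matrix.zero_mul, add_zero, rr (gamH_mul_inj0 (J := J) hp), hgv, H.vec,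
      ha, Matrix.sub_mul, Matrix.one_mul, sub_self, Matrix.mul_zero, zero_add]

/-- the inverse construction -/
theorem isV_res {j s : ℕ} {p : Matrix ι ι ℂ} (hp : IsPr p) (hs : p.trace = s)
    {P : Matrix (HI ι J) (HI ι J) ℂ} {v : Matrix (HI ι J) A ℂ} (H : IsV (bs ι J) (j + s) P v)
    (hP : P * p0 J p = p0 J p) :
    IsV (bs ι J) j ((gam J p)ᴴ * (P * gam J p)) ((gam J p)ᴴ * v) := by
  have hP' : p0 J p * P = p0 J p := by
    have := congrArg conjTranspose hP
    rwa [conjTranspose_mul, H.herm, p0_herm hp] at this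
  have k1 : gam J p * (gam J p)ᴴ = 1 - p0 J p := gam_mul_gamH hp
  have k3 : (gam J p)ᴴ * p0 J p = 0 := gamH_mul_p0 hp
  refine ⟨?_, ?_, ?_, ?_, ?_⟩
  · rw [conjTranspose_mul, conjTranspose_mul, conjTranspose_conjTranspose, H.herm,
      Matrix.mul_assoc]
  · simp only [Matrix.mul_assoc, rr k1, Matrix.sub_mul, Matrix.one_mul, rr H.idem,
      Matrix.mul_sub, rr hP', rr hP, rr k3, Matrix.zero_mul, sub_zero]
  · rw [← Matrix.mul_assoc, Matrix.trace_mul_comm, ← Matrix.mul_assoc, k1, Matrix.sub_mul,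
      Matrix.one_mul, hP', Matrix.trace_sub, H.tr, trace_p0, hs]
    push_cast
    ring
  · have k4 : bs ι J * (gam J p)ᴴ = (gam J p)ᴴ * bs ι J := bs_mul_gamH hp
    have e4 : ∀ {n : Type} (X : Matrix (HI ι J) n ℂ),
        P * (bs ι J * (P * X)) = bs ι J * (P * X) := by
      intro n X
      have := congrArg (· * X) H.inv
      simpa only [Matrix.mul_assoc, Matrix.add_mul] using this
    simp only [Matrix.mul_assoc, rr k4, rr k1, Matrix.sub_mul, Matrix.one_mul, Matrix.mul_sub,
      rr hP, rr k3, Matrix.zero_mul, sub_zero, e4]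
  · simp only [Matrix.mul_assoc, rr k1, Matrix.sub_mul, Matrix.one_mul, H.vec,
      Matrix.mul_sub, rr hP, rr k3, Matrix.zero_mul, sub_zero]


theorem continuous_gam : Continuous (gam J : Matrix ι ι ℂ → _) := by
  unfold gam amp
  refine Continuous.add ?_ ?_
  · refine continuous_const.matrix_mul ?_
    refine continuous_matrix fun x y => ?_
    simp only [kroneckerMap_apply]
    exact (continuous_id.matrix_elem _ _).mul continuous_const
  · refine continuous_const.sub ?_
    refine continuous_matrix fun x y => ?_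
    simp only [kroneckerMap_apply]
    exact (continuous_id.matrix_elem _ _).mul continuous_const

theorem continuous_p0 : Continuous (p0 J : Matrix ι ι ℂ → _) := by
  unfold p0
  refine continuous_matrix fun x y => ?_
  simp only [kroneckerMap_apply]
  exact (continuous_id.matrix_elem _ _).mul continuous_const

variable (A) in
/-- vectors in `W` -/
abbrev WV (p : Matrix ι ι ℂ) : Type := {a : Matrix ι A ℂ // p * a = a}

/-- **the closed embedding at a fixed `W = im p`** -/
noncomputable def embHomeo {j s : ℕ} (hj : j ≤ J) {p : Matrix ι ι ℂ} (hp : IsPr p)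
    (hs : p.trace = s) :
    WV A p × V (bs ι J) A j ≃ₜ {x : V (bs ι J) A (j + s) // x.1.1 * p0 J p = p0 J p} where
  toFun x := ⟨⟨(prodP J p x.2.1.1, prodV J p x.1.1 x.2.1.2), isV_prod hj hp hs x.1.2 x.2.2⟩, by
    change prodP J p x.2.1.1 * p0 J p = p0 J p
    rw [prodP]
    simp only [Matrix.add_mul, Matrix.mul_assoc, p0_idem hp, gamH_mul_p0 hp, Matrix.mul_zero,
      add_zero]⟩
  invFun y := (⟨p * ((inj0 ι J)ᴴ * y.1.1.2), by rw [← Matrix.mul_assoc, hp.idem]⟩,
    ⟨((gam J p)ᴴ * (y.1.1.1 * gam J p), (gam J p)ᴴ * y.1.1.2), isV_res hp hs y.1.2 y.2⟩)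
  left_inv x := by
    obtain ⟨⟨a, ha⟩, ⟨⟨P, v⟩, H⟩⟩ := x
    have h1 := EJ_mul hj H
    have h2 := mul_EJ hj H
    have h3 := EJ_mul_vec hj H
    have hgg : (gam J p)ᴴ * gam J p = 1 - amp J p * EJ ι J := gamH_mul_gam hp
    refine Prod.ext (Subtype.ext ?_) (V.ext ?_ ?_)
    · change p * ((inj0 ι J)ᴴ * prodV J p a v) = a
      rw [prodV]
      simp only [Matrix.mul_add, Matrix.add_mul, Matrix.mul_assoc, rr (inj0H_mul_inj0 (J := J)),
        rr (inj0H_mul_gam (J := J) hp), Matrix.one_mul, Matrix.sub_mul, Matrix.mul_sub,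
        rr hp.idem, ha, sub_self, add_zero]
    · change (gam J p)ᴴ * (prodP J p P * gam J p) = P
      have q1 : P * ((gam J p)ᴴ * gam J p) = P := by
        rw [hgg, ← EJ_mul_amp, Matrix.mul_sub, Matrix.mul_one, ← Matrix.mul_assoc]
        change P - P * EJ ι J * amp J p = P
        rw [h2, Matrix.zero_mul, sub_zero]
      have q2 : (gam J p)ᴴ * (gam J p * P) = P := by
        rw [rr hgg, Matrix.sub_mul, Matrix.one_mul, Matrix.mul_assoc]
        change P - amp J p * (EJ ι J * P) = P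
        rw [h1, Matrix.mul_zero, sub_zero]
      rw [prodP]
      simp only [Matrix.mul_add, Matrix.add_mul, Matrix.mul_assoc, p0_mul_gam hp, Matrix.mul_zero,
        zero_add, q1, q2]
    · change (gam J p)ᴴ * prodV J p a v = v
      rw [prodV]
      simp only [Matrix.mul_add, Matrix.add_mul, Matrix.mul_assoc, rr (gamH_mul_inj0 (J := J) hp),
        rr hgg, Matrix.sub_mul, Matrix.one_mul, ha, sub_self, Matrix.mul_zero, zero_add, h3,
        sub_zero]
  right_inv y := by
    obtain ⟨⟨⟨P, v⟩, H⟩, hP⟩ := y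
    change P * p0 J p = p0 J p at hP
    have hP' : p0 J p * P = p0 J p := by
      have := congrArg conjTranspose hP
      rwa [conjTranspose_mul, H.herm, p0_herm hp] at this
    have k1 : gam J p * (gam J p)ᴴ = 1 - p0 J p := gam_mul_gamH hp
    refine Subtype.ext (V.ext ?_ ?_)
    · change prodP J p ((gam J p)ᴴ * (P * gam J p)) = P
      rw [prodP]
      simp only [Matrix.mul_add, Matrix.add_mul, Matrix.mul_assoc, k1, rr k1, Matrix.sub_mul,
        Matrix.one_mul, Matrix.mul_sub, Matrix.mul_one, hP, rr hP, hP', p0_idem hp, sub_self,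
        sub_zero]
      abel
    · change prodV J p (p * ((inj0 ι J)ᴴ * v)) ((gam J p)ᴴ * v) = v
      rw [prodV, rr k1, Matrix.sub_mul, Matrix.one_mul, p0_eq']
      simp only [Matrix.mul_assoc]
      abel
  continuous_toFun := by
    refine Continuous.subtype_mk (continuous_mk ?_ ?_) _
    · refine continuous_const.add (continuous_const.matrix_mul (Continuous.matrix_mul ?_
        continuous_const))
      exact continuous_fst.comp ((continuous_val _ _).comp continuous_snd)
    · refine Continuous.add (continuous_const.matrix_mul ?_) (continuous_const.matrix_mul ?_)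
      · exact continuous_subtype_val.comp continuous_fst
      · exact continuous_snd.comp ((continuous_val _ _).comp continuous_snd)
  continuous_invFun := by
    have h1 : Continuous fun y : {x : V (bs ι J) A (j + s) // x.1.1 * p0 J p = p0 J p} =>
        y.1.1 := (continuous_val _ _).comp continuous_subtype_val
    refine Continuous.prodMk (Continuous.subtype_mk ?_ _) (continuous_mk ?_ ?_)
    · exact continuous_const.matrix_mul (continuous_const.matrix_mul (continuous_snd.comp h1))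
    · exact continuous_const.matrix_mul ((continuous_fst.comp h1).matrix_mul continuous_const)
    · exact continuous_const.matrix_mul (continuous_snd.comp h1)

theorem isClosed_emb {j : ℕ} (p : Matrix ι ι ℂ) :
    IsClosed {x : V (bs ι J) A j | x.1.1 * p0 J p = p0 J p} :=
  isClosed_eq ((continuous_fst.comp (continuous_val _ _)).matrix_mul continuous_const)
    continuous_const

end Crest.Agent.R090.F0_933
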