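import Crest.Agent.R090.F0ProdTop_96

/-!
# Row 90, F0: the product as a pointed map `Th(γ_s) ∧ V_j → V_{j+s}` (owner helper96)

* `PMap.ofProper` : a proper map gives a pointed map of one point compactifications;
* `isCompact_nsq_le` : `{x : V Z A j | ‖v‖² ≤ R}` is compact;
* `nsq_prodv` : `‖a + γ_W v‖² = ‖a‖² + ‖v‖²`;
* `prodMap : PMap (Th ι A s × V (zS ι J) A j) (V (zS ι J) A (j + s))`.
-/

set_option autoImplicit false
set_option linter.unusedSectionVars false
set_option linter.unusedFintypeInType false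
set_option linter.unusedDecidableInType false

open Matrix Topology Filter
open scoped Kronecker

namespace Crest.Agent.R090.F0Prod96

open F0Defs806 Sp962

section proper

variable {U V : Type*} [TopologicalSpace U] [TopologicalSpace V]

/-- the pointed map of a proper map -/
def ofProper (f : U → V) (hf : Continuous f)
    (hp : ∀ K : Set V, IsClosed K → IsCompact K → IsCompact (f ⁻¹' K)) : PMap U V where
  toFun := OnePoint.map f
  cont := OnePoint.continuous_map hf (by
    rw [hasBasis_coclosedCompact.tendsto_iff hasBasis_coclosedCompact]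
    rintro K ⟨hK, hK'⟩
    exact ⟨f ⁻¹' K, ⟨hK.preimage hf, hp K hK hK'⟩, fun x hx => hx⟩)
  map_inf := rfl

@[simp] theorem ofProper_coe (f : U → V) (hf : Continuous f)
    (hp : ∀ K : Set V, IsClosed K → IsCompact K → IsCompact (f ⁻¹' K)) (x : U) :
    ofProper f hf hp x = (f x : OnePoint V) := rfl

end proper

section norm

variable {h A : Type*} [Fintype h] [Fintype A]

/-- the square norm of a matrix -/
noncomputable def nsq (M : Matrix h A ℂ) : ℝ := ∑ k, ∑ i, ‖M i k‖ ^ 2

theorem nsq_nonneg (M : Matrix h A ℂ) : 0 ≤ nsq M :=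
  Finset.sum_nonneg fun _ _ => Finset.sum_nonneg fun _ _ => sq_nonneg _

theorem continuous_nsq : Continuous (nsq (h := h) (A := A)) := by
  unfold nsq
  refine continuous_finsetSum _ fun k _ => continuous_finsetSum _ fun i _ => ?_
  exact ((continuous_id.matrix_elem i k).norm).pow 2

theorem trace_conj_mul (M : Matrix h A ℂ) : (Mᴴ * M).trace = (nsq M : ℂ) := by
  rw [Matrix.trace, nsq]
  push_cast
  refine Finset.sum_congr rfl fun k _ => ?_
  rw [Matrix.diag_apply, Matrix.mul_apply]
  refine Finset.sum_congr rfl fun i _ => ?_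
  rw [conjTranspose_apply]
  change star (M i k) * M i k = _
  rw [Complex.star_def, ← Complex.normSq_eq_conj_mul_self, Complex.normSq_eq_norm_sq]
  push_cast
  rfl

theorem norm_le_of_nsq {M : Matrix h A ℂ} {R : ℝ} (hR : nsq M ≤ R) (i : h) (k : A) :
    ‖M i k‖ ^ 2 ≤ R := by
  refine le_trans ?_ hR
  have h1 : ‖M i k‖ ^ 2 ≤ ∑ i, ‖M i k‖ ^ 2 :=
    Finset.single_le_sum (f := fun i => ‖M i k‖ ^ 2) (fun _ _ => sq_nonneg _) (Finset.mem_univ i)
  refine h1.trans ?_
  exact Finset.single_le_sum (f := fun k => ∑ i, ‖M i k‖ ^ 2)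
    (fun _ _ => Finset.sum_nonneg fun _ _ => sq_nonneg _) (Finset.mem_univ k)

/-- the entries of a projection are bounded by `1` -/
theorem norm_entry_le {P : Matrix h h ℂ} (h1 : Pᴴ = P) (h2 : P * P = P) (i k : h) :
    ‖P i k‖ ≤ 1 := by
  have h3 : (∑ k, ((‖P i k‖ ^ 2 : ℝ) : ℂ)) = P i i := by
    have h4 : (P * Pᴴ) i i = P i i := by rw [h1, h2]
    rw [← h4, Matrix.mul_apply]
    refine Finset.sum_congr rfl fun k _ => ?_
    rw [conjTranspose_apply, Complex.star_def, Complex.mul_conj, Complex.normSq_eq_norm_sq]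
  set S : ℝ := ∑ k, ‖P i k‖ ^ 2 with hS
  have h5 : (S : ℂ) = P i i := by rw [← h3, hS]; push_cast; rfl
  have hS0 : 0 ≤ S := Finset.sum_nonneg fun _ _ => sq_nonneg _
  have h6 : ‖P i i‖ = S := by rw [← h5, Complex.norm_real, Real.norm_of_nonneg hS0]
  have h7 : ‖P i i‖ ^ 2 ≤ S :=
    Finset.single_le_sum (f := fun k => ‖P i k‖ ^ 2) (fun _ _ => sq_nonneg _) (Finset.mem_univ i)
  have h8 : S ≤ 1 := by
    rw [h6] at h7
    nlinarith
  have h9 : ‖P i k‖ ^ 2 ≤ S :=
    Finset.single_le_sum (f := fun k => ‖P i k‖ ^ 2) (fun _ _ => sq_nonneg _) (Finset.mem_univ k)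
  nlinarith [norm_nonneg (P i k)]

end norm

section compact

variable {h A : Type*} [Fintype h] [DecidableEq h] [Fintype A]

/-- bounded subsets of `V` are relatively compact -/
theorem isCompact_nsq_le (Z : Matrix h h ℂ) (j : ℕ) (R : ℝ) :
    IsCompact {x : V Z A j | nsq x.1.2 ≤ R} := by
  have hc : IsClosedEmbedding (Subtype.val : V Z A j → Matrix h h ℂ × Matrix h A ℂ) :=
    (isClosed_isV (A := A) Z j).isClosedEmbedding_subtypeVal
  have hK1 : IsCompact {P : Matrix h h ℂ | ∀ i k, P i k ∈ Metric.closedBall (0 : ℂ) 1} := by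
    have : {P : Matrix h h ℂ | ∀ i k, P i k ∈ Metric.closedBall (0 : ℂ) 1} =
        (Set.pi Set.univ fun _ : h => Set.pi Set.univ fun _ : h => Metric.closedBall (0 : ℂ) 1 :
          Set (h → h → ℂ)) := by
      ext P
      constructor
      · intro H i _ k _; exact H i k
      · intro H i k; exact H i (Set.mem_univ _) k (Set.mem_univ _)
    rw [this]
    exact isCompact_univ_pi fun _ => isCompact_univ_pi fun _ => isCompact_closedBall _ _
  have hK2 : IsCompact {v : Matrix h A ℂ | ∀ i k, v i k ∈ Metric.closedBall (0 : ℂ) (|R| + 1)} := by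
    have : {v : Matrix h A ℂ | ∀ i k, v i k ∈ Metric.closedBall (0 : ℂ) (|R| + 1)} =
        (Set.pi Set.univ fun _ : h => Set.pi Set.univ fun _ : A =>
          Metric.closedBall (0 : ℂ) (|R| + 1) : Set (h → A → ℂ)) := by
      ext P
      constructor
      · intro H i _ k _; exact H i k
      · intro H i k; exact H i (Set.mem_univ _) k (Set.mem_univ _)
    rw [this]
    exact isCompact_univ_pi fun _ => isCompact_univ_pi fun _ => isCompact_closedBall _ _
  refine (hc.isCompact_preimage (hK1.prod hK2)).of_isClosed_subset ?_ ?_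
  · exact isClosed_le (continuous_nsq.comp (continuous_snd.comp (continuous_val Z j)))
      continuous_const
  · intro x hx
    refine ⟨fun i k => ?_, fun i k => ?_⟩
    · rw [mem_closedBall_zero_iff]
      exact norm_entry_le x.2.herm x.2.idem i k
    · rw [mem_closedBall_zero_iff]
      have h1 : ‖x.1.2 i k‖ ^ 2 ≤ R := norm_le_of_nsq hx i k
      have h2 : R ≤ |R| := le_abs_self R
      nlinarith [norm_nonneg (x.1.2 i k), abs_nonneg R]

theorem exists_nsq_le {Z : Matrix h h ℂ} {j : ℕ} {K : Set (V Z A j)} (hK : IsCompact K) :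
    ∃ R : ℝ, ∀ x ∈ K, nsq x.1.2 ≤ R := by
  have h1 : ContinuousOn (fun x : V Z A j => nsq x.1.2) K :=
    (continuous_nsq.comp (continuous_snd.comp (continuous_val Z j))).continuousOn
  obtain ⟨R, hR⟩ := (hK.image_of_continuousOn h1).bddAbove
  exact ⟨R, fun x hx => hR ⟨x, hx, rfl⟩⟩

end compact

section

variable {ι A : Type*} [Fintype ι] [DecidableEq ι] [Fintype A]

theorem nsq_deg0 {J : ℕ} (hJ : 0 < J) (a : Matrix ι A ℂ) : nsq (deg0 J a) = nsq a := by
  rw [nsq, nsq]
  refine Finset.sum_congr rfl fun k _ => ?_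
  rw [Fintype.sum_prod_type]
  refine Finset.sum_congr rfl fun y _ => ?_
  have h1 : ∀ b : Fin J, ‖deg0 J a (y, b) k‖ ^ 2 = if (b : ℕ) = 0 then ‖a y k‖ ^ 2 else 0 := by
    intro b
    have h2 : deg0 J a (y, b) k = if (b : ℕ) = 0 then a y k else 0 := rfl
    rw [h2]
    by_cases hb : (b : ℕ) = 0 <;> simp [hb]
  simp only [h1]
  rw [Finset.sum_eq_single (⟨0, hJ⟩ : Fin J)]
  · simp
  · intro b _ hb
    have : ¬ ((b : ℕ) = 0) := fun h => hb (Fin.ext h)
    rw [if_neg this]
  · intro h; exact absurd (Finset.mem_univ _) h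

theorem nsq_prod {J s j : ℕ} (hj : j < J) (x : Th ι A s × V (zS ι J) A j) :
    nsq (prod hj x).1.2 = nsq x.1.1.2 + nsq x.2.1.2 := by
  have hF : F (zS ι J) * x.2.1.2 = 0 := by
    rw [← x.2.2.vec, ← Matrix.mul_assoc, F_mul_eq_zero hj x.2.2, Matrix.zero_mul]
  have hu : BE (zS ι J) (amp J x.1.1.1) * deg0 J x.1.1.2 = deg0 J x.1.1.2 := by
    rw [BE_deg0, x.1.2.vec]
  have h1 := (dat J x.1.2.herm x.1.2.idem).norm_prodv hu hF
  have h2 := congrArg Matrix.trace h1
  rw [trace_add, trace_conj_mul, trace_conj_mul, trace_conj_mul, nsq_deg0 (by omega)] at h2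
  exact_mod_cast h2

/-- **the product as a pointed map** -/
def prodMap {J s j : ℕ} (hj : j < J) :
    PMap (Th ι A s × V (zS ι J) A j) (V (zS ι J) A (j + s)) :=
  ofProper (prod hj) (continuous_prod hj) (by
    intro K hK hK'
    obtain ⟨R, hR⟩ := exists_nsq_le hK'
    refine ((isCompact_nsq_le (A := A) (0 : Matrix ι ι ℂ) s R).prod
      (isCompact_nsq_le (A := A) (zS ι J) j R)).of_isClosed_subset
        (hK.preimage (continuous_prod hj)) ?_
    intro x hx
    have h1 := hR _ hx
    rw [nsq_prod] at h1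
    exact ⟨by have := nsq_nonneg x.2.1.2; change nsq x.1.1.2 ≤ R; linarith,
      by have := nsq_nonneg x.1.1.2; change nsq x.2.1.2 ≤ R; linarith⟩)

@[simp] theorem prodMap_coe {J s j : ℕ} (hj : j < J) (x : Th ι A s × V (zS ι J) A j) :
    prodMap hj x = (prod hj x : OnePoint (V (zS ι J) A (j + s))) := rfl

/-- the fibre over a fixed projection: `ℂ^s`-coordinates are `A`-tuples of vectors of `im p₀` given
by a matrix `W : ι × Fin s` with orthonormal columns -/
theorem isV_fib {s : ℕ} {W : Matrix ι (Fin s) ℂ} (hW : Wᴴ * W = 1) (t : Matrix (Fin s) A ℂ) :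
    IsV (0 : Matrix ι ι ℂ) s (W * Wᴴ) (W * t) := by
  rw [isV_zero_iff]
  refine ⟨?_, ?_, ?_, ?_⟩
  · rw [conjTranspose_mul, conjTranspose_conjTranspose]
  · rw [Matrix.mul_assoc, ← Matrix.mul_assoc Wᴴ, hW, Matrix.one_mul]
  · rw [Matrix.trace_mul_comm, hW, Matrix.trace_one, Fintype.card_fin]
  · rw [Matrix.mul_assoc, ← Matrix.mul_assoc Wᴴ, hW, Matrix.one_mul]

/-- the fibre `ℂ^{s × A} → Th(γ_s)` over the span of the orthonormal columns of `W` -/
def fib {s : ℕ} {W : Matrix ι (Fin s) ℂ} (hW : Wᴴ * W = 1) (t : Matrix (Fin s) A ℂ) : Th ι A s :=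
  ⟨(W * Wᴴ, W * t), isV_fib hW t⟩

theorem continuous_fib {s : ℕ} {W : Matrix ι (Fin s) ℂ} (hW : Wᴴ * W = 1) :
    Continuous (fib (A := A) hW) :=
  continuous_mk continuous_const (continuous_const.matrix_mul continuous_id)

theorem isClosedEmbedding_fib {s : ℕ} {W : Matrix ι (Fin s) ℂ} (hW : Wᴴ * W = 1) :
    IsClosedEmbedding (fib (A := A) hW) := by
  have hl : Function.LeftInverse (fun x : Th ι A s => Wᴴ * x.1.2) (fib (A := A) hW) := by
    intro t
    change Wᴴ * (W * t) = t
    rw [← Matrix.mul_assoc, hW, Matrix.one_mul]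
  exact hl.isClosedEmbedding
    (continuous_const.matrix_mul (continuous_snd.comp (continuous_val _ _))) (continuous_fib hW)

end

end Crest.Agent.R090.F0Prod96
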