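import Crest.Agent.R090.Ho_962

/-!
# Row 90, I0-CORE part a (owner helper275): the Thom spaces `Th k ι`, continuity criteria

`Th k ι` = pairs (orthogonal projection `P` of rank `k` of `ℂ^ι`, vector `v` with `P v = v`).
-/

set_option autoImplicit false
set_option linter.unusedSectionVars false

open Topology Filter Set Matrix

namespace Crest.Agent.R090.I0core275

open OnePoint Crest.Agent.R090.Sp962
open scoped unitInterval

variable {ι κ : Type*} [Fintype ι] [DecidableEq ι] [Fintype κ] [DecidableEq κ]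

/-- orthogonal projections of rank `k` (rank = trace) -/
structure IsPr (k : ℕ) (P : Matrix ι ι ℂ) : Prop where
  herm : Pᴴ = P
  idem : P * P = P
  tr : P.trace = k

/-- the total space of the tautological bundle over the Grassmannian `Gr_k(ℂ^ι)` -/
def Th (k : ℕ) (ι : Type*) [Fintype ι] [DecidableEq ι] : Type _ :=
  {x : Matrix ι ι ℂ × (ι → ℂ) // IsPr k x.1 ∧ x.1 *ᵥ x.2 = x.2}

instance (k : ℕ) : TopologicalSpace (Th k ι) :=
  inferInstanceAs (TopologicalSpace {x : Matrix ι ι ℂ × (ι → ℂ) // IsPr k x.1 ∧ x.1 *ᵥ x.2 = x.2})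

theorem isClosed_isPr (k : ℕ) : IsClosed {P : Matrix ι ι ℂ | IsPr k P} := by
  have h1 : IsClosed {P : Matrix ι ι ℂ | Pᴴ = P} :=
    isClosed_eq (continuous_id.matrix_conjTranspose) continuous_id
  have h2 : IsClosed {P : Matrix ι ι ℂ | P * P = P} :=
    isClosed_eq (continuous_id.matrix_mul continuous_id) continuous_id
  have h3 : IsClosed {P : Matrix ι ι ℂ | P.trace = k} :=
    isClosed_eq (continuous_id.matrix_trace) continuous_const
  have : {P : Matrix ι ι ℂ | IsPr k P} =
      {P : Matrix ι ι ℂ | Pᴴ = P} ∩ {P | P * P = P} ∩ {P | P.trace = k} := by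
    ext P
    exact ⟨fun h => ⟨⟨h.herm, h.idem⟩, h.tr⟩, fun h => ⟨h.1.1, h.1.2, h.2⟩⟩
  rw [this]
  exact (h1.inter h2).inter h3

theorem isClosed_th (k : ℕ) :
    IsClosed {x : Matrix ι ι ℂ × (ι → ℂ) | IsPr k x.1 ∧ x.1 *ᵥ x.2 = x.2} :=
  ((isClosed_isPr k).preimage continuous_fst).inter
    (isClosed_eq (continuous_fst.matrix_mulVec continuous_snd) continuous_snd)

theorem isClosedEmbedding_val (k : ℕ) :
    IsClosedEmbedding (Subtype.val : Th k ι → Matrix ι ι ℂ × (ι → ℂ)) :=
  (isClosed_th k).isClosedEmbedding_subtypeVal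

instance (k : ℕ) : T2Space (Th k ι) :=
  inferInstanceAs (T2Space {x : Matrix ι ι ℂ × (ι → ℂ) // IsPr k x.1 ∧ x.1 *ᵥ x.2 = x.2})

instance : LocallyCompactSpace (Matrix ι ι ℂ) := inferInstanceAs (LocallyCompactSpace (ι → ι → ℂ))

instance (k : ℕ) : LocallyCompactSpace (Th k ι) := (isClosedEmbedding_val k).locallyCompactSpace

/-- entries of a projection -/
theorem IsPr.sum_sq {k : ℕ} {P : Matrix ι ι ℂ} (h : IsPr k P) (i : ι) :
    ((∑ j, ‖P i j‖ ^ 2 : ℝ) : ℂ) = P i i := by
  have h1 : (P * P) i i = P i i := by rw [h.idem]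
  rw [Matrix.mul_apply] at h1
  rw [← h1]
  push_cast
  refine Finset.sum_congr rfl fun j _ => ?_
  have h2 : P j i = star (P i j) := by
    have := congrFun (congrFun h.herm j) i
    rw [Matrix.conjTranspose_apply] at this
    exact this.symm
  rw [h2, Complex.star_def, Complex.mul_conj, Complex.normSq_eq_norm_sq]
  push_cast
  rfl

theorem IsPr.norm_diag_le {k : ℕ} {P : Matrix ι ι ℂ} (h : IsPr k P) (i : ι) : ‖P i i‖ ≤ 1 := by
  have h1 := h.sum_sq i
  have h2 : ‖P i i‖ ^ 2 ≤ ∑ j, ‖P i j‖ ^ 2 :=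
    Finset.single_le_sum (f := fun j => ‖P i j‖ ^ 2) (fun j _ => by positivity) (Finset.mem_univ i)
  have h3 : ‖P i i‖ = ∑ j, ‖P i j‖ ^ 2 := by
    rw [← h1, Complex.norm_real, Real.norm_eq_abs, abs_of_nonneg]
    exact Finset.sum_nonneg fun j _ => by positivity
  nlinarith [norm_nonneg (P i i)]

theorem IsPr.norm_entry_le {k : ℕ} {P : Matrix ι ι ℂ} (h : IsPr k P) (i j : ι) : ‖P i j‖ ≤ 1 := by
  have h1 := h.sum_sq i
  have h2 : ‖P i j‖ ^ 2 ≤ ∑ j, ‖P i j‖ ^ 2 :=
    Finset.single_le_sum (f := fun j => ‖P i j‖ ^ 2) (fun j _ => by positivity) (Finset.mem_univ j)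
  have h3 : ‖P i i‖ = ∑ j, ‖P i j‖ ^ 2 := by
    rw [← h1, Complex.norm_real, Real.norm_eq_abs, abs_of_nonneg]
    exact Finset.sum_nonneg fun j _ => by positivity
  have h4 := h.norm_diag_le i
  nlinarith [norm_nonneg (P i j)]

/-- closed balls in the fibre direction are compact -/
theorem isCompact_ball (k : ℕ) (R : ℝ) : IsCompact {x : Th k ι | ‖x.1.2‖ ≤ R} := by
  have h1 : IsCompact {M : Matrix ι ι ℂ | ∀ i j, ‖M i j‖ ≤ 1} := by
    have : {M : Matrix ι ι ℂ | ∀ i j, ‖M i j‖ ≤ 1} =
        (Set.univ.pi fun _ : ι => Set.univ.pi fun _ : ι => Metric.closedBall (0 : ℂ) 1) := by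
      ext M
      constructor
      · intro h i _ j _
        exact mem_closedBall_zero_iff.2 (h i j)
      · intro h i j
        exact mem_closedBall_zero_iff.1 (h i (mem_univ i) j (mem_univ j))
    rw [this]
    exact isCompact_univ_pi fun _ => isCompact_univ_pi fun _ => isCompact_closedBall _ _
  have h2 : IsCompact (Metric.closedBall (0 : ι → ℂ) R) := isCompact_closedBall _ _
  have h3 := (isClosedEmbedding_val (ι := ι) k).isCompact_preimage (h1.prod h2)
  refine h3.of_isClosed_subset ?_ ?_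
  · refine isClosed_le (continuous_norm.comp (continuous_snd.comp continuous_subtype_val))
      continuous_const
  · intro x hx
    exact ⟨fun i j => x.2.1.norm_entry_le i j, mem_closedBall_zero_iff.2 hx⟩

/-- convergence to infinity in `OnePoint (Th k ι)` -/
theorem tendsto_infty {X : Type*} {k : ℕ} {l : Filter X} {f : X → Th k ι}
    (h : Tendsto (fun x => ‖(f x).1.2‖) l atTop) :
    Tendsto (fun x => (f x : OnePoint (Th k ι))) l (𝓝 ∞) := by
  rw [OnePoint.hasBasis_nhds_infty.tendsto_right_iff]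
  rintro K ⟨_, hK⟩
  have hb : BddAbove ((fun x : Th k ι => ‖x.1.2‖) '' K) :=
    (hK.image (continuous_norm.comp (continuous_snd.comp continuous_subtype_val))).bddAbove
  obtain ⟨R, hR⟩ := hb
  filter_upwards [h.eventually_gt_atTop R] with x hx
  left
  refine ⟨f x, ?_, rfl⟩
  intro hxK
  exact absurd (hR ⟨f x, hxK, rfl⟩) (not_le.2 hx)

/-- gluing criterion: a map to `OnePoint (Th k ι)` given by a projection-valued map and a vector
valued map on an open set `D`, `∞` outside -/
theorem continuous_glue {X : Type*} [TopologicalSpace X] {k : ℕ} (D : Set X) (hD : IsOpen D)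
    (F : X → OnePoint (Th k ι)) (f : D → Th k ι) (hf : Continuous f)
    (hF : ∀ x : D, F x = f x) (hF' : ∀ x, x ∉ D → F x = ∞)
    (hlim : ∀ x, x ∉ D → Tendsto (fun y : D => ‖(f y).1.2‖) (comap Subtype.val (𝓝 x)) atTop) :
    Continuous F := by
  rw [continuous_iff_continuousAt]
  intro x
  by_cases hx : x ∈ D
  · have he : IsOpenEmbedding (Subtype.val : D → X) := hD.isOpenEmbedding_subtypeVal
    have h1 : ContinuousAt (F ∘ (Subtype.val : D → X)) ⟨x, hx⟩ := by
      have : F ∘ (Subtype.val : D → X) = fun y => (f y : OnePoint (Th k ι)) := funext hF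
      rw [this]
      exact (continuous_coe.comp hf).continuousAt
    exact (he.continuousAt_iff (x := (⟨x, hx⟩ : D))).1 h1
  · rw [ContinuousAt, hF' x hx]
    have h2 := tendsto_infty (hlim x hx)
    intro s hs
    have h3 := h2 hs
    rw [Filter.mem_map, Filter.mem_comap] at h3
    obtain ⟨t, ht, hts⟩ := h3
    rw [Filter.mem_map]
    filter_upwards [ht] with y hy
    by_cases hyD : y ∈ D
    · have := hts (show (⟨y, hyD⟩ : D) ∈ Subtype.val ⁻¹' t from hy)
      change F y ∈ s
      rw [hF ⟨y, hyD⟩]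
      exact this
    · change F y ∈ s
      rw [hF' y hyD]
      exact mem_of_mem_nhds hs

/-- a sufficient condition for the limit in `continuous_glue` -/
theorem tendsto_of_le {X : Type*} [TopologicalSpace X] {D : Set X} {x : X} {w : D → ℝ}
    {c n : X → ℝ} (hc : ContinuousAt c x) (hn : ContinuousAt n x) (hcx : c x = 0) (hnx : 0 < n x)
    (h : ∀ y : D, n y ≤ w y * |c y|) :
    Tendsto w (comap Subtype.val (𝓝 x)) atTop := by
  rw [tendsto_atTop]
  intro R
  have h1 : ∀ᶠ y in 𝓝 x, n x / 2 < n y := hn.eventually_const_lt (by linarith)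
  have h2 : ∀ᶠ y in 𝓝 x, |c y| < n x / 2 / (|R| + 1) := by
    have : Tendsto (fun y => |c y|) (𝓝 x) (𝓝 |c x|) := hc.abs
    rw [hcx, abs_zero] at this
    exact this.eventually_lt_const (by positivity)
  have h3 := (h1.and h2).comap (Subtype.val : D → X)
  filter_upwards [h3] with y hy
  obtain ⟨hy1, hy2⟩ := hy
  have h4 := h y
  have hR : 0 < |R| + 1 := by positivity
  rw [lt_div_iff₀ hR] at hy2
  by_contra hlt
  rw [not_le] at hlt
  have h5 : w y ≤ |R| + 1 := by
    have := le_abs_self R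
    linarith
  have h6 : w y * |(c y : ℝ)| ≤ (|R| + 1) * |c y| := mul_le_mul_of_nonneg_right h5 (abs_nonneg _)
  linarith

/-- a proper homotopy on `I × U` extends to `I × OnePoint U` -/
theorem continuous_ext {U V : Type*} [TopologicalSpace U] [TopologicalSpace V]
    (H : I × U → OnePoint V) (hH : Continuous H) (h : Tendsto H (coclosedCompact (I × U)) (𝓝 ∞)) :
    Continuous (fun p : I × OnePoint U => p.2.elim ∞ fun u => H (p.1, u)) := by
  rw [continuous_iff_continuousAt]
  rintro ⟨t, x⟩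
  induction x using OnePoint.rec with
  | coe x =>
    have he : IsOpenEmbedding (Prod.map (id : I → I) ((↑) : U → OnePoint U)) :=
      IsOpenEmbedding.id.prodMap isOpenEmbedding_coe
    have h1 : ContinuousAt ((fun p : I × OnePoint U => p.2.elim (∞ : OnePoint V)
        fun u => H (p.1, u)) ∘ (Prod.map (id : I → I) ((↑) : U → OnePoint U))) (t, x) :=
      hH.continuousAt
    exact he.continuousAt_iff.1 h1
  | infty =>
    rw [ContinuousAt]
    intro s hs
    rw [Filter.mem_map]
    have h2 := h hs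
    rw [Filter.mem_map, hasBasis_coclosedCompact.mem_iff] at h2
    obtain ⟨K, ⟨hK, hKc⟩, hKs⟩ := h2
    have h3 : IsCompact (Prod.snd '' K) := hKc.image continuous_snd
    have h3' : IsClosed (Prod.snd '' K) := by
      have : IsClosedMap (Prod.snd : I × U → U) := isClosedMap_snd_of_compactSpace
      exact this _ hK
    have h4 : IsOpen ((↑) '' (Prod.snd '' K) : Set (OnePoint U))ᶜ :=
      isOpen_compl_image_coe.2 ⟨h3', h3⟩
    have h5 : ((∞ : OnePoint U)) ∈ ((↑) '' (Prod.snd '' K) : Set (OnePoint U))ᶜ :=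
      infty_notMem_image_coe
    have h6 : ∀ᶠ p : I × OnePoint U in 𝓝 (t, ∞),
        p.2 ∈ ((↑) '' (Prod.snd '' K) : Set (OnePoint U))ᶜ :=
      (continuous_snd.tendsto (t, (∞ : OnePoint U))) (h4.mem_nhds h5)
    filter_upwards [h6] with p hp
    obtain ⟨a, b⟩ := p
    induction b using OnePoint.rec with
    | infty =>
      change (∞ : OnePoint V) ∈ s
      exact mem_of_mem_nhds hs
    | coe b =>
      change H (a, b) ∈ s
      by_contra hcon
      apply hp
      refine ⟨b, ⟨(a, b), ?_, rfl⟩, rfl⟩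
      by_contra hK'
      exact hcon (hKs hK')

end Crest.Agent.R090.I0core275
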