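import Crest.Agent.R090.F0Cells_933
import Crest.Agent.R090.F0ProdMap_96
import Crest.Agent.R090.I0a_275

/-!
# Row 90, F0: the product `Th s ι ∧ V_j → V_{j+s}` in the names of 933 / 275 (owner helper96)

* `mulMap hj : PMap (Th s ι × V (bs ι J) Unit j) (V (bs ι J) Unit (j + s))`;
* `fibM`, `emb` : the fibre over a fixed projection `p` and the closed embedding `E × V_j → V_{j+s}`;
* `mulMap_comp_fib : mulMap ∘ (fibM ∧ id) = ofClosed emb`;
* `null_emb : (fibM ∘ g).Null → (ofClosed emb ∘ (g ∧ id)).Null`.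
-/

set_option autoImplicit false
set_option linter.unusedSectionVars false
set_option linter.unusedFintypeInType false
set_option linter.unusedDecidableInType false

open Matrix Topology Filter
open scoped Kronecker

namespace Crest.Agent.R090.F0Mul96

open F0_933 (bs HI amp gam p0 inj0 prodP prodV pS Cl WV)
open F0Defs806 (IsV V continuous_mk continuous_val)
open Sp962 F0Prod96
open I0core275 (Th)

noncomputable section

variable {ι : Type} [Fintype ι] [DecidableEq ι] {J : ℕ}

/-- a vector as a one-column matrix -/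
def col {ι : Type} (a : ι → ℂ) : Matrix ι Unit ℂ := Matrix.of fun i _ => a i

theorem mul_col (p : Matrix ι ι ℂ) (a : ι → ℂ) : p * col a = col (p *ᵥ a) := by
  ext i k
  rfl

theorem col_injective {ι : Type} : Function.Injective (col (ι := ι)) := by
  intro a b h
  funext i
  exact congrFun (congrFun h i) ()

theorem continuous_col {ι : Type} : Continuous (col (ι := ι)) :=
  continuous_matrix fun i _ => continuous_apply i

theorem isPr_of {k : ℕ} {p : Matrix ι ι ℂ} (h : I0core275.IsPr k p) : F0_933.IsPr p :=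
  ⟨h.idem, h.herm⟩

theorem norm_prodV {j : ℕ} (hj : j ≤ J) {p : Matrix ι ι ℂ} (hp : F0_933.IsPr p)
    {a : Matrix ι Unit ℂ} (ha : p * a = a) {P : Matrix (HI ι J) (HI ι J) ℂ}
    {v : Matrix (HI ι J) Unit ℂ} (H : IsV (bs ι J) j P v) :
    (prodV J p a v)ᴴ * prodV J p a v = aᴴ * a + vᴴ * v := by
  have h3 := F0_933.EJ_mul_vec hj H
  have h4 : (gam J p)ᴴ * (gam J p * v) = v := by
    rw [← Matrix.mul_assoc, F0_933.gamH_mul_gam hp, Matrix.sub_mul, Matrix.one_mul,
      Matrix.mul_assoc, h3, Matrix.mul_zero, sub_zero]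
  have h5 : aᴴ * ((inj0 ι J)ᴴ * (gam J p * v)) = 0 := by
    rw [← Matrix.mul_assoc (inj0 ι J)ᴴ, F0_933.inj0H_mul_gam hp, Matrix.mul_assoc,
      ← Matrix.mul_assoc aᴴ, Matrix.mul_sub, Matrix.mul_one]
    have : aᴴ * p = aᴴ := by
      have := congrArg conjTranspose ha
      rwa [conjTranspose_mul, hp.herm] at this
    rw [this, sub_self, Matrix.zero_mul]
  have h6 : (gam J p * v)ᴴ * (inj0 ι J * a) = 0 := by
    have := congrArg conjTranspose h5
    simpa [conjTranspose_mul, Matrix.mul_assoc] using this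
  have h7 : (inj0 ι J * a)ᴴ * (inj0 ι J * a) = aᴴ * a := by
    rw [conjTranspose_mul, Matrix.mul_assoc, ← Matrix.mul_assoc (inj0 ι J)ᴴ,
      F0_933.inj0H_mul_inj0, Matrix.one_mul]
  have h8 : (inj0 ι J * a)ᴴ * (gam J p * v) = 0 := by
    rw [conjTranspose_mul, Matrix.mul_assoc, h5]
  have h9 : (gam J p * v)ᴴ * (gam J p * v) = vᴴ * v := by
    rw [conjTranspose_mul, Matrix.mul_assoc, h4]
  rw [prodV, conjTranspose_add, Matrix.add_mul, Matrix.mul_add, Matrix.mul_add, h6, h7, h8, h9]
  abel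

/-- **the product** -/
def mulFun {s j : ℕ} (hj : j ≤ J) (x : Th s ι × V (bs ι J) Unit j) : V (bs ι J) Unit (j + s) :=
  ⟨(prodP J x.1.1.1 x.2.1.1, prodV J x.1.1.1 (col x.1.1.2) x.2.1.2),
    F0_933.isV_prod hj (isPr_of x.1.2.1) x.1.2.1.tr
      (by rw [mul_col, x.1.2.2]) x.2.2⟩

theorem continuous_mulFun {s j : ℕ} (hj : j ≤ J) :
    Continuous (mulFun (ι := ι) (s := s) hj) := by
  have h1 : Continuous fun x : Th s ι × V (bs ι J) Unit j => x.1.1.1 :=
    continuous_fst.comp ((I0core275.isClosedEmbedding_val s).continuous.comp continuous_fst)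
  have h2 : Continuous fun x : Th s ι × V (bs ι J) Unit j => x.1.1.2 :=
    continuous_snd.comp ((I0core275.isClosedEmbedding_val s).continuous.comp continuous_fst)
  have h3 : Continuous fun x : Th s ι × V (bs ι J) Unit j => x.2.1.1 :=
    continuous_fst.comp ((continuous_val _ _).comp continuous_snd)
  have h4 : Continuous fun x : Th s ι × V (bs ι J) Unit j => x.2.1.2 :=
    continuous_snd.comp ((continuous_val _ _).comp continuous_snd)
  have hg : Continuous (gam J : Matrix ι ι ℂ → _) := F0_933.continuous_gam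
  refine continuous_mk ?_ ?_
  · exact (F0_933.continuous_p0.comp h1).add ((hg.comp h1).matrix_mul
      (h3.matrix_mul (hg.comp h1).matrix_conjTranspose))
  · exact (continuous_const.matrix_mul (continuous_col.comp h2)).add ((hg.comp h1).matrix_mul h4)

theorem nsq_mulFun {s j : ℕ} (hj : j ≤ J) (x : Th s ι × V (bs ι J) Unit j) :
    nsq (mulFun hj x).1.2 = nsq (col x.1.1.2) + nsq x.2.1.2 := by
  have h1 := norm_prodV hj (isPr_of x.1.2.1) (a := col x.1.1.2) (by rw [mul_col, x.1.2.2]) x.2.2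
  have h2 := congrArg Matrix.trace h1
  rw [trace_add, trace_conj_mul, trace_conj_mul, trace_conj_mul] at h2
  exact_mod_cast h2

theorem isCompact_th (s : ℕ) (R : ℝ) : IsCompact {x : Th s ι | nsq (col x.1.2) ≤ R} := by
  refine (I0core275.isCompact_ball s (|R| + 1)).of_isClosed_subset ?_ ?_
  · exact isClosed_le (continuous_nsq.comp (continuous_col.comp
      (continuous_snd.comp (I0core275.isClosedEmbedding_val s).continuous))) continuous_const
  · intro x hx
    change ‖x.1.2‖ ≤ |R| + 1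
    rw [pi_norm_le_iff_of_nonneg (by positivity)]
    intro i
    have h1 : ‖x.1.2 i‖ ^ 2 ≤ R := norm_le_of_nsq (M := col x.1.2) hx i ()
    have h2 : R ≤ |R| := le_abs_self R
    nlinarith [norm_nonneg (x.1.2 i), abs_nonneg R]

/-- **the product as a pointed map** -/
def mulMap {s j : ℕ} (hj : j ≤ J) :
    PMap (Th s ι × V (bs ι J) Unit j) (V (bs ι J) Unit (j + s)) :=
  ofProper (mulFun hj) (continuous_mulFun hj) (by
    intro K hK hK'
    obtain ⟨R, hR⟩ := exists_nsq_le hK'
    refine ((isCompact_th (ι := ι) s R).prod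
      (isCompact_nsq_le (A := Unit) (bs ι J) j R)).of_isClosed_subset
        (hK.preimage (continuous_mulFun hj)) ?_
    intro x hx
    have h1 := hR _ hx
    rw [nsq_mulFun] at h1
    exact ⟨by have := nsq_nonneg x.2.1.2; change nsq (col x.1.1.2) ≤ R; linarith,
      by have := nsq_nonneg (col x.1.1.2); change nsq x.2.1.2 ≤ R; linarith⟩)

@[simp] theorem mulMap_coe {s j : ℕ} (hj : j ≤ J) (x : Th s ι × V (bs ι J) Unit j) :
    mulMap hj x = (mulFun hj x : OnePoint (V (bs ι J) Unit (j + s))) := rfl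

/-! ### the fibre over a fixed projection -/

section fib

variable {s j : ℕ} {p : Matrix ι ι ℂ} {E : Type} [TopologicalSpace E]

/-- the fibre over `p` -/
def fibFun (hp : I0core275.IsPr s p) (e : E ≃ₜ {w : ι → ℂ // p *ᵥ w = w}) (x : E) : Th s ι :=
  ⟨(p, (e x).1), hp, (e x).2⟩

theorem isClosedEmbedding_fib (hp : I0core275.IsPr s p) (e : E ≃ₜ {w : ι → ℂ // p *ᵥ w = w}) :
    IsClosedEmbedding (fibFun hp e) := by
  have hc : IsClosed {w : ι → ℂ | p *ᵥ w = w} :=
    isClosed_eq (continuous_const.matrix_mulVec continuous_id) continuous_id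
  have h1 : IsClosedEmbedding (fun x : E => ((p, (e x).1) : Matrix ι ι ℂ × (ι → ℂ))) := by
    have h2 : IsClosedEmbedding (fun w : ι → ℂ => ((p, w) : Matrix ι ι ℂ × (ι → ℂ))) := by
      refine ⟨isEmbedding_prodMkRight p, ?_⟩
      have : Set.range (fun w : ι → ℂ => ((p, w) : Matrix ι ι ℂ × (ι → ℂ))) =
          Prod.fst ⁻¹' {p} := by
        ext x
        constructor
        · rintro ⟨w, rfl⟩; rfl
        · intro hx; exact ⟨x.2, Prod.ext (Set.mem_singleton_iff.1 hx).symm rfl⟩
      rw [this]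
      exact isClosed_singleton.preimage continuous_fst
    exact h2.comp (hc.isClosedEmbedding_subtypeVal.comp e.isClosedEmbedding)
  have h3 : Continuous (fibFun hp e) := by
    refine Continuous.subtype_mk ?_ _
    exact h1.continuous
  exact IsClosedEmbedding.of_comp_iff (I0core275.isClosedEmbedding_val s) |>.1 h1

/-- the fibre over `p` as a pointed map -/
def fibM (hp : I0core275.IsPr s p) (e : E ≃ₜ {w : ι → ℂ // p *ᵥ w = w}) : PMap E (Th s ι) :=
  PMap.ofClosed (fibFun hp e) (isClosedEmbedding_fib hp e)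

@[simp] theorem fibM_coe (hp : I0core275.IsPr s p) (e : E ≃ₜ {w : ι → ℂ // p *ᵥ w = w}) (x : E) :
    fibM hp e x = (fibFun hp e x : OnePoint (Th s ι)) := rfl

/-- the embedding `E × V_j → V_{j+s}` -/
def emb (hj : j ≤ J) (hp : I0core275.IsPr s p) (e : E ≃ₜ {w : ι → ℂ // p *ᵥ w = w})
    (x : E × V (bs ι J) Unit j) : V (bs ι J) Unit (j + s) :=
  mulFun hj (fibFun hp e x.1, x.2)

theorem row_mem {p : Matrix ι ι ℂ} (a : WV Unit p) :
    p *ᵥ (fun i => a.1 i ()) = fun i => a.1 i () := by
  funext i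
  exact congrFun (congrFun a.2 i) ()

theorem col_mem {p : Matrix ι ι ℂ} (w : {w : ι → ℂ // p *ᵥ w = w}) :
    p * col w.1 = col w.1 := (mul_col p w.1).trans (congrArg col w.2)

/-- vectors in the image of `p`, two forms -/
def wvH (p : Matrix ι ι ℂ) : {w : ι → ℂ // p *ᵥ w = w} ≃ₜ WV Unit p where
  toFun w := ⟨col w.1, col_mem w⟩
  invFun a := ⟨fun i => a.1 i (), row_mem a⟩
  left_inv w := rfl
  right_inv a := rfl
  continuous_toFun := by
    have h : Continuous fun w : {w : ι → ℂ // p *ᵥ w = w} => col w.1 :=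
      continuous_col.comp continuous_subtype_val
    exact h.subtype_mk col_mem
  continuous_invFun := by
    have h : Continuous fun a : WV Unit p => fun i => a.1 i () :=
      continuous_pi fun i =>
        (continuous_subtype_val (p := fun a : Matrix ι Unit ℂ => p * a = a)).matrix_elem _ _
    exact h.subtype_mk row_mem

theorem emb_eq (hj : j ≤ J) (hp : I0core275.IsPr s p) (e : E ≃ₜ {w : ι → ℂ // p *ᵥ w = w})
    (x : E × V (bs ι J) Unit j) :
    emb hj hp e x = (F0_933.embHomeo (A := Unit) hj (isPr_of hp) hp.tr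
      ((wvH p) (e x.1), x.2)).1 := rfl

theorem isClosedEmbedding_emb (hj : j ≤ J) (hp : I0core275.IsPr s p)
    (e : E ≃ₜ {w : ι → ℂ // p *ᵥ w = w}) : IsClosedEmbedding (emb hj hp e) := by
  have h1 : IsClosedEmbedding (fun x : E × V (bs ι J) Unit j =>
      F0_933.embHomeo (A := Unit) hj (isPr_of hp) hp.tr ((wvH p) (e x.1), x.2)) :=
    (((e.trans (wvH p)).prodCongr (Homeomorph.refl _)).trans
      (F0_933.embHomeo (A := Unit) hj (isPr_of hp) hp.tr)).isClosedEmbedding
  exact ((F0_933.isClosed_emb p).isClosedEmbedding_subtypeVal).comp h1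

/-- the image is `{W ⊆ K}` -/
theorem range_emb (hj : j ≤ J) (hp : I0core275.IsPr s p)
    (e : E ≃ₜ {w : ι → ℂ // p *ᵥ w = w}) :
    Set.range (emb hj hp e) = Cl J Unit p (j + s) := by
  ext y
  constructor
  · rintro ⟨x, rfl⟩
    rw [emb_eq]
    exact (F0_933.embHomeo (A := Unit) hj (isPr_of hp) hp.tr ((wvH p) (e x.1), x.2)).2
  · intro hy
    refine ⟨(e.symm ((wvH p).symm ((F0_933.embHomeo (A := Unit) hj (isPr_of hp) hp.tr).symm
      ⟨y, hy⟩).1), ((F0_933.embHomeo (A := Unit) hj (isPr_of hp) hp.tr).symm ⟨y, hy⟩).2), ?_⟩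
    rw [emb_eq]
    simp

/-- the embedding as a homeomorphism onto `{W ⊆ K}` -/
def embCl (hj : j ≤ J) (hp : I0core275.IsPr s p)
    (e : E ≃ₜ {w : ι → ℂ // p *ᵥ w = w}) :
    E × V (bs ι J) Unit j ≃ₜ (Cl J Unit p (j + s) : Set (V (bs ι J) Unit (j + s))) :=
  ((e.trans (wvH p)).prodCongr (Homeomorph.refl _)).trans
      (F0_933.embHomeo (A := Unit) hj (isPr_of hp) hp.tr)

theorem embCl_coe (hj : j ≤ J) (hp : I0core275.IsPr s p)
    (e : E ≃ₜ {w : ι → ℂ // p *ᵥ w = w}) (x : E × V (bs ι J) Unit j) :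
    (embCl hj hp e x : V (bs ι J) Unit (j + s)) = emb hj hp e x := rfl

/-- **the product restricted to the fibre is the closed embedding** -/
theorem mulMap_comp_fib [T2Space E] [LocallyCompactSpace E] (hj : j ≤ J)
    (hp : I0core275.IsPr s p) (e : E ≃ₜ {w : ι → ℂ // p *ᵥ w = w}) :
    (mulMap hj).comp ((fibM hp e).smash (PMap.id (V (bs ι J) Unit j))) =
      PMap.ofClosed (emb hj hp e) (isClosedEmbedding_emb hj hp e) := by
  refine PMap.ext fun x => ?_
  obtain ⟨a, b⟩ := x
  rfl

/-- **null homotopies**: if `X⁺ → E⁺ → Th(γ_s)` is null, then `X ∧ V_j → E ∧ V_j → V_{j+s}` is null -/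
theorem null_emb [T2Space E] [LocallyCompactSpace E] (hj : j ≤ J)
    (hp : I0core275.IsPr s p) (e : E ≃ₜ {w : ι → ℂ // p *ᵥ w = w})
    {X : Type*} [TopologicalSpace X] [T2Space X] [LocallyCompactSpace X] (g : PMap X E)
    (hg : ((fibM hp e).comp g).Null) :
    ((PMap.ofClosed (emb hj hp e) (isClosedEmbedding_emb hj hp e)).comp
      (g.smash (PMap.id (V (bs ι J) Unit j)))).Null := by
  rw [← mulMap_comp_fib, PMap.comp_assoc, PMap.smash_comp, PMap.comp_id]
  exact (hg.smash_left _).comp_left _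

end fib

/-! ### the coordinate fibre (417's `inc`) -/

section inc

variable (a k : Type) [Fintype a] [DecidableEq a] [Fintype k] [DecidableEq k]

/-- the projection onto the first summand -/
def pInl : Matrix (a ⊕ k) (a ⊕ k) ℂ := fromBlocks 1 0 0 0

theorem isPr_pInl : I0core275.IsPr (Fintype.card a) (pInl a k) := by
  refine ⟨?_, ?_, ?_⟩
  · simp [pInl, fromBlocks_conjTranspose]
  · simp [pInl, fromBlocks_multiply]
  · simp [pInl, Matrix.trace, Fintype.sum_sum_type]

theorem pInl_eq : pInl a k = pS (Finset.univ.map ⟨Sum.inl, Sum.inl_injective⟩) := by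
  ext i j
  rw [pS, Matrix.diagonal_apply]
  rcases i with i | i <;> rcases j with j | j
  · by_cases h : i = j
    · subst h; simp [pInl]
    · simp [pInl, h]
  · simp [pInl]
  · simp [pInl]
  · simp [pInl]

theorem pInl_mulVec (w : a ⊕ k → ℂ) : pInl a k *ᵥ w = Sum.elim (fun i => w (Sum.inl i)) 0 := by
  rw [pInl, fromBlocks_mulVec]
  simp [Function.comp_def]

/-- `ℂ^a` is the fibre over `ℂ^a ⊕ 0` -/
def eInl : (a → ℂ) ≃ₜ {w : a ⊕ k → ℂ // pInl a k *ᵥ w = w} where
  toFun v := ⟨Sum.elim v 0, by rw [pInl_mulVec]; rfl⟩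
  invFun w i := w.1 (Sum.inl i)
  left_inv v := rfl
  right_inv w := by
    apply Subtype.ext
    have h := w.2
    rw [pInl_mulVec] at h
    exact h
  continuous_toFun := by
    refine Continuous.subtype_mk (continuous_pi fun i => ?_) _
    rcases i with i | i
    · exact continuous_apply i
    · exact continuous_const
  continuous_invFun := continuous_pi fun i => (continuous_apply _).comp continuous_subtype_val

end inc

end

end Crest.Agent.R090.F0Mul96
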