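import Crest.Agent.R090.F0Open_806
import Crest.Agent.R090.F0Cells_933

/-!
# Row 90, F0-OPEN at an arbitrary coordinate; the Prop `OpenPart` of F0Cells_933 (owner helper806)
-/

set_option autoImplicit false
set_option linter.unusedSectionVars false
set_option linter.unusedFintypeInType false
set_option linter.unusedDecidableInType false

open Matrix Topology
open scoped Kronecker

namespace Crest.Agent.R090.F0OpenK806

open F0Defs806 F0Closed806 F0Open806
open F0_933 (bs bs_eq p0 pS Cl OpenPart)

/-- cast of the shift -/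
def reindexTo {h h' A A' : Type*} [Fintype h] [DecidableEq h] [Fintype h'] [DecidableEq h']
    {Z : Matrix h h ℂ} {Z' : Matrix h' h' ℂ} (e : h ≃ h') (f : A ≃ A')
    (hZ : Z.submatrix e.symm e.symm = Z') (j : ℕ) : V Z A j ≃ₜ V Z' A' j where
  toFun x := ⟨(x.1.1.submatrix e.symm e.symm, x.1.2.submatrix e.symm f.symm), hZ ▸ x.2.reindex e f⟩
  invFun x := ⟨(x.1.1.submatrix e e, x.1.2.submatrix e f), by
    have h1 := x.2.reindex e.symm f.symm
    have h2 : Z'.submatrix e.symm.symm e.symm.symm = Z := by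
      rw [← hZ, submatrix_submatrix]; simp
    exact h2 ▸ h1⟩
  left_inv x := by
    apply V.ext <;> simp [submatrix_submatrix]
  right_inv x := by
    apply V.ext <;> simp [submatrix_submatrix]
  continuous_toFun := by
    refine continuous_mk ?_ ?_
    · exact (continuous_fst.comp (continuous_val Z j)).matrix_submatrix _ _
    · exact (continuous_snd.comp (continuous_val Z j)).matrix_submatrix _ _
  continuous_invFun := by
    refine continuous_mk ?_ ?_
    · exact (continuous_fst.comp (continuous_val _ j)).matrix_submatrix _ _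
    · exact (continuous_snd.comp (continuous_val _ j)).matrix_submatrix _ _

variable {ι : Type} [Fintype ι] [DecidableEq ι]

/-- split off the coordinate `k` -/
def splitK (k : ι) (J : ℕ) : ι × Fin (J + 1) ≃ ({i : ι // i ≠ k} × Fin (J + 1)) ⊕ Fin (J + 1) where
  toFun x := if h : x.1 = k then Sum.inr x.2 else Sum.inl (⟨x.1, h⟩, x.2)
  invFun := Sum.elim (fun x => (x.1.1, x.2)) (fun a => (k, a))
  left_inv x := by
    by_cases h : x.1 = k
    · simp only [h, dif_pos, Sum.elim_inr]
      exact Prod.ext h.symm rfl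
    · simp [h]
  right_inv y := by
    rcases y with y | a
    · have := y.1.2
      simp [this]
    · simp

theorem splitK_symm_inl (k : ι) (J : ℕ) (x : {i : ι // i ≠ k} × Fin (J + 1)) :
    (splitK k J).symm (Sum.inl x) = (x.1.1, x.2) := rfl

theorem splitK_symm_inr (k : ι) (J : ℕ) (a : Fin (J + 1)) :
    (splitK k J).symm (Sum.inr a) = (k, a) := rfl

theorem bs_split (k : ι) (J : ℕ) : (bs ι J).submatrix (splitK k J).symm (splitK k J).symm =
    Z1 (bs {i : ι // i ≠ k} J) J := by
  rw [bs_eq, bs_eq]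
  ext x y
  rcases x with x | a <;> rcases y with y | b
  · simp only [submatrix_apply, splitK_symm_inl, kroneckerMap_apply, Z1, fromBlocks_apply₁₁,
      Matrix.one_apply, Subtype.ext_iff]
  · have := x.1.2
    simp [splitK_symm_inl, splitK_symm_inr, kroneckerMap_apply, Z1, this]
  · have := y.1.2
    simp [splitK_symm_inl, splitK_symm_inr, kroneckerMap_apply, Z1, this.symm]
  · simp [splitK_symm_inr, kroneckerMap_apply, Z1]

/-- **F0-OPEN at the coordinate `k`** -/
noncomputable def openHomeoK {A : Type} [Finite A] (k : ι) (J j : ℕ) :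
    {x : V (bs ι J) A j // x.1.1 (k, 0) (k, 0) ≠ 1} ≃ₜ V (bs {i : ι // i ≠ k} J) (A ⊕ Unit) j :=
  ((reindexTo (A := A) (splitK k J) (Equiv.refl A) (bs_split k J) j).subtype
    (p := fun x => x.1.1 (k, 0) (k, 0) ≠ 1) (q := fun x => x.1.1 (Sum.inr 0) (Sum.inr 0) ≠ 1)
    (fun _ => Iff.rfl)).trans
    (openHomeo (A := A) (bs {i : ι // i ≠ k} J) F0_933.bs_pow_zero j).symm

theorem p0_pS (k : ι) (J : ℕ) : p0 J (pS {k}) = Matrix.single (k, 0) (k, 0) 1 := by
  ext x y
  obtain ⟨i, a⟩ := x
  obtain ⟨i', b⟩ := y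
  simp only [p0, pS, kroneckerMap_apply, diagonal_apply, Matrix.single_apply, Finset.mem_singleton,
    Prod.mk.injEq]
  by_cases h1 : i = k
  · subst h1
    by_cases h2 : i = i'
    · subst h2
      by_cases h3 : (0 : Fin (J + 1)) = a <;> by_cases h4 : (0 : Fin (J + 1)) = b <;> simp [h3, h4]
    · simp [h2]
  · have h1' : ¬ k = i := fun h => h1 h.symm
    simp [h1, h1']

theorem mul_single_iff {n : Type*} [Fintype n] [DecidableEq n] {P : Matrix n n ℂ} (hP : Pᴴ = P)
    (hPP : P * P = P) (e : n) : P * Matrix.single e e 1 = Matrix.single e e 1 ↔ P e e = 1 := by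
  constructor
  · intro h
    have := congrFun (congrFun h e) e
    simpa using this
  · intro h
    ext i y
    by_cases hy : y = e
    · subst hy
      rw [mul_single_apply_same, mul_one]
      by_cases hi : i = y
      · subst hi; rw [h]; simp
      · rw [col_eq_zero hP hPP h i hi, Matrix.single_apply_of_row_ne (Ne.symm hi)]
    · rw [mul_single_apply_of_ne _ _ _ _ _ hy, Matrix.single_apply_of_col_ne _ _ (Ne.symm hy)]

theorem mem_Cl_iff {A : Type} (k : ι) (J j : ℕ) (x : V (bs ι J) A j) :
    x ∈ Cl J A (pS {k}) j ↔ x.1.1 (k, 0) (k, 0) = 1 := by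
  show x.1.1 * p0 J (pS {k}) = p0 J (pS {k}) ↔ _
  rw [p0_pS]
  exact mul_single_iff x.2.herm x.2.idem (k, 0)

/-- **the input OPEN of F0Cells_933** -/
theorem openPart : OpenPart := by
  intro ι _ _ k J A _ j
  refine ⟨A ⊕ Unit, inferInstance, ⟨?_⟩⟩
  refine Homeomorph.trans ?_ (openHomeoK k J j)
  refine (Homeomorph.refl (V (bs ι J) A j)).subtype (fun x => ?_)
  exact (not_congr (mem_Cl_iff k J j x))

end Crest.Agent.R090.F0OpenK806
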