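import Crest.Agent.R090.F0Out_933
import Crest.Agent.R090.F0OpenK_806
import Crest.Agent.R090.F0Mul_96

/-!
# Row 90, F0: the output theorem, unconditional (owner helper933)
-/

set_option autoImplicit false

namespace Crest.Agent.R090.F0_933

/-- **F0** (unconditional) -/
theorem F0_final (ι : Type) [Fintype ι] [DecidableEq ι] [Nonempty ι] (S : Finset ι) (c : ℕ) :
    Nonempty (F0Data ι S c) :=
  F0_out F0OpenK806.openPart ι S c


/-- cells of `V_{n,j}` -/
theorem hasCells_V' {n : ℕ} (ι : Type) [Fintype ι] [DecidableEq ι] (hn : Fintype.card ι = n)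
    (A : Type) [Fintype A] (J j : ℕ) (hj : j ≤ J + 1) :
    HasCells (F0Defs806.V (bs ι J) A j) (n.multichoose j) :=
  hasCells_V F0OpenK806.openPart n ι hn A J j hj

/-- the level filtration of `V_{j+s}` with level zero `{ℂ^S ⊆ K}` -/
theorem flt_Cl {ι : Type} [Fintype ι] [DecidableEq ι] {n : ℕ} (hn : Fintype.card ι = n + 1)
    (A : Type) [Fintype A] (J : ℕ) (S : Finset ι) (j m : ℕ) (hm : j + S.card = m) (hmJ : m ≤ J + 1) :
    Nonempty (Flt (Cl J A (pS S) m) ((n + 1).multichoose m - (n + 1).multichoose j)) := by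
  obtain ⟨ch⟩ := (hasCells_compl (A := A) F0OpenK806.openPart hn S j m hm hmJ).chain
  exact ⟨ch.flt (isClosed_Cl _ _)⟩

/-- **F0 for the fibre over `ℂ^a ⊕ 0`** (the fibre of 417's `inc a k`, the embedding of 96) -/
theorem flt_emb (a k : Type) [Fintype a] [DecidableEq a] [Fintype k] [DecidableEq k] {n : ℕ}
    (hn : Fintype.card (a ⊕ k) = n + 1) {j J : ℕ} (hj : j ≤ J)
    (hmJ : j + Fintype.card a ≤ J + 1) :
    Nonempty (Flt (Set.range (F0Mul96.emb (j := j) (J := J) hj (F0Mul96.isPr_pInl a k)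
        (F0Mul96.eInl a k)))
      ((n + 1).multichoose (j + Fintype.card a) - (n + 1).multichoose j)) := by
  rw [F0Mul96.range_emb]
  have h1 := flt_Cl hn Unit J (Finset.univ.map ⟨Sum.inl, Sum.inl_injective⟩) j
    (j + Fintype.card a) (by simp) hmJ
  rw [← F0Mul96.pInl_eq] at h1
  exact h1

/-- **F0, all numbers**: for every `c` there are `j ≤ J` with `c · u ≤ D` -/
theorem exists_flt_emb (a k : Type) [Fintype a] [DecidableEq a] [Fintype k] [DecidableEq k]
    [Nonempty (a ⊕ k)] (c : ℕ) :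
    ∃ (j J D u : ℕ) (hj : j ≤ J), 0 < D ∧ c * u ≤ D ∧
      HasCells (F0Defs806.V (bs (a ⊕ k) J) Unit j) D ∧
      Nonempty (Flt (Set.range (F0Mul96.emb (j := j) (J := J) hj (F0Mul96.isPr_pInl a k)
        (F0Mul96.eInl a k))) u) := by
  obtain ⟨n, hn⟩ : ∃ n, Fintype.card (a ⊕ k) = n + 1 :=
    Nat.exists_eq_succ_of_ne_zero Fintype.card_ne_zero
  obtain ⟨j, hj⟩ := exists_count n (Fintype.card a) c
  exact ⟨j, j + Fintype.card a, (n + 1).multichoose j,
    (n + 1).multichoose (j + Fintype.card a) - (n + 1).multichoose j, by omega,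
    multichoose_pos n j, hj j le_rfl, hasCells_V' _ hn Unit _ _ (by omega),
    flt_emb a k hn (by omega) (by omega)⟩

end Crest.Agent.R090.F0_933
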