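import Crest.Agent.R090.Ndr_255

/-!
# Row 90, F0-NULL part 1 (owner helper349): the homotopy `H` of 893's pair map

`κ : PMap M E`, `Z₁ ⊆ interior Z₀` closed, `ι : E × W → B` a closed embedding such that
`ι ∘ (κ|Z₀ ∧ 1_W)` is null.  Then `ι ∘ (κ ∧ 1_W)` is homotopic, by a homotopy `H` on all of `M × W`,
to a map which is `∞` on `Z₁ × W` (architect note #21054: Urysohn function, no cylinder, no HEP).
-/

set_option autoImplicit false
set_option linter.unusedSectionVars false

open Topology Filter Set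

namespace Crest.Agent.R090.F0H349

open OnePoint Sp962 Dens255
open scoped unitInterval

section general

variable {M E W B : Type*} [TopologicalSpace M] [TopologicalSpace E] [TopologicalSpace W]
  [TopologicalSpace B] [T2Space M] [LocallyCompactSpace M] [T2Space E] [LocallyCompactSpace E]
  [T2Space W] [LocallyCompactSpace W] [T2Space B]

/-- the subset `Z × W` of `M × W` -/
def pre (W : Type*) (Z : Set M) : Set (M × W) := {p | p.1 ∈ Z}

omit [TopologicalSpace M] [T2Space M] [LocallyCompactSpace M] in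
theorem mem_pre {Z : Set M} {p : M × W} : p ∈ pre W Z ↔ p.1 ∈ Z := Iff.rfl

omit [T2Space M] [LocallyCompactSpace M] [T2Space W] [LocallyCompactSpace W] in
theorem isClosed_pre {Z : Set M} (hZ : IsClosed Z) : IsClosed (pre W Z) :=
  hZ.preimage continuous_fst

/-- `{p | p.1 ∈ Z} ≃ₜ Z × W` -/
def preHomeo (W : Type*) [TopologicalSpace W] (Z : Set M) : pre W Z ≃ₜ Z × W where
  toFun p := (⟨p.1.1, p.2⟩, p.1.2)
  invFun q := ⟨(q.1, q.2), q.1.2⟩
  left_inv _ := rfl
  right_inv _ := rfl
  continuous_toFun := by fun_prop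
  continuous_invFun := by fun_prop

/-- **the homotopy, with a given Urysohn function** -/
theorem exists_H_of {Z₀ Z₁ : Set M} (h₀ : IsClosed Z₀)
    (F : PMap (M × W) B)
    (hnull : (F.comp (PMap.ofClosed (jE Z₀ W) (isClosedEmbedding_jE h₀))).Null)
    (lam : C(M, I)) (h1 : ∀ x ∈ Z₁, lam x = 1) (h10 : Z₁ ⊆ Z₀)
    (h0 : ∀ x, x ∉ interior Z₀ → lam x = 0) :
    ∃ H : HMap (M × W) B, (∀ x : OnePoint (M × W), H (0, x) = F x) ∧
      ∀ x ∈ Z₁, ∀ w : W, H (1, ((x, w) : M × W)) = ∞ := by
  obtain ⟨G, G0, G1⟩ := HMap.exists_of_homotopic hnull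
  have G0' : ∀ (x : Z₀) (w : W), G (0, ((x, w) : Z₀ × W)) = F (((x : M), w) : M × W) := by
    intro x w
    exact congrArg (fun f : PMap (Z₀ × W) B => f ((x, w) : Z₀ × W)) G0
  have G1' : ∀ (x : Z₀) (w : W), G (1, ((x, w) : Z₀ × W)) = ∞ := by
    intro x w
    exact congrArg (fun f : PMap (Z₀ × W) B => f ((x, w) : Z₀ × W)) G1
  -- the two closed pieces
  let C₁ : Set (M × W) := pre W Z₀
  let C₂ : Set (M × W) := pre W (interior Z₀)ᶜ
  have hC₁ : IsClosed C₁ := isClosed_pre h₀
  have hC₂ : IsClosed C₂ := isClosed_pre isOpen_interior.isClosed_compl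
  have hcov : ∀ x : M × W, x ∈ C₁ ∨ x ∈ C₂ := by
    intro x
    by_cases hx : x.1 ∈ interior Z₀
    · exact Or.inl (interior_subset (s := Z₀) hx)
    · exact Or.inr hx
  let rep : I × (Z₀ × W) → I := fun p => p.1 * lam p.2.1
  have hrep : Continuous rep := by
    refine Continuous.mul continuous_fst ?_
    exact lam.continuous.comp (by fun_prop)
  let G₁ : HMap C₁ B := (G.reparam rep hrep).comp (HMap.const (PMap.ofHomeo (preHomeo W Z₀)))
  let G₂ : HMap C₂ B := HMap.const (F.comp (PMap.ofClosed (Subtype.val : C₂ → M × W)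
    hC₂.isClosedEmbedding_subtypeVal))
  have hG₁ : ∀ t (x : M × W) (hx : x ∈ C₁), G₁ (t, ((⟨x, hx⟩ : C₁) : OnePoint C₁)) =
      G (t * lam x.1, (((⟨x.1, hx⟩ : Z₀), x.2) : Z₀ × W)) := by
    intro t x hx
    change (G.reparam rep hrep) (t, (((⟨x.1, hx⟩ : Z₀), x.2) : Z₀ × W)) = _
    rw [HMap.reparam_coe]
  obtain ⟨H, hH1, hH2⟩ := HMap.paste hC₁ hC₂ hcov G₁ G₂ (by
    intro t x hx1 hx2
    rw [hG₁ t x hx1, h0 x.1 hx2, mul_zero, G0']
    rfl)
  refine ⟨H, ?_, ?_⟩
  · intro x
    induction x using OnePoint.rec with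
    | infty => rw [H.map_inf, F.map_inf]
    | coe x =>
      rcases hcov x with hx | hx
      · rw [hH1 0 x hx, hG₁ 0 x hx, zero_mul, G0']
      · rw [hH2 0 x hx]; rfl
  · intro x hx w
    have hx' : ((x, w) : M × W) ∈ C₁ := h10 hx
    rw [hH1 1 (x, w) hx', hG₁ 1 (x, w) hx', h1 x hx, mul_one, G1']

end general

/-! ## Urysohn functions -/

/-- the parameter function -/
theorem exists_lam {M : Type*} [TopologicalSpace M] [NormalSpace M] {Z₀ Z₁ : Set M}
    (h₁ : IsClosed Z₁) (h : Z₁ ⊆ interior Z₀) :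
    ∃ lam : C(M, I), (∀ x ∈ Z₁, lam x = 1) ∧ ∀ x, x ∉ interior Z₀ → lam x = 0 := by
  have hd : Disjoint (interior Z₀)ᶜ Z₁ := by
    rw [Set.disjoint_compl_left_iff_subset]; exact h
  obtain ⟨s, hs0, hs1, hs⟩ := exists_continuous_zero_one_of_isClosed
    isOpen_interior.isClosed_compl h₁ hd
  refine ⟨⟨fun x => ⟨s x, hs x⟩, by fun_prop⟩, ?_, ?_⟩
  · intro x hx
    exact Subtype.ext (hs1 hx)
  · intro x hx
    exact Subtype.ext (hs0 hx)

/-- a closed subset of a metrizable space is the zero set of a function with values in `[0,1]` -/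
theorem exists_phi {M : Type*} [TopologicalSpace M] [TopologicalSpace.MetrizableSpace M] {Z : Set M}
    (hZ : IsClosed Z) : ∃ φ : M → ℝ, Continuous φ ∧ (∀ x, 0 ≤ φ x) ∧ (∀ x, φ x ≤ 1) ∧
      ∀ x, φ x = 0 ↔ x ∈ Z := by
  let _ := TopologicalSpace.metrizableSpaceMetric M
  rcases Z.eq_empty_or_nonempty with rfl | hne
  · exact ⟨fun _ => 1, continuous_const, fun _ => zero_le_one, fun _ => le_rfl,
      fun x => by simp⟩
  · refine ⟨fun x => min (Metric.infDist x Z) 1, ?_, ?_, ?_, ?_⟩
    · exact (Metric.continuous_infDist_pt Z).min continuous_const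
    · intro x; exact le_min Metric.infDist_nonneg zero_le_one
    · intro x; exact min_le_right _ _
    · intro x
      constructor
      · intro h
        have h' : min (Metric.infDist x Z) 1 = 0 := h
        have h1 : Metric.infDist x Z = 0 := by
          rcases min_choice (Metric.infDist x Z) 1 with h2 | h2
          · rw [← h2]; exact h'
          · rw [h2] at h'; exact absurd h' one_ne_zero
        exact (hZ.mem_iff_infDist_zero hne).2 h1
      · intro h
        have h1 : Metric.infDist x Z = 0 := (hZ.mem_iff_infDist_zero hne).1 h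
        change min (Metric.infDist x Z) 1 = 0
        rw [h1]; exact min_eq_left zero_le_one

/-! ## the statement consumed by the pair map -/

section out

variable {M E W B : Type*} [TopologicalSpace M] [TopologicalSpace E] [TopologicalSpace W]
  [TopologicalSpace B] [T2Space M] [LocallyCompactSpace M] [T2Space E] [LocallyCompactSpace E]
  [T2Space W] [LocallyCompactSpace W] [T2Space B] [LocallyCompactSpace B]

/-- `k = θ⁻¹ ∘ (κ ∧ 1)` for a closed subset `A` of `B` with `θ : A ≃ₜ E × W` -/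
noncomputable def kmap {A : Set B} (θ : A ≃ₜ E × W) (κ : PMap M E) : PMap (M × W) A :=
  (PMap.ofHomeo θ.symm).comp (κ.smash (PMap.id W))

/-- **the input of 893's `exists_pair`**: `M` compact metrizable (or normal + `φ`) -/
theorem exists_H [NormalSpace M] (κ : PMap M E) {Z₀ Z₁ : Set M} [LocallyCompactSpace Z₀]
    (h₀ : IsClosed Z₀)
    (h₁ : IsClosed Z₁) (h : Z₁ ⊆ interior Z₀) {A : Set B} (hA : IsClosed A) (θ : A ≃ₜ E × W)
    (hnull : ((PMap.ofClosed (Subtype.val : A → B) hA.isClosedEmbedding_subtypeVal).comp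
      (kmap θ (κ.comp (PMap.ofClosed (Subtype.val : Z₀ → M)
        h₀.isClosedEmbedding_subtypeVal)))).Null) :
    ∃ H : I × OnePoint (M × W) → OnePoint B, Continuous H ∧ (∀ t, H (t, ∞) = ∞) ∧
      (∀ x : OnePoint (M × W), H (0, x) = OnePoint.map (Subtype.val : A → B) (kmap θ κ x)) ∧
      ∀ z ∈ Z₁, ∀ w : W, H (1, ((z, w) : M × W)) = ∞ := by
  obtain ⟨lam, hl1, hl0⟩ := exists_lam h₁ h
  obtain ⟨H, H0, H1⟩ := exists_H_of h₀
    ((PMap.ofClosed (Subtype.val : A → B) hA.isClosedEmbedding_subtypeVal).comp (kmap θ κ))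
    (by
      have e : ((PMap.ofClosed (Subtype.val : A → B) hA.isClosedEmbedding_subtypeVal).comp
          (kmap θ κ)).comp (PMap.ofClosed (jE Z₀ W) (isClosedEmbedding_jE h₀)) =
          (PMap.ofClosed (Subtype.val : A → B) hA.isClosedEmbedding_subtypeVal).comp
            (kmap θ (κ.comp (PMap.ofClosed (Subtype.val : Z₀ → M)
              h₀.isClosedEmbedding_subtypeVal))) := by
        refine PMap.ext fun x => ?_
        obtain ⟨z, w⟩ := x
        rfl
      rw [e]; exact hnull) lam hl1 (h.trans interior_subset) hl0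
  exact ⟨H, H.cont, H.map_inf, H0, H1⟩

end out

end Crest.Agent.R090.F0H349
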