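import Crest.Agent.R090.F0Closed_806

/-!
# Row 90, F0-OPEN: the open part `{e ∉ K}` of `V^{(A)}_{j}` is `V^{(A ⊕ 1)}_{j}` over one coordinate less
(owner helper806)
-/

set_option autoImplicit false
set_option linter.unusedSectionVars false
set_option linter.unusedFintypeInType false
set_option linter.unusedDecidableInType false

open Matrix Topology

namespace Crest.Agent.R090.F0Open806

open F0Defs806 F0Closed806

/-! ### generalities -/

/-- the inverse of a continuous family of invertible matrices is continuous -/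
theorem continuous_inv_of {n X : Type*} [Fintype n] [DecidableEq n] [TopologicalSpace X]
    {f : X → Matrix n n ℂ} (hf : Continuous f) (h : ∀ x, IsUnit (f x).det) :
    Continuous fun x => (f x)⁻¹ := by
  have h1 : (fun x => (f x)⁻¹) = fun x => ((f x).det)⁻¹ • (f x).adjugate := by
    funext x
    rw [Matrix.inv_def, Ring.inverse_eq_inv']
  rw [h1]
  exact (hf.matrix_det.inv₀ fun x => (h x).ne_zero).smul hf.matrix_adjugate

/-- hermitian idempotents with the same image are equal -/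
theorem proj_unique {n : Type*} [Fintype n] {P Q : Matrix n n ℂ} (hP : Pᴴ = P) (hQ : Qᴴ = Q)
    (h1 : P * Q = Q) (h2 : Q * P = P) : P = Q := by
  have h3 := congrArg conjTranspose h1
  rw [conjTranspose_mul, hP, hQ] at h3
  rw [← h2, h3]

variable {h A : Type*} [Fintype h] [DecidableEq h] {J : ℕ}

/-! ### the graph of the functional -/

/-- the matrix with rows `g^* Z^i P` -/
def Br (J : ℕ) (Z P : Matrix h h ℂ) (g : Matrix h Unit ℂ) : Matrix (Fin (J + 1)) h ℂ :=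
  Matrix.of fun i k => (gᴴ * (Z ^ (i : ℕ) * P)) () k

theorem Br_mul {B : Type*} (Z P : Matrix h h ℂ) (g : Matrix h Unit ℂ) (X : Matrix h B ℂ)
    (i : Fin (J + 1)) (k : B) : (Br J Z P g * X) i k = (gᴴ * (Z ^ (i : ℕ) * P) * X) () k := rfl

theorem Br_mul_P {Z P : Matrix h h ℂ} (hPP : P * P = P) (g : Matrix h Unit ℂ) :
    Br J Z P g * P = Br J Z P g := by
  ext i k
  rw [Br_mul, Matrix.mul_assoc, Matrix.mul_assoc, hPP]
  rfl

theorem S_mul_Br {Z P : Matrix h h ℂ} (hZ : Z ^ (J + 1) = 0) (hinv : P * (Z * P) = Z * P)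
    (g : Matrix h Unit ℂ) : S (J + 1) * Br J Z P g = Br J Z P g * (Z * P) := by
  ext i k
  have h1 : (Br J Z P g * (Z * P)) i k = (gᴴ * (Z ^ ((i : ℕ) + 1) * P)) () k := by
    rw [Br_mul, Matrix.mul_assoc, Matrix.mul_assoc, hinv, ← Matrix.mul_assoc (Z ^ (i : ℕ)), ← pow_succ]
  rw [h1, Matrix.mul_apply]
  by_cases hi : (i : ℕ) = J
  · have h2 : (gᴴ * (Z ^ ((i : ℕ) + 1) * P)) () k = 0 := by
      rw [hi, hZ]; simp
    rw [h2]
    apply Finset.sum_eq_zero
    intro b _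
    rw [S_apply, if_neg (by have := b.2; omega), zero_mul]
  · have hlt : (i : ℕ) + 1 < J + 1 := by have := i.2; omega
    rw [Finset.sum_eq_single (⟨i + 1, hlt⟩ : Fin (J + 1))]
    · rw [S_apply, if_pos rfl, one_mul]
      rfl
    · intro b _ hb
      rw [S_apply, if_neg (fun h => hb (Fin.ext h)), zero_mul]
    · intro h; exact absurd (Finset.mem_univ _) h

/-- `(P, B)` -/
def Mg (J : ℕ) (Z P : Matrix h h ℂ) (g : Matrix h Unit ℂ) : Matrix (h ⊕ Fin (J + 1)) h ℂ :=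
  fromRows P (Br J Z P g)

/-- `1 + B^* B` -/
def Wg (J : ℕ) (Z P : Matrix h h ℂ) (g : Matrix h Unit ℂ) : Matrix h h ℂ :=
  1 + (Br J Z P g)ᴴ * Br J Z P g

open scoped ComplexOrder in
theorem isUnit_Wg (Z P : Matrix h h ℂ) (g : Matrix h Unit ℂ) : IsUnit (Wg J Z P g).det := by
  have h1 : (Wg J Z P g).PosDef :=
    Matrix.PosDef.one.add_posSemidef (posSemidef_conjTranspose_mul_self _)
  exact (Matrix.isUnit_iff_isUnit_det _).1 h1.isUnit

theorem Wg_conj (Z P : Matrix h h ℂ) (g : Matrix h Unit ℂ) : (Wg J Z P g)ᴴ = Wg J Z P g := by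
  rw [Wg, conjTranspose_add, conjTranspose_one, conjTranspose_mul, conjTranspose_conjTranspose]

/-- the projection on the graph -/
noncomputable def Qg (J : ℕ) (Z P : Matrix h h ℂ) (g : Matrix h Unit ℂ) :
    Matrix (h ⊕ Fin (J + 1)) (h ⊕ Fin (J + 1)) ℂ :=
  Mg J Z P g * ((Wg J Z P g)⁻¹ * (Mg J Z P g)ᴴ)

section graph

variable {Z P : Matrix h h ℂ} {g : Matrix h Unit ℂ}

theorem Mg_mul_P (hPP : P * P = P) : Mg J Z P g * P = Mg J Z P g := by
  rw [Mg, fromRows_mul, Br_mul_P hPP, hPP]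

theorem Mgc_mul_Mg (hP : Pᴴ = P) (hPP : P * P = P) :
    (Mg J Z P g)ᴴ * Mg J Z P g = Wg J Z P g - (1 - P) := by
  rw [Mg, conjTranspose_fromRows_eq_fromCols_conjTranspose, fromCols_mul_fromRows, hP, hPP, Wg]
  abel

theorem Wg_mul (hPP : P * P = P) : Wg J Z P g * (1 - P) = 1 - P := by
  rw [Wg, Matrix.add_mul, Matrix.one_mul, Matrix.mul_assoc, Matrix.mul_sub, Matrix.mul_one,
    Br_mul_P hPP, sub_self, Matrix.mul_zero, add_zero]

theorem Wgi_mul (hPP : P * P = P) : (Wg J Z P g)⁻¹ * (1 - P) = 1 - P := by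
  conv_lhs => rw [← Wg_mul (J := J) (Z := Z) (g := g) hPP, ← Matrix.mul_assoc,
    Matrix.nonsing_inv_mul _ (isUnit_Wg Z P g), Matrix.one_mul]

theorem Mg_Wgi_Mgc_Mg (hP : Pᴴ = P) (hPP : P * P = P) :
    (Wg J Z P g)⁻¹ * ((Mg J Z P g)ᴴ * Mg J Z P g) = P := by
  rw [Mgc_mul_Mg hP hPP, Matrix.mul_sub, Matrix.nonsing_inv_mul _ (isUnit_Wg Z P g), Wgi_mul hPP]
  abel

theorem Qg_mul_Mg (hP : Pᴴ = P) (hPP : P * P = P) : Qg J Z P g * Mg J Z P g = Mg J Z P g := by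
  rw [Qg, Matrix.mul_assoc, Matrix.mul_assoc, Mg_Wgi_Mgc_Mg hP hPP, Mg_mul_P hPP]

theorem Qg_conj : (Qg J Z P g)ᴴ = Qg J Z P g := by
  rw [Qg, conjTranspose_mul, conjTranspose_mul, conjTranspose_conjTranspose, conjTranspose_nonsing_inv,
    Wg_conj, Matrix.mul_assoc]

theorem Qg_key {B : Type*} (hP : Pᴴ = P) (hPP : P * P = P) (X : Matrix h B ℂ) :
    Qg J Z P g * (Mg J Z P g * X) = Mg J Z P g * X := by
  rw [← Matrix.mul_assoc, Qg_mul_Mg hP hPP]

theorem Z1_mul_Mg (hZ : Z ^ (J + 1) = 0) (hinv : P * (Z * P) = Z * P) :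
    Z1 Z J * Mg J Z P g = Mg J Z P g * (Z * P) := by
  rw [Z1, Mg, fromBlocks_mul_fromRows, fromRows_mul, S_mul_Br hZ hinv, hinv]
  simp

theorem Qg_isV {j : ℕ} {v : Matrix h A ℂ} (hZ : Z ^ (J + 1) = 0) (H : IsV Z j P v) :
    IsV (Z1 Z J) j (Qg J Z P g) (Mg J Z P g * v) := by
  refine ⟨Qg_conj, ?_, ?_, ?_, Qg_key H.herm H.idem v⟩
  · conv_lhs => rw [show Qg J Z P g = Mg J Z P g * ((Wg J Z P g)⁻¹ * (Mg J Z P g)ᴴ) from rfl]
    exact Qg_key H.herm H.idem _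
  · rw [Qg, Matrix.trace_mul_comm, Matrix.mul_assoc, Mg_Wgi_Mgc_Mg H.herm H.idem, H.tr]
  · have h1 : Z1 Z J * Qg J Z P g = Mg J Z P g * ((Z * P) * ((Wg J Z P g)⁻¹ * (Mg J Z P g)ᴴ)) := by
      rw [Qg, ← Matrix.mul_assoc, Z1_mul_Mg hZ H.inv, Matrix.mul_assoc]
    rw [h1]
    exact Qg_key H.herm H.idem _

end graph

/-! ### the projection of the big space -/

/-- `π` -/
def pr (h : Type*) [DecidableEq h] (J : ℕ) : Matrix h (h ⊕ Fin (J + 1)) ℂ := fromCols 1 0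

/-- the projection on the last summand -/
def R0 (h : Type*) [DecidableEq h] (J : ℕ) : Matrix (h ⊕ Fin (J + 1)) (h ⊕ Fin (J + 1)) ℂ :=
  fromBlocks 0 0 0 1

/-- the column `e` -/
def e1 (h : Type*) [DecidableEq h] (J : ℕ) : Matrix (h ⊕ Fin (J + 1)) Unit ℂ :=
  Matrix.of fun i _ => if i = Sum.inr 0 then 1 else 0

theorem prc : (pr h J)ᴴ = fromRows 1 0 := by
  rw [pr, conjTranspose_fromCols_eq_fromRows_conjTranspose]; simp

theorem pr_mul_prc : pr h J * (pr h J)ᴴ = 1 := by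
  rw [prc, pr, fromCols_mul_fromRows]; simp

theorem prc_mul_pr : (pr h J)ᴴ * pr h J = 1 - R0 h J := by
  rw [prc, pr, fromRows_mul_fromCols, R0, ← fromBlocks_one, fromBlocks_sub']
  simp

theorem pr_mul_fromRows {B : Type*} (X : Matrix h B ℂ) (Y : Matrix (Fin (J + 1)) B ℂ) :
    pr h J * fromRows X Y = X := by
  rw [pr, fromCols_mul_fromRows]; simp

theorem pr_mul_Mg (Z P : Matrix h h ℂ) (g : Matrix h Unit ℂ) : pr h J * Mg J Z P g = P :=
  pr_mul_fromRows _ _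

theorem Z_mul_pr (Z : Matrix h h ℂ) : Z * pr h J = pr h J * Z1 Z J := by
  rw [pr, Z1, mul_fromCols, fromCols_mul_fromBlocks]; simp

theorem Z_pow_mul_pr (Z : Matrix h h ℂ) (m : ℕ) : Z ^ m * pr h J = pr h J * (Z1 Z J) ^ m := by
  induction m with
  | zero => simp
  | succ m ih => rw [pow_succ, Matrix.mul_assoc, Z_mul_pr, ← Matrix.mul_assoc, ih, pow_succ,
      Matrix.mul_assoc]

theorem e1c_mul {B : Type*} (X : Matrix (h ⊕ Fin (J + 1)) B ℂ) (k : B) :
    ((e1 h J)ᴴ * X) () k = X (Sum.inr 0) k := by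
  rw [Matrix.mul_apply, Finset.sum_eq_single (Sum.inr 0)]
  · simp [e1]
  · intro b _ hb
    simp [e1, hb]
  · intro h; exact absurd (Finset.mem_univ _) h

theorem e1c_Z1_pow (Z : Matrix h h ℂ) {B : Type*} (X : Matrix (h ⊕ Fin (J + 1)) B ℂ)
    (i : Fin (J + 1)) (k : B) :
    ((e1 h J)ᴴ * ((Z1 Z J) ^ (i : ℕ) * X)) () k = X (Sum.inr i) k := by
  rw [e1c_mul, Z1_pow, Matrix.mul_apply, Fintype.sum_sum_type]
  simp only [fromBlocks_apply₂₁, fromBlocks_apply₂₂, Matrix.zero_apply, zero_mul,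
    Finset.sum_const_zero, zero_add, S_pow_apply]
  rw [Finset.sum_eq_single i]
  · simp
  · intro b _ hb
    rw [if_neg (fun h => hb (Fin.ext (by simpa using h))), zero_mul]
  · intro h; exact absurd (Finset.mem_univ _) h

/-- `1 - Q R Q` -/
def Wb (Q : Matrix (h ⊕ Fin (J + 1)) (h ⊕ Fin (J + 1)) ℂ) :
    Matrix (h ⊕ Fin (J + 1)) (h ⊕ Fin (J + 1)) ℂ := 1 - Q * (R0 h J * Q)

section big

variable {Q : Matrix (h ⊕ Fin (J + 1)) (h ⊕ Fin (J + 1)) ℂ}

theorem R0_conj : (R0 h J)ᴴ = R0 h J := by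
  rw [R0, fromBlocks_conjTranspose]; simp

theorem Wb_conj (hQ : Qᴴ = Q) : (Wb Q)ᴴ = Wb Q := by
  rw [Wb, conjTranspose_sub, conjTranspose_one, conjTranspose_mul, conjTranspose_mul, hQ, R0_conj,
    Matrix.mul_assoc]

theorem Q_mul_Wb (hQQ : Q * Q = Q) : Q * Wb Q = Q * ((1 - R0 h J) * Q) := by
  rw [Wb, Matrix.mul_sub, Matrix.mul_one, ← Matrix.mul_assoc Q Q, hQQ, Matrix.sub_mul, Matrix.one_mul,
    Matrix.mul_sub, hQQ]

theorem Wb_mul_Q (hQQ : Q * Q = Q) : Wb Q * Q = Q * ((1 - R0 h J) * Q) := by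
  rw [Wb, Matrix.sub_mul, Matrix.one_mul, Matrix.mul_assoc, Matrix.mul_assoc, hQQ, Matrix.sub_mul,
    Matrix.one_mul, Matrix.mul_sub, hQQ]

open scoped ComplexOrder in
/-- `1 - Q R Q` is invertible when `e ∉ K` -/
theorem isUnit_Wb {Z : Matrix h h ℂ} {j : ℕ} {v : Matrix (h ⊕ Fin (J + 1)) A ℂ}
    (H : IsV (Z1 Z J) j Q v) (he : Q (Sum.inr 0) (Sum.inr 0) ≠ 1) : IsUnit (Wb Q).det := by
  rw [← Matrix.isUnit_iff_isUnit_det, ← Matrix.mulVec_injective_iff_isUnit]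
  have main : ∀ d : h ⊕ Fin (J + 1) → ℂ, Wb Q *ᵥ d = 0 → d = 0 := by
    intro d hd
    have h1 : d = Q *ᵥ (R0 h J *ᵥ (Q *ᵥ d)) := by
      rw [Wb, Matrix.sub_mulVec, Matrix.one_mulVec, sub_eq_zero] at hd
      rw [Matrix.mulVec_mulVec, Matrix.mulVec_mulVec, Matrix.mul_assoc]
      exact hd
    have h2 : Q *ᵥ d = d := by
      conv_lhs => rw [h1]
      rw [Matrix.mulVec_mulVec, H.idem, ← h1]
    rw [h2] at h1
    have h3 : star d ⬝ᵥ d = star d ⬝ᵥ (R0 h J *ᵥ d) := by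
      have h4 : star (Qᴴ *ᵥ d) = star d ᵥ* Q := by
        rw [Matrix.star_mulVec, conjTranspose_conjTranspose]
      have h4' : star d ⬝ᵥ d = star d ⬝ᵥ (Q *ᵥ (R0 h J *ᵥ d)) :=
        congrArg (fun y => star d ⬝ᵥ y) h1
      rw [h4', Matrix.dotProduct_mulVec, ← h4, H.herm, h2]
    have h5 : ∀ i : h, d (Sum.inl i) = 0 := by
      have h6 : R0 h J *ᵥ d = Sum.elim (fun _ => 0) (fun i => d (Sum.inr i)) := by
        rw [R0, Matrix.fromBlocks_mulVec]
        funext i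
        rcases i with i | i
        · simp
        · simp
      rw [h6, dotProduct, dotProduct, Fintype.sum_sum_type, Fintype.sum_sum_type] at h3
      simp only [Sum.elim_inl, Sum.elim_inr, mul_zero, Finset.sum_const_zero, zero_add,
        Pi.star_apply] at h3
      have h7 : ∑ i : h, star (d (Sum.inl i)) * d (Sum.inl i) = 0 := by
        have := h3
        rwa [add_eq_right] at this
      have h8 : star (fun i : h => d (Sum.inl i)) ⬝ᵥ (fun i : h => d (Sum.inl i)) = 0 := h7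
      rw [dotProduct_star_self_eq_zero] at h8
      exact fun i => congrFun h8 i
    by_contra hne
    have h9 : ∃ i, d (Sum.inr i) ≠ 0 := by
      by_contra h10
      push Not at h10
      exact hne (funext fun i => by rcases i with i | i; exacts [h5 i, h10 i])
    classical
    set s : Finset (Fin (J + 1)) := Finset.univ.filter fun i => d (Sum.inr i) ≠ 0 with hs
    have hsn : s.Nonempty := by
      obtain ⟨i, hi⟩ := h9
      exact ⟨i, by simp [hs, hi]⟩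
    set i0 := s.max' hsn with hi0
    have hi0s : d (Sum.inr i0) ≠ 0 := by
      have := s.max'_mem hsn
      simp only [hs, Finset.mem_filter, Finset.mem_univ, true_and] at this
      exact this
    have hgt : ∀ b, i0 < b → d (Sum.inr b) = 0 := by
      intro b hb
      by_contra hb0
      have : b ≤ i0 := s.le_max' b (by simp [hs, hb0])
      exact absurd hb (not_lt.2 this)
    have hinv : ∀ m : ℕ, Q *ᵥ ((Z1 Z J) ^ m *ᵥ d) = (Z1 Z J) ^ m *ᵥ d := by
      intro m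
      induction m with
      | zero => simpa using h2
      | succ m ih =>
        have h10 : (Z1 Z J) ^ (m + 1) *ᵥ d = (Z1 Z J * Q) *ᵥ ((Z1 Z J) ^ m *ᵥ d) := by
          rw [← Matrix.mulVec_mulVec _ (Z1 Z J) Q, ih, Matrix.mulVec_mulVec, ← pow_succ']
        rw [h10, Matrix.mulVec_mulVec, H.inv]
    have hpow : (Z1 Z J) ^ (i0 : ℕ) *ᵥ d = d (Sum.inr i0) • Pi.single (Sum.inr 0) 1 := by
      rw [Z1_pow, Matrix.fromBlocks_mulVec]
      funext i
      rcases i with i | i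
      · have : (d ∘ Sum.inl) = 0 := funext h5
        simp [this]
      · simp only [Sum.elim_inr, Matrix.zero_mulVec, zero_add, Pi.smul_apply, smul_eq_mul, Matrix.mulVec, dotProduct, S_pow_apply, Function.comp_apply]
        by_cases hi : i = 0
        · subst hi
          rw [Finset.sum_eq_single i0]
          · simp
          · intro b _ hb
            rw [if_neg (fun h => hb (Fin.ext (by simpa using h))), zero_mul]
          · intro h; exact absurd (Finset.mem_univ _) h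
        · have hne' : (Sum.inr i : h ⊕ Fin (J + 1)) ≠ Sum.inr 0 := fun h => hi (Sum.inr_injective h)
          rw [Pi.single_eq_of_ne hne', mul_zero]
          apply Finset.sum_eq_zero
          intro b _
          by_cases hb : (b : ℕ) = i + i0
          · have : i0 < b := by
              rw [Fin.lt_def, hb]
              have : 0 < (i : ℕ) := Nat.pos_of_ne_zero (fun h => hi (Fin.ext h))
              omega
            rw [hgt b this, mul_zero]
          · rw [if_neg hb, zero_mul]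
    have h11 := hinv i0
    rw [hpow, Matrix.mulVec_smul] at h11
    have h12 := congrFun h11 (Sum.inr 0)
    simp only [Pi.smul_apply, smul_eq_mul, Pi.single_eq_same, mul_one, Matrix.mulVec_single_one,
      Matrix.col_apply] at h12
    exact he (by
      have := mul_left_cancel₀ hi0s (h12.trans (mul_one _).symm)
      exact this)
  intro x y hxy
  have h1 := main (x - y) (by rw [Matrix.mulVec_sub, sub_eq_zero]; exact hxy)
  exact sub_eq_zero.1 h1

theorem core {B : Type*} (hQQ : Q * Q = Q) (hW : IsUnit (Wb Q).det)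
    (X : Matrix (h ⊕ Fin (J + 1)) B ℂ) (hX : Q * X = X) :
    (Wb Q)⁻¹ * (Q * ((1 - R0 h J) * X)) = X := by
  have h1 : Q * ((1 - R0 h J) * X) = Wb Q * X := by
    conv_lhs => rw [← hX, ← Matrix.mul_assoc (1 - R0 h J), ← Matrix.mul_assoc Q, ← Wb_mul_Q hQQ,
      Matrix.mul_assoc, hX]
  rw [h1, ← Matrix.mul_assoc, Matrix.nonsing_inv_mul _ hW, Matrix.one_mul]

theorem D_comm (hQQ : Q * Q = Q) (hW : IsUnit (Wb Q).det) : (Wb Q)⁻¹ * Q = Q * (Wb Q)⁻¹ := by
  have h1 : Q * Wb Q = Wb Q * Q := by rw [Q_mul_Wb hQQ, Wb_mul_Q hQQ]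
  calc (Wb Q)⁻¹ * Q = (Wb Q)⁻¹ * (Q * (Wb Q * (Wb Q)⁻¹)) := by
        rw [Matrix.mul_nonsing_inv _ hW, Matrix.mul_one]
    _ = (Wb Q)⁻¹ * ((Q * Wb Q) * (Wb Q)⁻¹) := by rw [Matrix.mul_assoc Q]
    _ = Q * (Wb Q)⁻¹ := by
        rw [h1, Matrix.mul_assoc, ← Matrix.mul_assoc, Matrix.nonsing_inv_mul _ hW, Matrix.one_mul]

/-- the small projection -/
noncomputable def Pb (Q : Matrix (h ⊕ Fin (J + 1)) (h ⊕ Fin (J + 1)) ℂ) : Matrix h h ℂ :=
  pr h J * ((Wb Q)⁻¹ * (Q * (pr h J)ᴴ))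

/-- the small vector -/
noncomputable def gb (Q : Matrix (h ⊕ Fin (J + 1)) (h ⊕ Fin (J + 1)) ℂ) : Matrix h Unit ℂ :=
  pr h J * ((Wb Q)⁻¹ * (Q * e1 h J))

theorem Q_D_Q {B : Type*} (hQQ : Q * Q = Q) (hW : IsUnit (Wb Q).det) (X : Matrix (h ⊕ Fin (J + 1)) B ℂ) :
    Q * ((Wb Q)⁻¹ * (Q * X)) = (Wb Q)⁻¹ * (Q * X) := by
  rw [← Matrix.mul_assoc, ← D_comm hQQ hW, Matrix.mul_assoc, ← Matrix.mul_assoc Q, hQQ]

theorem Pb_key {B : Type*} (hQQ : Q * Q = Q) (hW : IsUnit (Wb Q).det)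
    (X : Matrix (h ⊕ Fin (J + 1)) B ℂ) (hX : Q * X = X) : Pb Q * (pr h J * X) = pr h J * X := by
  rw [Pb, Matrix.mul_assoc, Matrix.mul_assoc, Matrix.mul_assoc, ← Matrix.mul_assoc (pr h J)ᴴ,
    prc_mul_pr, core hQQ hW X hX]

theorem Pb_conj (hQ : Qᴴ = Q) (hQQ : Q * Q = Q) (hW : IsUnit (Wb Q).det) : (Pb Q)ᴴ = Pb Q := by
  rw [Pb, conjTranspose_mul, conjTranspose_mul, conjTranspose_mul, conjTranspose_conjTranspose,
    conjTranspose_nonsing_inv, Wb_conj hQ, hQ, Matrix.mul_assoc, Matrix.mul_assoc, ← Matrix.mul_assoc Q,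
    ← D_comm hQQ hW, Matrix.mul_assoc]

theorem Pb_isV {Z : Matrix h h ℂ} {j : ℕ} {v : Matrix (h ⊕ Fin (J + 1)) A ℂ}
    (H : IsV (Z1 Z J) j Q v) (hW : IsUnit (Wb Q).det) :
    IsV Z j (Pb Q) (fromCols (pr h J * v) (gb Q)) := by
  have hQQ := H.idem
  refine ⟨Pb_conj H.herm hQQ hW, ?_, ?_, ?_, ?_⟩
  · exact Pb_key hQQ hW _ (Q_D_Q hQQ hW _)
  · have h1 : (Pb Q).trace = ((Wb Q)⁻¹ * (Q * (1 - R0 h J))).trace := by
      rw [Pb, Matrix.trace_mul_comm, Matrix.mul_assoc, Matrix.mul_assoc, prc_mul_pr]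
    have h2 : ((Wb Q)⁻¹ * (Q * (1 - R0 h J))).trace = Q.trace := by
      have h3 : (Wb Q)⁻¹ * (Q * (1 - R0 h J)) = Q * ((Wb Q)⁻¹ * (Q * (1 - R0 h J))) :=
        (Q_D_Q hQQ hW _).symm
      rw [h3, Matrix.trace_mul_comm, Matrix.mul_assoc, Matrix.mul_assoc, ← Wb_mul_Q hQQ]
      rw [← Matrix.mul_assoc, Matrix.nonsing_inv_mul _ hW, Matrix.one_mul]
    rw [h1, h2, H.tr]
  · have h1 : Z * Pb Q = pr h J * (Z1 Z J * ((Wb Q)⁻¹ * (Q * (pr h J)ᴴ))) := by
      rw [Pb, ← Matrix.mul_assoc, Z_mul_pr, Matrix.mul_assoc]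
    rw [h1]
    refine Pb_key hQQ hW _ ?_
    rw [← Q_D_Q hQQ hW, ← Matrix.mul_assoc (Z1 Z J), ← Matrix.mul_assoc Q, H.inv]
  · rw [mul_fromCols, Pb_key hQQ hW v H.vec, gb, Pb_key hQQ hW _ (Q_D_Q hQQ hW _)]

theorem D_Q_swap {B : Type*} (hQQ : Q * Q = Q) (hW : IsUnit (Wb Q).det)
    (X : Matrix (h ⊕ Fin (J + 1)) B ℂ) : Q * ((Wb Q)⁻¹ * X) = (Wb Q)⁻¹ * (Q * X) := by
  rw [← Matrix.mul_assoc, ← D_comm hQQ hW, Matrix.mul_assoc]

theorem inv_pow {B : Type*} {Z : Matrix h h ℂ} {j : ℕ} {v : Matrix (h ⊕ Fin (J + 1)) A ℂ}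
    (H : IsV (Z1 Z J) j Q v) (X : Matrix (h ⊕ Fin (J + 1)) B ℂ) (hX : Q * X = X) (m : ℕ) :
    Q * ((Z1 Z J) ^ m * X) = (Z1 Z J) ^ m * X := by
  induction m with
  | zero => simpa using hX
  | succ m ih =>
    have h10 : (Z1 Z J) ^ (m + 1) * X = (Z1 Z J * Q) * ((Z1 Z J) ^ m * X) := by
      rw [Matrix.mul_assoc, ih, ← Matrix.mul_assoc, ← pow_succ']
    rw [h10, ← Matrix.mul_assoc, H.inv]

end big

/-! ### the two round trips -/

section roundtrip

variable {Z P : Matrix h h ℂ} {g : Matrix h Unit ℂ}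

theorem Qg_ne_one {j : ℕ} {v : Matrix h A ℂ} (hZ : Z ^ (J + 1) = 0) (H : IsV Z j P v) :
    Qg J Z P g (Sum.inr 0) (Sum.inr 0) ≠ 1 := by
  intro he
  have h1 : Qg J Z P g * E h J = E h J := P_mul_E (Qg_isV hZ H) he
  rw [Qg, Matrix.mul_assoc, Matrix.mul_assoc] at h1
  have h2 : P * ((Wg J Z P g)⁻¹ * ((Mg J Z P g)ᴴ * E h J)) = 0 := by
    rw [← pr_mul_Mg (J := J) Z P g]
    rw [Matrix.mul_assoc, pr_mul_Mg, h1, pr, E, fromCols_mul_fromBlocks]
    simp
  have h4 : Mg J Z P g * ((Wg J Z P g)⁻¹ * ((Mg J Z P g)ᴴ * E h J)) = 0 := by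
    conv_lhs => rw [← Mg_mul_P (J := J) (Z := Z) (g := g) H.idem]
    rw [Mg_mul_P (J := J) (Z := Z) (g := g) H.idem]
    conv_lhs => enter [1]; rw [← Mg_mul_P (J := J) (Z := Z) (g := g) H.idem]
    rw [Matrix.mul_assoc, h2, Matrix.mul_zero]
  rw [h4] at h1
  have h3 := congrFun (congrFun h1 (Sum.inr 0)) (Sum.inr 0)
  simp [E] at h3

variable (hP : Pᴴ = P) (hPP : P * P = P)

include hP hPP

theorem Qg_idem : Qg J Z P g * Qg J Z P g = Qg J Z P g := by
  conv_lhs => rw [show Qg J Z P g = Mg J Z P g * ((Wg J Z P g)⁻¹ * (Mg J Z P g)ᴴ) from rfl]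
  exact Qg_key hP hPP _

theorem key' (hW : IsUnit (Wb (Qg J Z P g)).det) :
    (Wb (Qg J Z P g))⁻¹ * (Qg J Z P g * ((pr h J)ᴴ * P)) = Mg J Z P g := by
  have h1 : (pr h J)ᴴ * P = (1 - R0 h J) * Mg J Z P g := by
    rw [← prc_mul_pr, Matrix.mul_assoc, pr_mul_Mg]
  rw [h1]
  exact core (Qg_idem hP hPP) hW _ (Qg_mul_Mg hP hPP)

theorem P_fix {B : Type*} (X : Matrix (h ⊕ Fin (J + 1)) B ℂ) (hX : Qg J Z P g * X = X) :
    P * (pr h J * X) = pr h J * X := by
  rw [← hX, Qg, Matrix.mul_assoc, ← Matrix.mul_assoc (pr h J), pr_mul_Mg, ← Matrix.mul_assoc, hPP]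

theorem Pb_Qg (hW : IsUnit (Wb (Qg J Z P g)).det) : Pb (Qg J Z P g) = P := by
  have hQQ := Qg_idem (J := J) (Z := Z) (g := g) hP hPP
  refine proj_unique (Pb_conj Qg_conj hQQ hW) hP ?_ ?_
  · rw [Pb, Matrix.mul_assoc, Matrix.mul_assoc, Matrix.mul_assoc, key' hP hPP hW, pr_mul_Mg]
  · exact P_fix hP hPP _ (Q_D_Q hQQ hW _)

theorem gb_Qg (hW : IsUnit (Wb (Qg J Z P g)).det) (hg : P * g = g) : gb (Qg J Z P g) = g := by
  have hQQ := Qg_idem (J := J) (Z := Z) (g := g) hP hPP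
  have h1 : P * gb (Qg J Z P g) = gb (Qg J Z P g) := P_fix hP hPP _ (Q_D_Q hQQ hW _)
  have h2 : (gb (Qg J Z P g))ᴴ * P = gᴴ * P := by
    rw [gb, conjTranspose_mul, conjTranspose_mul, conjTranspose_mul, conjTranspose_nonsing_inv,
      Wb_conj Qg_conj, Qg_conj, Matrix.mul_assoc, Matrix.mul_assoc, Matrix.mul_assoc,
      D_Q_swap hQQ hW, key' hP hPP hW]
    ext i k
    rw [e1c_mul]
    simp [Mg, Br]
  have h3 := congrArg conjTranspose h2
  rw [conjTranspose_mul, conjTranspose_mul, conjTranspose_conjTranspose, conjTranspose_conjTranspose,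
    hP] at h3
  rw [← h1, h3, hg]

end roundtrip

theorem pr_mul_apply {B : Type*} (X : Matrix (h ⊕ Fin (J + 1)) B ℂ) (i : h) (k : B) :
    (pr h J * X) i k = X (Sum.inl i) k := by
  conv_lhs => rw [← fromRows_toRows X]
  rw [pr_mul_fromRows]
  rfl

section roundtrip2

variable {Z : Matrix h h ℂ} {j : ℕ} {Q : Matrix (h ⊕ Fin (J + 1)) (h ⊕ Fin (J + 1)) ℂ}
  {v : Matrix (h ⊕ Fin (J + 1)) A ℂ} (H : IsV (Z1 Z J) j Q v) (hW : IsUnit (Wb Q).det)

include H hW

theorem Mg_b : Mg J Z (Pb Q) (gb Q) = (Wb Q)⁻¹ * (Q * (pr h J)ᴴ) := by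
  have hQQ := H.idem
  set X := (Wb Q)⁻¹ * (Q * (pr h J)ᴴ) with hX
  have hQX : Q * X = X := Q_D_Q hQQ hW _
  have hPX : Pb Q = pr h J * X := rfl
  ext i k
  rcases i with i | i
  · rw [Mg, fromRows_apply_inl, hPX, pr_mul_apply]
  · rw [Mg, fromRows_apply_inr]
    show ((gb Q)ᴴ * (Z ^ (i : ℕ) * Pb Q)) () k = _
    have h1 : (gb Q)ᴴ * (Z ^ (i : ℕ) * Pb Q) = (e1 h J)ᴴ * ((Z1 Z J) ^ (i : ℕ) * X) := by
      rw [hPX, ← Matrix.mul_assoc (Z ^ (i : ℕ)), Z_pow_mul_pr, Matrix.mul_assoc (pr h J), gb,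
        conjTranspose_mul, conjTranspose_mul, conjTranspose_mul, conjTranspose_nonsing_inv,
        Wb_conj H.herm, H.herm, Matrix.mul_assoc, Matrix.mul_assoc, Matrix.mul_assoc,
        ← Matrix.mul_assoc (pr h J)ᴴ, prc_mul_pr, D_Q_swap hQQ hW,
        core hQQ hW _ (inv_pow H X hQX i)]
    rw [h1, e1c_Z1_pow]

theorem Mg_pr {B : Type*} (X : Matrix (h ⊕ Fin (J + 1)) B ℂ) (hX : Q * X = X) :
    Mg J Z (Pb Q) (gb Q) * (pr h J * X) = X := by
  rw [Mg_b H hW, Matrix.mul_assoc, Matrix.mul_assoc, ← Matrix.mul_assoc (pr h J)ᴴ, prc_mul_pr,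
    core H.idem hW X hX]

theorem Qg_b : Qg J Z (Pb Q) (gb Q) = Q := by
  have hQQ := H.idem
  have hV := Pb_isV H hW
  have hM : Q * Mg J Z (Pb Q) (gb Q) = Mg J Z (Pb Q) (gb Q) := by
    rw [Mg_b H hW]; exact Q_D_Q hQQ hW _
  refine proj_unique Qg_conj H.herm ?_ ?_
  · have h1 : Q = Mg J Z (Pb Q) (gb Q) * (pr h J * Q) := (Mg_pr H hW Q hQQ).symm
    conv_lhs => rw [h1]
    have h2 := Qg_key (J := J) (Z := Z) (g := gb Q) hV.herm hV.idem (pr h J * Q)
    rw [← h1] at h2 ⊢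
    exact h2
  · rw [Qg, ← Matrix.mul_assoc, hM]

end roundtrip2

/-! ### continuity -/

section cont

variable {X : Type*} [TopologicalSpace X]

theorem continuous_Mg {Z : Matrix h h ℂ} {P : X → Matrix h h ℂ} {g : X → Matrix h Unit ℂ}
    (hP : Continuous P) (hg : Continuous g) : Continuous fun x => Mg J Z (P x) (g x) := by
  refine continuous_matrix fun i k => ?_
  rcases i with i | i
  · exact hP.matrix_elem _ _
  · exact (hg.matrix_conjTranspose.matrix_mul (continuous_const.matrix_mul hP)).matrix_elem _ _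

theorem continuous_Wg {Z : Matrix h h ℂ} {P : X → Matrix h h ℂ} {g : X → Matrix h Unit ℂ}
    (hP : Continuous P) (hg : Continuous g) : Continuous fun x => Wg J Z (P x) (g x) := by
  have h1 : Continuous fun x => Br J Z (P x) (g x) := continuous_matrix fun i k =>
    (hg.matrix_conjTranspose.matrix_mul (continuous_const.matrix_mul hP)).matrix_elem _ _
  exact continuous_const.add (h1.matrix_conjTranspose.matrix_mul h1)

theorem continuous_Qg {Z : Matrix h h ℂ} {P : X → Matrix h h ℂ} {g : X → Matrix h Unit ℂ}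
    (hP : Continuous P) (hg : Continuous g) : Continuous fun x => Qg J Z (P x) (g x) :=
  (continuous_Mg hP hg).matrix_mul ((continuous_inv_of (continuous_Wg hP hg)
    fun _ => isUnit_Wg _ _ _).matrix_mul (continuous_Mg hP hg).matrix_conjTranspose)

end cont

theorem toCols_isV {Z P : Matrix h h ℂ} {j : ℕ} {w : Matrix h (A ⊕ Unit) ℂ} (H : IsV Z j P w) :
    IsV Z j P w.toCols₁ ∧ P * w.toCols₂ = w.toCols₂ := by
  have h1 := H.vec
  rw [← fromCols_toCols w, mul_fromCols] at h1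
  obtain ⟨h2, h3⟩ := fromCols_inj h1
  exact ⟨⟨H.herm, H.idem, H.tr, H.inv, h2⟩, h3⟩

/-- **F0-OPEN.** The open part `{e ∉ K}` of `V^{(A)}_j` over `h ⊕ Fin (J+1)` is `V^{(A ⊕ 1)}_j` over `h`. -/
noncomputable def openHomeo [Finite A] (Z : Matrix h h ℂ) (hZ : Z ^ (J + 1) = 0) (j : ℕ) :
    V Z (A ⊕ Unit) j ≃ₜ {x : V (Z1 Z J) A j // x.1.1 (Sum.inr 0) (Sum.inr 0) ≠ 1} where
  toFun y := ⟨⟨(Qg J Z y.1.1 y.1.2.toCols₂, Mg J Z y.1.1 y.1.2.toCols₂ * y.1.2.toCols₁),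
    Qg_isV hZ (toCols_isV y.2).1⟩, Qg_ne_one hZ y.2⟩
  invFun x := ⟨(Pb x.1.1.1, fromCols (pr h J * x.1.1.2) (gb x.1.1.1)), Pb_isV x.1.2 (isUnit_Wb x.1.2 x.2)⟩
  left_inv y := by
    obtain ⟨⟨P, w⟩, H⟩ := y
    have H' : IsV Z j P w := H
    have hW : IsUnit (Wb (Qg J Z P w.toCols₂)).det :=
      isUnit_Wb (Qg_isV hZ (toCols_isV H').1) (Qg_ne_one hZ H')
    refine V.ext (Pb_Qg H'.herm H'.idem hW) ?_
    show fromCols (pr h J * (Mg J Z P w.toCols₂ * w.toCols₁)) (gb (Qg J Z P w.toCols₂)) = w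
    rw [← Matrix.mul_assoc, pr_mul_Mg, (toCols_isV H').1.vec,
      gb_Qg H'.herm H'.idem hW (toCols_isV H').2, fromCols_toCols]
  right_inv x := by
    obtain ⟨⟨⟨Q, v⟩, H⟩, he⟩ := x
    have H' : IsV (Z1 Z J) j Q v := H
    have hW : IsUnit (Wb Q).det := isUnit_Wb H' he
    refine Subtype.ext (V.ext ?_ ?_)
    · show Qg J Z (Pb Q) ((fromCols (pr h J * v) (gb Q)).toCols₂) = Q
      rw [toCols₂_fromCols]
      exact Qg_b H' hW
    · show Mg J Z (Pb Q) ((fromCols (pr h J * v) (gb Q)).toCols₂) *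
        ((fromCols (pr h J * v) (gb Q)).toCols₁) = v
      rw [toCols₂_fromCols, toCols₁_fromCols]
      exact Mg_pr H' hW v H'.vec
  continuous_toFun := by
    have hP : Continuous fun y : V Z (A ⊕ Unit) j => y.1.1 := continuous_fst.comp (continuous_val _ _)
    have hw : Continuous fun y : V Z (A ⊕ Unit) j => y.1.2 := continuous_snd.comp (continuous_val _ _)
    have hg : Continuous fun y : V Z (A ⊕ Unit) j => y.1.2.toCols₂ :=
      continuous_matrix fun i k => hw.matrix_elem _ _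
    have hv : Continuous fun y : V Z (A ⊕ Unit) j => y.1.2.toCols₁ :=
      continuous_matrix fun i k => hw.matrix_elem _ _
    refine Continuous.subtype_mk (continuous_mk ?_ ?_) _
    · exact continuous_Qg hP hg
    · exact (continuous_Mg hP hg).matrix_mul hv
  continuous_invFun := by
    have hQ : Continuous fun x : {x : V (Z1 Z J) A j // x.1.1 (Sum.inr 0) (Sum.inr 0) ≠ 1} =>
        x.1.1.1 := continuous_fst.comp ((continuous_val _ _).comp continuous_subtype_val)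
    have hv : Continuous fun x : {x : V (Z1 Z J) A j // x.1.1 (Sum.inr 0) (Sum.inr 0) ≠ 1} =>
        x.1.1.2 := continuous_snd.comp ((continuous_val _ _).comp continuous_subtype_val)
    have hD : Continuous fun x : {x : V (Z1 Z J) A j // x.1.1 (Sum.inr 0) (Sum.inr 0) ≠ 1} =>
        (Wb x.1.1.1)⁻¹ := by
      refine continuous_inv_of ?_ fun x => isUnit_Wb x.1.2 x.2
      exact continuous_const.sub (hQ.matrix_mul (continuous_const.matrix_mul hQ))
    refine continuous_mk ?_ ?_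
    · exact continuous_const.matrix_mul (hD.matrix_mul (hQ.matrix_mul continuous_const))
    · refine continuous_matrix fun i k => ?_
      rcases k with k | k
      · exact (continuous_const.matrix_mul hv).matrix_elem _ _
      · exact (continuous_const.matrix_mul (hD.matrix_mul (hQ.matrix_mul continuous_const))).matrix_elem _ _

end Crest.Agent.R090.F0Open806
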