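import Crest.Agent.R090.F0Cells_933
import Crest.Agent.R090.F0Count_933
import Crest.Agent.R090.F0ProdMap_96
import Crest.Agent.R090.I0a_275

/-!
# Row 90, F0: the output theorem for the consumers (owner helper933)
-/

set_option autoImplicit false
set_option linter.unusedSectionVars false
set_option linter.unusedSimpArgs false
set_option linter.unusedVariables false

open Topology Filter Set Matrix
open scoped Kronecker ComplexOrder
open Crest.Agent.R090.F0Defs806 (IsV V continuous_mk continuous_val)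
open Crest.Agent.R090.Sp962

namespace Crest.Agent.R090.F0_933

variable {ι : Type} [Fintype ι] [DecidableEq ι] {J : ℕ} {A : Type}

instance secondCountable_matrix {a b : Type*} [Countable a] [Countable b] :
    SecondCountableTopology (Matrix a b ℂ) :=
  inferInstanceAs (SecondCountableTopology (a → b → ℂ))

instance secondCountable_V {h : Type*} [Fintype h] [DecidableEq h] {A : Type*} [Countable A]
    (Z : Matrix h h ℂ) (j : ℕ) : SecondCountableTopology (V Z A j) := by
  have : SecondCountableTopology (Matrix h h ℂ × Matrix h A ℂ) := inferInstance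
  exact TopologicalSpace.Subtype.secondCountableTopology
    {x : Matrix h h ℂ × Matrix h A ℂ | IsV Z j x.1 x.2}

/-! ### comparison with the product of 96 -/

theorem p0_eq_BE (p : Matrix ι ι ℂ) : p0 J p = F0Prod96.BE (bs ι J) (F0Prod96.amp (J + 1) p) := by
  rw [F0Prod96.BE_zS, p0]
  congr 1
  ext x y
  rw [Matrix.single_apply, Matrix.diagonal_apply]
  by_cases h : x = y
  · subst h
    by_cases h0 : x = 0
    · subst h0; simp
    · have h1 : ¬ ((x : ℕ) = 0) := fun h => h0 (Fin.ext h)
      simp [h0, h1, Ne.symm h0]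
  · have h1 : ¬ ((0 : Fin (J + 1)) = x ∧ (0 : Fin (J + 1)) = y) := by
      rintro ⟨h2, h3⟩; exact h (h2.symm.trans h3)
    rw [if_neg h1, if_neg h]

theorem gam_eq_G (p : Matrix ι ι ℂ) : gam J p = F0Prod96.G (bs ι J) (F0Prod96.amp (J + 1) p) :=
  gam_eq p

theorem prodP_eq (p : Matrix ι ι ℂ) (P : Matrix (HI ι J) (HI ι J) ℂ) :
    prodP J p P = F0Prod96.prodP (bs ι J) (F0Prod96.amp (J + 1) p) P := by
  rw [prodP, F0Prod96.prodP, p0_eq_BE, gam_eq_G, Matrix.mul_assoc]

theorem inj0_mul (a : Matrix ι A ℂ) : inj0 ι J * a = F0Prod96.deg0 (J + 1) a := by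
  ext x α
  rw [Matrix.mul_apply]
  simp only [inj0_apply, F0Prod96.deg0, Matrix.of_apply]
  rw [Finset.sum_eq_single x.1]
  · by_cases h : x.2 = 0
    · simp [h]
    · have h1 : ¬ ((x.2 : ℕ) = 0) := fun h2 => h (Fin.ext h2)
      simp [h]
  · intro b _ hb; simp [hb.symm]
  · simp

theorem prodV_eq (p : Matrix ι ι ℂ) (a : Matrix ι A ℂ) (v : Matrix (HI ι J) A ℂ) :
    prodV J p a v = F0Prod96.prodv (bs ι J) (F0Prod96.amp (J + 1) p) (F0Prod96.deg0 (J + 1) a) v := by
  rw [prodV, F0Prod96.prodv, gam_eq_G, inj0_mul]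

/-! ### the Thom spaces of 275 and of 96 -/

/-- one vector as a one-column matrix -/
def thHomeo (s : ℕ) : I0core275.Th s ι ≃ₜ F0Prod96.Th ι Unit s where
  toFun x := ⟨(x.1.1, Matrix.of fun i _ => x.1.2 i), by
    obtain ⟨⟨p, a⟩, hp, ha⟩ := x
    refine ⟨hp.herm, hp.idem, hp.tr, by simp, ?_⟩
    ext i u
    have := congrFun ha i
    simpa [Matrix.mul_apply, Matrix.mulVec, dotProduct] using this⟩
  invFun x := ⟨(x.1.1, fun i => x.1.2 i ()), by
    obtain ⟨⟨p, a⟩, H⟩ := x
    refine ⟨⟨H.herm, H.idem, H.tr⟩, ?_⟩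
    funext i
    have := congrFun (congrFun H.vec i) ()
    simpa [Matrix.mul_apply, Matrix.mulVec, dotProduct] using this⟩
  left_inv x := rfl
  right_inv x := rfl
  continuous_toFun := by
    have h1 : Continuous fun x : I0core275.Th s ι => x.1 :=
      (I0core275.isClosedEmbedding_val s).continuous
    have h2 : Continuous fun x : I0core275.Th s ι => x.1.1 := continuous_fst.comp h1
    have h3 : Continuous fun x : I0core275.Th s ι => x.1.2 := continuous_snd.comp h1
    refine continuous_mk h2 ?_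
    refine continuous_matrix fun i u => ?_
    exact (continuous_apply i).comp h3
  continuous_invFun := by
    refine Continuous.subtype_mk (Continuous.prodMk ?_ ?_) _
    · exact continuous_fst.comp (continuous_val _ _)
    · refine continuous_pi fun i => ?_
      exact (continuous_snd.comp (continuous_val _ _)).matrix_elem i ()

/-- extension by zero -/
def ext0 (S : Finset ι) (w : S → ℂ) : ι → ℂ := fun i => if h : i ∈ S then w ⟨i, h⟩ else 0

/-- the fibre over `ℂ^S` -/
def fibre (S : Finset ι) (w : S → ℂ) : I0core275.Th S.card ι :=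
  ⟨(pS S, ext0 S w), ⟨(isPr_pS S).herm, (isPr_pS S).idem, trace_pS S⟩, by
    funext i
    change (pS S *ᵥ ext0 S w) i = ext0 S w i
    rw [pS, mulVec_diagonal]
    by_cases h : i ∈ S <;> simp [h, ext0]⟩


theorem continuous_ext0 (S : Finset ι) : Continuous (ext0 S) := by
  refine continuous_pi fun i => ?_
  by_cases h : i ∈ S
  · simp only [ext0, h, dif_pos]; exact continuous_apply _
  · simp only [ext0, h, dif_neg, not_false_iff]; exact continuous_const

/-- coordinates of the fibre of `WV Unit (pS S)` -/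
noncomputable def wvU (S : Finset ι) : (S → ℂ) ≃ₜ WV Unit (pS S) :=
  (Homeomorph.piCongrLeft (Y := fun _ : S × Unit => ℂ) (Equiv.prodPUnit S).symm).trans
    (wvHomeo S).symm

theorem wvU_apply (S : Finset ι) (w : S → ℂ) (i : ι) :
    (wvU S w).1 i () = ext0 S w i := by
  change (if h : i ∈ S then _ else 0) = _
  rw [ext0]
  by_cases h : i ∈ S
  · rw [dif_pos h, dif_pos h]
    exact Equiv.piCongrLeft_apply_apply (P := fun _ : S × Unit => ℂ) (Equiv.prodPUnit S).symm w ⟨i, h⟩
  · rw [dif_neg h, dif_neg h]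

/-- **the closed embedding** `ℂ^S × V_j → V_{j+s}` -/
noncomputable def iotaMap {j : ℕ} (hj : j ≤ J) (S : Finset ι)
    (x : (S → ℂ) × V (bs ι J) Unit j) : V (bs ι J) Unit (j + S.card) :=
  (embHomeo hj (isPr_pS S) (trace_pS S) (wvU S x.1, x.2)).1

theorem isClosedEmbedding_iotaMap {j : ℕ} (hj : j ≤ J) (S : Finset ι) :
    IsClosedEmbedding (iotaMap hj S) := by
  have h1 : IsClosedEmbedding (Subtype.val : {x : V (bs ι J) Unit (j + S.card) //
      x.1.1 * p0 J (pS S) = p0 J (pS S)} → V (bs ι J) Unit (j + S.card)) :=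
    (isClosed_emb (pS S)).isClosedEmbedding_subtypeVal
  exact h1.comp ((embHomeo hj (isPr_pS S) (trace_pS S)).isClosedEmbedding.comp
    ((wvU S).prodCongr (Homeomorph.refl _)).isClosedEmbedding)

theorem range_iotaMap {j : ℕ} (hj : j ≤ J) (S : Finset ι) :
    range (iotaMap hj S) = Cl J Unit (pS S) (j + S.card) := by
  ext y
  constructor
  · rintro ⟨x, rfl⟩
    exact (embHomeo hj (isPr_pS S) (trace_pS S) (wvU S x.1, x.2)).2
  · intro hy
    obtain ⟨z, hz⟩ := (embHomeo (A := Unit) hj (isPr_pS S) (trace_pS S)).surjective ⟨y, hy⟩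
    refine ⟨((wvU S).symm z.1, z.2), ?_⟩
    rw [iotaMap]
    simp only [Homeomorph.apply_symm_apply]
    exact congrArg Subtype.val hz

/-- **the product map** -/
noncomputable def muMap {j : ℕ} (hj : j ≤ J) (s : ℕ) :
    PMap (I0core275.Th s ι × V (bs ι J) Unit j) (V (bs ι J) Unit (j + s)) :=
  (F0Prod96.prodMap (Nat.lt_succ_of_le hj)).comp
    (PMap.ofHomeo ((thHomeo s).prodCongr (Homeomorph.refl _)))

theorem muMap_fibre {j : ℕ} (hj : j ≤ J) (S : Finset ι) (w : S → ℂ) (x : V (bs ι J) Unit j) :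
    muMap hj S.card ((fibre S w, x) : I0core275.Th S.card ι × V (bs ι J) Unit j) =
      (iotaMap hj S (w, x) : OnePoint (V (bs ι J) Unit (j + S.card))) := by
  change ((F0Prod96.prod (Nat.lt_succ_of_le hj) (thHomeo S.card (fibre S w), x) :
    V (bs ι J) Unit (j + S.card)) : OnePoint (V (bs ι J) Unit (j + S.card))) = _
  congr 1
  refine V.ext ?_ ?_
  · exact (prodP_eq (pS S) x.1.1).symm
  · have h1 : (thHomeo S.card (fibre S w)).1.2 = (wvU S w).1 := by
      ext i u
      exact (wvU_apply S w i).symm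
    change F0Prod96.prodv (bs ι J) (F0Prod96.amp (J + 1) (pS S))
      (F0Prod96.deg0 (J + 1) (thHomeo S.card (fibre S w)).1.2) x.1.2 = prodV J (pS S) (wvU S w).1 x.1.2
    rw [h1, prodV_eq]

/-- **F0, consumer form** -/
structure F0Data (ι : Type) [Fintype ι] [DecidableEq ι] (S : Finset ι) (c : ℕ) : Type 1 where
  V : Type
  V' : Type
  [tV : TopologicalSpace V]
  [tV' : TopologicalSpace V']
  [t2V : T2Space V]
  [t2V' : T2Space V']
  [lcV : LocallyCompactSpace V]
  [lcV' : LocallyCompactSpace V']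
  [scV : SecondCountableTopology V]
  [scV' : SecondCountableTopology V']
  /-- the product `Th(γ_s) ∧ V → V'` -/
  μ : PMap (I0core275.Th S.card ι × V) V'
  /-- the closed embedding of the fibre -/
  emb : (S → ℂ) × V → V'
  closed : IsClosedEmbedding emb
  μ_fibre : ∀ (w : S → ℂ) (x : V),
    μ ((fibre S w, x) : I0core275.Th S.card ι × V) = (emb (w, x) : OnePoint V')
  D : ℕ
  u : ℕ
  D_pos : 0 < D
  cells : HasCells V D
  flt : Flt (range emb) u
  count : c * u ≤ D

attribute [instance] F0Data.tV F0Data.tV' F0Data.t2V F0Data.t2V' F0Data.lcV F0Data.lcV'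
  F0Data.scV F0Data.scV'

/-- **F0** -/
theorem F0_out (HO : OpenPart) (ι : Type) [Fintype ι] [DecidableEq ι] [Nonempty ι] (S : Finset ι)
    (c : ℕ) : Nonempty (F0Data ι S c) := by
  obtain ⟨n, hn⟩ : ∃ n, Fintype.card ι = n + 1 :=
    Nat.exists_eq_succ_of_ne_zero Fintype.card_ne_zero
  obtain ⟨j, hj⟩ := exists_count n S.card c
  have hjJ : j ≤ j + S.card := by omega
  have h1 := hasCells_compl (J := j + S.card) (A := Unit) HO hn S j (j + S.card) rfl (by omega)
  obtain ⟨ch⟩ := h1.chain
  refine ⟨{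
    V := V (bs ι (j + S.card)) Unit j
    V' := V (bs ι (j + S.card)) Unit (j + S.card)
    μ := muMap hjJ S.card
    emb := iotaMap hjJ S
    closed := isClosedEmbedding_iotaMap hjJ S
    μ_fibre := fun w x => muMap_fibre hjJ S w x
    D := (n + 1).multichoose j
    u := (n + 1).multichoose (j + S.card) - (n + 1).multichoose j
    D_pos := multichoose_pos n j
    cells := hasCells_V HO (n + 1) ι hn Unit (j + S.card) j (by omega)
    flt := ?_
    count := hj j le_rfl }⟩
  rw [range_iotaMap]
  exact ch.flt (isClosed_Cl _ _)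

end Crest.Agent.R090.F0_933
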