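import Crest.Agent.R090.F0Defs_806

/-!
# Row 90, F0: the product `Th(γ_s(ℂ^n)) × V_{n,j} → V_{n,j+s}` (algebraic part; owner helper96)

Abstract form: `Z` a partial isometry (`Z Zᴴ Z = Z`, the backward shift `1 ⊗ S`), `B` a projection commuting
with `Z` (`B = P_W ⊗ 1`), `E = 1 - Zᴴ Z` (projection to degree `0`), `F = 1 - Z Zᴴ` (top degree),
`G = B Zᴴ + (1 - B)` (`γ_W`).  The product is `(W,a;K,v) ↦ (W ⊕ γ_W K, a + γ_W v)`:
`(B E + G P Gᴴ, u + G v)`.
-/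

set_option autoImplicit false
set_option linter.unusedSectionVars false
set_option linter.unusedFintypeInType false
set_option linter.unusedDecidableInType false

open Matrix Topology Filter
open scoped Kronecker

namespace Crest.Agent.R090.F0Prod96

open F0Defs806

section abs

variable {h A : Type*} [Fintype h] [DecidableEq h]

/-- projection to degree `0` -/
def E (Z : Matrix h h ℂ) : Matrix h h ℂ := 1 - Zᴴ * Z

/-- projection to the top degree -/
def F (Z : Matrix h h ℂ) : Matrix h h ℂ := 1 - Z * Zᴴ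

/-- the isometry `γ_W` -/
def G (Z B : Matrix h h ℂ) : Matrix h h ℂ := B * Zᴴ + (1 - B)

/-- `Z` is a partial isometry commuting with the projection `B` -/
structure Dat (Z B : Matrix h h ℂ) : Prop where
  pi : Z * (Zᴴ * Z) = Z
  herm : Bᴴ = B
  idem : B * B = B
  comm : B * Z = Z * B

variable {Z B : Matrix h h ℂ}

theorem Dat.comm' (D : Dat Z B) : B * Zᴴ = Zᴴ * B := by
  have := congrArg conjTranspose D.comm
  rw [conjTranspose_mul, conjTranspose_mul, D.herm] at this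
  exact this.symm

theorem Dat.pi' (D : Dat Z B) : Zᴴ * (Z * Zᴴ) = Zᴴ := by
  have := congrArg conjTranspose D.pi
  simpa [conjTranspose_mul, Matrix.mul_assoc] using this

theorem E_herm (Z : Matrix h h ℂ) : (E Z)ᴴ = E Z := by
  simp [E, conjTranspose_sub, conjTranspose_mul]

theorem Dat.Z_E (D : Dat Z B) : Z * E Z = 0 := by
  rw [E, mul_sub, mul_one, D.pi, sub_self]

theorem Dat.E_Zh (D : Dat Z B) : E Z * Zᴴ = 0 := by
  rw [E, sub_mul, one_mul, Matrix.mul_assoc, D.pi', sub_self]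

theorem Dat.E_idem (D : Dat Z B) : E Z * E Z = E Z := by
  have h1 : (1 - Zᴴ * Z) * E Z = E Z - Zᴴ * (Z * E Z) := by
    rw [sub_mul, one_mul, Matrix.mul_assoc]
  rw [D.Z_E, mul_zero, sub_zero] at h1
  exact h1

theorem Dat.B_E (D : Dat Z B) : B * E Z = E Z * B := by
  rw [E, mul_sub, sub_mul, mul_one, one_mul, ← Matrix.mul_assoc, D.comm', Matrix.mul_assoc, D.comm,
    Matrix.mul_assoc]

theorem Dat.F_Z (D : Dat Z B) : F Z * Z = 0 := by
  rw [F, sub_mul, one_mul, Matrix.mul_assoc, D.pi, sub_self]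

/-- the projection to `W` in degree `0` -/
def BE (Z B : Matrix h h ℂ) : Matrix h h ℂ := B * E Z

theorem Dat.BE_herm (D : Dat Z B) : (BE Z B)ᴴ = BE Z B := by
  rw [BE, conjTranspose_mul, E_herm, D.herm, D.B_E]

theorem Dat.BE_idem (D : Dat Z B) : BE Z B * BE Z B = BE Z B := by
  calc BE Z B * BE Z B = B * (E Z * B) * E Z := by simp only [BE, Matrix.mul_assoc]
    _ = B * (B * E Z) * E Z := by rw [D.B_E]
    _ = (B * B) * (E Z * E Z) := by simp only [Matrix.mul_assoc]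
    _ = BE Z B := by rw [D.idem, D.E_idem, BE]

theorem Dat.BE_G (D : Dat Z B) : BE Z B * G Z B = 0 := by
  have h1 : BE Z B * (B * Zᴴ) = 0 := by
    calc BE Z B * (B * Zᴴ) = B * (E Z * B) * Zᴴ := by simp only [BE, Matrix.mul_assoc]
      _ = B * (B * E Z) * Zᴴ := by rw [D.B_E]
      _ = (B * B) * (E Z * Zᴴ) := by simp only [Matrix.mul_assoc]
      _ = 0 := by rw [D.E_Zh, mul_zero]
  have h2 : BE Z B * B = BE Z B := by
    rw [BE, Matrix.mul_assoc, ← D.B_E, ← Matrix.mul_assoc, D.idem]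
  rw [G, mul_add, h1, mul_sub, mul_one, h2, sub_self, zero_add]

theorem Dat.Gh_BE (D : Dat Z B) : (G Z B)ᴴ * BE Z B = 0 := by
  have := congrArg conjTranspose D.BE_G
  rwa [conjTranspose_mul, D.BE_herm, conjTranspose_zero] at this

theorem Dat.G_conj (D : Dat Z B) : (G Z B)ᴴ = B * Z + (1 - B) := by
  rw [G, conjTranspose_add, conjTranspose_mul, conjTranspose_conjTranspose, conjTranspose_sub,
    conjTranspose_one, D.herm, ← D.comm]

theorem Dat.Gh_G (D : Dat Z B) : (G Z B)ᴴ * G Z B = 1 - B * F Z := by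
  have e1 : B * Z * (B * Zᴴ) = B * (Z * Zᴴ) := by
    calc B * Z * (B * Zᴴ) = B * (Z * B) * Zᴴ := by simp only [Matrix.mul_assoc]
      _ = B * (B * Z) * Zᴴ := by rw [D.comm]
      _ = (B * B) * (Z * Zᴴ) := by simp only [Matrix.mul_assoc]
      _ = B * (Z * Zᴴ) := by rw [D.idem]
  have e2 : B * Z * (1 - B) = 0 := by
    rw [D.comm, Matrix.mul_assoc, mul_sub, mul_one, D.idem, sub_self, mul_zero]
  have e3 : (1 - B) * (B * Zᴴ) = 0 := by
    rw [← Matrix.mul_assoc, sub_mul, one_mul, D.idem, sub_self, zero_mul]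
  have e4 : (1 - B) * (1 - B) = 1 - B := by
    rw [mul_sub, mul_one, sub_mul, one_mul, D.idem, sub_self, sub_zero]
  rw [D.G_conj, G, add_mul, mul_add, mul_add, e1, e2, e3, e4, F, mul_sub, mul_one]
  abel

/-- the condition `F P = 0` (no top degree part) -/
theorem Dat.Gh_G_mul (D : Dat Z B) {m : Type*} {M : Matrix h m ℂ} (hF : F Z * M = 0) :
    (G Z B)ᴴ * (G Z B * M) = M := by
  rw [← Matrix.mul_assoc, D.Gh_G, Matrix.sub_mul, Matrix.one_mul, Matrix.mul_assoc, hF,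
    Matrix.mul_zero, sub_zero]

theorem Dat.Z_G (D : Dat Z B) {m : Type*} {M : Matrix h m ℂ} (hF : F Z * M = 0) :
    Z * (G Z B * M) = BE Z B * M + G Z B * (Z * M) := by
  have e0 : Z * Zᴴ * M = M := by
    have : Z * Zᴴ = 1 - F Z := by rw [F]; abel
    rw [this, Matrix.sub_mul, Matrix.one_mul, hF, sub_zero]
  have e1 : Z * (B * Zᴴ * M) = B * M := by
    calc Z * (B * Zᴴ * M) = (Z * B) * (Zᴴ * M) := by simp only [Matrix.mul_assoc]
      _ = B * (Z * Zᴴ * M) := by rw [← D.comm]; simp only [Matrix.mul_assoc]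
      _ = B * M := by rw [e0]
  have e2 : Z * ((1 - B) * M) = (1 - B) * (Z * M) := by
    rw [← Matrix.mul_assoc, ← Matrix.mul_assoc, mul_sub, mul_one, sub_mul, one_mul, D.comm]
  have e3 : BE Z B * M = B * M - B * (Zᴴ * Z) * M := by
    rw [BE, E, mul_sub, mul_one, Matrix.sub_mul]
  rw [G, Matrix.add_mul, Matrix.mul_add, e1, e2, e3, Matrix.add_mul]
  have e4 : B * Zᴴ * (Z * M) = B * (Zᴴ * Z) * M := by simp only [Matrix.mul_assoc]
  rw [e4]
  abel

/-- the product on projections -/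
def prodP (Z B P : Matrix h h ℂ) : Matrix h h ℂ := BE Z B + G Z B * P * (G Z B)ᴴ

/-- the product on vectors -/
def prodv (Z B : Matrix h h ℂ) (u v : Matrix h A ℂ) : Matrix h A ℂ := u + G Z B * v

theorem Dat.prodP_mul_BE (D : Dat Z B) (P : Matrix h h ℂ) : prodP Z B P * BE Z B = BE Z B := by
  rw [prodP, add_mul, D.BE_idem, Matrix.mul_assoc _ _ (BE Z B), D.Gh_BE, mul_zero, add_zero]

theorem Dat.prodP_mul_G (D : Dat Z B) {m : Type*} (P : Matrix h h ℂ) {M : Matrix h m ℂ}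
    (hF : F Z * M = 0) : prodP Z B P * (G Z B * M) = G Z B * (P * M) := by
  rw [prodP, Matrix.add_mul, ← Matrix.mul_assoc (BE Z B), D.BE_G, Matrix.zero_mul, zero_add,
    Matrix.mul_assoc, D.Gh_G_mul hF, Matrix.mul_assoc]

/-- **the product formula**: `(W ⊕ γ_W K, u + γ_W v)` is `Z`-invariant of rank `j + s` -/
theorem Dat.isV (D : Dat Z B) {s j : ℕ} (htr : (BE Z B).trace = s) {P : Matrix h h ℂ}
    {u v : Matrix h A ℂ} (H : IsV Z j P v) (hF : F Z * P = 0) (hu : BE Z B * u = u) :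
    IsV Z (j + s) (prodP Z B P) (prodv Z B u v) := by
  have hFv : F Z * v = 0 := by rw [← H.vec, ← Matrix.mul_assoc, hF, Matrix.zero_mul]
  refine ⟨?_, ?_, ?_, ?_, ?_⟩
  · rw [prodP, conjTranspose_add, D.BE_herm, conjTranspose_mul, conjTranspose_mul,
      conjTranspose_conjTranspose, H.herm, Matrix.mul_assoc]
  · have h1 : prodP Z B P * (G Z B * P * (G Z B)ᴴ) = G Z B * P * (G Z B)ᴴ := by
      rw [← Matrix.mul_assoc, D.prodP_mul_G P hF, H.idem]
    calc prodP Z B P * prodP Z B P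
        = prodP Z B P * (BE Z B + G Z B * P * (G Z B)ᴴ) := rfl
      _ = prodP Z B P := by rw [mul_add, h1, D.prodP_mul_BE, prodP]
  · rw [prodP, trace_add, htr, Matrix.trace_mul_comm, D.Gh_G_mul hF, H.tr]
    push_cast
    ring
  · have h0 : Z * prodP Z B P = (BE Z B * P + G Z B * (Z * P)) * (G Z B)ᴴ := by
      rw [prodP, mul_add, BE, ← Matrix.mul_assoc Z B, ← D.comm, Matrix.mul_assoc B Z, D.Z_E,
        mul_zero, zero_add, ← Matrix.mul_assoc, D.Z_G hF, BE]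
    have hFZ : F Z * (Z * P) = 0 := by rw [← Matrix.mul_assoc, D.F_Z, Matrix.zero_mul]
    rw [h0, ← Matrix.mul_assoc, mul_add, ← Matrix.mul_assoc (prodP Z B P), D.prodP_mul_BE,
      D.prodP_mul_G P hFZ, H.inv]
  · rw [prodv, Matrix.mul_add, D.prodP_mul_G P hFv, H.vec]
    congr 1
    rw [← hu, ← Matrix.mul_assoc, D.prodP_mul_BE]

/-- the vector part is norm preserving -/
theorem Dat.norm_prodv (D : Dat Z B) {u v : Matrix h A ℂ} (hu : BE Z B * u = u)
    (hF : F Z * v = 0) : (prodv Z B u v)ᴴ * prodv Z B u v = uᴴ * u + vᴴ * v := by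
  have h1 : uᴴ * (G Z B * v) = 0 := by
    rw [← hu, conjTranspose_mul, D.BE_herm, Matrix.mul_assoc, ← Matrix.mul_assoc (BE Z B), D.BE_G,
      Matrix.zero_mul, Matrix.mul_zero]
  have h2 : (G Z B * v)ᴴ * u = 0 := by
    have := congrArg conjTranspose h1
    simpa [conjTranspose_mul] using this
  have h3 : (G Z B * v)ᴴ * (G Z B * v) = vᴴ * v := by
    rw [conjTranspose_mul, Matrix.mul_assoc, D.Gh_G_mul hF]
  rw [prodv, conjTranspose_add, Matrix.add_mul, Matrix.mul_add, Matrix.mul_add, h1, h2, h3]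
  abel

/-! ### orthogonal lines -/

theorem G_mul_G {B₁ B₂ : Matrix h h ℂ} (D₁ : Dat Z B₁) (D₂ : Dat Z B₂) (h12 : B₁ * B₂ = 0) :
    G Z B₁ * G Z B₂ = G Z (B₁ + B₂) := by
  have e1 : B₁ * Zᴴ * (B₂ * Zᴴ) = 0 := by
    calc B₁ * Zᴴ * (B₂ * Zᴴ) = B₁ * (Zᴴ * B₂) * Zᴴ := by simp only [Matrix.mul_assoc]
      _ = B₁ * (B₂ * Zᴴ) * Zᴴ := by rw [D₂.comm']
      _ = (B₁ * B₂) * Zᴴ * Zᴴ := by simp only [Matrix.mul_assoc]
      _ = 0 := by rw [h12]; simp
  have e2 : B₁ * Zᴴ * B₂ = 0 := by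
    rw [Matrix.mul_assoc, ← D₂.comm', ← Matrix.mul_assoc, h12, zero_mul]
  have e3 : B₁ * (B₂ * Zᴴ) = 0 := by rw [← Matrix.mul_assoc, h12, zero_mul]
  simp only [G, add_mul, mul_add, sub_mul, mul_sub, one_mul, mul_one, e1, e2, e3, h12]
  abel

theorem G_mul_BE {B₁ B₂ : Matrix h h ℂ} (D₂ : Dat Z B₂) (h12 : B₁ * B₂ = 0) :
    G Z B₁ * BE Z B₂ = BE Z B₂ := by
  have e2 : B₁ * Zᴴ * B₂ = 0 := by
    rw [Matrix.mul_assoc, ← D₂.comm', ← Matrix.mul_assoc, h12, zero_mul]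
  rw [BE, ← Matrix.mul_assoc, G, add_mul, e2, sub_mul, one_mul, h12, sub_zero, zero_add]

theorem BE_add (B₁ B₂ : Matrix h h ℂ) : BE Z (B₁ + B₂) = BE Z B₁ + BE Z B₂ := by
  rw [BE, BE, BE, add_mul]

/-- product with `W₁`, then ... : `W₁ ⊕ γ_{W₁}(W₂ ⊕ γ_{W₂} K) = (W₁ ⊕ W₂) ⊕ γ_{W₁ ⊕ W₂} K` -/
theorem prodP_prodP {B₁ B₂ : Matrix h h ℂ} (D₁ : Dat Z B₁) (D₂ : Dat Z B₂) (h12 : B₁ * B₂ = 0)
    (P : Matrix h h ℂ) : prodP Z B₁ (prodP Z B₂ P) = prodP Z (B₁ + B₂) P := by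
  have h1 := G_mul_BE (Z := Z) D₂ h12
  have h2 : BE Z B₂ * (G Z B₁)ᴴ = BE Z B₂ := by
    have := congrArg conjTranspose h1
    rwa [conjTranspose_mul, D₂.BE_herm] at this
  rw [prodP, prodP, prodP, mul_add, add_mul, h1, h2, BE_add, ← G_mul_G D₁ D₂ h12,
    conjTranspose_mul]
  simp only [Matrix.mul_assoc, add_assoc]

theorem prodv_prodv {B₁ B₂ : Matrix h h ℂ} (D₁ : Dat Z B₁) (D₂ : Dat Z B₂) (h12 : B₁ * B₂ = 0)
    {u₁ u₂ v : Matrix h A ℂ} (hu : BE Z B₂ * u₂ = u₂) :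
    prodv Z B₁ u₁ (prodv Z B₂ u₂ v) = prodv Z (B₁ + B₂) (u₁ + u₂) v := by
  have h1 : G Z B₁ * u₂ = u₂ := by
    conv_lhs => rw [← hu]
    rw [← Matrix.mul_assoc, G_mul_BE D₂ h12, hu]
  rw [prodv, prodv, prodv, Matrix.mul_add, h1, ← G_mul_G D₁ D₂ h12, Matrix.mul_assoc, add_assoc]

theorem Dat.add {B₁ B₂ : Matrix h h ℂ} (D₁ : Dat Z B₁) (D₂ : Dat Z B₂) (h12 : B₁ * B₂ = 0) :
    Dat Z (B₁ + B₂) := by
  have h21 : B₂ * B₁ = 0 := by
    have := congrArg conjTranspose h12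
    rwa [conjTranspose_mul, D₁.herm, D₂.herm, conjTranspose_zero] at this
  refine ⟨D₁.pi, ?_, ?_, ?_⟩
  · rw [conjTranspose_add, D₁.herm, D₂.herm]
  · rw [add_mul, mul_add, mul_add, D₁.idem, D₂.idem, h12, h21]; abel
  · rw [add_mul, mul_add, D₁.comm, D₂.comm]

theorem Dat.zero (hpi : Z * (Zᴴ * Z) = Z) : Dat Z 0 :=
  ⟨hpi, by simp, by simp, by simp⟩

@[simp] theorem prodP_zero (P : Matrix h h ℂ) : prodP Z 0 P = P := by
  simp [prodP, BE, G]

@[simp] theorem prodv_zero (v : Matrix h A ℂ) : prodv Z 0 0 v = v := by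
  simp [prodv, G]

end abs

end Crest.Agent.R090.F0Prod96
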