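import Crest.Agent.R090.SpineDefs_796
import Crest.Agent.R090.F0Conv_96

/-!
# Row 90: the arrow `Spine.F0Stmt` from the output of I0 (helper933)

* `I0H` : the output of I0 for the torus collapse, word for word the hypotheses of `Spine.F0Stmt`;
* `f0Stmt_of : I0H → Spine.F0Stmt`.
-/

set_option autoImplicit false
set_option linter.unusedSectionVars false

open Topology Filter Set

namespace Crest.Agent.R090.F0_933

open OnePoint Crest.Agent.R090.Sp962 Crest.Agent.R090.Spine Crest.Agent.R090.F0Conv96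
  Crest.Agent.R090.Match513 Crest.Agent.R090.Bott513
open Crest.Agent.R090.Block568 (incl)

/-- the output of I0 (417) -/
def I0H : Prop :=
  ∀ (p n : ℕ), 1 ≤ p → 1 ≤ n → ∀ (Y : Type) [TopologicalSpace Y] [CompactSpace Y] [T2Space Y]
    (Z : Set (Y × T5.TT p n)) [Fact (IsClosed Z)] [CompactSpace Z] (K : ℕ)
    (Φ : Y × T5.TT p n → Matrix (Fin K) ((Fin 2 × Fin p) × Fin n) ℂ),
    K < 2 * p * n → Continuous Φ →
    (∀ x ∈ Z, ∀ v : (Fin 2 × Fin p) × Fin n → ℂ,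
      (Crest.OpAlg.totalProj p n x.2).mulVec v = v → (Φ x).mulVec v = 0 → v = 0) →
    I0At (Fin n × Fin p) ((kCc p n).comp (wZ Z))

/-- `F0Out` from `I0At` -/
theorem f0Out_of_I0At {a : Type} [Fintype a] [DecidableEq a] [Nonempty a]
    {Z : Type} [TopologicalSpace Z] [CompactSpace Z] [T2Space Z] {κ : C(Z, OnePoint (a → ℂ))}
    (H : I0At a κ) {f : PMap Z (a → ℂ)} (hf : f.Homotopic (ofC κ)) (c : ℕ) :
    ∃ D u : ℕ, 0 < D ∧ c * u ≤ D ∧ F0Out f D u := by
  obtain ⟨m, V, B, i1, i2, i3, i4, i5, i6, -, -, A, hA, θ, D, u, hD, hcu, hV, hF, hN⟩ :=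
    null_of_I0At' (Homeomorph.refl (a → ℂ)) H
      (hf.trans (.of_eq (PMap.ext fun x => by
        rw [PMap.ofHomeo_refl, PMap.id_comp]))) c
  refine ⟨D, u, hD, hcu, (Fin m → ℂ) × V, B, inferInstance, inferInstance, inferInstance, i2, i4,
    i6, A, ⟨hA⟩, θ, ?_, hF, ?_⟩
  · exact hV.prod (Homeomorph.refl (Fin m → ℂ))
  · exact hN

theorem f0Stmt_of (hI : I0H) : Spine.F0Stmt := by
  intro p n hp hn Y _ _ _ Z _ _ K Φ hK hΦ hinj
  have : Nonempty (Fin n × Fin p) := ⟨(⟨0, hn⟩, ⟨0, hp⟩)⟩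
  refine f0Out_of_I0At (hI p n hp hn Y Z K Φ hK hΦ hinj) ?_ 8
  exact .of_eq (PMap.ext fun x => rfl)

end Crest.Agent.R090.F0_933
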