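import Crest.Agent.R090.F1Pair_893
import Crest.Agent.R090.Cyl_349

/-!
# Row 90, F1: the map of pairs for the mapping cylinder `Cyl f` (owner helper893)

`f : PMap U V`, `A` closed in `B`, `k : PMap (V × W) A` with `incl ∘ k ∘ (f ∧ 1_W)` null.
Then there is a strict map of pairs `Λ : ((Cyl f) × W) × ℝ → XX A` with
`Λ (U × W × ℝ) ⊆ UU A ∪ {∞}` and `collX ∘ Λ = (k ∘ (ret ∧ 1_W)) ∧ cR`.
-/

set_option autoImplicit false

open Topology Filter Set unitInterval

namespace Crest.Agent.R090.F1PairCyl893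

open OnePoint Sp962 Cyl349 F1Pair893

variable {U : Type*} {V : Type*} {W : Type*} {B : Type*} [TopologicalSpace U]
  [TopologicalSpace V] [TopologicalSpace W] [TopologicalSpace B]
  [T2Space U] [LocallyCompactSpace U] [T2Space V] [LocallyCompactSpace V]
  [T2Space W] [LocallyCompactSpace W]

/-- clamp to `[0, 1]` -/
noncomputable def cl (t : ℝ) : I := projIcc 0 1 zero_le_one t

theorem continuous_cl : Continuous cl := continuous_projIcc (h := zero_le_one)

theorem cl_zero : cl 0 = 0 := by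
  rw [cl, projIcc_left]; rfl

theorem cl_one : cl 1 = 1 := by
  rw [cl, projIcc_right]; rfl

/-- a null homotopy of `g ∘ (f ∧ 1)` extends to a homotopy on `Cyl f × W` -/
theorem exists_cyl_homotopy (f : PMap U V) (g : PMap (V × W) B)
    (hnull : (g.comp (f.smash (PMap.id W))).Null) :
    ∃ H : I × OnePoint (Cyl f × W) → OnePoint B, Continuous H ∧ (∀ t, H (t, ∞) = ∞) ∧
      (∀ x, H (0, x) = g ((Cyl.ret f).smash (PMap.id W) x)) ∧
      (∀ (z : U) (w : W), H (1, ((Cyl.iU f z, w) : Cyl f × W)) = ∞) := by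
  obtain ⟨h, hh, h0, h1, hi⟩ := hnull.exists
  set L : I → OnePoint W → OnePoint (Cyl f) → OnePoint B := fun s w z =>
    Cyl.lift f (fun a t => h (cl (s * (1 - t)), sm a w)) (fun v => g (sm v w)) z with hL
  have Lq : ∀ (s : I) (w : OnePoint W) (a : OnePoint U) (t : ℝ), t ∈ Icc (0 : ℝ) 1 →
      L s w (Cyl.q f a t) = h (cl (s * (1 - t)), sm a w) := by
    intro s w a t ht
    refine Cyl.lift_q f _ _ ?_ ?_ a ht
    · intro t
      rw [sm_inf_left, hi, sm_inf_left, PMap.map_inf]
    · intro a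
      have e : (s : ℝ) * (1 - 1) = 0 := by ring
      rw [e, cl_zero, h0, PMap.comp_apply, PMap.smash_sm, PMap.id_apply]
  have Li : ∀ (s : I) (w : OnePoint W) (v : OnePoint V), L s w (Cyl.i f v) = g (sm v w) :=
    fun s w v => Cyl.lift_i f _ _ v
  have Linf : ∀ s w, L s w ∞ = ∞ := by
    intro s w
    have : L s w (Cyl.i f ∞) = g (sm ∞ w) := Li s w ∞
    rw [PMap.map_inf, sm_inf_left, PMap.map_inf] at this
    exact this
  have Lw : ∀ s z, L s ∞ z = ∞ := by
    intro s z
    revert z
    refine Cyl.cases f ?_ ?_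
    · intro a t ht
      rw [Lq s ∞ a t ht, sm_inf_right, hi]
    · intro y
      rw [Li, sm_inf_right, PMap.map_inf]
  have Lc : Continuous (fun p : (I × OnePoint W) × OnePoint (Cyl f) => L p.1.1 p.1.2 p.2) := by
    refine Cyl.continuous_of f ?_ ?_
    · have e : (fun p : (I × OnePoint W) × (OnePoint U × I) =>
          L p.1.1 p.1.2 (Cyl.q f p.2.1 p.2.2)) =
          fun p => h (cl (p.1.1 * (1 - p.2.2)), sm p.2.1 p.1.2) := by
        funext p
        exact Lq p.1.1 p.1.2 p.2.1 p.2.2 p.2.2.2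
      rw [e]
      refine hh.comp (Continuous.prodMk ?_ ?_)
      · refine continuous_cl.comp ?_
        fun_prop
      · exact Continuous.sm962 (continuous_fst.comp continuous_snd)
          (continuous_snd.comp continuous_fst)
    · have e : (fun p : (I × OnePoint W) × OnePoint V => L p.1.1 p.1.2 (Cyl.i f p.2)) =
          fun p => g (sm p.2 p.1.2) := by
        funext p
        exact Li p.1.1 p.1.2 p.2
      rw [e]
      exact g.cont.comp (Continuous.sm962 continuous_snd (continuous_snd.comp continuous_fst))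
  refine ⟨fun p => p.2.elim ∞ (fun c => L p.1 c.2 c.1), ?_, fun t => rfl, ?_, ?_⟩
  · refine continuous_of_sm' ?_
    have e : (fun p : I × (OnePoint (Cyl f) × OnePoint W) =>
        (fun p : I × OnePoint (Cyl f × W) => p.2.elim ∞ (fun c => L p.1 c.2 c.1))
          (p.1, sm p.2.1 p.2.2)) = fun p => L p.1 p.2.2 p.2.1 := by
      funext p
      obtain ⟨s, z, w⟩ := p
      change (sm z w).elim ∞ (fun c => L s c.2 c.1) = L s w z
      induction z using OnePoint.rec with
      | infty => rw [sm_inf_left, Linf]; rfl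
      | coe z =>
        induction w using OnePoint.rec with
        | infty => rw [sm_inf_right, Lw]; rfl
        | coe w => rfl
    rw [e]
    exact Lc.comp (Continuous.prodMk (continuous_fst.prodMk (continuous_snd.comp continuous_snd))
      (continuous_fst.comp continuous_snd))
  · intro x
    induction x using OnePoint.rec with
    | infty => rw [PMap.map_inf, PMap.map_inf]; rfl
    | coe x =>
      obtain ⟨z, w⟩ := x
      rw [PMap.smash_coe, PMap.id_apply]
      change L 0 w z = _
      have key : ∀ z : OnePoint (Cyl f), L 0 (w : OnePoint W) z = g (sm (Cyl.ret f z) w) := by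
        refine Cyl.cases f ?_ ?_
        · intro a t ht
          have e : ((0 : I) : ℝ) * (1 - t) = 0 := by simp
          rw [Lq 0 w a t ht, e, cl_zero, h0, PMap.comp_apply, PMap.smash_sm, PMap.id_apply,
            Cyl.ret_q]
        · intro y
          rw [Li, Cyl.ret_i]
      exact key z
  · intro z w
    change L 1 w (Cyl.iU f z) = ∞
    rw [← Cyl.top_coe, Cyl.top_apply, Lq 1 w z 0 ⟨le_rfl, zero_le_one⟩]
    have e : ((1 : I) : ℝ) * (1 - 0) = 1 := by simp
    rw [e, cl_one, h1]
    rfl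

/-- **the strict map of pairs out of the cylinder** -/
theorem exists_pair_cyl [T2Space B] [LocallyCompactSpace B] {A : Set B} (hA : IsClosed A)
    (f : PMap U V) (k : PMap (V × W) A)
    (hnull : (((PMap.ofClosed (Subtype.val : A → B) hA.isClosedEmbedding_subtypeVal).comp k).comp
      (f.smash (PMap.id W))).Null) :
    ∃ Λ : PMap ((Cyl f × W) × ℝ) (XX A),
      (∀ (z : U) (w : W) (τ : ℝ),
        Λ ((((Cyl.iU f z, w), τ) : (Cyl f × W) × ℝ) : OnePoint ((Cyl f × W) × ℝ)) = ∞ ∨
        ∃ u ∈ UU A, Λ ((((Cyl.iU f z, w), τ) : (Cyl f × W) × ℝ) :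
          OnePoint ((Cyl f × W) × ℝ)) = (u : OnePoint (XX A)))
      ∧ (collX A).comp Λ = (k.comp ((Cyl.ret f).smash (PMap.id W))).smash cR := by
  obtain ⟨H, hH, Hinf, H0, H1⟩ := exists_cyl_homotopy f
    ((PMap.ofClosed (Subtype.val : A → B) hA.isClosedEmbedding_subtypeVal).comp k) hnull
  obtain ⟨Λ, hΛ, hc⟩ := exists_pair hA (Z := range (Cyl.iU f)) (Cyl.ht f) (Cyl.continuous_ht f)
    (Cyl.ht_nonneg f) (Cyl.ht_eq_zero f) (k.comp ((Cyl.ret f).smash (PMap.id W))) H hH Hinf
    (fun x => by rw [H0]; rfl) (by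
      rintro _ ⟨z, rfl⟩ w
      exact H1 z w)
  exact ⟨Λ, fun z w τ => hΛ _ ⟨z, rfl⟩ w τ, hc⟩

end Crest.Agent.R090.F1PairCyl893
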