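import Crest.Agent.R090.F1Pow_737
import Crest.Agent.R090.F1PairCyl_893
import Crest.Agent.R090.SmIso_528
import Crest.Agent.R090.SpineDefs_796

/-!
# Row 90, F1 (source form): assembly (owner helper737)
-/

set_option autoImplicit false
set_option linter.unusedSectionVars false

open Topology Filter Set

namespace Crest.Agent.R090.F1Core737

open OnePoint Crest.Agent.R090.Sp962 Crest.Agent.R090.Lin202 Crest.Agent.R090.Young152
open Crest.Agent.R090.Pi568 Crest.Agent.R090.Dens255 Crest.Agent.R090.Block568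
open Crest.Agent.R090.Grp528 Crest.Agent.R090.St528 Crest.Agent.R090.Exc503
open Crest.Agent.R090.Sm202 Crest.Agent.R090.SmIso528

section asm

variable {u D c : ℕ} {α : Type} [Fintype α] [DecidableEq α]

variable {M V P : Type} [TopologicalSpace M] [TopologicalSpace V]
  [TopologicalSpace P] [T2Space M] [T2Space V] [T2Space P]
  [LocallyCompactSpace M] [LocallyCompactSpace V] [LocallyCompactSpace P]

/-- the action of a permutation on the factor `V^ι` -/
noncomputable def tauV (D c : ℕ) (α V : Type) [TopologicalSpace V]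
    (σ : Equiv.Perm (Idx D c)) :
    ((Idx D c → α → ℂ) × ((Idx D c → V) × (Idx D c → ℂ))) ≃ₜ
      ((Idx D c → α → ℂ) × ((Idx D c → V) × (Idx D c → ℂ))) :=
  (Homeomorph.refl _).prodCongr ((Strata973.perm σ).prodCongr (Homeomorph.refl _))

/-- the diagonal action -/
noncomputable def tauE (D c : ℕ) (α V : Type) [TopologicalSpace V]
    (σ : Equiv.Perm (Idx D c)) :
    ((Idx D c → α → ℂ) × ((Idx D c → V) × (Idx D c → ℂ))) ≃ₜ
      ((Idx D c → α → ℂ) × ((Idx D c → V) × (Idx D c → ℂ))) :=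
  (Strata973.perm σ).prodCongr ((Strata973.perm σ).prodCongr (Strata973.perm σ))

theorem perm_homotopic_id {ι : Type} [Fintype ι] (E : Type) [NormedAddCommGroup E]
    [NormedSpace ℂ E] [FiniteDimensional ℂ E] (σ : Equiv.Perm ι) :
    (PMap.ofHomeo (Strata973.perm (X := E) σ)).Homotopic (PMap.id (ι → E)) := by
  have : PMap.ofHomeo (Strata973.perm (X := E) σ) =
      PMap.ofHomeo (F1d541.precompH E σ.symm) := PMap.ext fun _ => rfl
  rw [this]
  exact F1d541.precompH_homotopic_id σ.symm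

theorem tauE_homotopic (σ : Equiv.Perm (Idx D c)) :
    (PMap.ofHomeo (tauE D c α V σ)).Homotopic (PMap.ofHomeo (tauV D c α V σ)) := by
  have h := (perm_homotopic_id (α → ℂ) σ).smash
    ((PMap.Homotopic.refl (PMap.ofHomeo (Strata973.perm (X := V) σ))).smash
      (perm_homotopic_id ℂ σ))
  have e1 : PMap.ofHomeo (tauE D c α V σ) = (PMap.ofHomeo (Strata973.perm (X := α → ℂ) σ)).smash
      ((PMap.ofHomeo (Strata973.perm (X := V) σ)).smash
        (PMap.ofHomeo (Strata973.perm (X := ℂ) σ))) := PMap.ext fun _ => rfl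
  have e2 : PMap.ofHomeo (tauV D c α V σ) = (PMap.id (Idx D c → α → ℂ)).smash
      ((PMap.ofHomeo (Strata973.perm (X := V) σ)).smash (PMap.id (Idx D c → ℂ))) :=
    PMap.ext fun _ => rfl
  rw [e1, e2]
  exact h

theorem kappa_equi {Z : Set M} [hZf : Fact (IsClosed Z)] {m : ℕ} (ret : PMap M (α → ℂ))
    (σ : Equiv.Perm (Idx D c)) :
    (PMap.ofHomeo (tauE D c α V σ)).comp
      (((pow (Idx D c) ret).comp (incl (isClosed_PP hZf.out m))).smash
        (PMap.id ((Idx D c → V) × (Idx D c → ℂ)))) =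
    (((pow (Idx D c) ret).comp (incl (isClosed_PP hZf.out m))).smash
        (PMap.id ((Idx D c → V) × (Idx D c → ℂ)))).comp
      (PMap.ofHomeo (tauH D c V Z m σ)) := by
  have e1 : PMap.ofHomeo (tauE D c α V σ) = (PMap.ofHomeo (Strata973.perm σ)).smash
      (PMap.ofHomeo ((Strata973.perm (X := V) σ).prodCongr (Strata973.perm (X := ℂ) σ))) := by
    rw [PMap.smash_ofHomeo]
    rfl
  refine PMap.ext fun x => ?_
  obtain ⟨p, v, s⟩ := x
  rw [e1, PMap.comp_apply, PMap.smash_coe, PMap.smash_sm]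
  have e2 : PMap.ofHomeo (Strata973.perm σ)
      (((pow (Idx D c) ret).comp (incl (isClosed_PP hZf.out m))) (p : OnePoint _)) =
      smPi fun i => ret ((p.1 (σ.symm i) : M) : OnePoint M) := by
    change PMap.ofHomeo (Strata973.perm σ) (smPi fun i => ret ((p.1 i : M) : OnePoint M)) = _
    rw [perm_smPi]
  rw [e2]
  rfl

/-- **the kill for a contravariant theory** -/
theorem kill_T (T : CT.{0, 0}) (Al : Alph P u) {m : ℕ} {Z : Set M} [hZf : Fact (IsClosed Z)]
    (hm : D * u < m) (ret : PMap M (α → ℂ))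
    (Λ : PMap ((M × V) × ℂ) P) (C : PMap P (((α → ℂ) × V) × ℂ))
    (hΛ : ∀ z ∈ Z, ∀ (v : V) (s : ℂ),
      Λ ((((z, v), s) : (M × V) × ℂ) : OnePoint ((M × V) × ℂ)) = ∞ ∨
        ∃ p, Al.ℓ p ≤ u ∧ Λ ((((z, v), s) : (M × V) × ℂ) : OnePoint ((M × V) × ℂ)) = (p : P))
    (hC : (C.comp Λ).Homotopic ((ret.smash (PMap.id V)).smash (PMap.id ℂ)))
    (g : T.H ((Idx D c → α → ℂ) × ((Idx D c → V) × (Idx D c → ℂ)))) :
    T.map (((pow (Idx D c) ret).comp (incl (isClosed_PP hZf.out m))).smash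
        (PMap.id ((Idx D c → V) × (Idx D c → ℂ))))
      (T.opE (fun σ => (yF D c ^ (yr D c * (u + 1) + 1)).coeff σ) (tauV D c α V) g) = 0 := by
  have h1 := power_step T Al hm ret Λ C hΛ hC g
  rw [← T.map_iterate_opE _ (tauE D c α V) (tauH D c V Z m) _ (fun σ => kappa_equi ret σ)] at h1
  have h2 : T.opE (fun σ => (yF D c).coeff σ) (tauE D c α V) =
      T.opE (fun σ => (yF D c).coeff σ) (tauV D c α V) := by
    refine AddMonoidHom.ext fun g => ?_
    rw [CT.opE_apply, CT.opE_apply]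
    refine Finset.sum_congr rfl fun σ _ => ?_
    rw [T.map_homotopic _ _ (tauE_homotopic σ)]
  rw [h2, T.opE_pow (ρ := tauV D c α V) (fun σ τ x => rfl)] at h1
  exact h1

/-- the shuffle of the auxiliary sphere -/
def thH (A B C' G : Type) [TopologicalSpace A] [TopologicalSpace B] [TopologicalSpace C']
    [TopologicalSpace G] : ((A × B) × C') × G ≃ₜ (A × (B × G)) × C' where
  toFun p := ((p.1.1.1, (p.1.1.2, p.2)), p.1.2)
  invFun q := (((q.1.1, q.1.2.1), q.2), q.1.2.2)
  left_inv _ := rfl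
  right_inv _ := rfl
  continuous_toFun := by fun_prop
  continuous_invFun := by fun_prop

theorem tens_expand {X : Type} [TopologicalSpace X] [T2Space X] [LocallyCompactSpace X]
    (κ : PMap X (Idx D c → α → ℂ)) (a : MonoidAlgebra ℤ (Equiv.Perm (Idx D c))) :
    Spine.tens (St.ofP κ) (Spine.permSt V a) = ∑ σ, a.coeff σ •
      St.ofP (((PMap.id (Idx D c → α → ℂ)).smash (PMap.ofHomeo (Strata973.perm σ))).comp
        (κ.smash (PMap.id (Idx D c → V)))) := by
  rw [Spine.tens, Spine.permSt, Sm202.prod_sum]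
  refine Finset.sum_congr rfl fun σ _ => ?_
  rw [Sm202.prod_zsmul, Sm202.prod_ofP, PMap.smash_comp, PMap.id_comp, PMap.comp_id]

theorem theta_ident {X : Type} [TopologicalSpace X] [T2Space X] [LocallyCompactSpace X]
    (κ : PMap X (Idx D c → α → ℂ)) (T : Type) [TopologicalSpace T] [T2Space T]
    [LocallyCompactSpace T] (σ : Equiv.Perm (Idx D c)) :
    (PMap.ofHomeo (thH (Idx D c → α → ℂ) (Idx D c → V) T (Idx D c → ℂ)).symm).comp
      (((((PMap.ofHomeo (tauV D c α V σ)).comp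
        (κ.smash (PMap.id ((Idx D c → V) × (Idx D c → ℂ))))).smash (PMap.id T))).comp
        (PMap.ofHomeo (thH X (Idx D c → V) T (Idx D c → ℂ)))) =
    ((((PMap.id (Idx D c → α → ℂ)).smash (PMap.ofHomeo (Strata973.perm σ))).comp
        (κ.smash (PMap.id (Idx D c → V)))).smash (PMap.id T)).smash
          (PMap.id (Idx D c → ℂ)) := by
  refine PMap.ext fun x => ?_
  obtain ⟨⟨⟨p, v⟩, t⟩, s⟩ := x
  have key : ∀ y : OnePoint (Idx D c → α → ℂ), κ (p : OnePoint X) = y →
    PMap.ofHomeo (thH (Idx D c → α → ℂ) (Idx D c → V) T (Idx D c → ℂ)).symm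
      (sm (PMap.ofHomeo (tauV D c α V σ) (sm y (((v, s) : (Idx D c → V) × (Idx D c → ℂ)) :
        OnePoint ((Idx D c → V) × (Idx D c → ℂ))))) (t : OnePoint T)) =
    sm (sm (((PMap.id (Idx D c → α → ℂ)).smash (PMap.ofHomeo (Strata973.perm σ)))
      (sm y (v : OnePoint (Idx D c → V)))) (t : OnePoint T)) (s : OnePoint (Idx D c → ℂ)) := by
    intro y _
    induction y using OnePoint.rec with
    | infty => simp only [sm_inf_left, PMap.map_inf]
    | coe y => rfl
  exact key _ rfl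

/-- the kill in `St` -/
theorem kill_St (Al : Alph P u) {m : ℕ} {Z : Set M} [hZf : Fact (IsClosed Z)]
    (hm : D * u < m) (ret : PMap M (α → ℂ))
    (Λ : PMap ((M × V) × ℂ) P) (C : PMap P (((α → ℂ) × V) × ℂ))
    (hΛ : ∀ z ∈ Z, ∀ (v : V) (s : ℂ),
      Λ ((((z, v), s) : (M × V) × ℂ) : OnePoint ((M × V) × ℂ)) = ∞ ∨
        ∃ p, Al.ℓ p ≤ u ∧ Λ ((((z, v), s) : (M × V) × ℂ) : OnePoint ((M × V) × ℂ)) = (p : P))
    (hC : (C.comp Λ).Homotopic ((ret.smash (PMap.id V)).smash (PMap.id ℂ)))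
    (T : Type) [TopologicalSpace T] [T2Space T] [LocallyCompactSpace T]
    (E : Type) [TopologicalSpace E] [T2Space E] [LocallyCompactSpace E] (hE : SphT.{0} E)
    (g : St (((Idx D c → α → ℂ) × ((Idx D c → V) × (Idx D c → ℂ))) × T) E) :
    ∑ σ, (yF D c ^ (yr D c * (u + 1) + 1)).coeff σ •
      (g.comp (St.ofP ((PMap.ofHomeo (tauV D c α V σ)).smash (PMap.id T)))).comp
        (St.ofP ((((pow (Idx D c) ret).comp (incl (isClosed_PP hZf.out m))).smash
        (PMap.id ((Idx D c → V) × (Idx D c → ℂ)))).smash (PMap.id T))) = 0 := by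
  have hk := kill_T (ctSt T E hE) Al hm ret Λ C hΛ hC g
  rw [CT.opE_apply, map_sum] at hk
  simp only [map_zsmul] at hk
  exact hk

theorem _root_.Crest.Agent.R090.Sp962.PMap.smash_comp_id {A B C' T : Type} [TopologicalSpace A]
    [TopologicalSpace B] [TopologicalSpace C'] [TopologicalSpace T] [T2Space A] [T2Space B]
    [T2Space C'] [T2Space T] [LocallyCompactSpace A] [LocallyCompactSpace B]
    [LocallyCompactSpace T] (b : PMap B C') (a : PMap A B) :
    (b.comp a).smash (PMap.id T) = (b.smash (PMap.id T)).comp (a.smash (PMap.id T)) := by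
  rw [PMap.smash_comp, PMap.comp_id]

/-- **F1 from the pair data** -/
theorem snull_of_pair (Al : Alph P u) {m : ℕ} {Z : Set M} [hZf : Fact (IsClosed Z)]
    (hm : D * u < m) (ret : PMap M (α → ℂ))
    (Λ : PMap ((M × V) × ℂ) P) (C : PMap P (((α → ℂ) × V) × ℂ))
    (hΛ : ∀ z ∈ Z, ∀ (v : V) (s : ℂ),
      Λ ((((z, v), s) : (M × V) × ℂ) : OnePoint ((M × V) × ℂ)) = ∞ ∨
        ∃ p, Al.ℓ p ≤ u ∧ Λ ((((z, v), s) : (M × V) × ℂ) : OnePoint ((M × V) × ℂ)) = (p : P))
    (hC : (C.comp Λ).Homotopic ((ret.smash (PMap.id V)).smash (PMap.id ℂ))) :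
    Spine.SNull (Spine.tens
      (St.ofP ((pow (Idx D c) ret).comp (incl (isClosed_PP (ι := Idx D c) hZf.out m))))
      (Spine.permSt V (yF D c ^ (yr D c * (u + 1) + 1)))) := by
  intro T _ _ _ j g
  set a := yF D c ^ (yr D c * (u + 1) + 1) with ha
  set κ := (pow (Idx D c) ret).comp (incl (isClosed_PP (ι := Idx D c) hZf.out m)) with hκ
  have hsus : Sus.{0} (Idx D c → ℂ) := sus_pi
  rw [tens_expand, smR_sum, St.comp_sum, ← smR_eq_zero (V := Idx D c → ℂ), smR_sum]
  have hS : SphT.{0} ((Fin j → ℝ) × (Idx D c → ℂ)) := SphT.fd _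
  have hk := kill_St Al hm ret Λ C hΛ hC T _ hS ((g.smR (Idx D c → ℂ)).comp
      (sh (thH (Idx D c → α → ℂ) (Idx D c → V) T (Idx D c → ℂ)).symm))
  rw [← ha, ← hκ] at hk
  have hk2 := congrArg (fun z : St _ _ => z.comp
    (sh (thH (PP Z (Idx D c) m) (Idx D c → V) T (Idx D c → ℂ)))) hk
  simp only [St.sum_comp, St.zsmul_comp, St.zero_comp] at hk2
  refine Eq.trans (Finset.sum_congr rfl fun σ _ => ?_) hk2
  rw [smR_zsmul, St.comp_zsmul, smR_zsmul, smR_ofP, smR_comp, smR_ofP]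
  congr 1
  rw [← theta_ident, PMap.smash_comp_id, St.ofP_comp, St.ofP_comp, St.ofP_comp]
  simp only [St.comp_assoc]
  rfl

end asm

end Crest.Agent.R090.F1Core737
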