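import Crest.Agent.R090.F1PairCyl_893
import Crest.Agent.R090.PiNat_568
import Crest.Agent.R090.Dens_255
import Crest.Agent.R090.F1d_541

/-!
# Row 90, F1: powers of the map of pairs (owner helper893)

* `exists_restrict`, `exists_restrict_pow` : restriction of `f` resp. `pow ι f` to closed subsets;
* `sh` : the shuffle `(ι → E) × (ι → (W × T) × R) ≃ₜ (ι → ((E × W) × T) × R)` and its naturality;
* `exists_pair_pow` : the `ι`-th power of the map of pairs `Λ ∧ 1_ℝ` of `F1PairCyl_893`, restricted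
  to `PP (range iU) ι m × (ι → (W × ℝ) × ℝ)`, with values in `PP (fst ⁻¹' UU A) ι m`.
-/

set_option autoImplicit false

open Topology Filter Set unitInterval

namespace Crest.Agent.R090.F1PairPow893

open OnePoint Sp962 Cyl349 F1Pair893 F1PairCyl893 Pi568 Dens255

instance instLcIoi893 : LocallyCompactSpace (Ioi (0 : ℝ)) :=
  (isOpen_Ioi (a := (0 : ℝ))).isOpenEmbedding_subtypeVal.locallyCompactSpace

/-! ## restriction to closed subsets -/

section restr

variable {X : Type*} {Y : Type*} [TopologicalSpace X] [TopologicalSpace Y]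

/-- the inclusion of a closed subset -/
abbrev inc {Z : Set X} (hZ : IsClosed Z) : PMap Z X :=
  PMap.ofClosed (Subtype.val : Z → X) hZ.isClosedEmbedding_subtypeVal

theorem exists_restrict [T2Space Y] [LocallyCompactSpace Y] (f : PMap X Y) {Z : Set X}
    (hZ : IsClosed Z) {T : Set Y} (hT : IsClosed T)
    (h : ∀ z ∈ Z, f (z : OnePoint X) = ∞ ∨ ∃ t ∈ T, f (z : OnePoint X) = (t : OnePoint Y)) :
    ∃ g : PMap Z T, (inc hT).comp g = f.comp (inc hZ) := by
  refine exists_lift (f.comp (inc hZ)) (Subtype.val : T → Y) hT.isClosedEmbedding_subtypeVal ?_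
  intro z
  rcases h z z.2 with h | ⟨t, ht, h⟩
  · exact Or.inl h
  · exact Or.inr ⟨⟨t, ht⟩, h⟩

theorem inc_injective {T : Set Y} (hT : IsClosed T) : Function.Injective (inc hT) :=
  ofClosed_injective _ _

variable {ι : Type*} [Finite ι]

/-- the power of a map of pairs preserves "at least `m` coordinates" -/
theorem pow_mem [T2Space X] [LocallyCompactSpace X] [T2Space Y] (f : PMap X Y) {Z : Set X}
    {T : Set Y}
    (h : ∀ z ∈ Z, f (z : OnePoint X) = ∞ ∨ ∃ t ∈ T, f (z : OnePoint X) = (t : OnePoint Y))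
    (m : ℕ) (x : ι → X) (hx : x ∈ PP Z ι m) :
    pow ι f (x : OnePoint (ι → X)) = ∞ ∨
      ∃ y ∈ PP T ι m, pow ι f (x : OnePoint (ι → X)) = (y : OnePoint (ι → Y)) := by
  rw [pow_coe]
  by_cases hi : ∃ i, f (x i : OnePoint X) = ∞
  · exact Or.inl (smPi_eq_inf.2 hi)
  · push Not at hi
    have : ∀ i, ∃ y : Y, f (x i : OnePoint X) = (y : OnePoint Y) := by
      intro i
      obtain ⟨y, hy⟩ := ne_infty_iff_exists.1 (hi i)
      exact ⟨y, hy.symm⟩
    choose y hy using this
    refine Or.inr ⟨y, ?_, smPi_eq_coe.2 hy⟩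
    refine le_trans hx (Set.ncard_le_ncard ?_ (Set.toFinite _))
    intro i hxi
    rcases h (x i) hxi with h' | ⟨t, ht, h'⟩
    · exact absurd h' (hi i)
    · have : y i = t := coe_injective ((hy i).symm.trans h')
      show y i ∈ T
      rw [this]
      exact ht

theorem exists_restrict_pow [T2Space X] [LocallyCompactSpace X] [T2Space Y]
    [LocallyCompactSpace Y] (f : PMap X Y) {Z : Set X} (hZ : IsClosed Z) {T : Set Y}
    (hT : IsClosed T)
    (h : ∀ z ∈ Z, f (z : OnePoint X) = ∞ ∨ ∃ t ∈ T, f (z : OnePoint X) = (t : OnePoint Y))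
    (m : ℕ) :
    ∃ g : PMap (PP Z ι m) (PP T ι m),
      (inc (isClosed_PP (ι := ι) hT m)).comp g = (pow ι f).comp (inc (isClosed_PP (ι := ι) hZ m)) :=
  exists_restrict (pow ι f) (isClosed_PP hZ m) (isClosed_PP hT m)
    (fun x hx => pow_mem f h m x hx)

end restr

/-! ## the shuffle -/

section shuffle

variable (ι : Type*) (E : Type*) (W : Type*) (T : Type*) (R : Type*)
  [TopologicalSpace E] [TopologicalSpace W] [TopologicalSpace T] [TopologicalSpace R]

/-- the shuffle homeomorphism -/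
def sh : (ι → E) × (ι → (W × T) × R) ≃ₜ (ι → ((E × W) × T) × R) where
  toFun p i := (((p.1 i, (p.2 i).1.1), (p.2 i).1.2), (p.2 i).2)
  invFun x := (fun i => (x i).1.1.1, fun i => (((x i).1.1.2, (x i).1.2), (x i).2))
  left_inv _ := rfl
  right_inv _ := rfl
  continuous_toFun := by
    refine continuous_pi fun i => ?_
    fun_prop
  continuous_invFun := by
    refine Continuous.prodMk (continuous_pi fun i => ?_) (continuous_pi fun i => ?_)
    · fun_prop
    · fun_prop

@[simp] theorem sh_apply (p : (ι → E) × (ι → (W × T) × R)) (i : ι) :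
    sh ι E W T R p i = (((p.1 i, (p.2 i).1.1), (p.2 i).1.2), (p.2 i).2) := rfl

variable {ι E W T R}

theorem sh_sm (F : ι → OnePoint E) (G : ι → OnePoint W) (H : ι → OnePoint T)
    (K : ι → OnePoint R) :
    PMap.ofHomeo (sh ι E W T R) (sm (smPi F) (smPi fun i => sm (sm (G i) (H i)) (K i))) =
      smPi fun i => sm (sm (sm (F i) (G i)) (H i)) (K i) := by
  by_cases h : ∃ i, F i = ∞ ∨ G i = ∞ ∨ H i = ∞ ∨ K i = ∞
  · obtain ⟨i, hi⟩ := h
    have h1 : (smPi fun i => sm (sm (sm (F i) (G i)) (H i)) (K i)) = ∞ := by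
      refine smPi_of_inf i ?_
      rcases hi with hi | hi | hi | hi <;> simp [hi]
    rw [h1]
    have h2 : sm (smPi F) (smPi fun i => sm (sm (G i) (H i)) (K i)) = ∞ := by
      rw [sm_eq_inf]
      rcases hi with hi | hi
      · exact Or.inl (smPi_of_inf i hi)
      · refine Or.inr (smPi_of_inf i ?_)
        rcases hi with hi | hi | hi <;> simp [hi]
    rw [h2, PMap.map_inf]
  · push Not at h
    have hF : ∀ i, ∃ a : E, F i = (a : OnePoint E) := fun i => by
      obtain ⟨a, ha⟩ := ne_infty_iff_exists.1 (h i).1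
      exact ⟨a, ha.symm⟩
    have hG : ∀ i, ∃ a : W, G i = (a : OnePoint W) := fun i => by
      obtain ⟨a, ha⟩ := ne_infty_iff_exists.1 (h i).2.1
      exact ⟨a, ha.symm⟩
    have hH : ∀ i, ∃ a : T, H i = (a : OnePoint T) := fun i => by
      obtain ⟨a, ha⟩ := ne_infty_iff_exists.1 (h i).2.2.1
      exact ⟨a, ha.symm⟩
    have hK : ∀ i, ∃ a : R, K i = (a : OnePoint R) := fun i => by
      obtain ⟨a, ha⟩ := ne_infty_iff_exists.1 (h i).2.2.2
      exact ⟨a, ha.symm⟩
    choose a ha using hF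
    choose b hb using hG
    choose c hc using hH
    choose d hd using hK
    have e1 : smPi F = ((a : ι → E) : OnePoint (ι → E)) := smPi_eq_coe.2 ha
    have e2 : (smPi fun i => sm (sm (G i) (H i)) (K i)) =
        ((fun i => ((b i, c i), d i) : ι → (W × T) × R) : OnePoint (ι → (W × T) × R)) :=
      smPi_eq_coe.2 fun i => by rw [hb, hc, hd]; rfl
    have e3 : (smPi fun i => sm (sm (sm (F i) (G i)) (H i)) (K i)) =
        ((fun i => (((a i, b i), c i), d i) : ι → ((E × W) × T) × R) :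
          OnePoint (ι → ((E × W) × T) × R)) :=
      smPi_eq_coe.2 fun i => by rw [ha, hb, hc, hd]; rfl
    rw [e1, e2, e3, sm_coe, PMap.ofHomeo_coe]
    rfl

variable {E' : Type*} {W' : Type*} {T' : Type*} {R' : Type*}
  [TopologicalSpace E'] [TopologicalSpace W'] [TopologicalSpace T'] [TopologicalSpace R']

theorem sh_natural [Finite ι]
    [T2Space E] [LocallyCompactSpace E] [T2Space W] [LocallyCompactSpace W]
    [T2Space T] [LocallyCompactSpace T] [T2Space R] [LocallyCompactSpace R]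
    [T2Space E'] [LocallyCompactSpace E'] [T2Space W'] [LocallyCompactSpace W']
    [T2Space T'] [LocallyCompactSpace T'] [T2Space R'] [LocallyCompactSpace R']
    (f : PMap E E') (g : PMap W W') (h : PMap T T') (k : PMap R R') :
    (PMap.ofHomeo (sh ι E' W' T' R')).comp
        ((pow ι f).smash (pow ι ((g.smash h).smash k))) =
      (pow ι (((f.smash g).smash h).smash k)).comp (PMap.ofHomeo (sh ι E W T R)) := by
  refine PMap.ext fun p => ?_
  obtain ⟨x, y⟩ := p
  rw [PMap.comp_apply, PMap.comp_apply, PMap.smash_coe, pow_coe, pow_coe, PMap.ofHomeo_coe,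
    pow_coe]
  exact sh_sm (fun i => f (x i)) (fun i => g (y i).1.1) (fun i => h (y i).1.2)
    (fun i => k (y i).2)

end shuffle

/-! ## the power of the map of pairs -/

section pairpow

variable {U : Type*} {V : Type*} {W : Type*} {B : Type*} [TopologicalSpace U]
  [TopologicalSpace V] [TopologicalSpace W] [TopologicalSpace B]
  [T2Space U] [LocallyCompactSpace U] [T2Space V] [LocallyCompactSpace V]
  [T2Space W] [LocallyCompactSpace W] [T2Space B] [LocallyCompactSpace B]

/-- the closed embedding `PP Z ι m × (ι → (W × ℝ) × ℝ) → (ι → ((M × W) × ℝ) × ℝ)` -/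
def jP {M : Type*} (Z : Set M) (ι : Type*) (W : Type*) (m : ℕ) :
    (PP Z ι m) × (ι → (W × ℝ) × ℝ) → (ι → ((M × W) × ℝ) × ℝ) :=
  fun p i => (((p.1.1 i, (p.2 i).1.1), (p.2 i).1.2), (p.2 i).2)

theorem isClosedEmbedding_jP {M : Type*} [TopologicalSpace M] {Z : Set M} (hZ : IsClosed Z)
    (ι : Type*) [Finite ι] (W : Type*) [TopologicalSpace W] (m : ℕ) :
    IsClosedEmbedding (jP Z ι W m) := by
  have h1 : IsClosedEmbedding (Prod.map (Subtype.val : PP Z ι m → (ι → M))
      (id : (ι → (W × ℝ) × ℝ) → (ι → (W × ℝ) × ℝ))) :=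
    ((isClosed_PP (ι := ι) hZ m).isClosedEmbedding_subtypeVal).prodMap IsClosedEmbedding.id
  exact (sh ι M W ℝ ℝ).isClosedEmbedding.comp h1

theorem jP_eq {M : Type*} [TopologicalSpace M] [T2Space M] [LocallyCompactSpace M] {Z : Set M}
    (hZ : IsClosed Z) (ι : Type*) [Finite ι] (W : Type*) [TopologicalSpace W] [T2Space W]
    [LocallyCompactSpace W] (m : ℕ) [LocallyCompactSpace (PP Z ι m)] :
    PMap.ofClosed (jP Z ι W m) (isClosedEmbedding_jP hZ ι W m) =
      (PMap.ofHomeo (sh ι M W ℝ ℝ)).comp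
        ((inc (isClosed_PP (ι := ι) hZ m)).smash (PMap.id (ι → (W × ℝ) × ℝ))) :=
  PMap.ext fun _ => rfl

/-- **the power of the map of pairs** -/
theorem exists_pair_pow {A : Set B} (hA : IsClosed A) [LocallyCompactSpace A]
    [LocallyCompactSpace (XX A)] (f : PMap U V) (k : PMap (V × W) A)
    (hnull : (((PMap.ofClosed (Subtype.val : A → B) hA.isClosedEmbedding_subtypeVal).comp k).comp
      (f.smash (PMap.id W))).Null) (ι : Type*) [Finite ι] (m : ℕ)
    (hZ : IsClosed (range (Cyl.iU f))) [LocallyCompactSpace (PP (range (Cyl.iU f)) ι m)]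
    (hQ : IsClosed (PP (Prod.fst ⁻¹' UU A : Set (XX A × ℝ)) ι m)) :
    ∃ Λ : PMap ((PP (range (Cyl.iU f)) ι m) × (ι → (W × ℝ) × ℝ))
        (PP (Prod.fst ⁻¹' UU A : Set (XX A × ℝ)) ι m),
      ((pow ι ((collX A).smash (PMap.id ℝ))).comp (inc hQ)).comp Λ =
        (pow ι ((k.smash (PMap.id (Ioi (0 : ℝ)))).smash (PMap.id ℝ))).comp
          ((PMap.ofHomeo (sh ι V W (Ioi (0 : ℝ)) ℝ)).comp
            (((pow ι (Cyl.ret f)).comp (inc (isClosed_PP (ι := ι) hZ m))).smash
              (pow ι (((PMap.id W).smash cR).smash (PMap.id ℝ))))) := by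
  obtain ⟨Λ0, hΛ0, hc⟩ := exists_pair_cyl hA f k hnull
  have hmem : ∀ z ∈ {q : ((Cyl f × W) × ℝ) × ℝ | q.1.1.1 ∈ range (Cyl.iU f)},
      (Λ0.smash (PMap.id ℝ)) (z : OnePoint (((Cyl f × W) × ℝ) × ℝ)) = ∞ ∨
        ∃ t ∈ (Prod.fst ⁻¹' UU A : Set (XX A × ℝ)),
          (Λ0.smash (PMap.id ℝ)) (z : OnePoint (((Cyl f × W) × ℝ) × ℝ)) =
            (t : OnePoint (XX A × ℝ)) := by
    rintro ⟨⟨⟨_, w⟩, τ⟩, r⟩ ⟨z, rfl⟩
    rw [PMap.smash_coe]
    rcases hΛ0 z w τ with h | ⟨u, hu, h⟩
    · left; simp [h]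
    · right
      refine ⟨(u, r), hu, ?_⟩
      rw [h]; rfl
  obtain ⟨Λ, hΛ⟩ := exists_lift
    ((pow ι (Λ0.smash (PMap.id ℝ))).comp
      (PMap.ofClosed (jP (range (Cyl.iU f)) ι W m) (isClosedEmbedding_jP hZ ι W m)))
    (Subtype.val : PP (Prod.fst ⁻¹' UU A : Set (XX A × ℝ)) ι m → (ι → XX A × ℝ))
    hQ.isClosedEmbedding_subtypeVal (by
      intro x
      have hx : jP (range (Cyl.iU f)) ι W m x ∈
          PP {q : ((Cyl f × W) × ℝ) × ℝ | q.1.1.1 ∈ range (Cyl.iU f)} ι m := x.1.2
      rcases pow_mem (Λ0.smash (PMap.id ℝ)) hmem m _ hx with h | ⟨y, hy, h⟩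
      · exact Or.inl h
      · exact Or.inr ⟨⟨y, hy⟩, h⟩)
  refine ⟨Λ, ?_⟩
  rw [PMap.comp_assoc, hΛ, ← PMap.comp_assoc, pow_comp, PMap.smash_comp, hc, jP_eq hZ]
  have e1 : ((k.comp ((Cyl.ret f).smash (PMap.id W))).smash cR).smash
      ((PMap.id ℝ).comp (PMap.id ℝ)) =
      ((k.smash (PMap.id (Ioi (0 : ℝ)))).smash (PMap.id ℝ)).comp
        ((((Cyl.ret f).smash (PMap.id W)).smash cR).smash (PMap.id ℝ)) := by
    rw [PMap.smash_comp, PMap.smash_comp]
    rfl
  rw [e1, ← pow_comp, PMap.comp_assoc, ← PMap.comp_assoc (pow ι _) (PMap.ofHomeo _), ← sh_natural,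
    PMap.comp_assoc, PMap.smash_comp]
  rfl

end pairpow

/-! ## `cR` is homotopic to a homeomorphism -/

section cR

open F1d541

/-- `(0, ∞) ≃ₜ (0, 1)` -/
noncomputable def RI' : Ioi (0 : ℝ) ≃ₜ Io where
  toFun t := ⟨2 * Real.sigmoid t - 1, by
    have h : Real.sigmoid 0 < Real.sigmoid t := Real.sigmoid_strictMono t.2
    have h0 : Real.sigmoid 0 = 1 / 2 := by simp [Real.sigmoid_def]; norm_num
    have h1 := Real.sigmoid_lt_one (t : ℝ)
    constructor <;> linarith⟩
  invFun y := ⟨-Real.log ((((y : ℝ) + 1) / 2)⁻¹ - 1), by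
    have hy := y.2
    have h1 : (1 : ℝ) < (((y : ℝ) + 1) / 2)⁻¹ := by
      rw [one_lt_inv₀ (by linarith [hy.1])]
      linarith [hy.2]
    have h2 : (((y : ℝ) + 1) / 2)⁻¹ < 2 := by
      rw [inv_lt_comm₀ (by linarith [hy.1]) (by norm_num)]
      have := hy.1
      linarith
    show 0 < -Real.log ((((y : ℝ) + 1) / 2)⁻¹ - 1)
    rw [neg_pos]
    exact Real.log_neg (by linarith) (by linarith)⟩
  left_inv t := by
    apply Subtype.ext
    simp [Real.sigmoid_def]
  right_inv y := by
    have hy := y.2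
    have h1 : (1 : ℝ) < (((y : ℝ) + 1) / 2)⁻¹ := by
      rw [one_lt_inv₀ (by linarith [hy.1])]
      linarith [hy.2]
    apply Subtype.ext
    have h2 : (0 : ℝ) < (((y : ℝ) + 1) / 2)⁻¹ - 1 := by linarith
    simp only [Real.sigmoid_def, neg_neg, Real.exp_log h2]
    simp
    ring
  continuous_toFun := by
    refine Continuous.subtype_mk ?_ _
    have := _root_.continuous_sigmoid
    fun_prop
  continuous_invFun := by
    refine Continuous.subtype_mk ?_ _
    have h1 : Continuous fun y : Io => (((y : ℝ) + 1) / 2)⁻¹ - 1 := by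
      refine Continuous.sub (Continuous.inv₀ (by fun_prop) fun y => ?_) continuous_const
      have := y.2.1
      positivity
    refine (h1.log fun y => ?_).neg
    have hy := y.2
    have h1 : (1 : ℝ) < (((y : ℝ) + 1) / 2)⁻¹ := by
      rw [one_lt_inv₀ (by linarith [hy.1])]
      linarith [hy.2]
    refine ne_of_gt ?_
    linarith

/-- the collapse in the coordinate `(0, 1)` -/
theorem collapse_homotopic (c : PMap Io Io) (hc : ∀ x : Io, c x = qI (2 * x - 1)) :
    (PMap.id Io).Homotopic c := by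
  have hcont : Continuous (fun p : I × OnePoint Io =>
      p.2.elim (∞ : OnePoint Io) (fun x : Io => qI (x + p.1 * (x - 1)))) := by
    let φ : I × I → I × OnePoint Io := fun p => (p.1, qI p.2)
    have hφ : Continuous φ := continuous_fst.prodMk (continuous_qI.comp (by fun_prop))
    have hs : Function.Surjective φ := by
      rintro ⟨k, z⟩
      obtain ⟨t, ht⟩ := qI_surjective z
      exact ⟨(k, t), Prod.ext rfl ht⟩
    refine (hφ.isClosedMap.isQuotientMap hφ hs).continuous_iff.2 ?_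
    have : ((fun p : I × OnePoint Io =>
        p.2.elim (∞ : OnePoint Io) (fun x : Io => qI (x + p.1 * (x - 1)))) ∘ φ) =
        fun p : I × I => qI ((p.2 : ℝ) + p.1 * (p.2 - 1)) := by
      funext p
      obtain ⟨s, t⟩ := p
      change (qI (t : ℝ)).elim (∞ : OnePoint Io) (fun x : Io => qI (x + s * (x - 1))) = _
      by_cases ht : (t : ℝ) ∈ Ioo (0 : ℝ) 1
      · rw [qI_of_mem ht]; rfl
      · have h : qI (t : ℝ) = ∞ := dif_neg ht
        rw [h]
        symm
        change qI ((t : ℝ) + s * (t - 1)) = ∞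
        rw [qI_eq_inf]
        have h0 := t.2.1
        have h1 := t.2.2
        have hs := s.2.1
        rcases eq_or_lt_of_le h0 with h0' | h0'
        · left
          rw [← h0']
          linarith
        · right
          have : (t : ℝ) = 1 := by
            by_contra hne
            exact ht ⟨h0', lt_of_le_of_ne h1 hne⟩
          rw [this]; simp
    rw [this]
    exact continuous_qI.comp (by fun_prop)
  refine PMap.Homotopic.of _ hcont ?_ ?_ (fun t => rfl)
  · intro x
    change qI ((x : ℝ) + ((0 : I) : ℝ) * (x - 1)) = x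
    simp
  · intro x
    change qI ((x : ℝ) + ((1 : I) : ℝ) * (x - 1)) = c x
    rw [hc]
    congr 1
    simp
    ring

theorem cR_homotopic : cR.Homotopic (PMap.ofHomeo (RI.trans RI'.symm)) := by
  set c : PMap Io Io := (PMap.ofHomeo RI').comp (cR.comp (PMap.ofHomeo RI.symm)) with hc
  have hcv : ∀ x : Io, c x = qI (2 * x - 1) := by
    intro x
    obtain ⟨y, rfl⟩ := RI.surjective x
    have h1 : c (RI y : OnePoint Io) = PMap.ofHomeo RI' (cR (y : OnePoint ℝ)) := by
      change PMap.ofHomeo RI' (cR (PMap.ofHomeo RI.symm (RI y : OnePoint Io))) = _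
      rw [PMap.ofHomeo_coe, Homeomorph.symm_apply_apply]
    rw [h1]
    have h0 : Real.sigmoid 0 = 1 / 2 := by simp [Real.sigmoid_def]; norm_num
    rcases le_or_gt y 0 with hy | hy
    · rw [cR_nonpos y hy, PMap.map_inf]
      symm
      apply qI_of_le
      have : Real.sigmoid y ≤ Real.sigmoid 0 := Real.sigmoid_monotone hy
      change 2 * Real.sigmoid y - 1 ≤ 0
      linarith
    · rw [cR_pos y hy, PMap.ofHomeo_coe]
      have h2 : (2 * ((RI y : Io) : ℝ) - 1) = ((RI' ⟨y, hy⟩ : Io) : ℝ) := rfl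
      rw [h2, qI_coe]
  have h := (collapse_homotopic c hcv).symm
  have h2 := PMap.Homotopic.comp (PMap.Homotopic.refl (PMap.ofHomeo RI'.symm))
    (PMap.Homotopic.comp h (PMap.Homotopic.refl (PMap.ofHomeo RI)))
  have e1 : (PMap.ofHomeo RI'.symm).comp (c.comp (PMap.ofHomeo RI)) = cR := by
    refine PMap.ext fun x => ?_
    change PMap.ofHomeo RI'.symm (PMap.ofHomeo RI' (cR (PMap.ofHomeo RI.symm
      (PMap.ofHomeo RI (x : OnePoint ℝ))))) = _
    rw [PMap.ofHomeo_coe, PMap.ofHomeo_coe, Homeomorph.symm_apply_apply]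
    exact congrArg (fun g : PMap (Ioi (0 : ℝ)) (Ioi (0 : ℝ)) => g (cR x))
      (PMap.ofHomeo_symm_comp RI')
  rw [e1] at h2
  refine h2.trans (PMap.Homotopic.of_eq ?_)
  exact PMap.ext fun x => rfl

end cR

end Crest.Agent.R090.F1PairPow893
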