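import Crest.Agent.R090.SpineDefs_796
import Crest.Agent.R090.F1PairPow_893
import Crest.Agent.R090.F1Q_737
import Crest.Agent.R090.CTSt_503
import Crest.Agent.R090.SmIso_528

/-!
# Row 90, F1: the assembly of `Spine.F1Stmt` (helper893, second of helper737)
-/

set_option autoImplicit false
set_option linter.unusedSectionVars false

open Topology Filter Set

namespace Crest.Agent.R090.F1Asm893

open OnePoint Crest.Agent.R090.Sp962 Crest.Agent.R090.St528 Crest.Agent.R090.Sm202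
  Crest.Agent.R090.Spine Crest.Agent.R090.F1PairPow893 Crest.Agent.R090.Pi568

/-! ## the group ring acts -/

section alg

variable {κ : Type} [Fintype κ] [DecidableEq κ]
variable (V : Type) [TopologicalSpace V] [T2Space V] [LocallyCompactSpace V]

/-- `permSt` as a homomorphism -/
noncomputable def permHom : MonoidAlgebra ℤ (Equiv.Perm κ) →+ St (κ → V) (κ → V) :=
  AddMonoidHom.mk' (fun a => permSt V a) fun a b => by
    simp only [permSt]
    rw [← Finset.sum_add_distrib]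
    refine Finset.sum_congr rfl fun σ _ => ?_
    rw [← add_smul]
    rfl

theorem permHom_apply (a : MonoidAlgebra ℤ (Equiv.Perm κ)) : permHom V a = permSt V a := rfl

theorem permSt_of (σ : Equiv.Perm κ) :
    permSt V (MonoidAlgebra.of ℤ (Equiv.Perm κ) σ) =
      St.ofP (PMap.ofHomeo (Strata973.perm (X := V) σ)) := by
  rw [permSt, Finset.sum_eq_single σ]
  · rw [MonoidAlgebra.of_apply, MonoidAlgebra.coeff_single, Finsupp.single_eq_same, one_smul]
  · intro τ _ h
    rw [MonoidAlgebra.of_apply, MonoidAlgebra.coeff_single, Finsupp.single_apply, if_neg h.symm,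
      zero_smul]
  · intro h
    exact absurd (Finset.mem_univ _) h

theorem eq_sum (a : MonoidAlgebra ℤ (Equiv.Perm κ)) :
    a = ∑ σ : Equiv.Perm κ, a.coeff σ • MonoidAlgebra.of ℤ (Equiv.Perm κ) σ := by
  refine MonoidAlgebra.coeff_injective (Finsupp.ext fun τ => ?_)
  rw [MonoidAlgebra.coeff_sum, Finsupp.finsetSum_apply, Finset.sum_eq_single τ]
  · rw [MonoidAlgebra.of_apply, MonoidAlgebra.coeff_smul_apply, MonoidAlgebra.coeff_single,
      Finsupp.single_eq_same]
    simp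
  · intro σ _ h
    rw [MonoidAlgebra.of_apply, MonoidAlgebra.coeff_smul_apply, MonoidAlgebra.coeff_single,
      Finsupp.single_apply, if_neg h]
    simp
  · intro h
    exact absurd (Finset.mem_univ _) h

theorem permSt_mul (a b : MonoidAlgebra ℤ (Equiv.Perm κ)) :
    permSt V (a * b) = (permSt V a).comp (permSt V b) := by
  have h1 : a * b = ∑ σ : Equiv.Perm κ, ∑ τ : Equiv.Perm κ,
      a.coeff σ • b.coeff τ • MonoidAlgebra.of ℤ (Equiv.Perm κ) (σ * τ) := by
    conv_lhs => rw [eq_sum a, eq_sum b]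
    rw [Finset.sum_mul]
    refine Finset.sum_congr rfl fun σ _ => ?_
    rw [Finset.mul_sum]
    refine Finset.sum_congr rfl fun τ _ => ?_
    rw [smul_mul_assoc, mul_smul_comm, map_mul]
  rw [h1, ← permHom_apply, map_sum]
  conv_rhs => rw [permSt, St.sum_comp]
  refine Finset.sum_congr rfl fun σ _ => ?_
  rw [map_sum, St.zsmul_comp, permSt, St.comp_sum, Finset.smul_sum]
  refine Finset.sum_congr rfl fun τ _ => ?_
  rw [map_zsmul, map_zsmul, permHom_apply, permSt_of, St.comp_zsmul, ← St.ofP_comp]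
  rfl

theorem permSt_one : permSt V (1 : MonoidAlgebra ℤ (Equiv.Perm κ)) = St.id (κ → V) := by
  have h := permSt_of V (1 : Equiv.Perm κ)
  rw [map_one] at h
  rw [h]
  exact St.ofP_id

end alg

/-! ## permutations of complex vector spaces -/

section perm

variable {ι : Type} [Fintype ι] [DecidableEq ι]

theorem perm_homotopic_id {E : Type} [NormedAddCommGroup E] [NormedSpace ℂ E]
    [FiniteDimensional ℂ E] (σ : Equiv.Perm ι) :
    (PMap.ofHomeo (Strata973.perm (X := E) σ)).Homotopic (PMap.id (ι → E)) :=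
  (PMap.Homotopic.of_eq (PMap.ext fun _ => rfl)).trans
    (F1d541.precompH_homotopic_id (E := E) σ.symm)

theorem perm_homotopic_id_of_homeo {E R : Type} [NormedAddCommGroup E] [NormedSpace ℂ E]
    [FiniteDimensional ℂ E] [TopologicalSpace R] [T2Space R] [LocallyCompactSpace R]
    (e : R ≃ₜ E) (σ : Equiv.Perm ι) :
    (PMap.ofHomeo (Strata973.perm (X := R) σ)).Homotopic (PMap.id (ι → R)) := by
  have : ProperSpace E := FiniteDimensional.proper ℂ E
  let e' : (ι → R) ≃ₜ (ι → E) := Homeomorph.piCongrRight fun _ => e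
  have h := PMap.Homotopic.comp_left (PMap.ofHomeo e'.symm)
    (PMap.Homotopic.comp_right (perm_homotopic_id (E := E) σ) (PMap.ofHomeo e'))
  refine PMap.Homotopic.trans (.of_eq ?_) (h.trans (.of_eq ?_))
  · refine PMap.ext fun x => ?_
    change ((Strata973.perm (X := R) σ x : ι → R) : OnePoint (ι → R)) =
      ((e'.symm (Strata973.perm (X := E) σ (e' x)) : ι → R) : OnePoint (ι → R))
    congr 1
    funext i
    change x (σ.symm i) = e.symm (e (x (σ.symm i)))
    rw [e.symm_apply_apply]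
  · rw [PMap.id_comp, PMap.ofHomeo_symm_comp]

/-- `(0, ∞) ≃ₜ ℝ` -/
noncomputable def hIoi : Ioi (0 : ℝ) ≃ₜ ℝ := RI'.trans F1d541.RI.symm

/-- `(0, ∞) × ℝ ≃ₜ ℂ` -/
noncomputable def hIoiC : Ioi (0 : ℝ) × ℝ ≃ₜ ℂ :=
  (hIoi.prodCongr (Homeomorph.refl ℝ)).trans Complex.equivRealProdCLM.toHomeomorph.symm

theorem perm_Ioi_homotopic_id (σ : Equiv.Perm ι) :
    (PMap.ofHomeo (Strata973.perm (X := Ioi (0 : ℝ) × ℝ) σ)).Homotopic
      (PMap.id (ι → Ioi (0 : ℝ) × ℝ)) :=
  perm_homotopic_id_of_homeo hIoiC σ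

end perm

/-! ## the big shuffle -/

section Psi

variable {ι : Type} {E : Type} [TopologicalSpace E]
variable {V : Type} [TopologicalSpace V]
variable {A : Type} [TopologicalSpace A]
variable (T : Type) [TopologicalSpace T]

/-- the big shuffle -/
def Psi (ι : Type) (θ : A ≃ₜ E × V) : (ι → (A × Ioi (0 : ℝ)) × ℝ) × T ≃ₜ
    (((ι → E) × (ι → V)) × T) × (ι → Ioi (0 : ℝ) × ℝ) where
  toFun p := (((fun i => (θ (p.1 i).1.1).1, fun i => (θ (p.1 i).1.1).2), p.2),
    fun i => ((p.1 i).1.2, (p.1 i).2))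
  invFun q := (fun i => ((θ.symm (q.1.1.1 i, q.1.1.2 i), (q.2 i).1), (q.2 i).2), q.1.2)
  left_inv p := by
    refine Prod.ext ?_ rfl
    funext i
    change ((θ.symm ((θ (p.1 i).1.1).1, (θ (p.1 i).1.1).2), (p.1 i).1.2), (p.1 i).2) = p.1 i
    rw [Prod.mk.eta, θ.symm_apply_apply]
  right_inv q := by
    have h : ∀ i, θ (θ.symm (q.1.1.1 i, q.1.1.2 i)) = (q.1.1.1 i, q.1.1.2 i) := fun i =>
      θ.apply_symm_apply _
    refine Prod.ext (Prod.ext (Prod.ext ?_ ?_) rfl) rfl
    · funext i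
      change (θ (θ.symm (q.1.1.1 i, q.1.1.2 i))).1 = _
      rw [h]
    · funext i
      change (θ (θ.symm (q.1.1.1 i, q.1.1.2 i))).2 = _
      rw [h]
  continuous_toFun := by fun_prop
  continuous_invFun := by fun_prop

theorem Psi_perm [Finite ι] (θ : A ≃ₜ E × V) (σ : Equiv.Perm ι) [T2Space E] [T2Space V] [T2Space A] [T2Space T]
    [LocallyCompactSpace E] [LocallyCompactSpace V] [LocallyCompactSpace A]
    [LocallyCompactSpace T] :
    (PMap.ofHomeo (Psi T ι θ)).comp ((PMap.ofHomeo (Strata973.perm σ)).smash (PMap.id T)) =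
      ((((PMap.ofHomeo (Strata973.perm (X := E) σ)).smash
        (PMap.ofHomeo (Strata973.perm (X := V) σ))).smash (PMap.id T)).smash
          (PMap.ofHomeo (Strata973.perm (X := Ioi (0 : ℝ) × ℝ) σ))).comp
      (PMap.ofHomeo (Psi T ι θ)) :=
  PMap.ext fun _ => rfl

end Psi

/-! ## the transported class -/

section Phi

variable {ι : Type} [Fintype ι] [DecidableEq ι]
variable {E : Type} [NormedAddCommGroup E] [NormedSpace ℂ E] [FiniteDimensional ℂ E]
  [LocallyCompactSpace E]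
variable {V : Type} [TopologicalSpace V] [T2Space V] [LocallyCompactSpace V]
variable {A : Type} [TopologicalSpace A] [T2Space A] [LocallyCompactSpace A]
variable {T : Type} [TopologicalSpace T] [T2Space T] [LocallyCompactSpace T]
variable {S : Type} [TopologicalSpace S] [T2Space S] [LocallyCompactSpace S]

/-- the transported class -/
noncomputable def Phi (θ : A ≃ₜ E × V) (g : St (((ι → E) × (ι → V)) × T) S) :
    St ((ι → (A × Ioi (0 : ℝ)) × ℝ) × T) (S × (ι → Ioi (0 : ℝ) × ℝ)) :=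
  (g.smR (ι → Ioi (0 : ℝ) × ℝ)).comp (St.ofP (PMap.ofHomeo (Psi T ι θ)))

/-- `Phi` as a homomorphism -/
noncomputable def PhiHom (θ : A ≃ₜ E × V) : St (((ι → E) × (ι → V)) × T) S →+
    St ((ι → (A × Ioi (0 : ℝ)) × ℝ) × T) (S × (ι → Ioi (0 : ℝ) × ℝ)) :=
  AddMonoidHom.mk' (Phi θ) fun a b => by
    rw [Phi, Phi, Phi, smR_add, St.add_comp]

theorem PhiHom_apply (θ : A ≃ₜ E × V) (g : St (((ι → E) × (ι → V)) × T) S) :
    PhiHom θ g = Phi θ g := rfl

theorem Phi_perm (θ : A ≃ₜ E × V) (σ : Equiv.Perm ι) (g : St (((ι → E) × (ι → V)) × T) S) :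
    (Phi θ g).comp (St.ofP ((PMap.ofHomeo (Strata973.perm σ)).smash (PMap.id T))) =
      Phi θ (g.comp (St.ofP (((PMap.id (ι → E)).smash
        (PMap.ofHomeo (Strata973.perm (X := V) σ))).smash (PMap.id T)))) := by
  rw [Phi, St.comp_assoc, ← St.ofP_comp, Psi_perm]
  have h : (((((PMap.ofHomeo (Strata973.perm (X := E) σ)).smash
        (PMap.ofHomeo (Strata973.perm (X := V) σ))).smash (PMap.id T)).smash
          (PMap.ofHomeo (Strata973.perm (X := Ioi (0 : ℝ) × ℝ) σ))).comp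
      (PMap.ofHomeo (Psi T ι θ))).Homotopic
      (((((PMap.id (ι → E)).smash
        (PMap.ofHomeo (Strata973.perm (X := V) σ))).smash (PMap.id T)).smash
          (PMap.id (ι → Ioi (0 : ℝ) × ℝ))).comp (PMap.ofHomeo (Psi T ι θ))) :=
    PMap.Homotopic.comp_right ((((perm_homotopic_id σ).smash (PMap.Homotopic.refl _)).smash
      (PMap.Homotopic.refl _)).smash (perm_Ioi_homotopic_id σ)) _
  rw [St.ofP_congr h, St.ofP_comp, ← smR_ofP, ← St.comp_assoc, ← smR_comp]
  rfl

/-- the operator on the classes of `(E^ι × V^ι) × T` -/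
noncomputable def opV (a : MonoidAlgebra ℤ (Equiv.Perm ι)) (g : St (((ι → E) × (ι → V)) × T) S) :
    St (((ι → E) × (ι → V)) × T) S :=
  g.comp ((tens (St.id (ι → E)) (permSt V a)).smR T)

theorem opV_eq_sum (a : MonoidAlgebra ℤ (Equiv.Perm ι))
    (g : St (((ι → E) × (ι → V)) × T) S) :
    opV a g = ∑ σ : Equiv.Perm ι, a.coeff σ • g.comp (St.ofP (((PMap.id (ι → E)).smash
        (PMap.ofHomeo (Strata973.perm (X := V) σ))).smash (PMap.id T))) := by
  rw [opV, permSt, tens, prod_sum, smR_sum, St.comp_sum]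
  refine Finset.sum_congr rfl fun σ _ => ?_
  rw [prod_zsmul, smR_zsmul, St.comp_zsmul, ← St.ofP_id, prod_ofP, smR_ofP]

theorem opV_mul (a b : MonoidAlgebra ℤ (Equiv.Perm ι)) (g : St (((ι → E) × (ι → V)) × T) S) :
    opV (a * b) g = opV b (opV a g) := by
  rw [opV, opV, opV, St.comp_assoc, ← smR_comp, tens, tens, tens, ← prod_comp, St.id_comp,
    permSt_mul]

/-- the operator of a family of homeomorphisms, on classes on `X × T` -/
noncomputable def opQ {G : Type} [Fintype G] (c : G → ℤ) {X : Type} [TopologicalSpace X]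
    [T2Space X] [LocallyCompactSpace X] (ρ : G → (X ≃ₜ X)) (g : St (X × T) S) : St (X × T) S :=
  ∑ σ : G, c σ • g.comp (St.ofP ((PMap.ofHomeo (ρ σ)).smash (PMap.id T)))

theorem opE_eq {G : Type} [Fintype G] (c : G → ℤ) {X : Type} [TopologicalSpace X]
    [T2Space X] [LocallyCompactSpace X] (ρ : G → (X ≃ₜ X)) (hS : Exc503.SphT.{0} S) :
    (fun g : St (X × T) S => ((Exc503.ctSt T S hS).opE c ρ : _ →+ _) g) = opQ c ρ :=
  funext fun g => F1Core737.CT.opE_apply (Exc503.ctSt T S hS) c ρ g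

/-- naturality of `opQ` -/
theorem opQ_nat {G : Type} [Fintype G] (c : G → ℤ) {X Y : Type} [TopologicalSpace X]
    [T2Space X] [LocallyCompactSpace X] [TopologicalSpace Y]
    [T2Space Y] [LocallyCompactSpace Y] (ρ : G → (X ≃ₜ X)) (τ : G → (Y ≃ₜ Y)) (f : PMap Y X)
    (h : ∀ σ, (PMap.ofHomeo (ρ σ)).comp f = f.comp (PMap.ofHomeo (τ σ))) (g : St (X × T) S) :
    (opQ c ρ g).comp (St.ofP (f.smash (PMap.id T))) =
      opQ c τ (g.comp (St.ofP (f.smash (PMap.id T)))) := by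
  rw [opQ, opQ, St.sum_comp]
  refine Finset.sum_congr rfl fun σ _ => ?_
  rw [St.zsmul_comp, St.comp_assoc, St.comp_assoc, ← St.ofP_comp, ← St.ofP_comp,
    PMap.smash_comp, PMap.smash_comp, h σ]

theorem opQ_nat_iterate {G : Type} [Fintype G] (c : G → ℤ) {X Y : Type} [TopologicalSpace X]
    [T2Space X] [LocallyCompactSpace X] [TopologicalSpace Y]
    [T2Space Y] [LocallyCompactSpace Y] (ρ : G → (X ≃ₜ X)) (τ : G → (Y ≃ₜ Y)) (f : PMap Y X)
    (h : ∀ σ, (PMap.ofHomeo (ρ σ)).comp f = f.comp (PMap.ofHomeo (τ σ))) (n : ℕ)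
    (g : St (X × T) S) :
    ((opQ c ρ)^[n] g).comp (St.ofP (f.smash (PMap.id T))) =
      (opQ c τ)^[n] (g.comp (St.ofP (f.smash (PMap.id T)))) := by
  induction n with
  | zero => rfl
  | succ n ih => rw [Function.iterate_succ_apply', Function.iterate_succ_apply',
      opQ_nat c ρ τ f h, ih]

theorem opQ_Phi (θ : A ≃ₜ E × V) (a : MonoidAlgebra ℤ (Equiv.Perm ι))
    (g : St (((ι → E) × (ι → V)) × T) S) :
    opQ (fun σ => a.coeff σ) (fun σ => Strata973.perm (X := (A × Ioi (0 : ℝ)) × ℝ) σ) (Phi θ g) =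
      Phi θ (opV a g) := by
  rw [opQ, opV_eq_sum, ← PhiHom_apply, ← PhiHom_apply, map_sum]
  refine Finset.sum_congr rfl fun σ _ => ?_
  rw [map_zsmul, PhiHom_apply, PhiHom_apply, ← Phi_perm]

theorem opQ_Phi_iterate (θ : A ≃ₜ E × V) (a : MonoidAlgebra ℤ (Equiv.Perm ι))
    (g : St (((ι → E) × (ι → V)) × T) S) (n : ℕ) :
    (opQ (fun σ => a.coeff σ)
      (fun σ => Strata973.perm (X := (A × Ioi (0 : ℝ)) × ℝ) σ))^[n] (Phi θ g) =
        Phi θ (opV (a ^ n) g) := by
  induction n with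
  | zero =>
    rw [pow_zero, Function.iterate_zero_apply, opV, permSt_one, tens, prod_id_id, smR_id,
      St.comp_id]
  | succ n ih =>
    rw [Function.iterate_succ_apply', ih, opQ_Phi, ← opV_mul, ← pow_succ]

end Phi

/-! ## the last chain -/

section last

variable {ι : Type} [Fintype ι] [DecidableEq ι]

theorem perm_pow {U V : Type} [TopologicalSpace U] [T2Space U] [LocallyCompactSpace U]
    [TopologicalSpace V] [T2Space V] (f : PMap U V) (σ : Equiv.Perm ι) :
    (PMap.ofHomeo (Strata973.perm (X := V) σ)).comp (pow ι f) =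
      (pow ι f).comp (PMap.ofHomeo (Strata973.perm (X := U) σ)) :=
  reixc_pow (U := U) (V := V) (σ.symm : ι ≃ ι) f

theorem perm_mem_PP {M : Type} {Z : Set M} {m : ℕ} [TopologicalSpace M] (σ : Equiv.Perm ι)
    (x : ι → M) : Strata973.perm (X := M) σ x ∈ Dens255.PP Z ι m ↔ x ∈ Dens255.PP Z ι m := by
  have h : {i | Strata973.perm (X := M) σ x i ∈ Z} = σ '' {i | x i ∈ Z} := by
    ext i
    constructor
    · intro hi
      exact ⟨σ.symm i, hi, σ.apply_symm_apply i⟩
    · rintro ⟨j, hj, rfl⟩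
      change x (σ.symm (σ j)) ∈ Z
      rw [σ.symm_apply_apply]
      exact hj
  rw [Dens255.mem_PP, Dens255.mem_PP, h, Set.ncard_image_of_injective _ σ.injective]

/-- the core of 737 in `St` words -/
theorem core_St {P : Type} [TopologicalSpace P] [T2Space P] {u D c : ℕ}
    (Al : F1Core737.Alph P u) {m : ℕ} (hm : D * u < m)
    {X : Type} [TopologicalSpace X] [T2Space X] [LocallyCompactSpace X]
    (E0 : X → (Fin (Young152.yr D c) → P)) (hE : IsEmbedding E0)
    (hr : range E0 = F1Core737.CT.QQ Al m)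
    (ρ : Equiv.Perm (Fin (Young152.yr D c)) → (X ≃ₜ X))
    (hρ : ∀ σ x i, E0 (ρ σ x) i = E0 x (σ⁻¹ i))
    {T : Type} [TopologicalSpace T] [T2Space T] [LocallyCompactSpace T]
    {S : Type} [TopologicalSpace S] [T2Space S] [LocallyCompactSpace S]
    (hS : Exc503.SphT.{0} S) (g : St (X × T) S) :
    (opQ (fun σ => (Young152.yF D c).coeff σ) ρ)^[Young152.yr D c * (u + 1) + 1] g = 0 := by
  have h := F1Core737.CT.core (T := Exc503.ctSt T S hS) Al hm E0 hE hr ρ hρ g
  have h2 := opE_eq (T := T) (fun σ => (Young152.yF D c).coeff σ) ρ hS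
  exact (congrArg (fun F : St (X × T) S → St (X × T) S =>
    F^[Young152.yr D c * (u + 1) + 1] g) h2).symm.trans h

variable {E : Type} [TopologicalSpace E] {V : Type} [TopologicalSpace V]
variable {A : Type} [TopologicalSpace A]

/-- `Ξ : E^ι × (ι → (V × ℝ) × ℝ) ≃ₜ (ι → (A × (0,∞)) × ℝ)` -/
noncomputable def Xi (ι : Type) (θ : A ≃ₜ E × V) :
    (ι → E) × (ι → (V × ℝ) × ℝ) ≃ₜ (ι → (A × Ioi (0 : ℝ)) × ℝ) :=
  (F1PairPow893.sh ι E V ℝ ℝ).trans (Homeomorph.piCongrRight fun _ =>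
    (θ.symm.prodCongr (F1d541.RI.trans RI'.symm)).prodCongr (Homeomorph.refl ℝ))

/-- `Υ` -/
noncomputable def Ups (P ι V T : Type) [TopologicalSpace P] [TopologicalSpace V]
    [TopologicalSpace T] :
    (P × (ι → (V × ℝ) × ℝ)) × T ≃ₜ ((P × (ι → V)) × T) × (ι → Ioi (0 : ℝ) × ℝ) where
  toFun p := (((p.1.1, fun i => (p.1.2 i).1.1), p.2),
    fun i => ((F1d541.RI.trans RI'.symm) (p.1.2 i).1.2, (p.1.2 i).2))
  invFun q := ((q.1.1.1, fun i => ((q.1.1.2 i, (F1d541.RI.trans RI'.symm).symm (q.2 i).1),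
    (q.2 i).2)), q.1.2)
  left_inv p := by
    refine Prod.ext (Prod.ext rfl ?_) rfl
    funext i
    refine Prod.ext (Prod.ext rfl ?_) rfl
    exact Homeomorph.symm_apply_apply _ _
  right_inv q := by
    refine Prod.ext rfl ?_
    funext i
    refine Prod.ext ?_ rfl
    exact Homeomorph.apply_symm_apply _ _
  continuous_toFun := by fun_prop
  continuous_invFun := by fun_prop

variable [T2Space E] [LocallyCompactSpace E] [T2Space V] [LocallyCompactSpace V]
  [T2Space A] [LocallyCompactSpace A]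
variable {T : Type} [TopologicalSpace T] [T2Space T] [LocallyCompactSpace T]
variable {P : Type} [TopologicalSpace P] [T2Space P] [LocallyCompactSpace P]

theorem Psi_Xi (θ : A ≃ₜ E × V) :
    (PMap.ofHomeo (Psi T ι θ)).comp ((PMap.ofHomeo (Xi ι θ)).smash (PMap.id T)) =
      PMap.ofHomeo (Ups (ι → E) ι V T) := by
  refine PMap.ext fun p => ?_
  obtain ⟨⟨e, w⟩, t⟩ := p
  refine congrArg (fun z : (((ι → E) × (ι → V)) × T) × (ι → Ioi (0 : ℝ) × ℝ) =>
    (z : OnePoint ((((ι → E) × (ι → V)) × T) × (ι → Ioi (0 : ℝ) × ℝ))))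
    (?_ : Psi T ι θ (Xi ι θ (e, w), t) = Ups (ι → E) ι V T ((e, w), t))
  have h : ∀ i, θ (θ.symm (e i, (w i).1.1)) = (e i, (w i).1.1) := fun i =>
    θ.apply_symm_apply _
  refine Prod.ext (Prod.ext (Prod.ext ?_ ?_) rfl) rfl
  · funext i
    change (θ (θ.symm (e i, (w i).1.1))).1 = _
    rw [h]
    rfl
  · funext i
    change (θ (θ.symm (e i, (w i).1.1))).2 = _
    rw [h]
    rfl

theorem Ups_nat (κ : PMap P (ι → E)) :
    (PMap.ofHomeo (Ups (ι → E) ι V T)).comp
        ((κ.smash (PMap.id (ι → (V × ℝ) × ℝ))).smash (PMap.id T)) =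
      (((κ.smash (PMap.id (ι → V))).smash (PMap.id T)).smash
        (PMap.id (ι → Ioi (0 : ℝ) × ℝ))).comp (PMap.ofHomeo (Ups P ι V T)) := by
  refine PMap.ext fun p => ?_
  obtain ⟨⟨x, w⟩, t⟩ := p
  change PMap.ofHomeo (Ups (ι → E) ι V T) (sm (sm (κ (x : OnePoint P)) (w : OnePoint _))
    (t : OnePoint T)) = sm (sm (sm (κ (x : OnePoint P)) ((fun i => (w i).1.1 : ι → V) :
      OnePoint (ι → V))) (t : OnePoint T)) ((fun i => ((F1d541.RI.trans RI'.symm) (w i).1.2,
        (w i).2) : ι → Ioi (0 : ℝ) × ℝ) : OnePoint (ι → Ioi (0 : ℝ) × ℝ))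
  generalize κ (x : OnePoint P) = q
  induction q using OnePoint.rec with
  | infty => rw [sm_inf_left, sm_inf_left, sm_inf_left, sm_inf_left, sm_inf_left, PMap.map_inf]
  | coe q => rfl

/-- replace `cR` by a homeomorphism -/
theorem pair_homotopic (θ : A ≃ₜ E × V) (κ : PMap P (ι → E)) :
    ((pow ι (((PMap.ofHomeo θ.symm).smash (PMap.id (Ioi (0 : ℝ)))).smash (PMap.id ℝ))).comp
          ((PMap.ofHomeo (F1PairPow893.sh ι E V (Ioi (0 : ℝ)) ℝ)).comp
            (κ.smash (pow ι (((PMap.id V).smash F1Pair893.cR).smash (PMap.id ℝ)))))).Homotopic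
      ((PMap.ofHomeo (Xi ι θ)).comp (κ.smash (PMap.id (ι → (V × ℝ) × ℝ)))) := by
  have h1 : (pow ι (((PMap.id V).smash F1Pair893.cR).smash (PMap.id ℝ))).Homotopic
      (pow ι (((PMap.id V).smash (PMap.ofHomeo (F1d541.RI.trans RI'.symm))).smash (PMap.id ℝ))) :=
    pow_homotopic (((PMap.Homotopic.refl _).smash cR_homotopic).smash (PMap.Homotopic.refl _))
  refine (PMap.Homotopic.comp_left _ (PMap.Homotopic.comp_left _
    ((PMap.Homotopic.refl κ).smash h1))).trans (PMap.Homotopic.of_eq ?_)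
  have h2 : κ.smash (pow ι (((PMap.id V).smash
      (PMap.ofHomeo (F1d541.RI.trans RI'.symm))).smash (PMap.id ℝ))) =
      ((PMap.id (ι → E)).smash (pow ι (((PMap.id V).smash
      (PMap.ofHomeo (F1d541.RI.trans RI'.symm))).smash (PMap.id ℝ)))).comp
        (κ.smash (PMap.id (ι → (V × ℝ) × ℝ))) := by
    rw [PMap.smash_comp, PMap.id_comp, PMap.comp_id]
  rw [h2, ← PMap.comp_assoc, ← PMap.comp_assoc]
  congr 1
  refine PMap.ext fun p => ?_
  obtain ⟨e, w⟩ := p
  change pow ι (((PMap.ofHomeo θ.symm).smash (PMap.id (Ioi (0 : ℝ)))).smash (PMap.id ℝ))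
    (PMap.ofHomeo (F1PairPow893.sh ι E V (Ioi (0 : ℝ)) ℝ)
      (sm (e : OnePoint (ι → E)) (pow ι (((PMap.id V).smash
      (PMap.ofHomeo (F1d541.RI.trans RI'.symm))).smash (PMap.id ℝ)) (w : OnePoint _)))) = _
  rw [pow_coe]
  have h3 : (smPi fun i => (((PMap.id V).smash
      (PMap.ofHomeo (F1d541.RI.trans RI'.symm))).smash (PMap.id ℝ)) (w i : OnePoint _)) =
      ((fun i => (((w i).1.1, (F1d541.RI.trans RI'.symm) (w i).1.2), (w i).2) :
        ι → (V × Ioi (0 : ℝ)) × ℝ) : OnePoint (ι → (V × Ioi (0 : ℝ)) × ℝ)) :=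
    smPi_coe _
  rw [h3, sm_coe, PMap.ofHomeo_coe, pow_coe]
  exact smPi_coe _

end last

/-! ## the final theorem -/

section final

open Crest.Agent.R090.Cyl349 Crest.Agent.R090.Block568 Crest.Agent.R090.Young152

theorem sus_SG (ι : Type) [Finite ι] : SmIso528.Sus.{0} (ι → Ioi (0 : ℝ) × ℝ) := by
  have : SmIso528.Sus.{0} (Ioi (0 : ℝ) × ℝ) := SmIso528.sus_homeo hIoiC.symm
  exact SmIso528.sus_pi

theorem sph_SG (ι : Type) [Finite ι] (j : ℕ) :
    Exc503.SphT.{0} ((Fin j → ℝ) × (ι → Ioi (0 : ℝ) × ℝ)) :=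
  (Exc503.SphT.fd ((Fin j → ℝ) × (ι → ℂ))).of_homeo
    ((Homeomorph.refl _).prodCongr (Homeomorph.piCongrRight fun _ => hIoiC.symm))

/-- **F1** -/
theorem f1 {Z : Type} [TopologicalSpace Z] [T2Space Z] [LocallyCompactSpace Z]
    {E : Type} [NormedAddCommGroup E] [NormedSpace ℂ E] [FiniteDimensional ℂ E]
    [LocallyCompactSpace E]
    {V B : Type} [TopologicalSpace V] [T2Space V] [LocallyCompactSpace V]
    [TopologicalSpace B] [T2Space B] [LocallyCompactSpace B] (A : Set B)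
    (hA : IsClosed A) [LocallyCompactSpace A] (θ : A ≃ₜ E × V) (f : PMap Z E) {c D u m : ℕ}
    (F : F1Core737.Flt A u)
    (hnull : (((incl hA).comp (PMap.ofHomeo θ.symm)).comp (f.smash (PMap.id V))).Null)
    (hm : D * u < m) :
    SNull (tens (St.ofP (kappa f (Fin (yr D c)) m))
      (permSt V (yF D c ^ (yr D c * (u + 1) + 1)))) := by
  have : LocallyCompactSpace (F1Pair893.XX A) := F1Pair893.locallyCompact_XX hA
  have hUU : IsClosed (Prod.fst ⁻¹' F1Pair893.UU A : Set (F1Pair893.XX A × ℝ)) :=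
    (F1Pair893.isClosed_UU A).preimage continuous_fst
  have hQ : IsClosed (Dens255.PP (Prod.fst ⁻¹' F1Pair893.UU A : Set (F1Pair893.XX A × ℝ))
    (Fin (yr D c)) m) := Dens255.isClosed_PP hUU m
  have : LocallyCompactSpace (Dens255.PP (Prod.fst ⁻¹' F1Pair893.UU A :
    Set (F1Pair893.XX A × ℝ)) (Fin (yr D c)) m) := hQ.isClosedEmbedding_subtypeVal.locallyCompactSpace
  obtain ⟨Λ, hΛ⟩ := exists_pair_pow hA f (PMap.ofHomeo θ.symm) hnull (Fin (yr D c)) m
    (Cyl.isClosedEmbedding_iU f).isClosed_range hQ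
  intro T _ _ _ j g
  set N := yr D c * (u + 1) + 1 with hN
  set a := yF D c with ha
  have := sus_SG (Fin (yr D c))
  -- the family of homeomorphisms of `Q`
  let ρ : Equiv.Perm (Fin (yr D c)) → (Dens255.PP (Prod.fst ⁻¹' F1Pair893.UU A :
    Set (F1Pair893.XX A × ℝ)) (Fin (yr D c)) m ≃ₜ Dens255.PP (Prod.fst ⁻¹' F1Pair893.UU A :
    Set (F1Pair893.XX A × ℝ)) (Fin (yr D c)) m) := fun σ =>
    F1Core737.CT.restr (Strata973.perm σ) _ fun x => perm_mem_PP σ x
  set f' := (pow (Fin (yr D c)) ((F1Pair893.collX A).smash (PMap.id ℝ))).comp (inc hQ) with hf'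
  have hnat : ∀ σ, (PMap.ofHomeo (Strata973.perm (X := (A × Ioi (0 : ℝ)) × ℝ) σ)).comp f' =
      f'.comp (PMap.ofHomeo (ρ σ)) := by
    intro σ
    rw [hf', ← PMap.comp_assoc, perm_pow, PMap.comp_assoc, PMap.comp_assoc]
    congr 1
    exact PMap.ext fun _ => rfl
  have h1 : (opQ (fun σ => a.coeff σ) ρ)^[N] ((Phi θ g).comp
      (St.ofP (f'.smash (PMap.id T)))) = 0 := by
    refine core_St (F1Core737.alphXX F hA) hm (fun x => x.1) IsEmbedding.subtypeVal ?_ ρ ?_
      (sph_SG _ j) _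
    · rw [Subtype.range_coe]
      ext x
      rw [Dens255.mem_PP]
      change m ≤ _ ↔ m ≤ (Finset.univ.filter fun i => (F1Core737.alphXX F hA).ℓ (x i) ≤ u).card
      have h0 : {i | x i ∈ (Prod.fst ⁻¹' F1Pair893.UU A : Set (F1Pair893.XX A × ℝ))} =
          ((Finset.univ.filter fun i => (F1Core737.alphXX F hA).ℓ (x i) ≤ u : Finset _) :
            Set (Fin (yr D c))) := by
        ext i
        rw [Finset.mem_coe, Finset.mem_filter, F1Core737.alphXX_le_iff]
        exact ⟨fun h => ⟨Finset.mem_univ _, h⟩, fun h => h.2⟩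
      rw [h0, Set.ncard_coe_finset]
    · intro σ x i
      rfl
  rw [← opQ_nat_iterate (fun σ => a.coeff σ) _ ρ f' hnat, opQ_Phi_iterate] at h1
  have h2 : (Phi θ (opV (a ^ N) g)).comp (St.ofP ((f'.comp Λ).smash (PMap.id T))) = 0 := by
    have e : (f'.comp Λ).smash (PMap.id T) =
        (f'.smash (PMap.id T)).comp (Λ.smash (PMap.id T)) := by
      rw [PMap.smash_comp, PMap.comp_id]
    rw [e, St.ofP_comp, ← St.comp_assoc, h1, St.zero_comp]
  have h3 : (f'.comp Λ).Homotopic ((PMap.ofHomeo (Xi (Fin (yr D c)) θ)).comp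
      ((kappa f (Fin (yr D c)) m).smash (PMap.id (Fin (yr D c) → (V × ℝ) × ℝ)))) := by
    rw [hf', hΛ]
    exact pair_homotopic θ (kappa f (Fin (yr D c)) m)
  rw [St.ofP_congr (h3.smash (PMap.Homotopic.refl (PMap.id T)))] at h2
  have e4 : ((PMap.ofHomeo (Xi (Fin (yr D c)) θ)).comp
      ((kappa f (Fin (yr D c)) m).smash (PMap.id (Fin (yr D c) → (V × ℝ) × ℝ)))).smash
        (PMap.id T) = ((PMap.ofHomeo (Xi (Fin (yr D c)) θ)).smash (PMap.id T)).comp
          (((kappa f (Fin (yr D c)) m).smash (PMap.id (Fin (yr D c) → (V × ℝ) × ℝ))).smash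
        (PMap.id T)) := by
    rw [PMap.smash_comp, PMap.comp_id]
  rw [e4, Phi, St.comp_assoc, ← St.ofP_comp, ← PMap.comp_assoc, Psi_Xi, Ups_nat, St.ofP_comp,
    ← smR_ofP, ← St.comp_assoc, ← smR_comp] at h2
  have h5 : ((opV (a ^ N) g).comp (St.ofP (((kappa f (Fin (yr D c)) m).smash
      (PMap.id (Fin (yr D c) → V))).smash (PMap.id T)))).smR
        (Fin (yr D c) → Ioi (0 : ℝ) × ℝ) = 0 := by
    have := congrArg (fun z => St.comp z (St.ofP (PMap.ofHomeo
      (Ups (Dens255.PP (range (Cyl.iU f)) (Fin (yr D c)) m) (Fin (yr D c)) V T).symm))) h2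
    simp only [St.zero_comp] at this
    rw [St.comp_assoc, St.ofP_homeo_comp_symm, St.comp_id] at this
    exact this
  rw [SmIso528.smR_eq_zero] at h5
  rw [← h5, opV, St.comp_assoc, ← smR_ofP, ← smR_comp]
  congr 2
  rw [← prod_ofP, tens, tens, ← prod_comp, St.id_comp, St.ofP_id, St.comp_id]

theorem f1Stmt : Spine.F1Stmt := by
  intro α _ _ Z _ _ _ f c D u m _ _ hF hm
  obtain ⟨V, B, _, _, _, _, _, _, A, hA, θ, hV, ⟨F⟩, hnull⟩ := hF
  refine ⟨V, inferInstance, inferInstance, inferInstance, hV, yr D c * (u + 1), ?_⟩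
  exact f1 A hA.out θ f ⟨F.lev, F.le, F.closed, F.zero, F.cell⟩ hnull hm

end final

end Crest.Agent.R090.F1Asm893
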