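import Crest.Agent.R090.F1d_541

/-!
# Row 90, F1d with a real coordinate instead of `Io` (owner helper541, for 737's `CT`)

* `negBy h` : the reflection `t ↦ -t` conjugated by `h : S ≃ₜ W × ℝ`;
* `homotopic_negBy` : a homeomorphism which swaps two equal odd letters is homotopic to `negBy`;
* `exists_neg` : the same for the strata of words;
* `flipBy_RI` : comparison with `flipBy`.
-/

set_option autoImplicit false
set_option linter.unusedSectionVars false

open Topology Filter Set

namespace Crest.Agent.R090.F1d541

open OnePoint Crest.Agent.R090.Sp962 Crest.Agent.R090.Lin202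
open scoped unitInterval

universe u v w

section letter

variable {O : Type u} [TopologicalSpace O] [T2Space O] [LocallyCompactSpace O]
  {S' : Type w} [TopologicalSpace S'] [T2Space S'] [LocallyCompactSpace S']
  {E : Type v} [NormedAddCommGroup E] [NormedSpace ℂ E] [FiniteDimensional ℂ E]

/-- the last real coordinate of the second letter -/
def negK (e : O ≃ₜ E × ℝ) : (O × O) × S' ≃ₜ ((O × E) × S') × ℝ where
  toFun p := (((p.1.1, (e p.1.2).1), p.2), (e p.1.2).2)
  invFun q := ((q.1.1.1, e.symm (q.1.1.2, q.2)), q.1.2)
  left_inv p := by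
    obtain ⟨⟨a, b⟩, s⟩ := p
    simp
  right_inv q := by
    obtain ⟨⟨⟨a, b⟩, s⟩, t⟩ := q
    simp
  continuous_toFun := by
    have := e.continuous
    fun_prop
  continuous_invFun := by
    have := e.symm.continuous
    fun_prop

/-- the reflection conjugated by a homeomorphism with `W × ℝ` -/
def negBy {S : Type*} {W : Type*} [TopologicalSpace S] [TopologicalSpace W] (h : S ≃ₜ W × ℝ) :
    S ≃ₜ S :=
  (h.trans ((Homeomorph.refl W).prodCongr (Homeomorph.neg ℝ))).trans h.symm

theorem negBy_apply {S : Type*} {W : Type*} [TopologicalSpace S] [TopologicalSpace W]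
    (h : S ≃ₜ W × ℝ) (x : S) : negBy h x = h.symm ((h x).1, -(h x).2) := rfl

/-- the reflection is a flip of the corresponding suspension coordinate -/
theorem flipBy_RI {S : Type*} {W : Type*} [TopologicalSpace S] [TopologicalSpace W]
    (h : S ≃ₜ W × ℝ) : flipBy (h.trans ((Homeomorph.refl W).prodCongr RI)) = negBy h := by
  refine Homeomorph.ext fun x => ?_
  change h.symm ((h x).1, RI.symm (MC.flipIo (RI (h x).2))) = h.symm ((h x).1, -(h x).2)
  rw [← RI_neg, Homeomorph.symm_apply_apply]

/-- **a homeomorphism which swaps two equal odd letters is a reflection** -/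
theorem homotopic_negBy {S : Type*} [TopologicalSpace S] (e : O ≃ₜ E × ℝ)
    (k : S ≃ₜ (O × O) × S') (τ : S ≃ₜ S)
    (hτ : ∀ x, k (τ x) = (((k x).1.2, (k x).1.1), (k x).2)) :
    (PMap.ofHomeo τ).Homotopic (PMap.ofHomeo (negBy (k.trans (negK e)))) := by
  have h := homotopic_flipBy e k τ hτ
  have h2 : flipBy (k.trans (flipK e)) = negBy (k.trans (negK e)) := by
    rw [← flipBy_RI]
    rfl
  rwa [h2] at h

end letter

section stratum

variable {κ : Type w} {X : Type u} [TopologicalSpace X] [DecidableEq κ]
variable {E : Type v} [NormedAddCommGroup E] [NormedSpace ℂ E] [FiniteDimensional ℂ E]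

/-- **the swap of two equal odd letters of a stratum is a reflection of a real coordinate** -/
theorem exists_neg [Finite κ] [T2Space X] (P : κ → Set X) [∀ i, LocallyCompactSpace (P i)]
    (a b : κ) (hab : a ≠ b) (hP : P a = P b) (e : P a ≃ₜ E × ℝ) :
    ∃ (W : Type (max u v w)) (_ : TopologicalSpace W) (_ : T2Space W)
      (_ : LocallyCompactSpace W) (h : Str P ≃ₜ W × ℝ),
      (PMap.ofHomeo (swapStr P a b hP)).Homotopic (PMap.ofHomeo (negBy h)) := by
  have : ProperSpace E := FiniteDimensional.proper ℂ E
  have : LocallyCompactSpace (Rest P a b) := locallyCompact_str _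
  exact ⟨(P a × E) × Rest P a b, inferInstance, inferInstance, inferInstance,
    (splitStr P a b hab hP).trans (negK e),
    homotopic_negBy e (splitStr P a b hab hP) (swapStr P a b hP)
      (splitStr_swapStr P a b hab hP)⟩

end stratum

end Crest.Agent.R090.F1d541
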