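import Crest.Agent.R090.F1Q_737
import Crest.Agent.R090.F1dR_541
import Crest.Agent.R090.F1dSt_541
import Crest.Agent.R090.ExcSt_503

/-!
# Row 90, F1 (source form): the theory `X ↦ St (X × T) E` (owner helper737)
-/

set_option autoImplicit false
set_option linter.unusedSectionVars false

open Topology Filter Set

namespace Crest.Agent.R090.F1Core737

open OnePoint Crest.Agent.R090.Sp962 Crest.Agent.R090.Lin202
open Crest.Agent.R090.Grp528 Crest.Agent.R090.St528 Crest.Agent.R090.Exc503

/-- `St (X × T) E` as a contravariant theory, `E` a sphere -/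
noncomputable def ctSt (T : Type) [TopologicalSpace T] [T2Space T] [LocallyCompactSpace T]
    (E : Type) [TopologicalSpace E] [T2Space E] [LocallyCompactSpace E] (hE : SphT.{0} E) :
    CT.{0, 0} where
  H X _ _ _ := St (X × T) E
  grp X _ _ _ := inferInstance
  map a := St.homComp (St.ofP (a.smash (PMap.id T)))
  map_id g := by
    change g.comp _ = g
    rw [PMap.smash_id, St.ofP_id, St.comp_id]
  map_comp b a g := by
    change g.comp _ = (g.comp _).comp _
    rw [St.comp_assoc, ← St.ofP_comp, PMap.smash_comp, PMap.comp_id]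
  map_homotopic a b h g := by
    change g.comp _ = g.comp _
    rw [St.ofP_congr (h.smash (PMap.Homotopic.refl (PMap.id T)))]
  map0 g := by
    change g.comp _ = 0
    rw [PMap.smash_zero_left, St.ofP_zero, St.comp_zero]
  exact := by
    intro F X O _ _ _ _ _ _ _ _ _ i hi e he h g hg
    have hOC : OC i e := ⟨hi, he, h⟩
    have h1 : g.comp (St.ofP ((hOC.prodRight T).incl)) = 0 := by
      rw [hOC.prodRight_incl]
      exact hg
    obtain ⟨z, hz⟩ := OC.st_exists_coll hE (hOC.prodRight T) g h1
    refine ⟨z, ?_⟩
    rw [hOC.prodRight_coll] at hz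
    exact hz.symm
  neg := by
    intro X _ _ _ g
    let h : (X × ℝ) × T ≃ₜ (X × T) × ℝ :=
      { toFun := fun p => ((p.1.1, p.2), p.1.2)
        invFun := fun p => ((p.1.1, p.2), p.1.2)
        left_inv := fun _ => rfl
        right_inv := fun _ => rfl
        continuous_toFun := by fun_prop
        continuous_invFun := by fun_prop }
    have e1 : ((PMap.id X).smash (PMap.ofHomeo (Homeomorph.neg ℝ))).smash (PMap.id T) =
        PMap.ofHomeo (F1d541.negBy h) := PMap.ext fun x => rfl
    change g.comp _ = -g
    rw [e1, ← F1d541.flipBy_RI, F1d541.ofP_flipBy, St.comp_neg, St.comp_id]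

theorem ctSt_map {T : Type} [TopologicalSpace T] [T2Space T] [LocallyCompactSpace T]
    {E : Type} [TopologicalSpace E] [T2Space E] [LocallyCompactSpace E] (hE : SphT.{0} E)
    {X X' : Type} [TopologicalSpace X] [T2Space X] [LocallyCompactSpace X]
    [TopologicalSpace X'] [T2Space X'] [LocallyCompactSpace X'] (a : PMap X X')
    (g : St (X' × T) E) :
    (ctSt T E hE).map a g = g.comp (St.ofP (a.smash (PMap.id T))) := rfl

end Crest.Agent.R090.F1Core737
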