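import Crest.Agent.R090.F1Core_737
import Crest.Agent.R090.Cone_962

/-!
# Row 90, F1 (source form): odd letters and contractible letters (owner helper737)
-/

set_option autoImplicit false
set_option linter.unusedSectionVars false

open Topology Filter Set

namespace Crest.Agent.R090.F1Core737

open OnePoint Crest.Agent.R090.Sp962 Crest.Agent.R090.Lin202

universe v w

/-! ### the swap of two real lines -/

/-- `(a, b) ↦ (a, -b)` -/
def refl2 : (ℝ × ℝ) ≃ₜ (ℝ × ℝ) := (Homeomorph.refl ℝ).prodCongr (Homeomorph.neg ℝ)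

/-- the rotating reflection -/
noncomputable def rotL (s : ℝ) : (ℝ × ℝ) →ₗ[ℝ] (ℝ × ℝ) where
  toFun p := (Real.cos s * p.1 + Real.sin s * p.2, Real.sin s * p.1 - Real.cos s * p.2)
  map_add' p q := by
    ext <;> simp <;> ring
  map_smul' r p := by
    ext <;> simp <;> ring

theorem rotL_apply (s : ℝ) (p : ℝ × ℝ) :
    rotL s p = (Real.cos s * p.1 + Real.sin s * p.2, Real.sin s * p.1 - Real.cos s * p.2) := rfl

theorem rotL_rotL (s : ℝ) (p : ℝ × ℝ) : rotL s (rotL s p) = p := by
  obtain ⟨a, b⟩ := p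
  have h := Real.sin_sq_add_cos_sq s
  simp only [rotL_apply]
  ext
  · linear_combination a * h
  · linear_combination b * h

theorem homotopic_swapR :
    (PMap.ofHomeo (Homeomorph.prodComm ℝ ℝ)).Homotopic (PMap.ofHomeo refl2) := by
  refine homotopic_of_linear_family (fun t => rotL ((1 - (t : ℝ)) * (Real.pi / 2))) ?_ ?_ ?_ ?_
  · simp only [rotL_apply]
    fun_prop
  · intro t
    exact (Function.LeftInverse.injective (rotL_rotL _))
  · intro p
    obtain ⟨a, b⟩ := p
    simp [rotL_apply]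
  · intro p
    obtain ⟨a, b⟩ := p
    simp [rotL_apply, refl2]

namespace CT

variable (T : CT.{v, w})

section odd

variable {R : Type v} [TopologicalSpace R] [T2Space R] [LocallyCompactSpace R]

/-- the swap of two odd spheres is `-1` -/
theorem swap_odd (m : ℕ) (g : T.H (R × (((Fin m → ℂ) × ℝ) × ((Fin m → ℂ) × ℝ)))) :
    T.map (PMap.ofHomeo ((Homeomorph.refl R).prodCongr
      (Homeomorph.prodComm ((Fin m → ℂ) × ℝ) ((Fin m → ℂ) × ℝ)))) g = -g := by
  -- first shuffle
  let Ψ : (R × (((Fin m → ℂ) × (Fin m → ℂ)) × (ℝ × ℝ))) ≃ₜ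
      (R × (((Fin m → ℂ) × ℝ) × ((Fin m → ℂ) × ℝ))) :=
    (Homeomorph.refl R).prodCongr (Homeomorph.prodProdProdComm _ _ _ _)
  let Θ : ((R × (((Fin m → ℂ) × (Fin m → ℂ)) × ℝ)) × ℝ) ≃ₜ
      (R × (((Fin m → ℂ) × (Fin m → ℂ)) × (ℝ × ℝ))) :=
    (Homeomorph.prodAssoc R (((Fin m → ℂ) × (Fin m → ℂ)) × ℝ) ℝ).trans
      ((Homeomorph.refl R).prodCongr (Homeomorph.prodAssoc _ _ _))
  apply T.map_homeo_injective Ψ
  rw [← T.map_comp]
  have e1 : (PMap.ofHomeo ((Homeomorph.refl R).prodCongr
      (Homeomorph.prodComm ((Fin m → ℂ) × ℝ) ((Fin m → ℂ) × ℝ)))).comp (PMap.ofHomeo Ψ) =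
      (PMap.ofHomeo Ψ).comp ((PMap.id R).smash
        ((PMap.ofHomeo (Homeomorph.prodComm (Fin m → ℂ) (Fin m → ℂ))).smash
          (PMap.ofHomeo (Homeomorph.prodComm ℝ ℝ)))) :=
    PMap.ext fun x => rfl
  rw [e1, T.map_comp]
  have h2 : ((PMap.id R).smash
        ((PMap.ofHomeo (Homeomorph.prodComm (Fin m → ℂ) (Fin m → ℂ))).smash
          (PMap.ofHomeo (Homeomorph.prodComm ℝ ℝ)))).Homotopic ((PMap.id R).smash
        ((PMap.id ((Fin m → ℂ) × (Fin m → ℂ))).smash (PMap.ofHomeo refl2))) :=
    (PMap.Homotopic.refl _).smash ((homotopic_swap' (Fin m → ℂ)).smash homotopic_swapR)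
  rw [T.map_homotopic _ _ h2, map_neg]
  apply T.map_homeo_injective Θ
  rw [← T.map_comp]
  have e3 : ((PMap.id R).smash
        ((PMap.id ((Fin m → ℂ) × (Fin m → ℂ))).smash (PMap.ofHomeo refl2))).comp
        (PMap.ofHomeo Θ) = (PMap.ofHomeo Θ).comp
          ((PMap.id (R × (((Fin m → ℂ) × (Fin m → ℂ)) × ℝ))).smash
            (PMap.ofHomeo (Homeomorph.neg ℝ))) :=
    PMap.ext fun x => rfl
  rw [e3, T.map_comp, T.neg, map_neg]

end odd

/-! ### the half line is contractible -/

instance lcIci : LocallyCompactSpace (Ici (0 : ℝ)) := isClosed_Ici.locallyCompactSpace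

/-- null homotopy of the identity of the cone coordinate -/
theorem null_Ic : (PMap.id Ic).Null := by
  classical
  let F : unitInterval × OnePoint Ic → OnePoint Ic := fun p =>
    p.2.elim ∞ fun x => qC ((1 - (p.1 : ℝ)) * x)
  have hF : Continuous F := by
    have hc : Continuous (fun p : unitInterval × unitInterval =>
        ((p.1, qC p.2) : unitInterval × OnePoint Ic)) := by fun_prop
    have hs : Function.Surjective (fun p : unitInterval × unitInterval =>
        ((p.1, qC p.2) : unitInterval × OnePoint Ic)) := by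
      rintro ⟨t, x⟩
      obtain ⟨s, hs⟩ := qC_surjective x
      exact ⟨(t, s), by simp [hs]⟩
    refine (hc.isClosedMap.isQuotientMap hc hs).continuous_iff.2 ?_
    have : F ∘ (fun p : unitInterval × unitInterval =>
        ((p.1, qC p.2) : unitInterval × OnePoint Ic)) =
        fun p => qC ((1 - (p.1 : ℝ)) * p.2) := by
      funext p
      obtain ⟨t, s⟩ := p
      rcases eq_or_lt_of_le s.2.1 with h | h
      · have hs : (s : ℝ) = 0 := h.symm
        simp [F, hs]
      · have hs : qC (s : ℝ) = ((⟨(s : ℝ), h, s.2.2⟩ : Ic) : OnePoint Ic) :=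
          qC_of_mem ⟨h, s.2.2⟩
        change (qC (s : ℝ)).elim ∞ (fun x : Ic => qC ((1 - (t : ℝ)) * x)) = _
        rw [hs]
        rfl
    rw [this]
    fun_prop
  refine PMap.Homotopic.of F hF ?_ ?_ ?_
  · intro x
    change qC ((1 - ((0 : unitInterval) : ℝ)) * x) = x
    simp
  · intro x
    change qC ((1 - ((1 : unitInterval) : ℝ)) * x) = ∞
    simp
  · intro t
    rfl

/-- the half line as a cone coordinate -/
noncomputable def iciIc : Ici (0 : ℝ) ≃ₜ Ic where
  toFun x := ⟨(1 + (x : ℝ))⁻¹, by have := x.2; rw [mem_Ici] at this; positivity, by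
    have := x.2
    rw [mem_Ici] at this
    exact inv_le_one_of_one_le₀ (by linarith)⟩
  invFun y := ⟨(y : ℝ)⁻¹ - 1, by
    have h1 := y.2.1
    have h2 := y.2.2
    rw [mem_Ici, sub_nonneg]
    exact (one_le_inv₀ h1).2 h2⟩
  left_inv x := by
    apply Subtype.ext
    simp
  right_inv y := by
    apply Subtype.ext
    simp
  continuous_toFun := by
    refine Continuous.subtype_mk ?_ _
    refine Continuous.inv₀ (by fun_prop) fun x => ?_
    have := x.2
    rw [mem_Ici] at this
    positivity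
  continuous_invFun := by
    refine Continuous.subtype_mk ?_ _
    refine Continuous.sub ?_ continuous_const
    exact Continuous.inv₀ continuous_subtype_val fun y => y.2.1.ne'

theorem null_Ici : (PMap.id (Ici (0 : ℝ))).Null := by
  have h := (null_Ic.comp_right (PMap.ofHomeo iciIc)).comp_left (PMap.ofHomeo iciIc.symm)
  have e : (PMap.ofHomeo iciIc.symm).comp ((PMap.id Ic).comp (PMap.ofHomeo iciIc)) =
      PMap.id (Ici (0 : ℝ)) := by
    rw [PMap.id_comp, PMap.ofHomeo_symm_comp]
  rwa [e] at h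

section contr

variable {C : Type v} [TopologicalSpace C] [T2Space C] [LocallyCompactSpace C]

theorem null_prod_Ici : (PMap.id (C × Ici (0 : ℝ))).Null := by
  rw [← PMap.smash_id]
  exact PMap.Null.smash_right _ null_Ici

theorem eq_zero_of_contr (g : T.H (C × Ici (0 : ℝ))) : g = 0 :=
  T.eq_zero_of_null null_prod_Ici g

end contr

/-! ### words -/

section words

variable {ι : Type} [Fintype ι] [DecidableEq ι]
variable {P : Type v} [TopologicalSpace P] [T2Space P]
variable (ℓ : P → ℕ) (w : ι → ℕ)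
variable {Y : Type v} [TopologicalSpace Y] [T2Space Y] [LocallyCompactSpace Y]

/-- the remaining coordinates -/
abbrev Rest2 (x y : ι) : Type v :=
  {z : {i : ι // i ≠ x ∧ i ≠ y} → P // ∀ i, ℓ (z i) = w i.1}

/-- the remaining coordinates -/
abbrev Rest1 (x : ι) : Type v :=
  {z : {i : ι // i ≠ x} → P // ∀ i, ℓ (z i) = w i.1}

/-- splitting off two coordinates -/
def split2 {x y : ι} (hxy : x ≠ y) (hw : w x = w y) :
    (Rest2 ℓ w x y × ({p : P // ℓ p = w x} × {p : P // ℓ p = w x})) ≃ₜ
      {f : ι → P // ∀ i, ℓ (f i) = w i} where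
  toFun q := ⟨fun i => if hx : i = x then q.2.1.1 else if hy : i = y then q.2.2.1 else
    q.1.1 ⟨i, hx, hy⟩, by
      intro i
      dsimp only
      split_ifs with hx hy
      · rw [hx]; exact q.2.1.2
      · rw [hy, ← hw]; exact q.2.2.2
      · exact q.1.2 ⟨i, hx, hy⟩⟩
  invFun f := (⟨fun i => f.1 i.1, fun i => f.2 i.1⟩, (⟨f.1 x, f.2 x⟩, ⟨f.1 y, (f.2 y).trans hw.symm⟩))
  left_inv q := by
    obtain ⟨z, a, b⟩ := q
    refine Prod.ext (Subtype.ext (funext fun i => ?_)) (Prod.ext (Subtype.ext ?_) (Subtype.ext ?_))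
    · simp [i.2.1, i.2.2]
    · simp
    · simp [hxy.symm]
  right_inv f := by
    refine Subtype.ext (funext fun i => ?_)
    dsimp only
    split_ifs with hx hy
    · rw [hx]
    · rw [hy]
    · rfl
  continuous_toFun := by
    refine Continuous.subtype_mk (continuous_pi fun i => ?_) _
    by_cases hx : i = x
    · simp only [hx, dite_true]
      fun_prop
    · by_cases hy : i = y
      · subst hy
        simp only [hx, dite_true, dite_false]
        fun_prop
      · simp only [hx, hy, dite_false]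
        exact (continuous_apply _).comp (continuous_subtype_val.comp continuous_fst)
  continuous_invFun := by
    refine Continuous.prodMk (Continuous.subtype_mk (continuous_pi fun i => ?_) _)
      (Continuous.prodMk (Continuous.subtype_mk ?_ _) (Continuous.subtype_mk ?_ _))
    · exact (continuous_apply _).comp continuous_subtype_val
    · exact (continuous_apply _).comp continuous_subtype_val
    · exact (continuous_apply _).comp continuous_subtype_val

theorem split2_apply {x y : ι} (hxy : x ≠ y) (hw : w x = w y)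
    (q : Rest2 ℓ w x y × ({p : P // ℓ p = w x} × {p : P // ℓ p = w x})) (i : ι) :
    (split2 ℓ w hxy hw q).1 i = if hx : i = x then q.2.1.1 else if hy : i = y then q.2.2.1 else
    q.1.1 ⟨i, hx, hy⟩ := rfl

/-- splitting off one coordinate -/
def split1 (x : ι) :
    (Rest1 ℓ w x × {p : P // ℓ p = w x}) ≃ₜ {f : ι → P // ∀ i, ℓ (f i) = w i} where
  toFun q := ⟨fun i => if hx : i = x then q.2.1 else q.1.1 ⟨i, hx⟩, by
      intro i
      dsimp only
      split_ifs with hx
      · rw [hx]; exact q.2.2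
      · exact q.1.2 ⟨i, hx⟩⟩
  invFun f := (⟨fun i => f.1 i.1, fun i => f.2 i.1⟩, ⟨f.1 x, f.2 x⟩)
  left_inv q := by
    obtain ⟨z, a⟩ := q
    refine Prod.ext (Subtype.ext (funext fun i => ?_)) (Subtype.ext ?_)
    · simp [i.2]
    · simp
  right_inv f := by
    refine Subtype.ext (funext fun i => ?_)
    dsimp only
    split_ifs with hx
    · rw [hx]
    · rfl
  continuous_toFun := by
    refine Continuous.subtype_mk (continuous_pi fun i => ?_) _
    by_cases hx : i = x
    · simp only [hx, dite_true]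
      fun_prop
    · simp only [hx, dite_false]
      exact (continuous_apply _).comp (continuous_subtype_val.comp continuous_fst)
  continuous_invFun := by
    refine Continuous.prodMk (Continuous.subtype_mk (continuous_pi fun i => ?_) _)
      (Continuous.subtype_mk ?_ _)
    · exact (continuous_apply _).comp continuous_subtype_val
    · exact (continuous_apply _).comp continuous_subtype_val

/-- a factor with a point of a locally compact product is locally compact -/
theorem lc_of_prod {A : Type*} {B : Type*} [TopologicalSpace A] [TopologicalSpace B] [T1Space B]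
    [LocallyCompactSpace (A × B)] (b : B) : LocallyCompactSpace A := by
  have : IsClosedEmbedding (fun a : A => (a, b)) := by
    refine IsClosedEmbedding.of_continuous_injective_isClosedMap (by fun_prop)
      (fun a a' h => (Prod.ext_iff.1 h).1) ?_
    intro s hs
    have : (fun a : A => (a, b)) '' s = s ×ˢ {b} := by
      ext ⟨a, b'⟩
      simp only [mem_image, Prod.mk.injEq, mem_prod, mem_singleton_iff]
      constructor
      · rintro ⟨a', h1, rfl, rfl⟩
        exact ⟨h1, rfl⟩
      · rintro ⟨h1, rfl⟩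
        exact ⟨a, h1, rfl, rfl⟩
    rw [this]
    exact hs.prod isClosed_singleton
  exact this.locallyCompactSpace

/-- the homeomorphism onto a word stratum -/
noncomputable def wordHomeo (ε : Y → (ι → P)) (hε : IsEmbedding ε)
    (hr : range ε = {f | ∀ i, ℓ (f i) = w i}) : Y ≃ₜ {f : ι → P // ∀ i, ℓ (f i) = w i} :=
  hε.toHomeomorph.trans (Homeomorph.setCongr hr)

theorem wordHomeo_coe (ε : Y → (ι → P)) (hε : IsEmbedding ε)
    (hr : range ε = {f | ∀ i, ℓ (f i) = w i}) (y : Y) : (wordHomeo ℓ w ε hε hr y).1 = ε y := rfl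

theorem apply_wordHomeo_symm (ε : Y → (ι → P)) (hε : IsEmbedding ε)
    (hr : range ε = {f | ∀ i, ℓ (f i) = w i}) (q : {f : ι → P // ∀ i, ℓ (f i) = w i}) :
    ε ((wordHomeo ℓ w ε hε hr).symm q) = q.1 := by
  rw [← wordHomeo_coe ℓ w ε hε hr, Homeomorph.apply_symm_apply]

/-- two equal odd letters: the swap is `-1` -/
theorem swap_neg {x y : ι} (hxy : x ≠ y) (hw : w x = w y) {m : ℕ}
    (a : {p : P // ℓ p = w x} ≃ₜ (Fin m → ℂ) × ℝ)
    (ε : Y → (ι → P)) (hε : IsEmbedding ε) (hr : range ε = {f | ∀ i, ℓ (f i) = w i})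
    (s : Y ≃ₜ Y) (hs : ∀ z i, ε (s z) i = ε z (Equiv.swap x y i)) (g : T.H Y) :
    T.map (PMap.ofHomeo s) g = -g := by
  let Ψ : (Rest2 ℓ w x y × (((Fin m → ℂ) × ℝ) × ((Fin m → ℂ) × ℝ))) ≃ₜ Y :=
    ((Homeomorph.refl (Rest2 ℓ w x y)).prodCongr (a.symm.prodCongr a.symm)).trans
      ((split2 ℓ w hxy hw).trans (wordHomeo ℓ w ε hε hr).symm)
  have hΨ : ∀ q, ε (Ψ q) = (split2 ℓ w hxy hw (q.1, (a.symm q.2.1, a.symm q.2.2))).1 :=
    fun q => apply_wordHomeo_symm ℓ w ε hε hr _
  have : LocallyCompactSpace (Rest2 ℓ w x y × (((Fin m → ℂ) × ℝ) × ((Fin m → ℂ) × ℝ))) :=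
    Ψ.isClosedEmbedding.locallyCompactSpace
  have hR : LocallyCompactSpace (Rest2 ℓ w x y) :=
    lc_of_prod (B := ((Fin m → ℂ) × ℝ) × ((Fin m → ℂ) × ℝ)) 0
  apply T.map_homeo_injective Ψ
  rw [← T.map_comp]
  have e : (PMap.ofHomeo s).comp (PMap.ofHomeo Ψ) = (PMap.ofHomeo Ψ).comp
      (PMap.ofHomeo ((Homeomorph.refl (Rest2 ℓ w x y)).prodCongr
        (Homeomorph.prodComm ((Fin m → ℂ) × ℝ) ((Fin m → ℂ) × ℝ)))) := by
    refine PMap.ext fun q => ?_
    have : s (Ψ q) = Ψ (q.1, (q.2.2, q.2.1)) := by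
      apply hε.injective
      funext i
      rw [hs, hΨ, hΨ]
      obtain ⟨z, u, v⟩ := q
      simp only [split2_apply]
      by_cases hx : i = x
      · subst hx
        simp [hxy.symm]
      · by_cases hy : i = y
        · subst hy
          simp [hxy.symm]
        · rw [Equiv.swap_apply_of_ne_of_ne hx hy]
          simp [hx, hy]
    change ((s (Ψ q) : Y) : OnePoint Y) = ((Ψ (q.1, (q.2.2, q.2.1)) : Y) : OnePoint Y)
    rw [this]
  rw [e, T.map_comp, T.swap_odd, map_neg]

/-- a contractible letter -/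
theorem contr_zero {x : ι} {C : Type v} [TopologicalSpace C] [T2Space C] [LocallyCompactSpace C]
    (a : {p : P // ℓ p = w x} ≃ₜ C × Ici (0 : ℝ))
    (ε : Y → (ι → P)) (hε : IsEmbedding ε) (hr : range ε = {f | ∀ i, ℓ (f i) = w i})
    (g : T.H Y) : g = 0 := by
  let Ψ : ((Rest1 ℓ w x × C) × Ici (0 : ℝ)) ≃ₜ Y :=
    (Homeomorph.prodAssoc _ _ _).trans
    (((Homeomorph.refl (Rest1 ℓ w x)).prodCongr a.symm).trans
      ((split1 ℓ w x).trans (wordHomeo ℓ w ε hε hr).symm))
  have : LocallyCompactSpace ((Rest1 ℓ w x × C) × Ici (0 : ℝ)) :=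
    Ψ.isClosedEmbedding.locallyCompactSpace
  have hR : LocallyCompactSpace (Rest1 ℓ w x × C) :=
    lc_of_prod (B := Ici (0 : ℝ)) ⟨0, self_mem_Ici⟩
  exact T.eq_zero_of_homeo Ψ (fun g => T.eq_zero_of_contr g) g

/-! ### alphabets -/

end words

/-- an alphabet: a stratification of `P` with letters `0` (contractible), `1..u` (odd cells) and
`u + 1` (anything) -/
structure _root_.Crest.Agent.R090.F1Core737.Alph (P : Type v) [TopologicalSpace P] (u : ℕ) where
  /-- the letter function -/
  ℓ : P → ℕ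
  le : ∀ p, ℓ p ≤ u + 1
  closed : ∀ i, IsClosed {p | ℓ p ≤ i}
  contr : ∃ (C : Type v) (_ : TopologicalSpace C) (_ : T2Space C) (_ : LocallyCompactSpace C),
    Nonempty ({p : P // ℓ p = 0} ≃ₜ C × Ici (0 : ℝ))
  odd : ∀ i, 1 ≤ i → i ≤ u → ∃ m, Nonempty ({p : P // ℓ p = i} ≃ₜ (Fin m → ℂ) × ℝ)

section layer

open Crest.Agent.R090.Young152

variable {P : Type v} [TopologicalSpace P] [T2Space P] {u D c : ℕ} (Al : Alph P u)

/-- the weight of a point -/
def wt (f : Fin (yr D c) → P) : ℕ := ∑ i, Al.ℓ (f i)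

/-- the closed set of the points with at least `m` small letters -/
def QQ (m : ℕ) : Set (Fin (yr D c) → P) :=
  {f | m ≤ (Finset.univ.filter fun i => Al.ℓ (f i) ≤ u).card}

theorem isLocallyConstant_word {Y : Type v} [TopologicalSpace Y] (e : Y → (Fin (yr D c) → P))
    (he : Continuous e) (k : ℕ) (hk : ∀ y, wt Al (e y) = k) :
    IsLocallyConstant (fun y => fun i => Al.ℓ (e y i)) := by
  rw [IsLocallyConstant.iff_exists_open]
  intro y
  refine ⟨{z | ∀ i, Al.ℓ (e y i) ≤ Al.ℓ (e z i)}, ?_, fun i => le_rfl, ?_⟩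
  · rw [ofPred_forall]
    refine isOpen_iInter_of_finite fun i => ?_
    rcases Nat.eq_zero_or_pos (Al.ℓ (e y i)) with h | h
    · rw [h]; simp
    · have h1 : IsOpen {p | Al.ℓ p ≤ Al.ℓ (e y i) - 1}ᶜ := (Al.closed _).isOpen_compl
      have h2 : {z : Y | Al.ℓ (e y i) ≤ Al.ℓ (e z i)} =
          (fun z => e z i) ⁻¹' {p | Al.ℓ p ≤ Al.ℓ (e y i) - 1}ᶜ := by
        ext z
        simp only [mem_ofPred_eq, mem_preimage, mem_compl_iff]
        omega
      rw [h2]
      exact h1.preimage ((continuous_apply i).comp he)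
  · intro z hz
    have h1 : ∑ i, Al.ℓ (e y i) = ∑ i, Al.ℓ (e z i) := (hk y).trans (hk z).symm
    funext i
    exact ((Finset.sum_eq_sum_iff_of_le (fun i _ => hz i)).1 h1 i (Finset.mem_univ i)).symm

/-- **the Young symmetrizer kills every layer** -/
theorem layer_kill (T : CT.{v, w}) {m : ℕ} (hm : D * u < m) (k : ℕ)
    {Y : Type v} [TopologicalSpace Y] [T2Space Y] [LocallyCompactSpace Y]
    (e : Y → (Fin (yr D c) → P)) (he : IsEmbedding e)
    (hr : range e = {f | f ∈ QQ Al m ∧ wt Al f = k})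
    (τ : Equiv.Perm (Fin (yr D c)) → (Y ≃ₜ Y))
    (hτ : ∀ σ y i, e (τ σ y) i = e y (σ⁻¹ i)) (g : T.H Y) :
    T.opE (fun σ => (yF D c).coeff σ) τ g = 0 := by
  have hmem : ∀ y, e y ∈ QQ Al m ∧ wt Al (e y) = k := by
    intro y
    have : e y ∈ range e := ⟨y, rfl⟩
    rwa [hr] at this
  refine T.ext_clopen (Fintype.piFinset fun _ => Finset.range (u + 2)) Y
    (fun y => fun i => Al.ℓ (e y i))
    (isLocallyConstant_word Al e he.continuous k fun y => (hmem y).2) ?_ _ ?_
  · intro y
    rw [Fintype.mem_piFinset]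
    intro i
    have := Al.le (e y i)
    rw [Finset.mem_range]
    omega
  intro w Y' _ _ _ e' he' hr'
  rcases isEmpty_or_nonempty Y' with hY | ⟨⟨y0⟩⟩
  · exact T.eq_zero_of_isEmpty _
  have hw0 : ∀ y, (fun i => Al.ℓ (e (e' y) i)) = w := by
    intro y
    have : e' y ∈ range e' := ⟨y, rfl⟩
    rw [hr'] at this
    exact this
  have hε : IsEmbedding (fun y => e (e' y)) := he.comp he'.isEmbedding
  have hrε : range (fun y => e (e' y)) = {f | ∀ i, Al.ℓ (f i) = w i} := by
    ext f
    constructor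
    · rintro ⟨y, rfl⟩ i
      exact congrFun (hw0 y) i
    · intro hf
      have hf' : ∀ i, Al.ℓ (f i) = w i := hf
      have h1 : f ∈ range e := by
        rw [hr]
        have h2 := hmem (e' y0)
        have h3 : ∀ i, Al.ℓ (f i) = Al.ℓ (e (e' y0) i) := fun i =>
          (hf' i).trans (congrFun (hw0 y0) i).symm
        refine ⟨?_, ?_⟩
        · have h4 := h2.1
          simp only [QQ, mem_ofPred_eq] at h4 ⊢
          simp only [h3]
          exact h4
        · rw [← h2.2]
          simp only [wt, h3]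
      obtain ⟨y, rfl⟩ := h1
      have h2 : y ∈ range e' := by
        rw [hr']
        exact funext hf'
      obtain ⟨z, rfl⟩ := h2
      exact ⟨z, rfl⟩
  by_cases hc : ∃ x, w x = 0
  · obtain ⟨x, hx⟩ := hc
    obtain ⟨C, _, _, _, ⟨a⟩⟩ := Al.contr
    rw [← hx] at a
    exact T.contr_zero Al.ℓ w a _ hε hrε _
  push Not at hc
  rw [opE_apply, map_sum]
  simp only [map_zsmul]
  refine kills_odd_fin w (Finset.Icc 1 u) (fun σ => T.map (PMap.ofClosed e' he')
    (T.map (PMap.ofHomeo (τ σ)) g)) ?_ ?_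
  · intro σ x y hxy hwxy hwx
    rw [Finset.mem_Icc] at hwx
    obtain ⟨m', ⟨a⟩⟩ := Al.odd (w x) hwx.1 hwx.2
    -- the homeomorphism `τ (σ * swap)` is the composition
    have h1 : PMap.ofHomeo (τ (σ * Equiv.swap x y)) =
        (PMap.ofHomeo (τ σ)).comp (PMap.ofHomeo (τ (Equiv.swap x y))) := by
      refine PMap.ext fun z => ?_
      have : τ (σ * Equiv.swap x y) z = τ σ (τ (Equiv.swap x y) z) := by
        apply he.injective
        funext i
        rw [hτ, hτ, hτ]
        simp [mul_inv_rev]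
      change ((τ (σ * Equiv.swap x y) z : Y) : OnePoint Y) =
        ((τ σ (τ (Equiv.swap x y) z) : Y) : OnePoint Y)
      rw [this]
    rw [h1, T.map_comp]
    -- the swap on the stratum
    have h2 : ∀ z : Y', τ (Equiv.swap x y) (e' z) ∈ range e' := by
      intro z
      rw [hr']
      change (fun i => Al.ℓ (e (τ (Equiv.swap x y) (e' z)) i)) = w
      funext i
      rw [hτ, Equiv.swap_inv]
      have h3 := fun i => congrFun (hw0 z) i
      rw [h3]
      rcases eq_or_ne i x with rfl | hix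
      · rw [Equiv.swap_apply_left]; exact hwxy.symm
      rcases eq_or_ne i y with rfl | hiy
      · rw [Equiv.swap_apply_right]; exact hwxy
      rw [Equiv.swap_apply_of_ne_of_ne hix hiy]
    have hinv : ∀ z : Y, τ (Equiv.swap x y) (τ (Equiv.swap x y) z) = z := by
      intro z
      apply he.injective
      funext i
      rw [hτ, hτ]
      simp
    have hpre : ∀ z, τ (Equiv.swap x y) z ∈ range e' ↔ z ∈ range e' := by
      intro z
      constructor
      · rintro ⟨z', hz'⟩
        rw [← hinv z, ← hz']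
        exact h2 z'
      · rintro ⟨z', rfl⟩
        exact h2 z'
    let s : Y' ≃ₜ Y' := he'.isEmbedding.toHomeomorph.trans
      ((CT.restr (τ (Equiv.swap x y)) (range e') hpre).trans he'.isEmbedding.toHomeomorph.symm)
    have hs : ∀ z, e' (s z) = τ (Equiv.swap x y) (e' z) := by
      intro z
      have : he'.isEmbedding.toHomeomorph (s z) =
          CT.restr (τ (Equiv.swap x y)) (range e') hpre (he'.isEmbedding.toHomeomorph z) :=
        Homeomorph.apply_symm_apply _ _
      exact congrArg Subtype.val this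
    rw [← T.map_comp]
    have h5 : (PMap.ofHomeo (τ (Equiv.swap x y))).comp (PMap.ofClosed e' he') =
        (PMap.ofClosed e' he').comp (PMap.ofHomeo s) := by
      refine PMap.ext fun z => ?_
      change ((τ (Equiv.swap x y) (e' z) : Y) : OnePoint Y) = ((e' (s z) : Y) : OnePoint Y)
      rw [hs]
    rw [h5, T.map_comp]
    refine T.swap_neg Al.ℓ w hxy hwxy a _ hε hrε s ?_ _
    intro z i
    rw [hs, hτ, Equiv.swap_inv]
  · rw [Nat.card_Icc, Nat.add_sub_cancel]
    refine lt_of_lt_of_le hm ?_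
    have h1 := (hmem (e' y0)).1
    simp only [QQ, mem_ofPred_eq] at h1
    refine h1.trans (Finset.card_le_card ?_)
    intro i
    simp only [Finset.mem_filter, Finset.mem_univ, true_and, Finset.mem_Icc]
    have h2 := congrFun (hw0 y0) i
    rw [h2]
    intro h3
    exact ⟨Nat.one_le_iff_ne_zero.2 (hc i), h3⟩

end layer

end CT

end Crest.Agent.R090.F1Core737
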