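import Crest.Agent.R090.F1PairPow_893
import Crest.Agent.R090.Block_568

/-!
# Row 90, F1: the pair map in the form of the Spine (`F0Out` of helper796), owner helper893

`f : PMap Z E`, `A` closed in `B` with `(f ∧ incl_A).Null`.  Then `AE = {q : E × B | q.2 ∈ A}` is
closed in `E × B`, `E × A ≃ₜ AE` (`kE`), and `exists_pair_pow` applies with `W = A`.
-/

set_option autoImplicit false

open Topology Filter Set unitInterval

namespace Crest.Agent.R090.F1PairE893

open OnePoint Sp962 Cyl349 F1Pair893 F1PairCyl893 F1PairPow893 Pi568 Dens255 Block568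

variable {Z : Type*} {E : Type*} {B : Type*} [TopologicalSpace Z] [TopologicalSpace E]
  [TopologicalSpace B]

/-- `E × A` as a subset of `E × B` -/
def AE (E : Type*) {B : Type*} (A : Set B) : Set (E × B) := {q | q.2 ∈ A}

theorem isClosed_AE {A : Set B} (hA : IsClosed A) : IsClosed (AE E A) := hA.preimage continuous_snd

/-- `E × A ≃ₜ AE` -/
def kE (E : Type*) [TopologicalSpace E] {B : Type*} [TopologicalSpace B] (A : Set B) :
    E × A ≃ₜ AE E A where
  toFun p := ⟨(p.1, p.2), p.2.2⟩
  invFun q := (q.1.1, ⟨q.1.2, q.2⟩)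
  left_inv _ := rfl
  right_inv _ := rfl
  continuous_toFun := by
    refine Continuous.subtype_mk ?_ _
    exact continuous_fst.prodMk (continuous_subtype_val.comp continuous_snd)
  continuous_invFun := by
    refine Continuous.prodMk (continuous_fst.comp continuous_subtype_val) ?_
    exact Continuous.subtype_mk (continuous_snd.comp continuous_subtype_val) _

/-- `E × Aᶜ ≃ₜ AEᶜ` -/
def kEc (E : Type*) [TopologicalSpace E] {B : Type*} [TopologicalSpace B] (A : Set B) :
    E × (Aᶜ : Set B) ≃ₜ ((AE E A)ᶜ : Set (E × B)) where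
  toFun p := ⟨(p.1, p.2), p.2.2⟩
  invFun q := (q.1.1, ⟨q.1.2, q.2⟩)
  left_inv _ := rfl
  right_inv _ := rfl
  continuous_toFun := by
    refine Continuous.subtype_mk ?_ _
    exact continuous_fst.prodMk (continuous_subtype_val.comp continuous_snd)
  continuous_invFun := by
    refine Continuous.prodMk (continuous_fst.comp continuous_subtype_val) ?_
    exact Continuous.subtype_mk (continuous_snd.comp continuous_subtype_val) _

variable [T2Space Z] [LocallyCompactSpace Z] [T2Space E] [LocallyCompactSpace E]
  [T2Space B] [LocallyCompactSpace B]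

/-- the null homotopy in the form of `exists_pair_cyl` -/
theorem null_form {A : Set B} (hA : IsClosed A) [LocallyCompactSpace A] (f : PMap Z E)
    (h : (f.smash (incl hA)).Null) :
    (((PMap.ofClosed (Subtype.val : AE E A → E × B)
      (isClosed_AE hA).isClosedEmbedding_subtypeVal).comp (PMap.ofHomeo (kE E A))).comp
        (f.smash (PMap.id A))).Null := by
  refine PMap.Homotopic.trans (PMap.Homotopic.of_eq ?_) h
  refine PMap.ext fun p => ?_
  obtain ⟨z, a⟩ := p
  rw [PMap.comp_apply, PMap.smash_coe, PMap.smash_coe, PMap.id_apply, incl_coe]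
  generalize f (z : OnePoint Z) = e
  induction e using OnePoint.rec with
  | infty => simp
  | coe e => rfl

theorem isClosed_Q (A : Set B) (ι : Type*) [Finite ι] (m : ℕ) :
    IsClosed (PP (Prod.fst ⁻¹' UU A : Set (XX A × ℝ)) ι m) :=
  isClosed_PP ((isClosed_UU A).preimage continuous_fst) m

/-- **the power of the map of pairs, from `F0Out`** -/
theorem exists_pair_pow_E {A : Set B} (hA : IsClosed A) [LocallyCompactSpace A]
    [LocallyCompactSpace (AE E A)] [LocallyCompactSpace (XX (AE E A))] (f : PMap Z E)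
    (h : (f.smash (incl hA)).Null) (ι : Type*) [Finite ι] (m : ℕ)
    [LocallyCompactSpace (PP (range (Cyl.iU f)) ι m)] :
    ∃ Λ : PMap ((PP (range (Cyl.iU f)) ι m) × (ι → (A × ℝ) × ℝ))
        (PP (Prod.fst ⁻¹' UU (AE E A) : Set (XX (AE E A) × ℝ)) ι m),
      ((pow ι ((collX (AE E A)).smash (PMap.id ℝ))).comp
          (incl (isClosed_Q (AE E A) ι m))).comp Λ =
        (pow ι (((PMap.ofHomeo (kE E A)).smash (PMap.id (Ioi (0 : ℝ)))).smash (PMap.id ℝ))).comp
          ((PMap.ofHomeo (sh ι E A (Ioi (0 : ℝ)) ℝ)).comp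
            (((pow ι (Cyl.ret f)).comp
              (incl (isClosed_PP (Cyl.isClosedEmbedding_iU f).isClosed_range m))).smash
              (pow ι (((PMap.id A).smash cR).smash (PMap.id ℝ))))) :=
  exists_pair_pow (isClosed_AE hA) f (PMap.ofHomeo (kE E A)) (null_form hA f h) ι m
    (Cyl.isClosedEmbedding_iU f).isClosed_range (isClosed_Q (AE E A) ι m)

end Crest.Agent.R090.F1PairE893
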