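import Crest.Agent.R090.Sp_962

/-!
# Row 90, F1: the strict map of pairs (leaf PAIR of helper737, #20834; owner helper893)

`A` closed in `B`.  `XX A = {(b, t) ∈ B × ℝ | t ≤ 0 ∨ b ∈ A}`, `UU A = {0 ≤ t}`,
`collX : PMap (XX A) (A × (0, ∞))`, `cR : PMap ℝ (0, ∞)`.
`exists_pair` : a homotopy `H` in `B⁺` from `incl ∘ k` to a map which is `∞` on `Z × W`
gives a strict map `Λ : (M × W) × ℝ → XX A` with `Λ (Z × W × ℝ) ⊆ UU A ∪ {∞}` and
`collX ∘ Λ = k ∧ cR`.
-/

set_option autoImplicit false

open Topology Filter Set unitInterval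

namespace Crest.Agent.R090.F1Pair893

open OnePoint Sp962

/-! ## lifting through a closed embedding -/

section lift

variable {U : Type*} {V : Type*} {X : Type*} [TopologicalSpace U] [TopologicalSpace V]
  [TopologicalSpace X]

theorem ofClosed_injective (e : X → V) (he : IsClosedEmbedding e) :
    Function.Injective (PMap.ofClosed e he) := by
  intro a b hab
  induction a using OnePoint.rec with
  | infty =>
    induction b using OnePoint.rec with
    | infty => rfl
    | coe b => simp at hab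
  | coe a =>
    induction b using OnePoint.rec with
    | infty => simp at hab
    | coe b =>
      rw [PMap.ofClosed_coe, PMap.ofClosed_coe, coe_eq_coe] at hab
      rw [he.injective hab]

theorem isClosedEmbedding_ofClosed [T2Space V] [LocallyCompactSpace V]
    (e : X → V) (he : IsClosedEmbedding e) : IsClosedEmbedding (PMap.ofClosed e he) :=
  (PMap.ofClosed e he).continuous.isClosedEmbedding (ofClosed_injective e he)

theorem exists_lift [T2Space V] [LocallyCompactSpace V] (f : PMap U V) (e : X → V)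
    (he : IsClosedEmbedding e) (h : ∀ x : U, f x = ∞ ∨ ∃ y, f x = (e y : OnePoint V)) :
    ∃ g : PMap U X, (PMap.ofClosed e he).comp g = f := by
  have h' : ∀ x : OnePoint U, ∃ y : OnePoint X, PMap.ofClosed e he y = f x := by
    intro x
    induction x using OnePoint.rec with
    | infty => exact ⟨∞, by simp⟩
    | coe x =>
      rcases h x with hx | ⟨y, hy⟩
      · exact ⟨∞, by simp [hx]⟩
      · exact ⟨y, by rw [hy]; rfl⟩
  choose g hg using h'
  have hc : Continuous g := by
    rw [(isClosedEmbedding_ofClosed e he).isInducing.continuous_iff]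
    exact f.cont.congr fun x => (hg x).symm
  refine ⟨⟨g, hc, ?_⟩, ?_⟩
  · apply ofClosed_injective e he
    rw [hg]; simp
  · exact PMap.ext fun x => hg x

end lift

/-! ## the pair -/

section defs

variable {B : Type*}

/-- `{(b, t) | t ≤ 0 ∨ b ∈ A}` -/
abbrev XX (A : Set B) : Type _ := {p : B × ℝ // p.2 ≤ 0 ∨ p.1 ∈ A}

/-- `{0 ≤ t}` -/
def UU (A : Set B) : Set (XX A) := {p | 0 ≤ p.1.2}

variable [TopologicalSpace B]

theorem isClosed_XX {A : Set B} (hA : IsClosed A) :
    IsClosed {p : B × ℝ | p.2 ≤ 0 ∨ p.1 ∈ A} :=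
  (isClosed_le continuous_snd continuous_const).union (hA.preimage continuous_fst)

theorem locallyCompact_XX [LocallyCompactSpace B] {A : Set B} (hA : IsClosed A) :
    LocallyCompactSpace (XX A) :=
  (isClosed_XX hA).isClosedEmbedding_subtypeVal.locallyCompactSpace

theorem isClosed_UU (A : Set B) : IsClosed (UU A) :=
  isClosed_le continuous_const (continuous_snd.comp continuous_subtype_val)

/-- `A × (0, ∞) → XX A` -/
def inX (A : Set B) : A × Ioi (0 : ℝ) → XX A := fun p => ⟨(p.1, p.2), Or.inr p.1.2⟩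

omit [TopologicalSpace B] in
theorem range_inX (A : Set B) : range (inX A) = {p : XX A | 0 < p.1.2} := by
  ext p
  constructor
  · rintro ⟨q, rfl⟩
    exact q.2.2
  · intro hp
    have hp' : 0 < p.1.2 := hp
    rcases p.2 with h | h
    · exact absurd h (not_le.2 hp')
    · exact ⟨(⟨p.1.1, h⟩, ⟨p.1.2, hp'⟩), rfl⟩

theorem isOpenEmbedding_inX (A : Set B) : IsOpenEmbedding (inX A) := by
  have h1 : IsEmbedding (inX A) := by
    refine IsEmbedding.of_comp (f := inX A) (g := Subtype.val) ?_ continuous_subtype_val ?_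
    · refine Continuous.subtype_mk ?_ _
      exact (continuous_subtype_val.comp continuous_fst).prodMk
        (continuous_subtype_val.comp continuous_snd)
    · exact (IsEmbedding.subtypeVal.prodMap IsEmbedding.subtypeVal)
  refine ⟨h1, ?_⟩
  rw [range_inX]
  exact isOpen_lt continuous_const (continuous_snd.comp continuous_subtype_val)

/-- the open collapse `XX A → A × (0, ∞)` -/
noncomputable def collX [T2Space B] (A : Set B) : PMap (XX A) (A × Ioi (0 : ℝ)) :=
  PMap.ofOpen (inX A) (isOpenEmbedding_inX A)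

theorem collX_pos [T2Space B] {A : Set B} (a : A) (t : ℝ) (ht : 0 < t) :
    collX A ((⟨((a : B), t), Or.inr a.2⟩ : XX A) : OnePoint (XX A)) =
      ((a, ⟨t, ht⟩) : A × Ioi (0 : ℝ)) :=
  PMap.ofOpen_coe (inX A) (isOpenEmbedding_inX A) (a, ⟨t, ht⟩)

theorem collX_nonpos [T2Space B] {A : Set B} (p : XX A) (hp : p.1.2 ≤ 0) :
    collX A (p : OnePoint (XX A)) = ∞ := by
  refine PMap.ofOpen_of_notMem (inX A) (isOpenEmbedding_inX A) ?_
  rw [range_inX]
  exact not_lt.2 hp

/-- the open collapse `ℝ → (0, ∞)` -/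
noncomputable def cR : PMap ℝ (Ioi (0 : ℝ)) :=
  PMap.ofOpen (Subtype.val : Ioi (0 : ℝ) → ℝ) isOpen_Ioi.isOpenEmbedding_subtypeVal

theorem cR_pos (t : ℝ) (ht : 0 < t) : cR (t : OnePoint ℝ) = ((⟨t, ht⟩ : Ioi (0 : ℝ))) :=
  PMap.ofOpen_coe (Subtype.val : Ioi (0 : ℝ) → ℝ) isOpen_Ioi.isOpenEmbedding_subtypeVal ⟨t, ht⟩

theorem cR_nonpos (t : ℝ) (ht : t ≤ 0) : cR (t : OnePoint ℝ) = ∞ := by
  refine PMap.ofOpen_of_notMem _ isOpen_Ioi.isOpenEmbedding_subtypeVal ?_
  rw [Subtype.range_coe]
  exact not_lt.2 ht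

end defs

/-! ## the map of pairs -/

section pair

/-- `|t| / (1 + |t|)` for `t ≤ 0`, `0` for `t ≥ 0` -/
noncomputable def sig (t : ℝ) : I :=
  ⟨-(min t 0) / (1 + -(min t 0)), by
    have h : 0 ≤ -(min t 0) := by simp
    refine ⟨by positivity, ?_⟩
    rw [div_le_one (by positivity)]
    linarith⟩

theorem continuous_sig : Continuous sig := by
  refine Continuous.subtype_mk ?_ _
  refine Continuous.div (by fun_prop) (by fun_prop) ?_
  intro t
  have h : 0 ≤ -(min t 0) := by simp
  positivity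

theorem sig_of_nonneg {t : ℝ} (ht : 0 ≤ t) : sig t = 0 := by
  apply Subtype.ext
  simp [sig, min_eq_right ht]

theorem one_sub_sig {t : ℝ} (ht : t ≤ 0) : 1 - (sig t : ℝ) = 1 / (1 + -t) := by
  have h : (0 : ℝ) < 1 + -t := by linarith
  simp only [sig, min_eq_left ht]
  field_simp
  ring

variable {M : Type*} {W : Type*} {B : Type*} [TopologicalSpace M] [TopologicalSpace W]
  [TopologicalSpace B]

/-- the total map into `B × ℝ` -/
noncomputable def G (φ : M → ℝ) (H : I × OnePoint (M × W) → OnePoint B)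
    (p : (M × W) × ℝ) : OnePoint (B × ℝ) :=
  sm (H (sig p.2, (p.1 : OnePoint (M × W)))) ((max p.2 0 + φ p.1.1 * min p.2 0 : ℝ) : OnePoint ℝ)

theorem continuous_G [T2Space B] {φ : M → ℝ} (hφ : Continuous φ)
    {H : I × OnePoint (M × W) → OnePoint B} (hH : Continuous H) : Continuous (G φ H) := by
  refine Continuous.sm962 ?_ ?_
  · exact hH.comp ((continuous_sig.comp continuous_snd).prodMk
      (continuous_coe.comp continuous_fst))
  · refine continuous_coe.comp ?_
    fun_prop

theorem tendsto_G [T2Space M] [LocallyCompactSpace M] [T2Space W] [LocallyCompactSpace W]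
    [T2Space B] [LocallyCompactSpace B] {Z : Set M}
    {φ : M → ℝ} (hφ : Continuous φ) (h0 : ∀ x, 0 ≤ φ x) (hZ : ∀ x, φ x = 0 → x ∈ Z)
    {H : I × OnePoint (M × W) → OnePoint B} (hH : Continuous H) (Hinf : ∀ t, H (t, ∞) = ∞)
    (H1 : ∀ z ∈ Z, ∀ w : W, H (1, ((z, w) : M × W)) = ∞) :
    Tendsto (G φ H) (coclosedCompact ((M × W) × ℝ)) (𝓝 ∞) := by
  rw [hasBasis_nhds_infty.tendsto_right_iff]
  rintro K ⟨-, hK⟩
  -- a box containing `K`
  have hK1 : IsCompact (Prod.fst '' K) := hK.image continuous_fst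
  have hK2 : IsCompact (Prod.snd '' K) := hK.image continuous_snd
  obtain ⟨R, hR⟩ := hK2.isBounded.subset_closedBall (0 : ℝ)
  have hR0 : ∀ b t, (b, t) ∈ K → |t| ≤ R := by
    intro b t hbt
    have := hR ⟨(b, t), hbt, rfl⟩
    simpa [Metric.mem_closedBall, dist_zero_right] using this
  -- the compact set of `(s, x)` with `H (s, x)` in the box
  have hcl : IsClosed ((↑) '' (Prod.fst '' K) : Set (OnePoint B)) :=
    isClosed_image_coe.2 ⟨hK1.isClosed, hK1⟩
  set C : Set (I × OnePoint (M × W)) := H ⁻¹' ((↑) '' (Prod.fst '' K)) with hC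
  have hCc : IsCompact C := (hcl.preimage hH).isCompact
  have hCinf : ∀ c ∈ C, c.2 ≠ ∞ := by
    rintro ⟨s, x⟩ hc rfl
    obtain ⟨b, -, hb⟩ := hc
    rw [Hinf] at hb
    exact coe_ne_infty _ hb
  -- the projection of `C` to `M × W` is compact
  set P : Set (M × W) := (↑) ⁻¹' (Prod.snd '' C) with hP
  have hPc : IsCompact P := by
    have h1 : IsCompact (Prod.snd '' C) := hCc.image continuous_snd
    have h2 : (Prod.snd '' C) ⊆ range ((↑) : M × W → OnePoint (M × W)) := by
      rintro _ ⟨c, hc, rfl⟩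
      exact ⟨_, (OnePoint.ne_infty_iff_exists.1 (hCinf c hc)).choose_spec⟩
    exact isOpenEmbedding_coe.isInducing.isCompact_preimage_iff h2 |>.2 h1
  -- a positive lower bound
  have hδ : ∃ δ > 0, ∀ s : I, ∀ p : M × W, (s, (p : OnePoint (M × W))) ∈ C →
      δ ≤ max (1 - (s : ℝ)) (φ p.1) := by
    set C' : Set (I × (M × W)) := (fun c : I × (M × W) => (c.1, (c.2 : OnePoint (M × W)))) ⁻¹' C
      with hC'
    have hC'c : IsCompact C' := by
      have h1 : IsOpenEmbedding (fun c : I × (M × W) => (c.1, (c.2 : OnePoint (M × W)))) :=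
        IsOpenEmbedding.id.prodMap isOpenEmbedding_coe
      refine h1.isInducing.isCompact_preimage_iff ?_ |>.2 hCc
      rintro ⟨s, x⟩ hc
      obtain ⟨y, hy⟩ := OnePoint.ne_infty_iff_exists.1 (hCinf _ hc)
      exact ⟨(s, y), by simp [hy]⟩
    rcases C'.eq_empty_or_nonempty with hemp | hne
    · refine ⟨1, one_pos, fun s p hsp => ?_⟩
      exact absurd (show (s, p) ∈ C' from hsp) (by rw [hemp]; simp)
    · have hcont : ContinuousOn (fun c : I × (M × W) => max (1 - (c.1 : ℝ)) (φ c.2.1)) C' := by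
        apply Continuous.continuousOn
        fun_prop
      obtain ⟨c, hc, hmin⟩ := hC'c.exists_isMinOn hne hcont
      refine ⟨max (1 - (c.1 : ℝ)) (φ c.2.1), ?_, fun s p hsp => hmin (show (s, p) ∈ C' from hsp)⟩
      by_contra hcon
      have hle : max (1 - (c.1 : ℝ)) (φ c.2.1) ≤ 0 := not_lt.1 hcon
      have ha : 1 - (c.1 : ℝ) ≤ 0 := le_trans (le_max_left _ _) hle
      have hb : φ c.2.1 ≤ 0 := le_trans (le_max_right _ _) hle
      have hc1 : c.1 = 1 := by
        apply Subtype.ext
        have := c.1.2.2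
        simp only [Icc.coe_one]
        linarith
      have hz : c.2.1 ∈ Z := hZ _ (le_antisymm hb (h0 _))
      have h3 : (c.1, ((c.2 : M × W) : OnePoint (M × W))) ∈ C := hc
      have h4 : H (c.1, ((c.2 : M × W) : OnePoint (M × W))) = ∞ := by
        rw [hc1]; exact H1 _ hz c.2.2
      obtain ⟨b, -, hb⟩ := h3
      rw [h4] at hb
      exact coe_ne_infty _ hb
  obtain ⟨δ, hδ0, hδ⟩ := hδ
  -- the compact set outside of which `G` avoids `K`
  set T : ℝ := max R (max (1 / δ) (R / δ)) with hT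
  have hL : IsCompact (P ×ˢ (Icc (-T) T)) := hPc.prod isCompact_Icc
  have hmem : (P ×ˢ (Icc (-T) T))ᶜ ∈ coclosedCompact ((M × W) × ℝ) :=
    hasBasis_coclosedCompact.mem_of_mem ⟨hL.isClosed, hL⟩
  filter_upwards [hmem] with q hq
  by_contra hcon
  apply hq
  -- `G q` is a point of `K`
  have hGK : ∃ y ∈ K, G φ H q = ((y : B × ℝ) : OnePoint (B × ℝ)) := by
    generalize G φ H q = z at hcon
    induction z using OnePoint.rec with
    | infty => exact absurd (Or.inr rfl) hcon
    | coe z =>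
      refine ⟨z, ?_, rfl⟩
      by_contra hz
      exact hcon (Or.inl ⟨z, hz, rfl⟩)
  obtain ⟨⟨b, t⟩, hyK, hy⟩ := hGK
  obtain ⟨hb, ht⟩ := sm_eq_coe.1 hy
  have ht' : max q.2 0 + φ q.1.1 * min q.2 0 = t := coe_injective ht
  have hqC : (sig q.2, ((q.1 : M × W) : OnePoint (M × W))) ∈ C :=
    ⟨b, ⟨(b, t), hyK, rfl⟩, hb.symm⟩
  refine ⟨⟨_, hqC, rfl⟩, ?_⟩
  have htR := hR0 b t hyK
  rw [mem_Icc, ← abs_le]
  rcases le_total 0 q.2 with hq0 | hq0
  · rw [max_eq_left hq0, min_eq_right hq0] at ht'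
    have : q.2 = t := by simpa using ht'
    rw [this]
    exact htR.trans (le_max_left _ _)
  · rw [max_eq_right hq0, min_eq_left hq0] at ht'
    have h5 := hδ _ _ hqC
    rw [one_sub_sig hq0] at h5
    have habs : |q.2| = -q.2 := abs_of_nonpos hq0
    rw [habs]
    rcases le_max_iff.1 h5 with h6 | h6
    · have h7 : (0 : ℝ) < 1 + -q.2 := by linarith
      have h8 : δ * (1 + -q.2) ≤ 1 := by
        rw [le_div_iff₀ h7] at h6
        exact h6
      have h9 : 1 + -q.2 ≤ 1 / δ := by
        rw [le_div_iff₀ hδ0]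
        linarith
      have : -q.2 ≤ 1 / δ := by linarith
      exact this.trans ((le_max_left _ _).trans (le_max_right _ _))
    · have h7 : φ q.1.1 * -q.2 ≤ R := by
        have : |t| = φ q.1.1 * -q.2 := by
          rw [← ht']
          rw [zero_add, abs_of_nonpos]
          · ring
          · exact mul_nonpos_of_nonneg_of_nonpos (h0 _) hq0
        rw [← this]; exact htR
      have h8 : δ * -q.2 ≤ R := by
        refine le_trans ?_ h7
        exact mul_le_mul_of_nonneg_right h6 (by linarith)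
      have : -q.2 ≤ R / δ := by
        rw [le_div_iff₀ hδ0]
        linarith
      exact this.trans ((le_max_right _ _).trans (le_max_right _ _))

/-- **the strict map of pairs** -/
theorem exists_pair [T2Space M] [LocallyCompactSpace M] [T2Space W] [LocallyCompactSpace W]
    [T2Space B] [LocallyCompactSpace B] {A : Set B} (hA : IsClosed A) {Z : Set M}
    (φ : M → ℝ) (hφ : Continuous φ) (h0 : ∀ x, 0 ≤ φ x) (hZ : ∀ x, φ x = 0 ↔ x ∈ Z)
    (k : PMap (M × W) A) (H : I × OnePoint (M × W) → OnePoint B) (hH : Continuous H)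
    (Hinf : ∀ t, H (t, ∞) = ∞)
    (H0 : ∀ x : OnePoint (M × W), H (0, x) = OnePoint.map (Subtype.val : A → B) (k x))
    (H1 : ∀ z ∈ Z, ∀ w : W, H (1, ((z, w) : M × W)) = ∞) :
    ∃ Λ : PMap ((M × W) × ℝ) (XX A),
      (∀ z ∈ Z, ∀ (w : W) (τ : ℝ), Λ ((((z, w), τ) : (M × W) × ℝ) : OnePoint ((M × W) × ℝ)) = ∞ ∨
        ∃ u ∈ UU A, Λ ((((z, w), τ) : (M × W) × ℝ) : OnePoint ((M × W) × ℝ)) = (u : OnePoint (XX A)))
      ∧ (collX A).comp Λ = k.smash cR := by
  have he : IsClosedEmbedding (Subtype.val : XX A → B × ℝ) :=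
    (isClosed_XX hA).isClosedEmbedding_subtypeVal
  set Γ : PMap ((M × W) × ℝ) (B × ℝ) :=
    PMap.ofFun (G φ H) (continuous_G hφ hH) (tendsto_G hφ h0 (fun x hx => (hZ x).1 hx) hH Hinf H1)
    with hΓ
  have hΓc : ∀ q : (M × W) × ℝ, Γ (q : OnePoint ((M × W) × ℝ)) = G φ H q := fun q => rfl
  have hval : ∀ q : (M × W) × ℝ, Γ (q : OnePoint ((M × W) × ℝ)) = ∞ ∨
      ∃ y : XX A, Γ (q : OnePoint ((M × W) × ℝ)) = (((y : XX A) : B × ℝ) : OnePoint (B × ℝ)) ∧
        y.1.2 = max q.2 0 + φ q.1.1 * min q.2 0 := by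
    intro q
    rw [hΓc, G]
    rcases le_total 0 q.2 with hq | hq
    · rw [sig_of_nonneg hq, H0]
      generalize k (q.1 : OnePoint (M × W)) = a
      induction a using OnePoint.rec with
      | infty => left; simp
      | coe a => exact Or.inr ⟨⟨((a : B), max q.2 0 + φ q.1.1 * min q.2 0), Or.inr a.2⟩, rfl, rfl⟩
    · generalize H (sig q.2, (q.1 : OnePoint (M × W))) = a
      induction a using OnePoint.rec with
      | infty => left; simp
      | coe a =>
        refine Or.inr ⟨⟨(a, max q.2 0 + φ q.1.1 * min q.2 0), Or.inl ?_⟩, rfl, rfl⟩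
        show max q.2 0 + φ q.1.1 * min q.2 0 ≤ 0
        rw [max_eq_right hq, min_eq_left hq, zero_add]
        exact mul_nonpos_of_nonneg_of_nonpos (h0 _) hq
  obtain ⟨Λ, hΛ⟩ := exists_lift Γ (Subtype.val : XX A → B × ℝ) he (fun q => by
    rcases hval q with h | ⟨y, hy, -⟩
    · exact Or.inl h
    · exact Or.inr ⟨y, hy⟩)
  have hΛ' : ∀ q : (M × W) × ℝ, PMap.ofClosed (Subtype.val : XX A → B × ℝ) he (Λ q) = G φ H q := by
    intro q
    rw [← hΓc, ← hΛ]; rfl
  have hΛv : ∀ q : (M × W) × ℝ, Λ (q : OnePoint ((M × W) × ℝ)) = ∞ ∨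
      ∃ y : XX A, Λ (q : OnePoint ((M × W) × ℝ)) = (y : OnePoint (XX A)) ∧
        G φ H q = (((y : XX A) : B × ℝ) : OnePoint (B × ℝ)) ∧
        y.1.2 = max q.2 0 + φ q.1.1 * min q.2 0 := by
    intro q
    rcases hval q with h | ⟨y, hy, hy2⟩
    · left
      apply ofClosed_injective _ he
      rw [hΛ', ← hΓc, h]; simp
    · right
      refine ⟨y, ?_, by rw [← hΓc]; exact hy, hy2⟩
      apply ofClosed_injective _ he
      rw [hΛ', ← hΓc, hy]; rfl
  refine ⟨Λ, ?_, ?_⟩
  · intro z hz w τ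
    rcases hΛv ((z, w), τ) with h | ⟨y, hy, -, hy2⟩
    · exact Or.inl h
    · refine Or.inr ⟨y, ?_, hy⟩
      show 0 ≤ y.1.2
      rw [hy2, (hZ z).2 hz]
      simp
  · refine PMap.ext fun q => ?_
    rw [PMap.comp_apply]
    obtain ⟨p, τ⟩ := q
    rw [PMap.smash_coe]
    rcases le_or_gt τ 0 with hτ | hτ
    · rw [cR_nonpos τ hτ, sm_inf_right]
      rcases hΛv (p, τ) with h | ⟨y, hy, -, hy2⟩
      · rw [h]; simp
      · rw [hy]
        apply collX_nonpos
        rw [hy2]
        simp only [max_eq_right hτ, min_eq_left hτ, zero_add]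
        exact mul_nonpos_of_nonneg_of_nonpos (h0 _) hτ
    · have hG : G φ H (p, τ) = sm (OnePoint.map (Subtype.val : A → B) (k p))
          ((τ : ℝ) : OnePoint ℝ) := by
        rw [G, sig_of_nonneg hτ.le, H0]
        simp only [max_eq_left hτ.le, min_eq_right hτ.le, mul_zero, add_zero]
      rw [cR_pos τ hτ]
      rcases hΛv (p, τ) with h | ⟨y, hy, hy1, -⟩
      · have h2 := hΛ' (p, τ)
        rw [h, hG, PMap.map_inf] at h2
        have h3 := sm_eq_inf.1 h2.symm
        rcases h3 with h3 | h3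
        · have h4 : k p = ∞ := by
            generalize k p = a at h3
            induction a using OnePoint.rec with
            | infty => rfl
            | coe a => simp at h3
          rw [h, h4]; simp
        · exact absurd h3 (coe_ne_infty _)
      · rw [hG] at hy1
        obtain ⟨h3, h4⟩ := sm_eq_coe.1 hy1
        have h5 : ∃ a : A, k p = (a : OnePoint A) ∧ (a : B) = y.1.1 := by
          generalize k p = a at h3
          induction a using OnePoint.rec with
          | infty => simp at h3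
          | coe a => exact ⟨a, rfl, coe_injective h3⟩
        obtain ⟨a, ha, hay⟩ := h5
        have h6 : τ = y.1.2 := coe_injective h4
        have h7 : y = ⟨((a : B), τ), Or.inr a.2⟩ := Subtype.ext (Prod.ext hay.symm h6.symm)
        rw [hy, ha, h7, collX_pos a τ hτ]
        rfl

end pair

end Crest.Agent.R090.F1Pair893
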