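import Crest.Agent.R090.F1Inst_737
import Crest.Agent.R090.PiNat_568
import Crest.Agent.R090.Dens_255
import Crest.Agent.R090.Block_568
import Crest.Agent.R090.Strata_973

/-!
# Row 90, F1 (source form): the power step for a contravariant theory (owner helper737)

Input: `ret : PMap M E`, `Z ⊆ M` closed, `Λ : PMap ((M × V) × ℂ) P` with `Λ (Z × ..)` in the small
letters, `C : PMap P ((E × V) × ℂ)` with `C ∘ Λ ≃ (ret ∧ 1) ∧ 1`.
Output: `(κ ∧ 1)^* (e'^L)^* = 0`, `κ : P_{ι,m}(M, Z) → E^ι`.
-/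

set_option autoImplicit false
set_option linter.unusedSectionVars false

open Topology Filter Set

namespace Crest.Agent.R090.F1Core737

open OnePoint Crest.Agent.R090.Sp962 Crest.Agent.R090.Lin202 Crest.Agent.R090.Young152
open Crest.Agent.R090.Pi568 Crest.Agent.R090.Dens255 Crest.Agent.R090.Block568

universe v w

/-! ### the group ring operator -/

namespace CT

variable (T : CT.{v, w})

section ring

variable {κ : Type} [Fintype κ] [DecidableEq κ]
variable {X : Type v} [TopologicalSpace X] [T2Space X] [LocallyCompactSpace X]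
variable (ρ : Equiv.Perm κ → (X ≃ₜ X))

theorem opE_add (a b : MonoidAlgebra ℤ (Equiv.Perm κ)) (g : T.H X) :
    T.opE (fun σ => (a + b).coeff σ) ρ g =
      T.opE (fun σ => a.coeff σ) ρ g + T.opE (fun σ => b.coeff σ) ρ g := by
  simp only [opE_apply, MonoidAlgebra.coeff_add, Finsupp.add_apply, add_smul,
    Finset.sum_add_distrib]

theorem opE_zero (g : T.H X) :
    T.opE (fun σ => (0 : MonoidAlgebra ℤ (Equiv.Perm κ)).coeff σ) ρ g = 0 := by
  rw [opE_apply]
  exact Finset.sum_eq_zero fun σ _ => zero_smul _ _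

theorem opE_single (σ : Equiv.Perm κ) (x : ℤ) (g : T.H X) :
    T.opE (fun τ => (MonoidAlgebra.single σ x : MonoidAlgebra ℤ (Equiv.Perm κ)).coeff τ) ρ g =
      x • T.map (PMap.ofHomeo (ρ σ)) g := by
  rw [opE_apply, Finset.sum_eq_single σ]
  · rw [MonoidAlgebra.coeff_single_apply, if_pos rfl]
  · intro τ _ hτ
    rw [MonoidAlgebra.coeff_single_apply, if_neg (fun h => hτ h.symm), zero_smul]
  · intro h
    exact absurd (Finset.mem_univ σ) h

variable {ρ}

theorem opE_mul (hρ : ∀ σ τ x, ρ (σ * τ) x = ρ σ (ρ τ x))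
    (a b : MonoidAlgebra ℤ (Equiv.Perm κ)) (g : T.H X) :
    T.opE (fun σ => (a * b).coeff σ) ρ g =
      T.opE (fun σ => b.coeff σ) ρ (T.opE (fun σ => a.coeff σ) ρ g) := by
  induction a using MonoidAlgebra.induction_linear with
  | zero => rw [zero_mul, opE_zero, _root_.map_zero]
  | add f f' hf hf' => rw [add_mul, opE_add, opE_add, hf, hf', map_add]
  | single σ x =>
    induction b using MonoidAlgebra.induction_linear with
    | zero => rw [mul_zero, opE_zero, opE_zero]
    | add f f' hf hf' => rw [mul_add, opE_add, opE_add, hf, hf']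
    | single τ y =>
      rw [MonoidAlgebra.single_mul_single, opE_single, opE_single, opE_single, map_zsmul,
        smul_smul, mul_comm y x, ← T.map_comp]
      congr 2
      have : PMap.ofHomeo (ρ (σ * τ)) = (PMap.ofHomeo (ρ σ)).comp (PMap.ofHomeo (ρ τ)) :=
        PMap.ext fun z => by
          change ((ρ (σ * τ) z : X) : OnePoint X) = ((ρ σ (ρ τ z) : X) : OnePoint X)
          rw [hρ]
      rw [this]

theorem opE_pow (hρ : ∀ σ τ x, ρ (σ * τ) x = ρ σ (ρ τ x)) (a : MonoidAlgebra ℤ (Equiv.Perm κ))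
    (n : ℕ) (g : T.H X) :
    (T.opE (fun σ => a.coeff σ) ρ)^[n + 1] g = T.opE (fun σ => (a ^ (n + 1)).coeff σ) ρ g := by
  induction n with
  | zero => simp
  | succ n ih => rw [Function.iterate_succ_apply', ih, pow_succ a (n + 1), T.opE_mul hρ]

end ring

end CT

/-! ### the shuffle `M^ι × (V^ι × ℂ^ι) ≃ ((M × V) × ℂ)^ι` -/

section zip

variable {ι : Type} [Fintype ι] [DecidableEq ι]
variable {M V E : Type} [TopologicalSpace M] [TopologicalSpace V] [TopologicalSpace E]

/-- the shuffle -/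
def zipH (ι M V : Type) [TopologicalSpace M] [TopologicalSpace V] :
    (ι → M) × ((ι → V) × (ι → ℂ)) ≃ₜ (ι → (M × V) × ℂ) where
  toFun p := fun i => ((p.1 i, p.2.1 i), p.2.2 i)
  invFun q := (fun i => (q i).1.1, (fun i => (q i).1.2, fun i => (q i).2))
  left_inv _ := rfl
  right_inv _ := rfl
  continuous_toFun := by fun_prop
  continuous_invFun := by fun_prop

variable [T2Space M] [T2Space V] [T2Space E] [LocallyCompactSpace M] [LocallyCompactSpace V]
  [LocallyCompactSpace E]

theorem zip_pow (a : PMap M E) :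
    (pow ι ((a.smash (PMap.id V)).smash (PMap.id ℂ))).comp (PMap.ofHomeo (zipH ι M V)) =
      (PMap.ofHomeo (zipH ι E V)).comp ((pow ι a).smash (PMap.id ((ι → V) × (ι → ℂ)))) := by
  refine PMap.ext fun x => ?_
  obtain ⟨x, v, g⟩ := x
  rw [PMap.comp_apply, PMap.comp_apply, PMap.ofHomeo_coe, pow_coe, PMap.smash_coe, pow_coe,
    PMap.id_apply]
  change smPi (fun i => sm (sm (a (x i : OnePoint M)) (v i : OnePoint V)) (g i : OnePoint ℂ)) =
    PMap.ofHomeo (zipH ι E V) (sm (smPi fun i => a (x i : OnePoint M))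
      (((v, g) : (ι → V) × (ι → ℂ)) : OnePoint ((ι → V) × (ι → ℂ))))
  by_cases h : ∃ i, a (x i : OnePoint M) = ∞
  · obtain ⟨i, hi⟩ := h
    rw [smPi_of_inf i (by rw [hi]; rfl), smPi_of_inf i hi, sm_inf_left, PMap.map_inf]
  · push Not at h
    choose y hy using fun i => ne_infty_iff_exists.1 (h i)
    have : (fun i => a (x i : OnePoint M)) = fun i => (y i : OnePoint E) :=
      funext fun i => (hy i).symm
    rw [this, smPi_coe, sm_coe, PMap.ofHomeo_coe]
    simp only [← hy, sm_coe]
    rw [smPi_coe]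
    rfl

end zip

/-! ### the power step -/

section power

theorem perm_mem_PP {M : Type} [TopologicalSpace M] {Z : Set M} {ι : Type} [Finite ι] (m : ℕ) (σ : Equiv.Perm ι) (f : ι → M) :
    Strata973.perm σ f ∈ PP Z ι m ↔ f ∈ PP Z ι m := by
  rw [mem_PP, mem_PP]
  have : {i | Strata973.perm σ f i ∈ Z} = σ '' {i | f i ∈ Z} := by
    ext i
    simp only [mem_ofPred_eq, Strata973.perm_apply, mem_image]
    constructor
    · intro h
      exact ⟨σ.symm i, h, by simp⟩
    · rintro ⟨j, hj, rfl⟩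
      simpa using hj
  rw [this, Set.ncard_image_of_injective _ σ.injective]

variable {u D c : ℕ}

/-- the index set -/
abbrev Idx (D c : ℕ) : Type := Fin (yr D c)

variable {M V E P : Type} [TopologicalSpace M] [TopologicalSpace V] [TopologicalSpace E]
  [TopologicalSpace P] [T2Space M] [T2Space V] [T2Space E] [T2Space P]
  [LocallyCompactSpace M] [LocallyCompactSpace V] [LocallyCompactSpace E] [LocallyCompactSpace P]

theorem perm_smPi {ι : Type} [Finite ι] (σ : Equiv.Perm ι) (x : ι → OnePoint P) :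
    PMap.ofHomeo (Strata973.perm (X := P) σ) (smPi x) = smPi fun i => x (σ.symm i) := by
  have : PMap.ofHomeo (Strata973.perm (X := P) σ) = PMap.ofHomeo (reixc P σ.symm) :=
    PMap.ext fun _ => rfl
  rw [this, reixc_smPi]

theorem perm_mem_QQ (Al : Alph P u) (m : ℕ) (σ : Equiv.Perm (Idx D c)) (f : Idx D c → P) :
    Strata973.perm σ f ∈ CT.QQ Al m ↔ f ∈ CT.QQ Al m := by
  simp only [CT.QQ, mem_ofPred_eq, Strata973.perm_apply]
  rw [Finset.card_bij (t := Finset.univ.filter fun i => Al.ℓ (f i) ≤ u) (fun i _ => σ.symm i)]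
  · intro i hi
    simpa using hi
  · intro i _ j _ h
    exact σ.symm.injective h
  · intro j hj
    refine ⟨σ j, ?_, by simp⟩
    simpa using hj

variable (T : CT.{0, w}) (Al : Alph P u) {m : ℕ} {Z : Set M} (hZ : IsClosed Z)

/-- the diagonal action on `P_m × (V^ι × ℂ^ι)` -/
noncomputable def tauH (D c : ℕ) (V : Type) [TopologicalSpace V] {M : Type} [TopologicalSpace M]
    (Z : Set M) (m : ℕ) (σ : Equiv.Perm (Idx D c)) :
    (PP Z (Idx D c) m × ((Idx D c → V) × (Idx D c → ℂ))) ≃ₜ
      (PP Z (Idx D c) m × ((Idx D c → V) × (Idx D c → ℂ))) :=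
  (CT.restr (Strata973.perm σ) (PP Z (Idx D c) m) (perm_mem_PP m σ)).prodCongr
    ((Strata973.perm σ).prodCongr (Strata973.perm σ))

/-- the power step for the theory `T` -/
theorem power_step [hZf : Fact (IsClosed Z)] (hm : D * u < m) (ret : PMap M E)
    (Λ : PMap ((M × V) × ℂ) P) (C : PMap P ((E × V) × ℂ))
    (hΛ : ∀ z ∈ Z, ∀ (v : V) (s : ℂ),
      Λ ((((z, v), s) : (M × V) × ℂ) : OnePoint ((M × V) × ℂ)) = ∞ ∨
        ∃ p, Al.ℓ p ≤ u ∧ Λ ((((z, v), s) : (M × V) × ℂ) : OnePoint ((M × V) × ℂ)) = (p : P))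
    (hC : (C.comp Λ).Homotopic ((ret.smash (PMap.id V)).smash (PMap.id ℂ)))
    (g : T.H ((Idx D c → E) × ((Idx D c → V) × (Idx D c → ℂ)))) :
    (T.opE (fun σ => (yF D c).coeff σ) (tauH D c V Z m))^[yr D c * (u + 1) + 1]
      (T.map (((pow (Idx D c) ret).comp (incl (isClosed_PP hZf.out m))).smash
        (PMap.id ((Idx D c → V) × (Idx D c → ℂ)))) g) = 0 := by
  have hQ : IsClosed (CT.QQ Al m : Set (Idx D c → P)) := CT.isClosed_QQ Al m
  have hQlc : LocallyCompactSpace (CT.QQ Al m : Set (Idx D c → P)) := hQ.locallyCompactSpace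
  -- the map to `P^ι`
  let F0 : PMap (PP Z (Idx D c) m × ((Idx D c → V) × (Idx D c → ℂ))) (Idx D c → P) :=
    ((pow (Idx D c) Λ).comp (PMap.ofHomeo (zipH (Idx D c) M V))).comp
      ((incl (isClosed_PP hZf.out m)).smash (PMap.id ((Idx D c → V) × (Idx D c → ℂ))))
  have hF0 : ∀ x : PP Z (Idx D c) m × ((Idx D c → V) × (Idx D c → ℂ)),
      F0 (x : OnePoint _) = smPi fun i => Λ ((((x.1.1 i, x.2.1 i), x.2.2 i) : (M × V) × ℂ) :
        OnePoint ((M × V) × ℂ)) := fun x => rfl
  have hr : ∀ x : OnePoint (PP Z (Idx D c) m × ((Idx D c → V) × (Idx D c → ℂ))),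
      F0 x = ∞ ∨ ∃ q : (CT.QQ Al m : Set (Idx D c → P)), F0 x = ((q : Idx D c → P) : OnePoint _) := by
    intro x
    induction x using OnePoint.rec with
    | infty => exact Or.inl F0.map_inf
    | coe x =>
      by_cases h : ∃ i, Λ ((((x.1.1 i, x.2.1 i), x.2.2 i) : (M × V) × ℂ) :
        OnePoint ((M × V) × ℂ)) = ∞
      · obtain ⟨i, hi⟩ := h
        left
        rw [hF0]
        exact smPi_of_inf i hi
      · right
        push Not at h
        choose y hy using fun i => ne_infty_iff_exists.1 (h i)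
        have hy' : ∀ i, x.1.1 i ∈ Z → Al.ℓ (y i) ≤ u := by
          intro i hi
          rcases hΛ _ hi (x.2.1 i) (x.2.2 i) with h1 | ⟨p, hp, h1⟩
          · exact absurd h1 (h i)
          · rw [← hy i] at h1
            rw [coe_injective h1]
            exact hp
        refine ⟨⟨y, ?_⟩, ?_⟩
        · have h1 : m ≤ {i | x.1.1 i ∈ Z}.ncard := x.1.2
          simp only [CT.QQ, mem_ofPred_eq]
          refine h1.trans ?_
          rw [← Set.ncard_coe_finset]
          refine Set.ncard_le_ncard (fun i hi => ?_) (Set.toFinite _)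
          simp only [Finset.coe_filter, Finset.mem_univ, true_and, mem_ofPred_eq]
          exact hy' i hi
        · rw [hF0]
          have : (fun i => Λ ((((x.1.1 i, x.2.1 i), x.2.2 i) : (M × V) × ℂ) :
              OnePoint ((M × V) × ℂ))) = fun i => (y i : OnePoint P) :=
            funext fun i => (hy i).symm
          rw [this, smPi_coe]
  obtain ⟨K, hK, hKr⟩ := exists_lift hQ.isClosedEmbedding_subtypeVal F0.cont hr
  let ΛP : PMap (PP Z (Idx D c) m × ((Idx D c → V) × (Idx D c → ℂ)))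
      (CT.QQ Al m : Set (Idx D c → P)) := ⟨K, hK, by
    refine map_injective hQ.isClosedEmbedding_subtypeVal ?_
    rw [hKr]
    exact F0.map_inf⟩
  have hΛP : (PMap.ofClosed _ hQ.isClosedEmbedding_subtypeVal).comp ΛP = F0 :=
    PMap.ext fun x => hKr x
  -- the action on `Q`
  let ρ : Equiv.Perm (Idx D c) → ((CT.QQ Al m : Set (Idx D c → P)) ≃ₜ
      (CT.QQ Al m : Set (Idx D c → P))) := fun σ =>
    CT.restr (Strata973.perm σ) (CT.QQ Al m) (perm_mem_QQ Al m σ)
  have hρinc : ∀ σ, (PMap.ofClosed _ hQ.isClosedEmbedding_subtypeVal).comp (PMap.ofHomeo (ρ σ)) =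
      (PMap.ofHomeo (Strata973.perm σ)).comp
        (PMap.ofClosed _ hQ.isClosedEmbedding_subtypeVal) := fun σ => PMap.ext fun _ => rfl
  have hequi : ∀ σ, (PMap.ofHomeo (ρ σ)).comp ΛP = ΛP.comp (PMap.ofHomeo (tauH D c V Z m σ)) := by
    intro σ
    refine PMap.ext fun x => ?_
    refine map_injective hQ.isClosedEmbedding_subtypeVal ?_
    have e1 : OnePoint.map Subtype.val ((PMap.ofHomeo (ρ σ)).comp ΛP (x : OnePoint _)) =
        PMap.ofHomeo (Strata973.perm σ) (F0 (x : OnePoint _)) := by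
      have := congrArg (fun f : PMap _ _ => f (ΛP (x : OnePoint _))) (hρinc σ)
      refine Eq.trans this ?_
      rw [← hΛP]
      rfl
    have e2 : OnePoint.map Subtype.val (ΛP.comp (PMap.ofHomeo (tauH D c V Z m σ))
        (x : OnePoint _)) = F0 ((tauH D c V Z m σ x : _) : OnePoint _) := by
      rw [← hΛP]
      rfl
    rw [e1, e2, hF0, hF0, perm_smPi]
    rfl
  -- the class on `Q`
  have hcore := CT.core Al T hm (X := (CT.QQ Al m : Set (Idx D c → P))) Subtype.val
    IsEmbedding.subtypeVal Subtype.range_coe ρ (fun σ x i => rfl)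
    (T.map ((pow (Idx D c) C).comp (PMap.ofClosed _ hQ.isClosedEmbedding_subtypeVal))
      (T.map (PMap.ofHomeo (zipH (Idx D c) E V).symm) g))
  have h1 := congrArg (T.map ΛP) hcore
  rw [_root_.map_zero, T.map_iterate_opE _ ρ (tauH D c V Z m) ΛP hequi] at h1
  rw [← h1]
  congr 1
  rw [← T.map_comp, ← T.map_comp]
  refine T.map_homotopic _ _ ?_ g
  -- the homotopy
  have h2 : ((pow (Idx D c) C).comp F0).Homotopic
      ((PMap.ofHomeo (zipH (Idx D c) E V)).comp
        (((pow (Idx D c) ret).comp (incl (isClosed_PP hZf.out m))).smash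
          (PMap.id ((Idx D c → V) × (Idx D c → ℂ))))) := by
    have e3 : (pow (Idx D c) C).comp F0 = (pow (Idx D c) (C.comp Λ)).comp
        ((PMap.ofHomeo (zipH (Idx D c) M V)).comp
          ((incl (isClosed_PP hZf.out m)).smash (PMap.id ((Idx D c → V) × (Idx D c → ℂ))))) := by
      rw [← pow_comp]
      rfl
    rw [e3]
    refine (PMap.Homotopic.comp_right (pow_homotopic hC) _).trans (.of_eq ?_)
    rw [← PMap.comp_assoc, zip_pow, PMap.comp_assoc, PMap.smash_comp, PMap.comp_id]
  have h3 := PMap.Homotopic.comp_left (PMap.ofHomeo (zipH (Idx D c) E V).symm) h2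
  have e4 : ∀ k : PMap (PP Z (Idx D c) m × ((Idx D c → V) × (Idx D c → ℂ)))
      ((Idx D c → E) × ((Idx D c → V) × (Idx D c → ℂ))),
      (PMap.ofHomeo (zipH (Idx D c) E V).symm).comp
        ((PMap.ofHomeo (zipH (Idx D c) E V)).comp k) = k := fun k => by
    rw [← PMap.comp_assoc, PMap.ofHomeo_symm_comp, PMap.id_comp]
  rw [e4] at h3
  refine h3.symm.trans (.of_eq ?_)
  rw [← hΛP]
  rfl

end power

end Crest.Agent.R090.F1Core737
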