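import Crest.Agent.R090.F1Asm_737
import Crest.Agent.R090.F1PairPow_893

/-!
# Row 90, F1: the literal `Spine.F1Stmt` (owner helper737; pair map by helper893)
-/

set_option autoImplicit false
set_option linter.unusedSectionVars false

open Topology Filter Set

namespace Crest.Agent.R090.F1Core737

open OnePoint Crest.Agent.R090.Sp962 Crest.Agent.R090.Lin202 Crest.Agent.R090.Young152
open Crest.Agent.R090.Pi568 Crest.Agent.R090.Dens255 Crest.Agent.R090.Block568
open Crest.Agent.R090.Grp528 Crest.Agent.R090.St528 Crest.Agent.R090.Exc503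
open Crest.Agent.R090.Sm202 Crest.Agent.R090.SmIso528 Crest.Agent.R090.Cyl349

/-- the homeomorphism `(0, ∞) ≃ ℝ` -/
noncomputable def hR : ℝ ≃ₜ Ioi (0 : ℝ) := F1d541.RI.trans F1PairPow893.RI'.symm

/-- `ℂ = ℝ × ℝ` -/
noncomputable def cRR : ℂ ≃ₜ ℝ × ℝ := Complex.equivRealProdCLM.toHomeomorph

/-- regrouping -/
noncomputable def e1H (X : Type) [TopologicalSpace X] : X × ℂ ≃ₜ (X × ℝ) × ℝ :=
  ((Homeomorph.refl X).prodCongr cRR).trans (Homeomorph.prodAssoc X ℝ ℝ).symm

/-- regrouping -/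
noncomputable def e2H {A X : Type} [TopologicalSpace A] [TopologicalSpace X] (θ : A ≃ₜ X) :
    (A × Ioi (0 : ℝ)) × ℝ ≃ₜ X × ℂ :=
  ((θ.prodCongr hR.symm).prodCongr (Homeomorph.refl ℝ)).trans (e1H X).symm

/-- conversion of the filtration -/
def fltOf {B : Type} [TopologicalSpace B] {A : Set B} {u : ℕ} (F : F0_933.Flt A u) : Flt A u :=
  ⟨F.lev, F.le, F.closed, F.zero, F.cell⟩

theorem f1Stmt : Spine.F1Stmt := by
  intro α _ _ Z _ _ _ f c D u m hc hD hF hm
  obtain ⟨V, B, _, _, _, _, _, _, A, hA, θ, hV, ⟨F⟩, hnull⟩ := hF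
  refine ⟨V, inferInstance, inferInstance, inferInstance, hV, yr D c * (u + 1), ?_⟩
  obtain ⟨Λ, hΛ, hcoll⟩ := F1PairCyl893.exists_pair_cyl hA.out f (PMap.ofHomeo θ.symm) hnull
  have hXX : LocallyCompactSpace (XX A) := (isClosed_XX hA.out).locallyCompactSpace
  have hAlc : LocallyCompactSpace A := hA.out.locallyCompactSpace
  let Λ' : PMap ((Cyl f × V) × ℂ) (XX A × ℝ) :=
    (Λ.smash (PMap.id ℝ)).comp (PMap.ofHomeo (e1H (Cyl f × V)))
  let C : PMap (XX A × ℝ) (((α → ℂ) × V) × ℂ) :=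
    (PMap.ofHomeo (e2H θ)).comp ((F1Pair893.collX A).smash (PMap.id ℝ))
  refine snull_of_pair (alphXX (fltOf F) hA.out) (Z := range (Cyl.iU f)) hm (Cyl.ret f) Λ' C
    ?_ ?_
  · rintro _ ⟨z, rfl⟩ v s
    have hval : Λ' ((((Cyl.iU f z, v), s) : (Cyl f × V) × ℂ) : OnePoint ((Cyl f × V) × ℂ)) =
        sm (Λ ((((Cyl.iU f z, v), (cRR s).1) : (Cyl f × V) × ℝ) :
          OnePoint ((Cyl f × V) × ℝ))) ((cRR s).2 : OnePoint ℝ) := rfl
    rw [hval]
    rcases hΛ z v (cRR s).1 with h | ⟨p, hp, h⟩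
    · left
      rw [h, sm_inf_left]
    · right
      refine ⟨(p, (cRR s).2), ?_, ?_⟩
      · rw [alphXX_le_iff]
        exact hp
      · rw [h]
        rfl
  · have h1 : C.comp Λ' = (PMap.ofHomeo (e2H θ)).comp
        ((((F1Pair893.collX A).comp Λ).smash (PMap.id ℝ)).comp
          (PMap.ofHomeo (e1H (Cyl f × V)))) := by
      have : ((F1Pair893.collX A).comp Λ).smash (PMap.id ℝ) =
          ((F1Pair893.collX A).smash (PMap.id ℝ)).comp (Λ.smash (PMap.id ℝ)) := by
        rw [PMap.smash_comp, PMap.comp_id]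
      rw [this]
      rfl
    rw [h1, hcoll]
    have h2 : (((PMap.ofHomeo θ.symm).comp ((Cyl.ret f).smash (PMap.id V))).smash
        F1Pair893.cR).Homotopic (((PMap.ofHomeo θ.symm).comp
          ((Cyl.ret f).smash (PMap.id V))).smash (PMap.ofHomeo hR)) :=
      (PMap.Homotopic.refl _).smash F1PairPow893.cR_homotopic
    have h3 := PMap.Homotopic.comp_left (PMap.ofHomeo (e2H θ))
      (PMap.Homotopic.comp_right (h2.smash (PMap.Homotopic.refl (PMap.id ℝ)))
        (PMap.ofHomeo (e1H (Cyl f × V))))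
    refine h3.trans (.of_eq ?_)
    refine PMap.ext fun x => ?_
    obtain ⟨⟨x, v⟩, s⟩ := x
    have key : ∀ y : OnePoint (α → ℂ), 
        PMap.ofHomeo (e2H θ) (sm (sm (PMap.ofHomeo θ.symm (sm y (v : OnePoint V)))
          ((hR (cRR s).1 : Ioi (0 : ℝ)) : OnePoint (Ioi (0 : ℝ)))) ((cRR s).2 : OnePoint ℝ)) =
        sm (sm y (v : OnePoint V)) (s : OnePoint ℂ) := by
      intro y
      induction y using OnePoint.rec with
      | infty => simp only [sm_inf_left, PMap.map_inf]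
      | coe y =>
        have hv : e2H θ ((θ.symm (y, v), hR (cRR s).1), (cRR s).2) =
            (((y, v), s) : ((α → ℂ) × V) × ℂ) := by
          change ((θ (θ.symm (y, v)), cRR.symm (hR.symm (hR (cRR s).1), (cRR s).2)) :
            ((α → ℂ) × V) × ℂ) = _
          rw [Homeomorph.apply_symm_apply, Homeomorph.symm_apply_apply, Prod.mk.eta,
            Homeomorph.symm_apply_apply]
        exact congrArg (fun q : ((α → ℂ) × V) × ℂ => (q : OnePoint (((α → ℂ) × V) × ℂ))) hv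
    exact key _

end Crest.Agent.R090.F1Core737
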