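import Crest.Agent.R090.Dens_255

/-!
# Row 90, F2' (doc 20): density in source form (owner helper466)

Abstract version over a contravariant functor `G` on `PMap`s which is middle exact for closed pairs:
if `op` is a natural endomorphism of `G` and `op x` vanishes on `Z × T` for all `x : G (M × T)`, then
`op^[K] x` vanishes on `P_{K,s+1} × T` for all `x : G (P_{K,s} × T)`.
-/

set_option autoImplicit false

open Topology Filter Set

namespace Crest.Agent.R090.F2w466

open OnePoint Sp962 Dens255

universe u v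

/-! ## point set part -/

section pts

variable {M : Type u} {Z : Set M} {K s : ℕ}

theorem setOf_cons (y : Fin (K + 1) → M) [Decidable (y 0 ∈ Z)] :
    {i | y i ∈ Z} = (if y 0 ∈ Z then {0} else ∅) ∪ Fin.succ '' {i | Fin.tail y i ∈ Z} := by
  ext i
  refine Fin.cases ?_ (fun i => ?_) i
  · by_cases h : y 0 ∈ Z
    · simp [h]
    · simp [h]
  · by_cases h : y 0 ∈ Z
    · simp [h, Fin.tail]
    · simp [h, Fin.tail]

theorem ncard_cons_of_notMem (y : Fin (K + 1) → M) (h : y 0 ∉ Z) :
    {i | y i ∈ Z}.ncard = {i | Fin.tail y i ∈ Z}.ncard := by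
  classical
  rw [setOf_cons, if_neg h, empty_union, ncard_image_of_injective _ (Fin.succ_injective _)]

theorem ncard_cons_le (y : Fin (K + 1) → M) :
    {i | y i ∈ Z}.ncard ≤ {i | Fin.tail y i ∈ Z}.ncard + 1 := by
  classical
  rw [setOf_cons]
  refine (ncard_union_le _ _).trans ?_
  rw [ncard_image_of_injective _ (Fin.succ_injective _), add_comm]
  gcongr
  split_ifs <;> simp

theorem le_ncard_cons (y : Fin (K + 1) → M) :
    {i | Fin.tail y i ∈ Z}.ncard ≤ {i | y i ∈ Z}.ncard := by
  classical
  rw [← ncard_image_of_injective _ (Fin.succ_injective _)]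
  refine ncard_le_ncard ?_ (toFinite _)
  rintro _ ⟨i, hi, rfl⟩
  exact hi

theorem tail_mem {y : Fin (K + 1) → M} (h : y ∈ PP Z (Fin (K + 1)) (s + 1)) :
    Fin.tail y ∈ PP Z (Fin K) s := by
  have h1 := ncard_cons_le (Z := Z) y
  rw [mem_PP] at h ⊢
  omega

theorem cons_mem {m : M} {x : Fin K → M} (h : x ∈ PP Z (Fin K) s) :
    (Fin.cons m x : Fin (K + 1) → M) ∈ PP Z (Fin (K + 1)) s := by
  have h1 := le_ncard_cons (Z := Z) (Fin.cons m x : Fin (K + 1) → M)
  rw [Fin.tail_cons] at h1
  exact le_trans h h1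

theorem tail_mem' {y : Fin (K + 1) → M} (h : y ∈ PP Z (Fin (K + 1)) (s + 1)) (h0 : y 0 ∉ Z) :
    Fin.tail y ∈ PP Z (Fin K) (s + 1) := by
  rw [mem_PP, ← ncard_cons_of_notMem _ h0]
  exact h

/-- split off the first coordinate -/
def consH (M : Type u) [TopologicalSpace M] (K : ℕ) :
    M × (Fin K → M) ≃ₜ (Fin (K + 1) → M) where
  toFun p := Fin.cons p.1 p.2
  invFun y := (y 0, Fin.tail y)
  left_inv p := by simp
  right_inv y := by simp
  continuous_toFun := by
    refine continuous_pi fun i => ?_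
    refine Fin.cases ?_ (fun i => ?_) i
    · simpa using continuous_fst
    · simp only [Fin.cons_succ]; fun_prop
  continuous_invFun := by
    refine Continuous.prodMk (continuous_apply 0) (continuous_pi fun i => ?_)
    exact continuous_apply i.succ

/-- `M × P_{K,s} → P_{K+1,s}` -/
def consE (Z : Set M) (K s : ℕ) : M × PP Z (Fin K) s → PP Z (Fin (K + 1)) s :=
  fun p => ⟨Fin.cons p.1 p.2.1, cons_mem p.2.2⟩

/-- `P_{K+1,s+1} → M × P_{K,s}` -/
def splitE (Z : Set M) (K s : ℕ) : PP Z (Fin (K + 1)) (s + 1) → M × PP Z (Fin K) s :=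
  fun y => (y.1 0, ⟨Fin.tail y.1, tail_mem y.2⟩)

/-- `Zᶜ × P_{K,s+1} → P_{K+1,s+1}` -/
def openE (Z : Set M) (K s : ℕ) : (Zᶜ : Set M) × PP Z (Fin K) s → PP Z (Fin (K + 1)) s :=
  fun p => ⟨Fin.cons p.1.1 p.2.1, cons_mem p.2.2⟩

variable [TopologicalSpace M]

theorem isClosedEmbedding_consE (hZ : IsClosed Z) : IsClosedEmbedding (consE Z K s) := by
  have h1 : IsClosedEmbedding (Subtype.val : PP Z (Fin (K + 1)) s → (Fin (K + 1) → M)) :=
    (isClosed_PP hZ s).isClosedEmbedding_subtypeVal
  rw [← h1.of_comp_iff]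
  exact (consH M K).isClosedEmbedding.comp
    (IsClosedEmbedding.id.prodMap (isClosed_PP hZ s).isClosedEmbedding_subtypeVal)

theorem isClosedEmbedding_splitE (hZ : IsClosed Z) : IsClosedEmbedding (splitE Z K s) := by
  have h1 : IsClosedEmbedding
      (Prod.map id Subtype.val : M × PP Z (Fin K) s → M × (Fin K → M)) :=
    IsClosedEmbedding.id.prodMap (isClosed_PP hZ s).isClosedEmbedding_subtypeVal
  rw [← h1.of_comp_iff]
  exact (consH M K).symm.isClosedEmbedding.comp
    (isClosed_PP hZ (s + 1)).isClosedEmbedding_subtypeVal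

theorem isOpenEmbedding_openE (hZ : IsClosed Z) :
    IsOpenEmbedding (openE Z K (s + 1)) := by
  have h1 : IsEmbedding (Subtype.val : PP Z (Fin (K + 1)) (s + 1) → (Fin (K + 1) → M)) :=
    IsEmbedding.subtypeVal
  refine ⟨?_, ?_⟩
  · rw [← h1.of_comp_iff]
    exact (consH M K).isEmbedding.comp (IsEmbedding.subtypeVal.prodMap IsEmbedding.subtypeVal)
  · have h2 : range (openE Z K (s + 1)) = {y | y.1 0 ∈ Zᶜ} := by
      ext y
      constructor
      · rintro ⟨p, rfl⟩
        exact p.1.2
      · intro h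
        refine ⟨(⟨y.1 0, h⟩, ⟨Fin.tail y.1, tail_mem' y.2 h⟩), ?_⟩
        refine Subtype.ext ?_
        simp [openE]
    rw [h2]
    exact hZ.isOpen_compl.preimage ((continuous_apply 0).comp continuous_subtype_val)

omit [TopologicalSpace M] in
theorem notMem_range_openE {y : PP Z (Fin (K + 1)) (s + 1)} (h : y.1 0 ∈ Z) :
    y ∉ range (openE Z K (s + 1)) := by
  rintro ⟨p, rfl⟩
  exact p.1.2 h

theorem isOpenEmbedding_compl (hZ : IsClosed Z) (T : Type u) [TopologicalSpace T] :
    IsOpenEmbedding (Prod.map Subtype.val id : (Zᶜ : Set M) × T → M × T) :=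
  hZ.isOpen_compl.isOpenEmbedding_subtypeVal.prodMap IsOpenEmbedding.id

theorem isClosedEmbedding_Z (hZ : IsClosed Z) (T : Type u) [TopologicalSpace T] :
    IsClosedEmbedding (Prod.map Subtype.val id : Z × T → M × T) :=
  hZ.isClosedEmbedding_subtypeVal.prodMap IsClosedEmbedding.id

end pts

/-! ## the functor -/

/-- a contravariant functor on pointed maps of locally compact Hausdorff spaces with values in
pointed sets, middle exact for every closed pair -/
structure PiF where
  /-- the functor -/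
  G : ∀ (T : Type u) [TopologicalSpace T] [T2Space T] [LocallyCompactSpace T], Type v
  /-- zero -/
  zero : ∀ (T : Type u) [TopologicalSpace T] [T2Space T] [LocallyCompactSpace T], G T
  /-- restriction -/
  res : ∀ {T T' : Type u} [TopologicalSpace T] [T2Space T] [LocallyCompactSpace T]
    [TopologicalSpace T'] [T2Space T'] [LocallyCompactSpace T'], PMap T T' → G T' → G T
  res_zero : ∀ {T T' : Type u} [TopologicalSpace T] [T2Space T] [LocallyCompactSpace T]
    [TopologicalSpace T'] [T2Space T'] [LocallyCompactSpace T'] (x : G T'),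
    res (PMap.zero T T') x = zero T
  res_id : ∀ {T : Type u} [TopologicalSpace T] [T2Space T] [LocallyCompactSpace T] (x : G T),
    res (PMap.id T) x = x
  res_comp : ∀ {T T' T'' : Type u} [TopologicalSpace T] [T2Space T] [LocallyCompactSpace T]
    [TopologicalSpace T'] [T2Space T'] [LocallyCompactSpace T']
    [TopologicalSpace T''] [T2Space T''] [LocallyCompactSpace T'']
    (g : PMap T' T'') (f : PMap T T') (x : G T''), res (g.comp f) x = res f (res g x)
  ex : ∀ {A T O : Type u} [TopologicalSpace A] [T2Space A] [LocallyCompactSpace A]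
    [TopologicalSpace T] [T2Space T] [LocallyCompactSpace T]
    [TopologicalSpace O] [T2Space O] [LocallyCompactSpace O]
    (e : A → T) (he : IsClosedEmbedding e) (o : O → T) (ho : IsOpenEmbedding o)
    (_ : range o = (range e)ᶜ) (x : G T), res (PMap.ofClosed e he) x = zero A →
    ∃ y : G O, res (PMap.ofOpen o ho) y = x

namespace PiF

variable (F : PiF.{u, v})

section

variable {T T' : Type u} [TopologicalSpace T] [T2Space T] [LocallyCompactSpace T]
    [TopologicalSpace T'] [T2Space T'] [LocallyCompactSpace T']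

theorem res_z (f : PMap T T') : F.res f (F.zero T') = F.zero T := by
  rw [← F.res_zero (T := T') (T' := T') (F.zero T'), ← F.res_comp]
  exact F.res_zero _

end

/-- a natural endomorphism -/
structure Op where
  /-- the map -/
  op : ∀ {T : Type u} [TopologicalSpace T] [T2Space T] [LocallyCompactSpace T], F.G T → F.G T
  nat : ∀ {T T' : Type u} [TopologicalSpace T] [T2Space T] [LocallyCompactSpace T]
    [TopologicalSpace T'] [T2Space T'] [LocallyCompactSpace T'] (f : PMap T T') (x : F.G T'),
    op (F.res f x) = F.res f (op x)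

namespace Op

variable {F}
variable (a : F.Op) {T T' : Type u} [TopologicalSpace T] [T2Space T] [LocallyCompactSpace T]
    [TopologicalSpace T'] [T2Space T'] [LocallyCompactSpace T']

theorem op_zero : a.op (F.zero T) = F.zero T := by
  have h := a.nat (PMap.zero T T) (F.zero T)
  rw [F.res_zero, F.res_zero] at h
  exact h

theorem iter_nat (n : ℕ) (f : PMap T T') (x : F.G T') :
    a.op^[n] (F.res f x) = F.res f (a.op^[n] x) := by
  induction n generalizing x with
  | zero => rfl
  | succ n ih => rw [Function.iterate_succ_apply, Function.iterate_succ_apply, a.nat, ih]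

end Op

end PiF

/-! ## density -/

section dens

variable {M : Type u} [TopologicalSpace M] [T2Space M] [LocallyCompactSpace M] {Z : Set M}
  [hZ' : Fact (IsClosed Z)]

instance instLcCompl : LocallyCompactSpace (Zᶜ : Set M) :=
  hZ'.out.isOpen_compl.isOpenEmbedding_subtypeVal.locallyCompactSpace

instance instLcZ : LocallyCompactSpace Z :=
  hZ'.out.isClosedEmbedding_subtypeVal.locallyCompactSpace

/-- the inclusion `P_{K,s+1} → P_{K,s}` -/
def inc (Z : Set M) [hZ' : Fact (IsClosed Z)] (K s : ℕ) :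
    PMap (PP Z (Fin K) (s + 1)) (PP Z (Fin K) s) :=
  inclS (isClosed_PP (ι := Fin K) hZ'.out (s + 1)) (PP_antitone Z (Nat.le_succ s))

theorem square (K s : ℕ) (T : Type u) [TopologicalSpace T] [T2Space T] [LocallyCompactSpace T] :
    ((PMap.ofOpen _ (isOpenEmbedding_compl hZ'.out (PP Z (Fin K) s × T))).comp
      (PMap.ofHomeo (Homeomorph.prodAssoc M (PP Z (Fin K) s) T))).comp
      ((PMap.ofClosed (splitE Z K s) (isClosedEmbedding_splitE hZ'.out)).smash (PMap.id T)) =
    ((PMap.ofHomeo (((Homeomorph.prodAssoc _ _ T).symm.trans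
        ((Homeomorph.prodComm _ _).prodCongr (Homeomorph.refl T))).trans
          (Homeomorph.prodAssoc _ _ T))).comp
      ((inc Z K s).smash (PMap.id ((Zᶜ : Set M) × T)))).comp
      ((PMap.ofHomeo (((Homeomorph.prodComm _ _).prodCongr (Homeomorph.refl T)).trans
        (Homeomorph.prodAssoc _ _ T))).comp
        ((PMap.ofOpen (openE Z K (s + 1)) (isOpenEmbedding_openE hZ'.out)).smash (PMap.id T))) := by
  refine PMap.ext ?_
  rintro ⟨y, t⟩
  by_cases h : y.1 0 ∈ Z
  · have h1 : (PMap.ofOpen (openE Z K (s + 1)) (isOpenEmbedding_openE hZ'.out))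
        (y : OnePoint (PP Z (Fin (K + 1)) (s + 1))) = ∞ :=
      PMap.ofOpen_of_notMem _ _ (notMem_range_openE h)
    have h2 : (PMap.ofOpen _ (isOpenEmbedding_compl hZ'.out (PP Z (Fin K) s × T)))
        (((y.1 0, ((⟨Fin.tail y.1, tail_mem y.2⟩ : PP Z (Fin K) s), t)) :
          M × (PP Z (Fin K) s × T)) : OnePoint (M × (PP Z (Fin K) s × T))) = ∞ := by
      refine PMap.ofOpen_of_notMem _ _ ?_
      rintro ⟨p, hp⟩
      have h3 : (p.1 : M) = y.1 0 := (Prod.ext_iff.1 hp).1
      exact p.1.2 (by rw [h3]; exact h)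
    simp only [PMap.comp_apply, PMap.smash_coe, h1, PMap.id_apply, sm_inf_left, PMap.map_inf]
    exact h2
  · obtain ⟨p, rfl⟩ : ∃ p, openE Z K (s + 1) p = y :=
      ⟨(⟨y.1 0, h⟩, ⟨Fin.tail y.1, tail_mem' y.2 h⟩), Subtype.ext (by simp [openE])⟩
    have h1 := PMap.ofOpen_coe (openE Z K (s + 1)) (isOpenEmbedding_openE hZ'.out) p
    simp only [PMap.comp_apply, PMap.smash_coe, h1, PMap.id_apply]
    have h3 := PMap.ofOpen_coe _ (isOpenEmbedding_compl hZ'.out (PP Z (Fin K) s × T))
      (p.1, ((⟨p.2.1, PP_antitone Z (Nat.le_succ s) p.2.2⟩ : PP Z (Fin K) s), t))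
    exact h3

/-- **F2'**: density, source form -/
theorem dens (F : PiF.{u, v}) (a : F.Op)
    (hyp : ∀ (T : Type u) [TopologicalSpace T] [T2Space T] [LocallyCompactSpace T]
      (x : F.G (M × T)), F.res (PMap.ofClosed _ (isClosedEmbedding_Z hZ'.out T)) (a.op x) =
        F.zero (Z × T)) (K : ℕ) :
    ∀ (s : ℕ) (T : Type u) [TopologicalSpace T] [T2Space T] [LocallyCompactSpace T]
      (x : F.G (PP Z (Fin K) s × T)),
      F.res ((inc Z K s).smash (PMap.id T)) (a.op^[K] x) = F.zero _ := by
  induction K with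
  | zero =>
    intro s T _ _ _ x
    have h : (inc Z 0 s).smash (PMap.id T) = PMap.zero _ _ := by
      refine PMap.ext ?_
      rintro ⟨⟨y, hy⟩, t⟩
      exfalso
      have : ({i : Fin 0 | y i ∈ Z}).ncard = 0 := by
        rw [Set.ncard_eq_zero]
        ext i
        exact i.elim0
      rw [mem_PP] at hy
      omega
    rw [h]
    exact F.res_zero _
  | succ K ih =>
    intro s T _ _ _ x
    have hZ := hZ'.out
    -- restriction to `M × P_{K,s}`
    set x1 := F.res ((PMap.ofClosed (consE Z K s) (isClosedEmbedding_consE hZ)).smash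
      (PMap.id T)) x with hx1
    set y := F.res (PMap.ofHomeo (Homeomorph.prodAssoc M (PP Z (Fin K) s) T).symm) x1 with hy
    have hxy : x1 = F.res (PMap.ofHomeo (Homeomorph.prodAssoc M (PP Z (Fin K) s) T)) y := by
      rw [hy, ← F.res_comp, PMap.ofHomeo_symm_comp, F.res_id]
    obtain ⟨h, hh⟩ := F.ex _ (isClosedEmbedding_Z hZ (PP Z (Fin K) s × T)) _
      (isOpenEmbedding_compl hZ (PP Z (Fin K) s × T)) (by
        ext ⟨m, p⟩
        constructor
        · rintro ⟨q, hq⟩ ⟨q', hq'⟩
          have h1 : (q.1 : M) = m := (Prod.ext_iff.1 hq).1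
          have h2 : (q'.1 : M) = m := (Prod.ext_iff.1 hq').1
          exact q.1.2 (by rw [h1, ← h2]; exact q'.1.2)
        · intro hm
          refine ⟨(⟨m, fun hm' => hm ⟨(⟨m, hm'⟩, p), rfl⟩⟩, p), rfl⟩) (a.op y) (hyp _ y)
    have e1 : (inc Z (K + 1) s).smash (PMap.id T) =
        ((PMap.ofClosed (consE Z K s) (isClosedEmbedding_consE hZ)).smash (PMap.id T)).comp
        ((PMap.ofClosed (splitE Z K s) (isClosedEmbedding_splitE hZ)).smash (PMap.id T)) := by
      refine PMap.ext ?_
      rintro ⟨y, t⟩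
      simp only [PMap.comp_apply, PMap.smash_coe, PMap.id_apply, PMap.ofClosed_coe, sm_coe]
      have : consE Z K s (splitE Z K s y) = Set.inclusion (PP_antitone Z (Nat.le_succ s)) y := by
        refine Subtype.ext ?_
        simp [consE, splitE]
      rw [this]
      rfl
    have e2 : a.op^[K + 1] x1 = F.res ((PMap.ofOpen _
        (isOpenEmbedding_compl hZ (PP Z (Fin K) s × T))).comp
        (PMap.ofHomeo (Homeomorph.prodAssoc M (PP Z (Fin K) s) T))) (a.op^[K] h) := by
      rw [Function.iterate_succ_apply, hxy, a.nat, ← hh, ← F.res_comp, a.iter_nat]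
    rw [e1, F.res_comp, ← a.iter_nat, ← hx1, e2, ← F.res_comp, square]
    generalize (PMap.ofHomeo (((Homeomorph.prodComm _ _).prodCongr (Homeomorph.refl T)).trans
        (Homeomorph.prodAssoc _ _ T))).comp
        ((PMap.ofOpen (openE Z K (s + 1)) (isOpenEmbedding_openE hZ'.out)).smash (PMap.id T)) = C
    rw [F.res_comp, F.res_comp, ← a.iter_nat, ih s _ _, F.res_z]

end dens

end Crest.Agent.R090.F2w466
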