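import Crest.Agent.R090.Puppe_962

/-!
# Row 90, leaf FM (finite models), unstable part: maps of mapping cones

`exists_map`: a homotopy commutative square `f' ∘ u ≃ v ∘ f` extends to a map of mapping cones
`w : MC f → MC f'` with `w ∘ i = i ∘ v` (strictly) and `p ∘ w ≃ (u ∧ 1) ∘ p`.
-/

set_option autoImplicit false
set_option linter.unusedSectionVars false

open Topology Filter Set unitInterval

namespace Crest.Agent.R090.FM554

open OnePoint Crest.Agent.R090.Sp962

universe u v w x

variable {U : Type u} {V : Type v} {U' : Type w} {V' : Type x}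
variable [TopologicalSpace U] [TopologicalSpace V] [TopologicalSpace U'] [TopologicalSpace V']
variable [T2Space U] [T2Space V] [LocallyCompactSpace U] [LocallyCompactSpace V]
variable [T2Space U'] [T2Space V'] [LocallyCompactSpace U'] [LocallyCompactSpace V']

/-- fill-in for mapping cones of a homotopy commutative square -/
theorem exists_map (f : PMap U V) (f' : PMap U' V') (a : PMap U U') (b : PMap V V')
    (h : (f'.comp a).Homotopic (b.comp f)) :
    ∃ w : PMap (MC f) (MC f'), w.comp (MC.i f) = (MC.i f').comp b ∧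
      ((MC.p f').comp w).Homotopic ((a.smash (PMap.id Io)).comp (MC.p f)) := by
  obtain ⟨K, hK, K0, K1, Ki⟩ := h.exists
  have K0' : ∀ y, K (0, y) = f' (a y) := K0
  have K1' : ∀ y, K (1, y) = b (f y) := K1
  let H : OnePoint U → ℝ → OnePoint (MC f') := fun z t =>
    if t ≤ 1 / 2 then MC.q f' (a z) (2 * t) else MC.i f' (K (cl (2 * t - 1), z))
  have hH : Continuous (fun p : OnePoint U × I => H p.1 p.2) := by
    refine Continuous.if_le ?_ ?_ (by fun_prop) (by fun_prop) ?_
    · exact (MC.continuous_q f').comp ((a.cont.comp (by fun_prop)).prodMk (by fun_prop))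
    · exact (MC.i f').cont.comp (hK.comp (Continuous.prodMk (by fun_prop) (by fun_prop)))
    · intro p hp
      rw [hp, cl_of_le (by norm_num), K0']
      norm_num
  have hinf : ∀ t, H ∞ t = ∞ := by
    intro t
    simp only [H]
    split_ifs
    · rw [a.map_inf, MC.q_inf]
    · rw [Ki, (MC.i f').map_inf]
  have h0 : ∀ z, H z 0 = ∞ := by
    intro z
    simp only [H]
    rw [if_pos (by norm_num), mul_zero, MC.q_zero]
  have h1 : ∀ z, H z 1 = ((MC.i f').comp b) (f z) := by
    intro z
    simp only [H]
    rw [if_neg (by norm_num), cl_of_ge (by norm_num), K1', PMap.comp_apply]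
  refine ⟨MC.desc f ((MC.i f').comp b) H hH hinf h0 h1, ?_, ?_⟩
  · refine PMap.ext fun y => ?_
    rw [PMap.comp_apply, MC.desc_i]
  · -- `p ∘ w (q a t) = a ∧ 2t`, reparametrise
    have hw : ∀ (z : OnePoint U) (t : ℝ), t ∈ Icc (0 : ℝ) 1 →
        MC.p f' (MC.desc f ((MC.i f').comp b) H hH hinf h0 h1 (MC.q f z t)) =
          sm (a z) (qI (2 * t)) := by
      intro z t ht
      rw [MC.desc_q _ _ _ _ _ _ _ _ ht]
      simp only [H]
      split_ifs with h2
      · rw [MC.p_q]
      · rw [MC.p_i, qI_of_ge (by linarith), sm_inf_right]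
    let G : I → OnePoint (MC f) → OnePoint (U' × Io) := fun s =>
      MC.lift f (fun z t => sm (a z) (qI ((2 - (s : ℝ)) * t))) (fun _ => ∞)
    have hGq : ∀ (s : I) (z : OnePoint U) (t : ℝ), t ∈ Icc (0 : ℝ) 1 →
        G s (MC.q f z t) = sm (a z) (qI ((2 - (s : ℝ)) * t)) := by
      intro s z t ht
      refine MC.lift_q f _ _ ?_ ?_ ?_ z ht
      · intro t; simp
      · intro z; rw [mul_zero, qI_of_le le_rfl, sm_inf_right]
      · intro z; rw [qI_of_ge (by have := s.2.2; linarith), sm_inf_right]
    have hGi : ∀ (s : I) (y : OnePoint V), G s (MC.i f y) = ∞ := fun s y => MC.lift_i f _ _ y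
    have hG : Continuous (fun p : I × OnePoint (MC f) => G p.1 p.2) := by
      refine MC.continuous_of f ?_ ?_
      · have : (fun p : I × (OnePoint U × I) => G p.1 (MC.q f p.2.1 p.2.2)) =
            fun p => sm (a p.2.1) (qI ((2 - (p.1 : ℝ)) * p.2.2)) := by
          funext p
          exact hGq p.1 p.2.1 p.2.2 p.2.2.2
        simp only
        rw [this]
        exact (a.cont.comp (by fun_prop)).sm962 (continuous_qI.comp (by fun_prop))
      · have : (fun p : I × OnePoint V => G p.1 (MC.i f p.2)) = fun _ => ∞ := by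
          funext p
          exact hGi p.1 p.2
        simp only
        rw [this]; exact continuous_const
    refine PMap.Homotopic.of (fun p => G p.1 p.2) hG ?_ ?_ ?_
    · intro z
      generalize (z : OnePoint (MC f)) = z'
      refine MC.cases f (P := fun z' => G 0 z' = ((MC.p f').comp
        (MC.desc f ((MC.i f').comp b) H hH hinf h0 h1)) z') ?_ ?_ z'
      · intro z t ht
        rw [hGq 0 z t ht, PMap.comp_apply, hw z t ht]
        simp
      · intro y
        rw [hGi, PMap.comp_apply, MC.desc_i, PMap.comp_apply, MC.p_i]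
    · intro z
      generalize (z : OnePoint (MC f)) = z'
      refine MC.cases f (P := fun z' => G 1 z' = ((a.smash (PMap.id Io)).comp (MC.p f)) z') ?_ ?_ z'
      · intro z t ht
        rw [hGq 1 z t ht, PMap.comp_apply, MC.p_q, PMap.smash_sm, PMap.id_apply]
        congr 2
        simp only [Set.Icc.coe_one]
        ring
      · intro y
        rw [hGi, PMap.comp_apply, MC.p_i, PMap.map_inf]
    · intro t
      change G t ∞ = ∞
      have := hGi t ∞
      rwa [(MC.i f).map_inf] at this

end Crest.Agent.R090.FM554
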