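import Crest.Agent.R090.FMSB_554
import Crest.Agent.R090.FMCone_554
import Crest.Agent.R090.Exc_503
import Mathlib.Algebra.FiveLemma

/-!
# Row 90, leaf FM: contravariant cohomology functors and `EIso`

`CoT` : a contravariant homotopy functor with values in abelian groups, exact on mapping cone
sequences, for which the collapse `MC (F → U) → U \ F` is an isomorphism for every closed pair
(instances: `St (-) E` for spheres `E`, Alexander–Spanier cohomology with compact supports).

`EIso 𝓕 ρ` : `ρ ∧ 1_W` is an isomorphism for all functors of the family `𝓕` and all `W`.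
-/

set_option autoImplicit false
set_option linter.unusedSectionVars false

open Topology Filter Set unitInterval

namespace Crest.Agent.R090.FM554

open OnePoint Crest.Agent.R090.Sp962
open Crest.Agent.R090.Exc503 (OC)

/-- contravariant cohomology functors on locally compact Hausdorff spaces -/
structure CoT where
  /-- the groups -/
  H : ∀ (X : Type) [TopologicalSpace X] [T2Space X] [LocallyCompactSpace X], Type
  [grp : ∀ (X : Type) [TopologicalSpace X] [T2Space X] [LocallyCompactSpace X], AddCommGroup (H X)]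
  /-- functoriality -/
  map : ∀ {X Y : Type} [TopologicalSpace X] [T2Space X] [LocallyCompactSpace X]
    [TopologicalSpace Y] [T2Space Y] [LocallyCompactSpace Y], PMap X Y → (H Y →+ H X)
  map_id : ∀ (X : Type) [TopologicalSpace X] [T2Space X] [LocallyCompactSpace X] (y : H X),
    map (PMap.id X) y = y
  map_comp : ∀ {X Y Z : Type} [TopologicalSpace X] [T2Space X] [LocallyCompactSpace X]
    [TopologicalSpace Y] [T2Space Y] [LocallyCompactSpace Y]
    [TopologicalSpace Z] [T2Space Z] [LocallyCompactSpace Z] (g : PMap Y Z) (f : PMap X Y)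
    (y : H Z), map (g.comp f) y = map f (map g y)
  map_homotopic : ∀ {X Y : Type} [TopologicalSpace X] [T2Space X] [LocallyCompactSpace X]
    [TopologicalSpace Y] [T2Space Y] [LocallyCompactSpace Y] {f g : PMap X Y},
    f.Homotopic g → map f = map g
  ex_i : ∀ {X Y : Type} [TopologicalSpace X] [T2Space X] [LocallyCompactSpace X]
    [TopologicalSpace Y] [T2Space Y] [LocallyCompactSpace Y] (f : PMap X Y),
    Function.Exact (map (MC.i f)) (map f)
  ex_p : ∀ {X Y : Type} [TopologicalSpace X] [T2Space X] [LocallyCompactSpace X]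
    [TopologicalSpace Y] [T2Space Y] [LocallyCompactSpace Y] (f : PMap X Y),
    Function.Exact (map (MC.p f)) (map (MC.i f))
  ex_s : ∀ {X Y : Type} [TopologicalSpace X] [T2Space X] [LocallyCompactSpace X]
    [TopologicalSpace Y] [T2Space Y] [LocallyCompactSpace Y] (f : PMap X Y),
    Function.Exact (map (f.smash (PMap.id Io))) (map (MC.p f))
  col : ∀ {F U O : Type} [TopologicalSpace F] [T2Space F] [LocallyCompactSpace F]
    [TopologicalSpace U] [T2Space U] [LocallyCompactSpace U]
    [TopologicalSpace O] [T2Space O] [LocallyCompactSpace O] {i : F → U} {e : O → U}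
    (h : OC i e), Function.Bijective (map h.c)

attribute [instance] CoT.grp

variable {X Y Z X' Y' Z' W R : Type}
variable [TopologicalSpace X] [T2Space X] [LocallyCompactSpace X]
variable [TopologicalSpace Y] [T2Space Y] [LocallyCompactSpace Y]
variable [TopologicalSpace Z] [T2Space Z] [LocallyCompactSpace Z]
variable [TopologicalSpace X'] [T2Space X'] [LocallyCompactSpace X']
variable [TopologicalSpace Y'] [T2Space Y'] [LocallyCompactSpace Y']
variable [TopologicalSpace Z'] [T2Space Z'] [LocallyCompactSpace Z']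
variable [TopologicalSpace W] [T2Space W] [LocallyCompactSpace W]
variable [TopologicalSpace R] [T2Space R] [LocallyCompactSpace R]

namespace CoT

variable (T : CoT)

theorem map_comp_fun (g : PMap Y Z) (f : PMap X Y) :
    ⇑(T.map (g.comp f)) = T.map f ∘ T.map g := funext fun y => T.map_comp g f y

theorem map_id_fun : ⇑(T.map (PMap.id X)) = id := funext fun y => T.map_id X y

theorem bij_comp {g : PMap Y Z} {f : PMap X Y} (hg : Function.Bijective (T.map g))
    (hf : Function.Bijective (T.map f)) : Function.Bijective (T.map (g.comp f)) := by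
  rw [T.map_comp_fun]; exact hf.comp hg

theorem bij_of_comp_left {g : PMap Y Z} {f : PMap X Y} (hf : Function.Bijective (T.map f))
    (h : Function.Bijective (T.map (g.comp f))) : Function.Bijective (T.map g) := by
  rw [T.map_comp_fun] at h
  exact (Function.Bijective.of_comp_iff' hf _).1 h

theorem bij_of_comp_right {g : PMap Y Z} {f : PMap X Y} (hg : Function.Bijective (T.map g))
    (h : Function.Bijective (T.map (g.comp f))) : Function.Bijective (T.map f) := by
  rw [T.map_comp_fun] at h
  exact (Function.Bijective.of_comp_iff _ hg).1 h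

theorem bij_congr {f g : PMap X Y} (h : f.Homotopic g) :
    Function.Bijective (T.map f) ↔ Function.Bijective (T.map g) := by
  rw [T.map_homotopic h]

theorem bij_id : Function.Bijective (T.map (PMap.id X)) := by
  rw [T.map_id_fun]; exact Function.bijective_id

theorem bij_of_inv {f : PMap X Y} {g : PMap Y X} (h1 : (g.comp f).Homotopic (PMap.id X))
    (h2 : (f.comp g).Homotopic (PMap.id Y)) : Function.Bijective (T.map f) := by
  refine Function.bijective_iff_has_inverse.2 ⟨T.map g, fun y => ?_, fun y => ?_⟩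
  · rw [← T.map_comp, T.map_homotopic h2, T.map_id]
  · rw [← T.map_comp, T.map_homotopic h1, T.map_id]

theorem bij_homeo (e : X ≃ₜ Y) : Function.Bijective (T.map (PMap.ofHomeo e)) :=
  T.bij_of_inv (PMap.Homotopic.of_eq (PMap.ofHomeo_symm_comp e))
    (PMap.Homotopic.of_eq (PMap.ofHomeo_comp_symm e))

/-- five lemma for mapping cones -/
theorem five {f : PMap X Y} {f' : PMap X' Y'} {a : PMap X X'} {b : PMap Y Y'}
    {w : PMap (MC f) (MC f')} (h0 : (f'.comp a).Homotopic (b.comp f))
    (h1 : (w.comp (MC.i f)).Homotopic ((MC.i f').comp b))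
    (h2 : ((MC.p f').comp w).Homotopic ((a.smash (PMap.id Io)).comp (MC.p f)))
    (ha : Function.Bijective (T.map a)) (hb : Function.Bijective (T.map b))
    (ha' : Function.Bijective (T.map (a.smash (PMap.id Io))))
    (hb' : Function.Bijective (T.map (b.smash (PMap.id Io)))) :
    Function.Bijective (T.map w) := by
  refine AddMonoidHom.bijective_of_surjective_of_bijective_of_bijective_of_injective
    (T.map (f'.smash (PMap.id Io))) (T.map (MC.p f')) (T.map (MC.i f')) (T.map f')
    (T.map (f.smash (PMap.id Io))) (T.map (MC.p f)) (T.map (MC.i f)) (T.map f)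
    (T.map (b.smash (PMap.id Io))) (T.map (a.smash (PMap.id Io))) (T.map w) (T.map b) (T.map a)
    ?_ ?_ ?_ ?_ (T.ex_s f') (T.ex_p f') (T.ex_i f') (T.ex_s f) (T.ex_p f) (T.ex_i f)
    hb'.surjective ha' hb ha.injective
  · ext y
    simp only [AddMonoidHom.comp_apply]
    rw [← T.map_comp, ← T.map_comp, PMap.smash_comp, PMap.smash_comp,
      T.map_homotopic (h0.symm.smash (PMap.Homotopic.refl _))]
  · ext y
    simp only [AddMonoidHom.comp_apply]
    rw [← T.map_comp, ← T.map_comp, T.map_homotopic h2]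
  · ext y
    simp only [AddMonoidHom.comp_apply]
    rw [← T.map_comp, ← T.map_comp, T.map_homotopic h1]
  · ext y
    simp only [AddMonoidHom.comp_apply]
    rw [← T.map_comp, ← T.map_comp, T.map_homotopic h0]

end CoT

/-- the family-wise isomorphism property, tested with all `W` -/
def EIso (𝓕 : Set CoT) (ρ : PMap X Y) : Prop :=
  ∀ T ∈ 𝓕, ∀ (W : Type) [TopologicalSpace W] [T2Space W] [LocallyCompactSpace W],
    Function.Bijective (T.map (ρ.smash (PMap.id W)))

/-- naturality of the associator -/
theorem assoc_smash (ρ : PMap X Y) :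
    (PMap.ofHomeo (Homeomorph.prodAssoc Y R W)).comp
      ((ρ.smash (PMap.id R)).smash (PMap.id W)) =
    (ρ.smash (PMap.id (R × W))).comp (PMap.ofHomeo (Homeomorph.prodAssoc X R W)) := by
  refine PMap.ext fun p => ?_
  obtain ⟨⟨x, r⟩, w⟩ := p
  change (PMap.ofHomeo (Homeomorph.prodAssoc Y R W)) (sm (sm (ρ x) (r : OnePoint R))
    (w : OnePoint W)) = sm (ρ x) (((r, w) : R × W) : OnePoint (R × W))
  generalize ρ x = y
  induction y using OnePoint.rec with
  | infty => simp
  | coe y => rfl

theorem comm_smash (ρ : PMap X Y) :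
    (PMap.ofHomeo (Homeomorph.prodComm Y R)).comp (ρ.smash (PMap.id R)) =
    ((PMap.id R).smash ρ).comp (PMap.ofHomeo (Homeomorph.prodComm X R)) := by
  refine PMap.ext fun p => ?_
  obtain ⟨x, r⟩ := p
  change (PMap.ofHomeo (Homeomorph.prodComm Y R)) (sm (ρ x) (r : OnePoint R)) =
    sm (r : OnePoint R) (ρ x)
  generalize ρ x = y
  induction y using OnePoint.rec with
  | infty => simp
  | coe y => rfl

namespace EIso

variable {𝓕 : Set CoT}

theorem congr {f g : PMap X Y} (h : f.Homotopic g) (hf : EIso 𝓕 f) : EIso 𝓕 g := by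
  intro T hT W _ _ _
  rw [← T.map_homotopic (h.smash (PMap.Homotopic.refl _))]
  exact hf T hT W

theorem comp {g : PMap Y Z} {f : PMap X Y} (hg : EIso 𝓕 g) (hf : EIso 𝓕 f) :
    EIso 𝓕 (g.comp f) := by
  intro T hT W _ _ _
  have := T.bij_comp (hg T hT W) (hf T hT W)
  rwa [PMap.smash_comp, PMap.comp_id] at this

theorem of_comp_left {g : PMap Y Z} {f : PMap X Y} (hf : EIso 𝓕 f) (h : EIso 𝓕 (g.comp f)) :
    EIso 𝓕 g := by
  intro T hT W _ _ _
  refine T.bij_of_comp_left (hf T hT W) ?_
  rw [PMap.smash_comp, PMap.comp_id]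
  exact h T hT W

theorem of_comp_right {g : PMap Y Z} {f : PMap X Y} (hg : EIso 𝓕 g) (h : EIso 𝓕 (g.comp f)) :
    EIso 𝓕 f := by
  intro T hT W _ _ _
  refine T.bij_of_comp_right (hg T hT W) ?_
  rw [PMap.smash_comp, PMap.comp_id]
  exact h T hT W

theorem of_inv {f : PMap X Y} {g : PMap Y X} (h1 : (g.comp f).Homotopic (PMap.id X))
    (h2 : (f.comp g).Homotopic (PMap.id Y)) : EIso 𝓕 f := by
  intro T hT W _ _ _
  refine T.bij_of_inv (g := g.smash (PMap.id W)) ?_ ?_
  · rw [PMap.smash_comp, PMap.comp_id]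
    exact (h1.smash (PMap.Homotopic.refl _)).trans (PMap.Homotopic.of_eq (by simp))
  · rw [PMap.smash_comp, PMap.comp_id]
    exact (h2.smash (PMap.Homotopic.refl _)).trans (PMap.Homotopic.of_eq (by simp))

theorem homeo (e : X ≃ₜ Y) : EIso 𝓕 (PMap.ofHomeo e) :=
  of_inv (PMap.Homotopic.of_eq (PMap.ofHomeo_symm_comp e))
    (PMap.Homotopic.of_eq (PMap.ofHomeo_comp_symm e))

theorem id : EIso 𝓕 (PMap.id X) := by
  have := EIso.homeo (𝓕 := 𝓕) (Homeomorph.refl X)
  rwa [PMap.ofHomeo_refl] at this

/-- `ρ ∧ 1_R` -/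
theorem smash_right {ρ : PMap X Y} (h : EIso 𝓕 ρ) (R : Type) [TopologicalSpace R] [T2Space R]
    [LocallyCompactSpace R] : EIso 𝓕 (ρ.smash (PMap.id R)) := by
  intro T hT W _ _ _
  refine T.bij_of_comp_right (T.bij_homeo (Homeomorph.prodAssoc Y R W)) ?_
  rw [assoc_smash]
  exact T.bij_comp (h T hT (R × W)) (T.bij_homeo _)

/-- `1_R ∧ ρ` -/
theorem smash_left {ρ : PMap X Y} (h : EIso 𝓕 ρ) (R : Type) [TopologicalSpace R] [T2Space R]
    [LocallyCompactSpace R] : EIso 𝓕 ((PMap.id R).smash ρ) := by
  refine of_comp_left (homeo (Homeomorph.prodComm X R)) ?_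
  rw [← comm_smash]
  exact (homeo _).comp (h.smash_right R)

/-- products -/
theorem smash {ρ : PMap X Y} {ρ' : PMap X' Y'} (h : EIso 𝓕 ρ) (h' : EIso 𝓕 ρ') :
    EIso 𝓕 (ρ.smash ρ') := by
  have e : ρ.smash ρ' = (ρ.smash (PMap.id Y')).comp ((PMap.id X).smash ρ') := by
    rw [PMap.smash_comp, PMap.comp_id, PMap.id_comp]
  rw [e]
  exact (h.smash_right Y').comp (h'.smash_left X)

/-- conjugation by homeomorphisms -/
theorem conj (e : X ≃ₜ X') (e' : Y ≃ₜ Y') {ρ : PMap X Y} {ρ' : PMap X' Y'} (h : EIso 𝓕 ρ)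
    (hc : ρ'.comp (PMap.ofHomeo e) = (PMap.ofHomeo e').comp ρ) : EIso 𝓕 ρ' := by
  refine of_comp_left (homeo e) ?_
  rw [hc]
  exact (homeo e').comp h

end EIso

end Crest.Agent.R090.FM554
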