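import Crest.Agent.R090.Sph_285
import Crest.Agent.R090.Kun_493

/-!
# Row 90, leaf AS6 (helper285): unit from 493's `KX`, EXTRACT-ready form of AS6
-/

set_option autoImplicit false
set_option linter.unusedSectionVars false
set_option linter.style.haveILetI false

namespace Crest.Agent.R090.HSt285

open Topology Set Crest.Agent.R090.Sp962 Crest.Agent.R090.Grp528 Crest.Agent.R090.St528
open Crest.Agent.R090.CohT253 Crest.Agent.R090.Sm202

variable {F : Type} [Field F] {H : CohX F}

/-- right unit -/
theorem cr_one_of (K : Kun493.KX H) (U : Type) [TopologicalSpace U] [T2Space U]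
    [LocallyCompactSpace U] (x : H.h U) :
    H.cr U Unit x K.one = H.map (PMap.ofHomeo (Homeomorph.prodPUnit U)) x := by
  have h1 : H.map (PMap.ofHomeo (Homeomorph.prodComm U Unit)) (H.cr Unit U K.one x) =
      H.cr U Unit x K.one := H.cr_comm_even K.one x K.eps_one
  have h2 := K.one_cr U x
  have h3 : H.cr Unit U K.one x = H.map (PMap.ofHomeo (Homeomorph.punitProd U)) x := by
    rw [← h2, ← H.map_comp, h2, PMap.ofHomeo_symm_comp, H.map_id]
  rw [← h1, h3, ← H.map_comp]
  have h4 : (PMap.ofHomeo (Homeomorph.punitProd U)).comp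
      (PMap.ofHomeo (Homeomorph.prodComm U Unit)) = PMap.ofHomeo (Homeomorph.prodPUnit U) :=
    PMap.ext fun _ => rfl
  rw [h4]

/-- unit and real suspension class from `KX` and a real suspension class -/
def RSusp.ofKX (K : Kun493.KX H) (sr : H.h ℝ) (eps_sr : H.eps ℝ sr = -sr)
    (suspR : ∀ (U : Type) [TopologicalSpace U] [T2Space U] [LocallyCompactSpace U],
      Function.Bijective (fun x : H.h U => H.cr U ℝ x sr)) : RSusp H where
  one := K.one
  one_ne := K.one_ne
  one_span := K.one_gen
  eps_one := K.eps_one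
  cr_one := cr_one_of K
  sr := sr
  eps_sr := eps_sr
  suspR := suspR

/-- **AS6, final form**: Künneth class `M`, duality datum over `ℝ^k`, `θ = m • 1` ⟹ `L(φ) = m` -/
theorem RSusp.Lst_eq_of_KU (R : RSusp H) {M B : Type} [TopologicalSpace M] [TopologicalSpace B]
    [T2Space M] [LocallyCompactSpace M] [T2Space B] [LocallyCompactSpace B]
    (h2 : (2 : F) ≠ 0) (hM : Kun493.KU H M) (k : ℕ) (g : St (Fin k → ℝ) (B × M))
    (u : St (M × B) (Fin k → ℝ))
    (tri : (u.smR M).comp ((sh (Homeomorph.prodAssoc M B M).symm).comp (g.smL M)) =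
      sh (Homeomorph.prodComm M (Fin k → ℝ))) (φ : St M M) (m : ℤ)
    (hm : u.comp ((φ.smR B).comp ((sh (Homeomorph.prodComm B M)).comp g)) =
      m • St.id (Fin k → ℝ)) :
    H.Lst φ = (m : F) :=
  R.Lst_eq h2 k g u tri (RSusp.exists_sum (hM B).2 _) φ m hm

end Crest.Agent.R090.HSt285
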