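import Crest.Agent.R090.Start4_902
import Crest.Agent.R090.Sph2_285
import Crest.Agent.R090.Free_253

/-!
# Row 90, A-START (helper963): the instance of helper902's `LTh` from `CohX` + `KX`

`csph K n : h (Fin n → ℂ)` : the even generator of the cohomology of `ℂ^n`;
`fin_cell`, `L_cell` : `h (ℂ^n)` is one dimensional and even, `L (id) = 1`;
`lthX : LTh F`.
-/

set_option autoImplicit false
set_option linter.unusedSectionVars false
set_option linter.style.haveILetI false

namespace Crest.Agent.R090.LThInst963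

open Topology Set Crest.Agent.R090.Sp962 Crest.Agent.R090.Grp528 Crest.Agent.R090.St528
open Crest.Agent.R090.CohT253 Crest.Agent.R090.Sm202 Crest.Agent.R090.HSt285
open Crest.Agent.R090.Kun493 (KX)
open Crest.Agent.R090.HSt285.RSusp

variable {F : Type} [Field F] {H : CohX F} (K : KX H)

variable {X : Type} [TopologicalSpace X] [T2Space X] [LocallyCompactSpace X]

/-- `(Fin 0 → ℂ) ≃ Unit` -/
def f0 : (Fin 0 → ℂ) ≃ₜ Unit where
  toFun _ := ()
  invFun _ := fun i => i.elim0
  left_inv _ := Subsingleton.elim _ _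
  right_inv _ := rfl
  continuous_toFun := continuous_const
  continuous_invFun := continuous_const

/-- `(Fin (n+1) → ℂ) ≃ (Fin n → ℂ) × ℂ` -/
def fS (n : ℕ) : (Fin (n + 1) → ℂ) ≃ₜ (Fin n → ℂ) × ℂ where
  toFun v := (fun i => v i.castSucc, v (Fin.last n))
  invFun q := Fin.snoc (α := fun _ => ℂ) q.1 q.2
  left_inv v := Fin.snoc_init_self v
  right_inv q := by
    obtain ⟨v, c⟩ := q
    simp
  continuous_toFun := by fun_prop
  continuous_invFun := Continuous.finSnoc (A := fun _ => ℂ) continuous_fst continuous_snd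

/-- the generator of the cohomology of `ℂ^n` -/
noncomputable def csph (K : KX H) : ∀ n : ℕ, H.h (Fin n → ℂ)
  | 0 => H.hc (hh f0) K.one
  | n + 1 => H.hc (hh (fS n)) (H.cr (Fin n → ℂ) ℂ (csph K n) H.sg)

theorem csph_succ (n : ℕ) :
    csph K (n + 1) = H.hc (hh (fS n)) (H.cr (Fin n → ℂ) ℂ (csph K n) H.sg) := rfl

theorem csph_ne (n : ℕ) : csph K n ≠ 0 := by
  induction n with
  | zero =>
    intro h
    refine K.one_ne ((H.hc_hh_bijective f0).1 ?_)
    rw [map_zero]; exact h
  | succ n ih =>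
    intro h
    have h1 : H.cr (Fin n → ℂ) ℂ (csph K n) H.sg = 0 := by
      refine (H.hc_hh_bijective (fS n)).1 ?_
      rw [map_zero]; exact h
    refine ih ((H.susp (Fin n → ℂ)).1 ?_)
    change H.cr _ _ _ _ = H.cr _ _ _ _
    rw [h1, map_zero, LinearMap.zero_apply]

theorem csph_span (n : ℕ) (s : H.h (Fin n → ℂ)) : ∃ c : F, s = c • csph K n := by
  induction n with
  | zero =>
    obtain ⟨t, rfl⟩ := (H.hc_hh_bijective f0).2 s
    obtain ⟨c, rfl⟩ := K.one_gen t
    exact ⟨c, map_smul _ _ _⟩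
  | succ n ih =>
    obtain ⟨t, rfl⟩ := (H.hc_hh_bijective (fS n)).2 s
    obtain ⟨r, rfl⟩ := (H.susp (Fin n → ℂ)).2 t
    obtain ⟨c, rfl⟩ := ih r
    refine ⟨c, ?_⟩
    change H.hc (hh (fS n)) (H.cr _ _ (c • csph K n) H.sg) = _
    rw [map_smul, LinearMap.smul_apply, map_smul, csph_succ]

theorem eps_csph (n : ℕ) : H.eps _ (csph K n) = csph K n := by
  induction n with
  | zero => rw [csph, H.eps_hc, K.eps_one]
  | succ n ih => rw [csph_succ, H.eps_hc, H.eps_cr, ih, H.eps_sg]

/-- `x ↦ x × csph n` is bijective -/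
theorem cr_csph_bijective (n : ℕ) :
    Function.Bijective (fun x : H.h X => H.cr X (Fin n → ℂ) x (csph K n)) := by
  induction n with
  | zero =>
    have e : (fun x : H.h X => H.cr X (Fin 0 → ℂ) x (csph K 0)) =
        H.hc (hh (((Homeomorph.refl X).prodCongr f0).trans (Homeomorph.prodPUnit X))) := by
      funext x
      have h1' : H.cr X Unit x K.one = H.hc (hh (Homeomorph.prodPUnit X)) x := cr_one_of K X x
      change H.cr X (Fin 0 → ℂ) x (H.hc (hh f0) K.one) = _
      rw [← H.hc_h1_smash, h1', hh_trans, H.hc_comp, ← hh_smash, hh_refl]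
    rw [e]
    exact H.hc_hh_bijective _
  | succ n ih =>
    have e : (fun x : H.h X => H.cr X (Fin (n + 1) → ℂ) x (csph K (n + 1))) =
        (H.hc (hh (((Homeomorph.refl X).prodCongr (fS n)).trans
          (Homeomorph.prodAssoc X (Fin n → ℂ) ℂ).symm))) ∘
        (fun y : H.h (X × (Fin n → ℂ)) => H.cr _ ℂ y H.sg) ∘
        (fun x : H.h X => H.cr X (Fin n → ℂ) x (csph K n)) := by
      funext x
      simp only [Function.comp_apply]
      rw [csph_succ, ← H.hc_h1_smash, ← H.cr_assoc_symm, hh_trans, H.hc_comp, ← hh_smash, hh_refl]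
    rw [e]
    exact (H.hc_hh_bijective _).comp ((H.susp _).comp ih)

include K in
theorem fin_cell (n : ℕ) : H.toCoh.Fin (Fin n → ℂ) := by
  refine ⟨⟨{csph K n}, ?_⟩⟩
  rw [eq_top_iff]
  rintro s -
  obtain ⟨c, rfl⟩ := csph_span K n s
  exact Submodule.smul_mem _ _ (Submodule.subset_span (by simp))

include K in
theorem L_cell (n : ℕ) : H.toCoh.L (PMap.id (Fin n → ℂ)) = 1 := by
  have hT : H.toCoh.T (PMap.id (Fin n → ℂ)) = LinearMap.id := by
    ext x
    obtain ⟨c, rfl⟩ := csph_span K n x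
    rw [Coh.T_apply, H.map_id, map_smul, eps_csph]
    rfl
  have hd : Module.finrank F (H.h (Fin n → ℂ)) = 1 :=
    finrank_eq_one_iff'.2 ⟨csph K n, csph_ne K n, fun w => by
      obtain ⟨c, hc⟩ := csph_span K n w
      exact ⟨c, hc.symm⟩⟩
  have : FiniteDimensional F (H.h (Fin n → ℂ)) := fin_cell K n
  rw [Coh.L, hT, LinearMap.trace_id, hd, Nat.cast_one]

theorem hmap' {U V : Type} [TopologicalSpace U] [T2Space U] [LocallyCompactSpace U]
    [TopologicalSpace V] [T2Space V] [LocallyCompactSpace V] {f g : PMap U V}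
    (h : f.Homotopic g) : H.toCoh.map f = H.toCoh.map g :=
  LinearMap.ext fun x => H.hmap h x

theorem fin_empty (U : Type) [TopologicalSpace U] [T2Space U] [LocallyCompactSpace U]
    [IsEmpty U] : H.toCoh.Fin U := by
  refine ⟨⟨∅, ?_⟩⟩
  rw [eq_top_iff]
  rintro s -
  rw [Coh.eq_zero_of_isEmpty (H := H.toCoh) s]
  exact zero_mem _

/-- the Lefschetz numbers of `H` -/
noncomputable def lthX (K : KX H) : Start902.LTh F :=
  Start902.LTh.ofCoh H.toCoh (fun h => hmap' h) (fun U _ _ _ _ => fin_empty U)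
    (fin_cell K) (L_cell K)

end Crest.Agent.R090.LThInst963
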