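import Crest.Agent.R090.FMTop_554
import Crest.Agent.R090.LThInst_963
import Crest.Agent.R090.IdQ_669
import Crest.Agent.R090.Kun2_493

/-!
# Row 90, leaf FM: models and the ideal (helper554)

* `EIso.eInj`     : an `EIso` is an `EInj` of helper669, even after smashing;
* `CC.of_SB`      : sphere-built spaces are in the Künneth class;
* `Lst_smR_pi`    : `L (φ ∧ 1_{ℂ^n}) = L φ`;
* `exists_model`  : a stable self map of a space with a model is modelled by a stable self map of
  a sphere-built space, with the same Lefschetz number, contained in every ideal containing `φ`;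
* `extract_of_SB` : extraction for sphere-built spaces gives extraction for spaces with a model.
-/

set_option autoImplicit false
set_option linter.unusedSectionVars false
set_option linter.style.haveILetI false

open Topology Filter Set unitInterval

namespace Crest.Agent.R090.FM554

open OnePoint Crest.Agent.R090.Sp962 Crest.Agent.R090.Sm202
open Crest.Agent.R090.St528 (St S)
open Crest.Agent.R090.Spine (IdQ)
open Crest.Agent.R090.IdS669 (EInj)
open Crest.Agent.R090.Kun493 (CC KX KU)
open Crest.Agent.R090.HSt285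

/-- an `EIso` is injective on all sphere targets, with parameters -/
theorem EIso.eInj {X Y : Type} [TopologicalSpace X] [T2Space X] [LocallyCompactSpace X]
    [TopologicalSpace Y] [T2Space Y] [LocallyCompactSpace Y] {𝓕 : Set CoT}
    (h𝓕 : ∀ m, cotSt m ∈ 𝓕) {ρ : PMap X Y} (h : EIso 𝓕 ρ) : EInj (St.ofP ρ) := by
  intro B _ _ _ N y hy
  rw [smR_ofP] at hy
  refine (h.sIso h𝓕 B N).inj ?_
  rw [hy, St.zero_comp]

section coh

variable {F : Type} [Field F] {H : CohX F}

/-- **sphere-built spaces are Künneth, with finite dimensional cohomology** -/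
theorem CC_of_SB (K : KX H) {M : Type} [TopologicalSpace M] [T2Space M] [LocallyCompactSpace M]
    (hM : SB M) : CC H M := by
  refine SB.induction (P := fun M _ _ _ => CC H M) ?_ ?_ ?_ hM
  · exact fun n => CC.fin_pow K (CC.real K) n
  · intro X Y _ _ _ _ _ _ f hX hY
    exact CC.of_dec K (AsCoT967.decMC f) hY (hX.prod (CC.io K))
  · intro X Y _ _ _ _ _ _ e hX
    obtain ⟨f, g, -, h2⟩ := e
    exact CC.of_retract h2 hX

theorem KU_of_SB (K : KX H) {M : Type} [TopologicalSpace M] [T2Space M] [LocallyCompactSpace M]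
    (hM : SB M) : KU H M := (CC_of_SB K hM).ku

/-- an even class `w` with `x ↦ x × w` bijective: `L (φ ∧ 1_W) = L φ` -/
theorem Lst_smR_of {W : Type} [TopologicalSpace W] [T2Space W] [LocallyCompactSpace W]
    {X : Type} [TopologicalSpace X] [T2Space X] [LocallyCompactSpace X]
    (w : H.h W) (hw : H.eps W w = w) (hb : Function.Bijective (fun x : H.h X => H.cr X W x w))
    (φ : St X X) : H.Lst (φ.smR W) = H.Lst φ := by
  let E : H.h X ≃ₗ[F] H.h (X × W) :=
    LinearEquiv.ofBijective (LinearMap.flip (H.cr X W) w) hb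
  have e1 : H.eps (X × W) ∘ₗ H.hst (φ.smR W) =
      E.toLinearMap ∘ₗ (H.eps X ∘ₗ H.hst φ) ∘ₗ E.symm.toLinearMap := by
    ext x
    obtain ⟨y, rfl⟩ := E.surjective x
    simp only [LinearMap.comp_apply, LinearEquiv.coe_coe, LinearEquiv.symm_apply_apply]
    change H.eps (X × W) (H.hst (φ.smR W) (H.cr X W y w)) = H.cr X W (H.eps X (H.hst φ y)) w
    rw [CohX.hst_smR, H.eps_cr, hw]
  rw [CohX.Lst, CohX.Lst, e1, ← LinearMap.trace_conj' (H.eps X ∘ₗ H.hst φ) E]
  rfl

/-- Lefschetz numbers are invariant under `∧ ℂ^n` -/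
theorem Lst_smR_pi (K : KX H) {X : Type} [TopologicalSpace X] [T2Space X] [LocallyCompactSpace X]
    (φ : St X X) (n : ℕ) : H.Lst (φ.smR (Fin n → ℂ)) = H.Lst φ :=
  Lst_smR_of (LThInst963.csph K n) (LThInst963.eps_csph K n) (LThInst963.cr_csph_bijective K n) φ

/-- **models** of stable self maps -/
theorem exists_model (K : KX H) {X : Type} [TopologicalSpace X] [T2Space X]
    [LocallyCompactSpace X] (hX : HasModel (fam H) X) (φ : St X X) :
    ∃ (M : Type) (_ : TopologicalSpace M) (_ : T2Space M) (_ : LocallyCompactSpace M),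
      SB M ∧ ∃ ψ : St M M, H.Lst ψ = H.Lst φ ∧
        ∀ (q : ℕ) (Q : Type) [TopologicalSpace Q] [T2Space Q] [LocallyCompactSpace Q]
          (Z : Set Q) [Fact (IsClosed Z)], IdQ q Z φ → IdQ q Z ψ := by
  obtain ⟨n, M, i1, i2, i3, ρ, hM, hρ⟩ := hX
  obtain ⟨ψ, hψ⟩ := (tgtHyp_fam H ρ hρ M hM).surjective
    ((St.ofP ρ).comp (φ.smR (Fin n → ℂ)))
  have hψ' : ψ.comp (St.ofP ρ) = (St.ofP ρ).comp (φ.smR (Fin n → ℂ)) := hψ
  refine ⟨M, i1, i2, i3, hM, ψ, ?_, ?_⟩
  · rw [← Lst_smR_pi K φ n]
    refine (H.Lst_conj (St.ofP ρ) ?_ _ _ hψ').symm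
    rw [H.hst_ofP]
    exact bij_fam H hρ
  · intro q Q _ _ _ Z _ hφ
    exact (hρ.eInj (cotSt_mem_fam H)).idQ_transfer hψ' (hφ.smR (Fin n → ℂ))

variable (H)

/-- extraction for the space `X` -/
def Extr (X : Type) [TopologicalSpace X] [T2Space X] [LocallyCompactSpace X] : Prop :=
  ∀ φ : St X X, ∃ z : ℤ, H.Lst φ = z ∧
    ∀ q : ℕ, q.Prime → ∀ (Q : Type) [TopologicalSpace Q] [T2Space Q] [LocallyCompactSpace Q]
      (Z : Set Q) [Fact (IsClosed Z)], IdQ q Z φ → IdQ q Z (z • St.id Unit)

variable {H}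

/-- **extraction for sphere-built spaces gives extraction for spaces with a model** -/
theorem extract_of_SB (K : KX H)
    (h : ∀ (M : Type) [TopologicalSpace M] [T2Space M] [LocallyCompactSpace M], SB M → Extr H M)
    (X : Type) [TopologicalSpace X] [T2Space X] [LocallyCompactSpace X]
    (hX : HasModel (fam H) X) : Extr H X := by
  intro φ
  obtain ⟨M, _, _, _, hM, ψ, hL, hI⟩ := exists_model K hX φ
  obtain ⟨z, hz, hz'⟩ := h M hM ψ
  exact ⟨z, hL ▸ hz, fun q hq Q _ _ _ Z _ hφ => hz' q hq Q Z (hI q Q Z hφ)⟩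

end coh

end Crest.Agent.R090.FM554
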