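import Crest.Agent.R090.FMAbs_554
import Crest.Agent.R090.MCSm_962

/-!
# Row 90, leaf FM: `EIso` and mapping cones

* `EIso.cone` : five lemma for maps of mapping cones;
* `EIso.c` : the collapse `MC (F → U) → U \ F` is an `EIso`;
* `heqv_MC_p` : `V × Io ≃ MC (p f)`.
-/

set_option autoImplicit false
set_option linter.unusedSectionVars false

open Topology Filter Set unitInterval

namespace Crest.Agent.R090.FM554

open OnePoint Crest.Agent.R090.Sp962
open Crest.Agent.R090.Exc503 (OC)

section homeo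

variable {X Y Z : Type*} [TopologicalSpace X] [TopologicalSpace Y] [TopologicalSpace Z]

theorem symm_comp_cancel (e : X ≃ₜ Y) (f : PMap Z X) :
    (PMap.ofHomeo e.symm).comp ((PMap.ofHomeo e).comp f) = f := by
  rw [← PMap.comp_assoc, PMap.ofHomeo_symm_comp, PMap.id_comp]

theorem comp_symm_cancel (e : X ≃ₜ Y) (f : PMap Z Y) :
    (PMap.ofHomeo e).comp ((PMap.ofHomeo e.symm).comp f) = f := by
  rw [← PMap.comp_assoc, PMap.ofHomeo_comp_symm, PMap.id_comp]

theorem eq_symm_comp (e : X ≃ₜ Y) {f : PMap Z X} {g : PMap Z Y}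
    (h : (PMap.ofHomeo e).comp f = g) : f = (PMap.ofHomeo e.symm).comp g := by
  rw [← h, symm_comp_cancel]

theorem eq_comp_symm (e : X ≃ₜ Y) {f : PMap Y Z} {g : PMap X Z}
    (h : f.comp (PMap.ofHomeo e) = g) : f = g.comp (PMap.ofHomeo e.symm) := by
  rw [← h, PMap.comp_assoc, PMap.ofHomeo_comp_symm, PMap.comp_id]

end homeo

variable {X Y Z X' Y' Z' W R : Type}
variable [TopologicalSpace X] [T2Space X] [LocallyCompactSpace X]
variable [TopologicalSpace Y] [T2Space Y] [LocallyCompactSpace Y]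
variable [TopologicalSpace Z] [T2Space Z] [LocallyCompactSpace Z]
variable [TopologicalSpace X'] [T2Space X'] [LocallyCompactSpace X']
variable [TopologicalSpace Y'] [T2Space Y'] [LocallyCompactSpace Y']
variable [TopologicalSpace Z'] [T2Space Z'] [LocallyCompactSpace Z']
variable [TopologicalSpace W] [T2Space W] [LocallyCompactSpace W]
variable [TopologicalSpace R] [T2Space R] [LocallyCompactSpace R]

variable {𝓕 : Set CoT}

theorem swp_smash (a : PMap X Y) :
    ((a.smash (PMap.id W)).smash (PMap.id R)).comp (PMap.ofHomeo (MC.swp X R W)) =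
      (PMap.ofHomeo (MC.swp Y R W)).comp ((a.smash (PMap.id R)).smash (PMap.id W)) := by
  refine PMap.ext fun p => ?_
  obtain ⟨⟨x, r⟩, w⟩ := p
  change sm (sm (a x) (w : OnePoint W)) (r : OnePoint R) =
    (PMap.ofHomeo (MC.swp Y R W)) (sm (sm (a x) (r : OnePoint R)) (w : OnePoint W))
  rw [MC.swp_sm]

theorem smash_comp_id (g : PMap Y Z) (f : PMap X Y) :
    (g.comp f).smash (PMap.id W) = (g.smash (PMap.id W)).comp (f.smash (PMap.id W)) := by
  rw [PMap.smash_comp, PMap.comp_id]

/-- five lemma for maps of mapping cones -/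
theorem EIso.cone {f : PMap X Y} {f' : PMap X' Y'} {a : PMap X X'} {b : PMap Y Y'}
    {w : PMap (MC f) (MC f')} (h0 : (f'.comp a).Homotopic (b.comp f))
    (h1 : (w.comp (MC.i f)).Homotopic ((MC.i f').comp b))
    (h2 : ((MC.p f').comp w).Homotopic ((a.smash (PMap.id Io)).comp (MC.p f)))
    (ha : EIso 𝓕 a) (hb : EIso 𝓕 b) : EIso 𝓕 w := by
  intro T hT W _ _ _
  have i' : MC.i (f'.smash (PMap.id W)) =
      (PMap.ofHomeo (MC.smR f' W).symm).comp ((MC.i f').smash (PMap.id W)) :=
    eq_symm_comp _ (MC.smR_i f')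
  have p' : MC.p (f'.smash (PMap.id W)) = (PMap.ofHomeo (MC.swp X' W Io).symm).comp
      (((MC.p f').smash (PMap.id W)).comp (PMap.ofHomeo (MC.smR f' W))) :=
    eq_symm_comp _ (MC.smR_p f').symm
  have key := T.five (f := f.smash (PMap.id W)) (f' := f'.smash (PMap.id W))
    (a := a.smash (PMap.id W)) (b := b.smash (PMap.id W))
    (w := (PMap.ofHomeo (MC.smR f' W).symm).comp
      ((w.smash (PMap.id W)).comp (PMap.ofHomeo (MC.smR f W)))) ?_ ?_ ?_ (ha T hT W) (hb T hT W)
    ((ha.smash_right W) T hT Io) ((hb.smash_right W) T hT Io)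
  · have e : w.smash (PMap.id W) = (PMap.ofHomeo (MC.smR f' W)).comp
        (((PMap.ofHomeo (MC.smR f' W).symm).comp
          ((w.smash (PMap.id W)).comp (PMap.ofHomeo (MC.smR f W)))).comp
            (PMap.ofHomeo (MC.smR f W).symm)) := by
      rw [PMap.comp_assoc, comp_symm_cancel, PMap.comp_assoc, PMap.ofHomeo_comp_symm,
        PMap.comp_id]
    rw [e]
    exact T.bij_comp (T.bij_homeo _) (T.bij_comp key (T.bij_homeo _))
  · rw [PMap.smash_comp, PMap.smash_comp, PMap.comp_id]
    exact h0.smash (PMap.Homotopic.refl _)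
  · rw [PMap.comp_assoc, PMap.comp_assoc, MC.smR_i, PMap.smash_comp, PMap.comp_id, i',
      PMap.comp_assoc, PMap.smash_comp, PMap.comp_id]
    exact (h1.smash (PMap.Homotopic.refl _)).comp_left _
  · have e1 : (MC.p (f'.smash (PMap.id W))).comp ((PMap.ofHomeo (MC.smR f' W).symm).comp
        ((w.smash (PMap.id W)).comp (PMap.ofHomeo (MC.smR f W)))) =
        (PMap.ofHomeo (MC.swp X' W Io).symm).comp
          ((((MC.p f').comp w).smash (PMap.id W)).comp (PMap.ofHomeo (MC.smR f W))) := by
      rw [p', PMap.comp_assoc, PMap.comp_assoc, comp_symm_cancel, ← PMap.comp_assoc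
        ((MC.p f').smash (PMap.id W)), PMap.smash_comp, PMap.comp_id]
    have e2 : ((a.smash (PMap.id W)).smash (PMap.id Io)).comp (MC.p (f.smash (PMap.id W))) =
        (PMap.ofHomeo (MC.swp X' W Io).symm).comp
          ((((a.smash (PMap.id Io)).comp (MC.p f)).smash (PMap.id W)).comp
            (PMap.ofHomeo (MC.smR f W))) := by
      refine eq_symm_comp _ ?_
      rw [smash_comp_id, PMap.comp_assoc, MC.smR_p, ← PMap.comp_assoc, ← PMap.comp_assoc,
        ← swp_smash, PMap.comp_assoc]
    rw [e1, e2]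
    exact ((h2.smash (PMap.Homotopic.refl _)).comp_right _).comp_left _

/-- the collapse `MC (F → U) → O` is an `EIso` -/
theorem EIso.c {F U O : Type} [TopologicalSpace F] [T2Space F] [LocallyCompactSpace F]
    [TopologicalSpace U] [T2Space U] [LocallyCompactSpace U]
    [TopologicalSpace O] [T2Space O] [LocallyCompactSpace O] {i : F → U} {e : O → U}
    (h : OC i e) : EIso 𝓕 h.c := by
  intro T hT W _ _ _
  have hsq : (PMap.ofHomeo (Homeomorph.refl (U × W))).comp (h.incl.smash (PMap.id W)) =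
      (h.prodRight W).incl.comp (PMap.ofHomeo (Homeomorph.refl (F × W))) := by
    rw [PMap.ofHomeo_refl, PMap.ofHomeo_refl, PMap.id_comp, PMap.comp_id, h.prodRight_incl]
  have key : (h.c.smash (PMap.id W)).comp (PMap.ofHomeo (MC.smR h.incl W)) =
      (h.prodRight W).c.comp (PMap.ofHomeo (MC.congr _ _ hsq)) := by
    refine PMap.ext fun z => ?_
    rw [MC.ofHomeo_congr]
    refine MC.cases _ (P := fun z => ((h.c.smash (PMap.id W)).comp
      (PMap.ofHomeo (MC.smR h.incl W))) z = ((h.prodRight W).c.comp (MC.map _ _ hsq)) z)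
      ?_ ?_ (z : OnePoint (MC (h.incl.smash (PMap.id W))))
    · intro x t ht
      obtain ⟨⟨a, b⟩, rfl⟩ := sm_surjective x
      simp only
      rw [PMap.comp_apply, PMap.comp_apply, MC.smR_q, PMap.smash_sm, h.c_q _ ht, sm_inf_left,
        MC.map_q _ _ hsq _ ht, OC.c_q _ _ ht]
    · intro y
      have e1 := congrArg (fun k : PMap (U × W) (MC h.incl × W) => k y) (MC.smR_i (W := W) h.incl)
      have e2 := congrArg (fun k : PMap (U × W) (MC (h.prodRight W).incl) => k y)
        (MC.map_i _ _ hsq)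
      simp only [PMap.comp_apply] at e1 e2
      rw [PMap.comp_apply, PMap.comp_apply, e1, e2, PMap.ofHomeo_refl, PMap.id_apply, OC.c_i,
        h.prodRight_coll, ← h.c_comp_i]
      have := PMap.smash_comp (MC.i h.incl) (PMap.id W) h.c (PMap.id W)
      rw [PMap.comp_id] at this
      rw [← this]
      rfl
  rw [eq_comp_symm _ key]
  exact T.bij_comp (T.bij_comp (T.col _) (T.bij_homeo _)) (T.bij_homeo _)

end Crest.Agent.R090.FM554
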