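import Crest.Agent.R090.FMSB_554

/-!
# Row 90, leaf FM: `V × Io ≃ MC (p f)`

For `f : PMap U V` the cone of the pinch map `p f : MC f → U × Io` is pointed homotopy equivalent
to `V × Io`.
-/

set_option autoImplicit false
set_option linter.unusedSectionVars false

open Topology Filter Set unitInterval

namespace Crest.Agent.R090.FM554

open OnePoint Crest.Agent.R090.Sp962

universe u v w

variable {U : Type u} {V : Type v} [TopologicalSpace U] [TopologicalSpace V]
variable [T2Space U] [T2Space V] [LocallyCompactSpace U] [LocallyCompactSpace V]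

section dbl

variable {W : Type w} [TopologicalSpace W]

/-- data for a family of pointed maps out of `MC (p f)` -/
structure Dbl (f : PMap U V) (K : I → OnePoint U → ℝ → ℝ → OnePoint W)
    (L : I → OnePoint V → ℝ → OnePoint W) : Prop where
  cK : Continuous (fun p : (I × I) × (OnePoint U × I) => K p.1.1 p.2.1 p.2.2 p.1.2)
  cL : Continuous (fun p : (I × I) × OnePoint V => L p.1.1 p.2 p.1.2)
  Kinf : ∀ r s t, K r ∞ s t = ∞
  K0 : ∀ r a t, K r a 0 t = ∞
  K1 : ∀ r a t, K r a 1 t = L r (f a) t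
  Kt : ∀ r a s, K r a s 0 = ∞
  Linf : ∀ r t, L r ∞ t = ∞
  L0 : ∀ r v, L r v 0 = ∞
  L1 : ∀ r v, L r v 1 = ∞

variable {f : PMap U V} {K : I → OnePoint U → ℝ → ℝ → OnePoint W}
  {L : I → OnePoint V → ℝ → OnePoint W}

/-- inner function -/
noncomputable def dF (f : PMap U V) (K : I → OnePoint U → ℝ → ℝ → OnePoint W)
    (L : I → OnePoint V → ℝ → OnePoint W) (r : I) (z : OnePoint (MC f)) (t : ℝ) : OnePoint W :=
  MC.lift f (fun a s => K r a s t) (fun v => L r v t) z

theorem Dbl.dF_q (h : Dbl f K L) (r : I) (a : OnePoint U) {s : ℝ} (hs : s ∈ Icc (0 : ℝ) 1) (t : ℝ) :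
    dF f K L r (MC.q f a s) t = K r a s t :=
  MC.lift_q f _ _ (fun s => by rw [h.Kinf, h.Linf]) (fun a => by rw [h.K0, h.Linf])
    (fun a => h.K1 r a t) a hs

theorem dF_i (r : I) (v : OnePoint V) (t : ℝ) : dF f K L r (MC.i f v) t = L r v t :=
  MC.lift_i f _ _ v

theorem Dbl.dF_inf (h : Dbl f K L) (r : I) (t : ℝ) : dF f K L r ∞ t = ∞ := by
  have := dF_i (f := f) (K := K) (L := L) r ∞ t
  rwa [(MC.i f).map_inf, h.Linf] at this

/-- outer function on `U × Io` -/
noncomputable def dM (K : I → OnePoint U → ℝ → ℝ → OnePoint W) (r : I)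
    (y : OnePoint (U × Io)) : OnePoint W := MC.sus ∞ (fun a s => K r a s 1) y

theorem Dbl.dM_sm (h : Dbl f K L) (r : I) (a : OnePoint U) {s : ℝ} (hs : s ∈ Icc (0 : ℝ) 1) :
    dM K r (sm a (qI s)) = K r a s 1 :=
  MC.sus_sm ∞ (fun a s => K r a s 1) (fun s => h.Kinf r s 1) (fun a => h.K0 r a 1)
    (fun a => by rw [h.K1, h.L1]) a hs

theorem dM_inf (r : I) : dM K r ∞ = ∞ := rfl

theorem Dbl.dF_one (h : Dbl f K L) (r : I) (z : OnePoint (MC f)) :
    dF f K L r z 1 = dM K r (MC.p f z) := by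
  refine MC.cases f (P := fun z => dF f K L r z 1 = dM K r (MC.p f z)) ?_ ?_ z
  · intro a s hs
    rw [h.dF_q r a hs, MC.p_q, h.dM_sm r a hs]
  · intro v
    rw [dF_i, MC.p_i, h.L1, dM_inf]

theorem Dbl.dF_zero (h : Dbl f K L) (r : I) (z : OnePoint (MC f)) : dF f K L r z 0 = ∞ := by
  refine MC.cases f (P := fun z => dF f K L r z 0 = ∞) ?_ ?_ z
  · intro a s hs
    rw [h.dF_q r a hs, h.Kt]
  · intro v
    rw [dF_i, h.L0]

/-- the family of maps out of `MC (p f)` -/
noncomputable def dD (f : PMap U V) (K : I → OnePoint U → ℝ → ℝ → OnePoint W)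
    (L : I → OnePoint V → ℝ → OnePoint W) (r : I) (x : OnePoint (MC (MC.p f))) : OnePoint W :=
  MC.lift (MC.p f) (dF f K L r) (dM K r) x

theorem dD_i (r : I) (y : OnePoint (U × Io)) : dD f K L r (MC.i (MC.p f) y) = dM K r y :=
  MC.lift_i _ _ _ y

theorem Dbl.dD_q (h : Dbl f K L) (r : I) (z : OnePoint (MC f)) {t : ℝ} (ht : t ∈ Icc (0 : ℝ) 1) :
    dD f K L r (MC.q (MC.p f) z t) = dF f K L r z t :=
  MC.lift_q _ _ _ (fun t => by rw [h.dF_inf, dM_inf]) (fun z => by rw [h.dF_zero, dM_inf])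
    (fun z => h.dF_one r z) z ht

theorem Dbl.dD_inf (h : Dbl f K L) (r : I) : dD f K L r ∞ = ∞ := by
  have := dD_i (f := f) (K := K) (L := L) r ∞
  rwa [(MC.i (MC.p f)).map_inf, dM_inf] at this

theorem Dbl.continuous_dD (h : Dbl f K L) :
    Continuous (fun p : I × OnePoint (MC (MC.p f)) => dD f K L p.1 p.2) := by
  have hF : Continuous (fun p : (I × I) × OnePoint (MC f) => dF f K L p.1.1 p.2 p.1.2) := by
    refine MC.continuous_of f ?_ ?_
    · have : (fun p : (I × I) × (OnePoint U × I) =>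
          dF f K L p.1.1 (MC.q f p.2.1 p.2.2) p.1.2) =
          fun p => K p.1.1 p.2.1 p.2.2 p.1.2 := by
        funext p
        exact h.dF_q p.1.1 p.2.1 p.2.2.2 p.1.2
      simp only
      rw [this]
      exact h.cK
    · have : (fun p : (I × I) × OnePoint V => dF f K L p.1.1 (MC.i f p.2) p.1.2) =
          fun p => L p.1.1 p.2 p.1.2 := by
        funext p
        exact dF_i p.1.1 p.2 p.1.2
      simp only
      rw [this]
      exact h.cL
  refine MC.continuous_of (MC.p f) ?_ ?_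
  · have : (fun p : I × (OnePoint (MC f) × I) => dD f K L p.1 (MC.q (MC.p f) p.2.1 p.2.2)) =
        fun p => dF f K L p.1 p.2.1 p.2.2 := by
      funext p
      exact h.dD_q p.1 p.2.1 p.2.2.2
    simp only
    rw [this]
    exact hF.comp (by fun_prop : Continuous (fun p : I × (OnePoint (MC f) × I) =>
      ((p.1, p.2.2), p.2.1)))
  · simp only [dD_i]
    refine MC.continuous_of_susp ?_
    have : (fun p : I × (OnePoint U × I) => dM K p.1 (sm p.2.1 (qI p.2.2))) =
        fun p => K p.1 p.2.1 p.2.2 1 := by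
      funext p
      exact h.dM_sm p.1 p.2.1 p.2.2.2
    simp only
    rw [this]
    have := h.cK.comp (by fun_prop : Continuous (fun p : I × (OnePoint U × I) =>
      ((p.1, (1 : I)), p.2)))
    exact this

/-- the homotopy produced by the data -/
theorem Dbl.homotopic (h : Dbl f K L) {g g' : PMap (MC (MC.p f)) W}
    (g0 : ∀ x, g x = dD f K L 0 x) (g1 : ∀ x, g' x = dD f K L 1 x) : g.Homotopic g' :=
  PMap.Homotopic.of (fun p => dD f K L p.1 p.2) h.continuous_dD
    (fun x => (g0 x).symm) (fun x => (g1 x).symm) (fun t => h.dD_inf t)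

/-- induction principle -/
theorem dcases (f : PMap U V) {P : OnePoint (MC (MC.p f)) → Prop}
    (h1 : ∀ a (s t : ℝ), s ∈ Icc (0 : ℝ) 1 → t ∈ Icc (0 : ℝ) 1 →
      P (MC.q (MC.p f) (MC.q f a s) t))
    (h2 : ∀ v (t : ℝ), t ∈ Icc (0 : ℝ) 1 → P (MC.q (MC.p f) (MC.i f v) t))
    (h3 : ∀ a (s : ℝ), s ∈ Icc (0 : ℝ) 1 → P (MC.i (MC.p f) (sm a (qI s)))) (x) : P x := by
  refine MC.cases (MC.p f) ?_ ?_ x
  · intro z t ht
    refine MC.cases f (P := fun z => P (MC.q (MC.p f) z t)) ?_ ?_ z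
    · exact fun a s hs => h1 a s t hs ht
    · exact fun v => h2 v t ht
  · intro y
    obtain ⟨⟨a, s⟩, rfl⟩ := sm_surjective y
    obtain ⟨t, rfl⟩ := qI_surjective s
    exact h3 a t t.2

end dbl

variable (f : PMap U V)

theorem continuous_qp : Continuous (fun p : OnePoint (MC f) × ℝ => MC.q (MC.p f) p.1 p.2) :=
  MC.continuous_q (MC.p f)

/-- `V × Io → MC (p f)` -/
noncomputable def pe : PMap (V × Io) (MC (MC.p f)) :=
  MC.susMap (fun v t => MC.q (MC.p f) (MC.i f v) t)
    ((continuous_qp f).comp (((MC.i f).cont.comp (by fun_prop)).prodMk (by fun_prop)))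
    (fun t => by rw [(MC.i f).map_inf, MC.q_inf]) (fun v => MC.q_zero _ _)
    (fun v => by rw [MC.q_one, MC.p_i, (MC.i (MC.p f)).map_inf])

theorem pe_sm (v : OnePoint V) {t : ℝ} (ht : t ∈ Icc (0 : ℝ) 1) :
    pe f (sm v (qI t)) = MC.q (MC.p f) (MC.i f v) t := MC.susMap_sm _ _ _ _ _ v ht

theorem dblg : Dbl f (fun (_ : I) a s t => sm (f a) (qI (s * t))) (fun _ v t => sm v (qI t)) where
  cK := (f.cont.comp (by fun_prop)).sm962 (continuous_qI.comp (by fun_prop))
  cL := (continuous_snd).sm962 (continuous_qI.comp (by fun_prop))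
  Kinf := fun r s t => by rw [f.map_inf, sm_inf_left]
  K0 := fun r a t => by rw [zero_mul, qI_zero, sm_inf_right]
  K1 := fun r a t => by rw [one_mul]
  Kt := fun r a s => by rw [mul_zero, qI_zero, sm_inf_right]
  Linf := fun r t => sm_inf_left _
  L0 := fun r v => by rw [qI_zero, sm_inf_right]
  L1 := fun r v => by rw [qI_one, sm_inf_right]

/-- `MC (p f) → V × Io` -/
noncomputable def pg : PMap (MC (MC.p f)) (V × Io) where
  toFun := dD f (fun (_ : I) a s t => sm (f a) (qI (s * t))) (fun _ v t => sm v (qI t)) 0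
  cont := (dblg f).continuous_dD.comp (continuous_const.prodMk continuous_id)
  map_inf := (dblg f).dD_inf 0

theorem pg_q (a : OnePoint U) {s t : ℝ} (hs : s ∈ Icc (0 : ℝ) 1) (ht : t ∈ Icc (0 : ℝ) 1) :
    pg f (MC.q (MC.p f) (MC.q f a s) t) = sm (f a) (qI (s * t)) := by
  change dD f _ _ 0 _ = _
  rw [(dblg f).dD_q 0 _ ht, (dblg f).dF_q 0 a hs]

theorem pg_i (v : OnePoint V) {t : ℝ} (ht : t ∈ Icc (0 : ℝ) 1) :
    pg f (MC.q (MC.p f) (MC.i f v) t) = sm v (qI t) := by
  change dD f _ _ 0 _ = _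
  rw [(dblg f).dD_q 0 _ ht, dF_i]

theorem pg_ii (a : OnePoint U) {s : ℝ} (hs : s ∈ Icc (0 : ℝ) 1) :
    pg f (MC.i (MC.p f) (sm a (qI s))) = sm (f a) (qI s) := by
  change dD f _ _ 0 _ = _
  rw [dD_i, (dblg f).dM_sm 0 a hs, mul_one]

theorem pg_comp_pe : (pg f).comp (pe f) = PMap.id (V × Io) := by
  refine PMap.ext fun x => ?_
  obtain ⟨v, t⟩ := x
  have e : (((v, t) : V × Io) : OnePoint (V × Io)) = sm (v : OnePoint V) (qI (t : ℝ)) := by
    rw [qI_coe]; rfl
  rw [PMap.comp_apply, e, pe_sm f _ ⟨t.2.1.le, t.2.2.le⟩, pg_i f _ ⟨t.2.1.le, t.2.2.le⟩,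
    PMap.id_apply]

theorem dblA : Dbl f
    (fun (r : I) a s t => MC.q (MC.p f) (MC.q f a s) (t * (1 - r + r * s)))
    (fun _ v t => MC.q (MC.p f) (MC.i f v) t) where
  cK := by
    have h1 : Continuous (fun p : (I × I) × (OnePoint U × I) =>
      ((p.2.1, (p.2.2 : ℝ)) : OnePoint U × ℝ)) := by fun_prop
    exact (continuous_qp f).comp (((MC.continuous_q f).comp h1).prodMk (by fun_prop))
  cL := by
    have h1 : Continuous (fun p : (I × I) × OnePoint V => p.2) := by fun_prop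
    exact (continuous_qp f).comp (((MC.i f).cont.comp h1).prodMk (by fun_prop))
  Kinf := fun r s t => by rw [MC.q_inf, MC.q_inf]
  K0 := fun r a t => by rw [MC.q_zero, MC.q_inf]
  K1 := fun r a t => by
    rw [MC.q_one, mul_one]
    congr 1
    ring
  Kt := fun r a s => by rw [zero_mul, MC.q_zero]
  Linf := fun r t => by rw [(MC.i f).map_inf, MC.q_inf]
  L0 := fun r v => MC.q_zero _ _
  L1 := fun r v => by rw [MC.q_one, MC.p_i, (MC.i (MC.p f)).map_inf]

theorem dblB : Dbl f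
    (fun (r : I) a s t => MC.q (MC.p f) (MC.q f a (s + r * (1 - s))) (s * t))
    (fun _ v t => MC.q (MC.p f) (MC.i f v) t) where
  cK := by
    have h1 : Continuous (fun p : (I × I) × (OnePoint U × I) =>
      ((p.2.1, (p.2.2 : ℝ) + p.1.1 * (1 - p.2.2)) : OnePoint U × ℝ)) := by fun_prop
    exact (continuous_qp f).comp (((MC.continuous_q f).comp h1).prodMk (by fun_prop))
  cL := by
    have h1 : Continuous (fun p : (I × I) × OnePoint V => p.2) := by fun_prop
    exact (continuous_qp f).comp (((MC.i f).cont.comp h1).prodMk (by fun_prop))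
  Kinf := fun r s t => by rw [MC.q_inf, MC.q_inf]
  K0 := fun r a t => by rw [zero_mul, MC.q_zero]
  K1 := fun r a t => by
    rw [sub_self, mul_zero, add_zero, MC.q_one, one_mul]
  Kt := fun r a s => by rw [mul_zero, MC.q_zero]
  Linf := fun r t => by rw [(MC.i f).map_inf, MC.q_inf]
  L0 := fun r v => MC.q_zero _ _
  L1 := fun r v => by rw [MC.q_one, MC.p_i, (MC.i (MC.p f)).map_inf]

/-- the intermediate map -/
noncomputable def pm : PMap (MC (MC.p f)) (MC (MC.p f)) where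
  toFun := dD f (fun (r : I) a s t => MC.q (MC.p f) (MC.q f a s) (t * (1 - r + r * s)))
    (fun _ v t => MC.q (MC.p f) (MC.i f v) t) 1
  cont := (dblA f).continuous_dD.comp (continuous_const.prodMk continuous_id)
  map_inf := (dblA f).dD_inf 1

theorem mem_mul {s t : ℝ} (hs : s ∈ Icc (0 : ℝ) 1) (ht : t ∈ Icc (0 : ℝ) 1) :
    s * t ∈ Icc (0 : ℝ) 1 :=
  ⟨mul_nonneg hs.1 ht.1, mul_le_one₀ hs.2 ht.1 ht.2⟩

theorem pe_comp_pg : ((pe f).comp (pg f)).Homotopic (PMap.id _) := by
  refine PMap.Homotopic.trans (g := pm f) (PMap.Homotopic.symm ?_) (PMap.Homotopic.symm ?_)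
  · refine (dblB f).homotopic ?_ ?_
    · intro x
      refine dcases f (P := fun x => pm f x = dD f _ _ 0 x) ?_ ?_ ?_ x
      · intro a s t hs ht
        change dD f _ _ 1 _ = _
        rw [(dblA f).dD_q 1 _ ht, (dblA f).dF_q 1 a hs, (dblB f).dD_q 0 _ ht,
          (dblB f).dF_q 0 a hs, Set.Icc.coe_one, Set.Icc.coe_zero,
          show t * (1 - 1 + 1 * s) = s * t by ring, show s + 0 * (1 - s) = s by ring]
      · intro v t ht
        change dD f _ _ 1 _ = _
        rw [(dblA f).dD_q 1 _ ht, dF_i, (dblB f).dD_q 0 _ ht, dF_i]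
      · intro a s hs
        change dD f _ _ 1 _ = _
        rw [dD_i, (dblA f).dM_sm 1 a hs, dD_i, (dblB f).dM_sm 0 a hs, Set.Icc.coe_one,
          Set.Icc.coe_zero, show (1 : ℝ) * (1 - 1 + 1 * s) = s * 1 by ring,
          show s + 0 * (1 - s) = s by ring]
    · intro x
      refine dcases f (P := fun x => ((pe f).comp (pg f)) x = dD f _ _ 1 x) ?_ ?_ ?_ x
      · intro a s t hs ht
        rw [PMap.comp_apply, pg_q f a hs ht, pe_sm f _ (mem_mul hs ht), (dblB f).dD_q 1 _ ht,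
          (dblB f).dF_q 1 a hs, Set.Icc.coe_one, one_mul, add_sub_cancel, MC.q_one]
      · intro v t ht
        rw [PMap.comp_apply, pg_i f v ht, pe_sm f _ ht, (dblB f).dD_q 1 _ ht, dF_i]
      · intro a s hs
        rw [PMap.comp_apply, pg_ii f a hs, pe_sm f _ hs, dD_i, (dblB f).dM_sm 1 a hs,
          Set.Icc.coe_one, one_mul, add_sub_cancel, MC.q_one, mul_one]
  · refine (dblA f).homotopic ?_ (fun _ => rfl)
    intro x
    refine dcases f (P := fun x => PMap.id _ x = dD f _ _ 0 x) ?_ ?_ ?_ x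
    · intro a s t hs ht
      rw [PMap.id_apply, (dblA f).dD_q 0 _ ht, (dblA f).dF_q 0 a hs, Set.Icc.coe_zero]
      congr 1
      ring
    · intro v t ht
      rw [PMap.id_apply, (dblA f).dD_q 0 _ ht, dF_i]
    · intro a s hs
      rw [PMap.id_apply, dD_i, (dblA f).dM_sm 0 a hs, Set.Icc.coe_zero, zero_mul, add_zero,
        sub_zero, one_mul, MC.q_one, MC.p_q]

/-- **`V × Io ≃ MC (p f)`** -/
theorem heqv_MC_p : HEqv (V × Io) (MC (MC.p f)) :=
  ⟨pe f, pg f, PMap.Homotopic.of_eq (pg_comp_pe f), pe_comp_pg f⟩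

end Crest.Agent.R090.FM554
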