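import Crest.Agent.R090.FMPair_554
import Crest.Agent.R090.FMPuppe_554
import Crest.Agent.R090.FMProd_305
import Crest.Agent.R090.St2_528
import Mathlib.Analysis.Normed.Module.FiniteDimension

/-!
# Row 90, leaf FM: products of sphere-built spaces, models

`HasModel 𝓕 X` : some complex suspension `X × ℂ^n` admits an `EIso` to a sphere-built space.
-/

set_option autoImplicit false
set_option linter.unusedSectionVars false

open Topology Filter Set unitInterval

namespace Crest.Agent.R090.FM554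

open OnePoint Crest.Agent.R090.Sp962
open Crest.Agent.R090.Exc503 (OC)
open Crest.Agent.R090.St528 (St S stN stN_comp stN_smash h1 hh)

theorem HEqv.prod {X Y X' Y' : Type} [TopologicalSpace X] [T2Space X] [LocallyCompactSpace X]
    [TopologicalSpace Y] [T2Space Y] [LocallyCompactSpace Y]
    [TopologicalSpace X'] [T2Space X'] [LocallyCompactSpace X']
    [TopologicalSpace Y'] [T2Space Y'] [LocallyCompactSpace Y']
    (h : HEqv X Y) (h' : HEqv X' Y') : HEqv (X × X') (Y × Y') := by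
  obtain ⟨f, g, h1, h2⟩ := h
  obtain ⟨f', g', h1', h2'⟩ := h'
  refine ⟨f.smash f', g.smash g', ?_, ?_⟩
  · rw [PMap.smash_comp]
    exact (h1.smash h1').trans (PMap.Homotopic.of_eq (by simp))
  · rw [PMap.smash_comp]
    exact (h2.smash h2').trans (PMap.Homotopic.of_eq (by simp))

theorem SB.cplx (n : ℕ) : SB (Fin n → ℂ) := SB.fd _

theorem SB.S {M : Type} [TopologicalSpace M] [T2Space M] [LocallyCompactSpace M] (h : SB M)
    (n : ℕ) : SB (S M n) := h.prod (SB.cplx n)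

section levels

variable (X : Type) [TopologicalSpace X]

/-- `ℂ^n × ℂ^k = ℂ^(n+k)` -/
noncomputable def addH (n k : ℕ) : (Fin n → ℂ) × (Fin k → ℂ) ≃ₜ (Fin (n + k) → ℂ) :=
  (ContinuousLinearEquiv.ofFinrankEq (𝕜 := ℂ) (by simp)).toHomeomorph

/-- `S (S X n) k ≃ S X (n + k)` -/
noncomputable def SS (n k : ℕ) : S (S X n) k ≃ₜ S X (n + k) :=
  (Homeomorph.prodAssoc X (Fin n → ℂ) (Fin k → ℂ)).trans
    ((Homeomorph.refl X).prodCongr (addH n k))

/-- `S X 0 ≃ X` -/
noncomputable def S0 : S X 0 ≃ₜ X := (Homeomorph.prodUnique X (Fin 0 → ℂ))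

/-- `S (X × R) n ≃ S X n × R` -/
noncomputable def SR (R : Type) [TopologicalSpace R] (n : ℕ) : S (X × R) n ≃ₜ S X n × R :=
  MC.swp X R (Fin n → ℂ)

end levels

variable {X Y Z R : Type}
variable [TopologicalSpace X] [T2Space X] [LocallyCompactSpace X]
variable [TopologicalSpace Y] [T2Space Y] [LocallyCompactSpace Y]
variable [TopologicalSpace Z] [T2Space Z] [LocallyCompactSpace Z]
variable [TopologicalSpace R] [T2Space R] [LocallyCompactSpace R]

variable (𝓕 : Set CoT)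

/-- `ρ` is a model at level `0` -/
def IsModel (X M : Type) [TopologicalSpace X] [T2Space X] [LocallyCompactSpace X]
    [TopologicalSpace M] [T2Space M] [LocallyCompactSpace M] (ρ : PMap X M) : Prop :=
  SB M ∧ EIso 𝓕 ρ

/-- `X` has a sphere-built model after complex suspension -/
def HasModel (X : Type) [TopologicalSpace X] [T2Space X] [LocallyCompactSpace X] : Prop :=
  ∃ (n : ℕ) (M : Type) (_ : TopologicalSpace M) (_ : T2Space M) (_ : LocallyCompactSpace M)
    (ρ : PMap (S X n) M), SB M ∧ EIso 𝓕 ρ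

variable {𝓕}

theorem HasModel.of_level {n : ℕ} {M : Type} [TopologicalSpace M] [T2Space M]
    [LocallyCompactSpace M] (hM : SB M) (ρ : PMap (S X n) M) (h : EIso 𝓕 ρ) : HasModel 𝓕 X :=
  ⟨n, M, _, _, _, ρ, hM, h⟩

/-- level raising -/
theorem HasModel.level {X : Type} [TopologicalSpace X] [T2Space X] [LocallyCompactSpace X]
    (h : HasModel 𝓕 X) : ∃ n₀, ∀ n, n₀ ≤ n → ∃ (M : Type) (_ : TopologicalSpace M) (_ : T2Space M)
      (_ : LocallyCompactSpace M) (ρ : PMap (S X n) M), SB M ∧ EIso 𝓕 ρ := by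
  obtain ⟨n, M, _, _, _, ρ, hM, hρ⟩ := h
  refine ⟨n, fun m hm => ?_⟩
  obtain ⟨k, rfl⟩ := Nat.exists_eq_add_of_le hm
  exact ⟨S M k, _, inferInstance, inferInstance,
    (ρ.smash (PMap.id (Fin k → ℂ))).comp (PMap.ofHomeo (SS X n k).symm), hM.S k,
    (hρ.smash_right _).comp (EIso.homeo _)⟩

theorem HasModel.of_S {n : ℕ} (h : HasModel 𝓕 (S X n)) : HasModel 𝓕 X := by
  obtain ⟨m, M, _, _, _, ρ, hM, hρ⟩ := h
  exact .of_level (n := n + m) hM (ρ.comp (PMap.ofHomeo (SS X n m).symm))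
    (hρ.comp (EIso.homeo _))

theorem HasModel.homeo (e : X ≃ₜ Y) (h : HasModel 𝓕 X) : HasModel 𝓕 Y := by
  obtain ⟨m, M, _, _, _, ρ, hM, hρ⟩ := h
  exact .of_level (n := m) hM (ρ.comp (PMap.ofHomeo (e.symm.prodCongr (Homeomorph.refl _))))
    (hρ.comp (EIso.homeo _))

theorem HasModel.of_SB (h : SB X) : HasModel 𝓕 X :=
  .of_level (n := 0) h (PMap.ofHomeo (S0 X)) (EIso.homeo _)

/-- precomposition with an `EIso` -/
theorem HasModel.of_EIso (f : PMap X Y) (hf : EIso 𝓕 f) (h : HasModel 𝓕 Y) : HasModel 𝓕 X := by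
  obtain ⟨m, M, _, _, _, ρ, hM, hρ⟩ := h
  exact .of_level (n := m) hM (ρ.comp (f.smash (PMap.id _))) (hρ.comp (hf.smash_right _))

/-- products with sphere-built spaces -/
theorem HasModel.prod_SB (h : HasModel 𝓕 X) (hR : SB R) : HasModel 𝓕 (X × R) := by
  obtain ⟨m, M, _, _, _, ρ, hM, hρ⟩ := h
  exact .of_level (n := m) (hM.prod hR) ((ρ.smash (PMap.id R)).comp (PMap.ofHomeo (SR X R m)))
    ((hρ.smash_right R).comp (EIso.homeo _))

/-- `S X n × S Y m ≃ S (X × Y) (n + m)` -/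
noncomputable def SP (X Y : Type) [TopologicalSpace X] [TopologicalSpace Y] (n m : ℕ) :
    S X n × S Y m ≃ₜ S (X × Y) (n + m) :=
  (Homeomorph.prodProdProdComm X (Fin n → ℂ) Y (Fin m → ℂ)).trans
    ((Homeomorph.refl _).prodCongr (addH n m))

/-- products -/
theorem HasModel.prod (h : HasModel 𝓕 X) (h' : HasModel 𝓕 Y) : HasModel 𝓕 (X × Y) := by
  obtain ⟨n, M, _, _, _, ρ, hM, hρ⟩ := h
  obtain ⟨m, N, _, _, _, τ, hN, hτ⟩ := h'
  exact .of_level (n := n + m) (hM.prod hN) ((ρ.smash τ).comp (PMap.ofHomeo (SP X Y n m).symm))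
    ((hρ.smash hτ).comp (EIso.homeo _))

/-- real suspension shift -/
theorem HasModel.of_Io (h : HasModel 𝓕 (X × Io)) : HasModel 𝓕 X := by
  have h1 : HasModel 𝓕 ((X × Io) × Io) := h.prod_SB SB.Io
  have e : (X × Io) × Io ≃ₜ S X 1 :=
    (Crest.Agent.R090.St528.cH X).symm.trans
      ((Homeomorph.refl X).prodCongr (Homeomorph.funUnique (Fin 1) ℂ).symm)
  exact (h1.homeo e).of_S

end Crest.Agent.R090.FM554
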