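import Crest.Agent.R090.FMTgtHyp_806
import Crest.Agent.R090.AsCoT_967
import Crest.Agent.R090.AClass_923

/-!
# Row 90, leaf FM: the family of `H` and the class of spaces with a model

* `fam H`    : the family `{cohT H} ∪ {cotSt m}`;
* `ext'`, `open'`, `filtration'` : the closure properties of `HasModel 𝓕` without hypothesis;
* `cls_HasModel` : `HasModel 𝓕` is a class in the sense of helper923.
-/

set_option autoImplicit false
set_option linter.unusedSectionVars false

open Topology Filter Set unitInterval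

namespace Crest.Agent.R090.FM554

open OnePoint Crest.Agent.R090.Sp962
open Crest.Agent.R090.Exc503 (OC)
open Crest.Agent.R090.St528 (St S)
open Crest.Agent.R090.AClass923 (Cls)

/-- the family of the theories used in block (A) -/
def fam {F : Type} [Field F] (H : HSt285.CohX F) : Set CoT :=
  insert (AsCoT967.cohT H) (Set.range cotSt)

section fam

variable {F : Type} [Field F] (H : HSt285.CohX F)

theorem cohT_mem_fam : AsCoT967.cohT H ∈ fam H := Set.mem_insert _ _

theorem cotSt_mem_fam (m : ℕ) : cotSt m ∈ fam H := Set.mem_insert_of_mem _ (Set.mem_range_self m)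

theorem tgtHyp_fam : TgtHyp (fam H) := tgtHyp (cotSt_mem_fam H)

/-- an `EIso` for the family of `H` induces an isomorphism in `H` -/
theorem bij_fam {X Y : Type} [TopologicalSpace X] [T2Space X] [LocallyCompactSpace X]
    [TopologicalSpace Y] [T2Space Y] [LocallyCompactSpace Y] {ρ : PMap X Y}
    (hρ : EIso (fam H) ρ) : Function.Bijective (H.map ρ) :=
  AsCoT967.bijective_map H.toCoh (AsCoT967.hinv H) (cohT_mem_fam H) hρ

theorem bij_fam_smash {X Y : Type} [TopologicalSpace X] [T2Space X] [LocallyCompactSpace X]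
    [TopologicalSpace Y] [T2Space Y] [LocallyCompactSpace Y] {ρ : PMap X Y}
    (hρ : EIso (fam H) ρ) (W : Type) [TopologicalSpace W] [T2Space W] [LocallyCompactSpace W] :
    Function.Bijective (H.map (ρ.smash (PMap.id W))) :=
  AsCoT967.bijective_smash H.toCoh (AsCoT967.hinv H) (cohT_mem_fam H) hρ W

end fam

section closure

variable {𝓕 : Set CoT} (h𝓕 : ∀ m, cotSt m ∈ 𝓕)
variable {F U O : Type}
variable [TopologicalSpace F] [T2Space F] [LocallyCompactSpace F]
variable [TopologicalSpace U] [T2Space U] [LocallyCompactSpace U]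
variable [TopologicalSpace O] [T2Space O] [LocallyCompactSpace O]
variable {i : F → U} {e : O → U}

include h𝓕

theorem HasModel.ext' (h : OC i e) (hF : HasModel 𝓕 F) (hO : HasModel 𝓕 O) : HasModel 𝓕 U :=
  HasModel.ext (tgtHyp h𝓕) h hF hO

theorem HasModel.open' (h : OC i e) (hF : HasModel 𝓕 F) (hU : HasModel 𝓕 U) : HasModel 𝓕 O :=
  HasModel.open (tgtHyp h𝓕) h hF hU

theorem HasModel.filtration' (Fi : ℕ → Set U) (hc : ∀ k, IsClosed (Fi k))
    (hmono : Monotone Fi) (h0 : Fi 0 = ∅) {u : ℕ} (hu : Fi u = univ)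
    (hl : ∀ k, k < u → ∃ (L : Type) (_ : TopologicalSpace L) (_ : T2Space L)
      (_ : LocallyCompactSpace L) (_ : HasModel 𝓕 L), Nonempty ({x : U // x ∈ Fi (k + 1) \ Fi k} ≃ₜ L)) :
    HasModel 𝓕 U :=
  HasModel.filtration (tgtHyp h𝓕) Fi hc hmono h0 hu hl

/-- **the spaces with a model are a class in the sense of helper923** -/
theorem cls_HasModel : Cls (fun U _ _ _ => HasModel 𝓕 U) where
  homeo e hU := hU.homeo e
  empty U _ _ _ _ := (HasModel.of_SB SB.empty).homeo (Homeomorph.empty (X := Empty) (Y := U))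
  cell n := HasModel.of_SB (SB.fd _)
  prod hU hV := hU.prod hV
  total hoc hF hO := HasModel.ext' h𝓕 ⟨hoc.closed, hoc.opn, hoc.compl⟩ hF hO
  opn hoc hF hU := HasModel.open' h𝓕 ⟨hoc.closed, hoc.opn, hoc.compl⟩ hF hU

end closure

/-- the class of the spaces with a model for the family of `H` -/
theorem cls_fam {F : Type} [Field F] (H : HSt285.CohX F) :
    Cls (fun U _ _ _ => HasModel (fam H) U) := cls_HasModel (cotSt_mem_fam H)

end Crest.Agent.R090.FM554
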