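import Crest.Agent.R090.T5Defs_758
import Crest.Agent.R090.Ho_962

/-!
# Row 90, GLUE part A (owner helper264)

* `nullOn_of_null` : a null homotopic `PMap (B × ℝ^l) (V × ℝ^l)` gives 758's `NullOn B κ l`;
* `torusLocus` is closed; closed neighbourhoods of it;
* `exists_nbhd` : `Φ` extends to a closed neighbourhood with the mono property.
-/

set_option autoImplicit false

open Topology Filter Set

namespace Crest.Agent.R090.Glue264

open OnePoint Crest.Agent.R090.Sp962 Crest.Agent.R090.T5
open scoped unitInterval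

section null

variable {X V : Type*} [TopologicalSpace X] [TopologicalSpace V]

/-- from a pointed null homotopy to 758's `NullOn` -/
theorem nullOn_of_null {B : Set X} {κ : X → OnePoint V} {l : ℕ}
    (g : PMap (B × (Fin l → ℝ)) (V × (Fin l → ℝ)))
    (hg : ∀ b s, g (((b, s) : B × (Fin l → ℝ)) : OnePoint (B × (Fin l → ℝ))) =
      sm (κ b) ((s : Fin l → ℝ) : OnePoint (Fin l → ℝ)))
    [T2Space B] (hn : g.Null) : NullOn B κ l := by
  obtain ⟨H, hH, H0, H1, Hi⟩ := hn.exists
  refine ⟨fun p => H (p.2.2, ((p.1, p.2.1) : B × (Fin l → ℝ))), ?_, ?_, ?_, ?_⟩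
  · refine hH.comp (Continuous.prodMk (by fun_prop) (continuous_coe.comp (by fun_prop)))
  · -- uniform limit at infinity
    rw [tendsto_def]
    intro N hN
    have hN' : H ⁻¹' N ∈ 𝓝ˢ (univ ×ˢ {(∞ : OnePoint (B × (Fin l → ℝ)))} :
        Set (I × OnePoint (B × (Fin l → ℝ)))) := by
      rw [mem_nhdsSet_iff_forall]
      rintro ⟨t, x⟩ ⟨_, hx⟩
      rw [mem_singleton_iff] at hx
      subst hx
      have : Tendsto H (𝓝 (t, ∞)) (𝓝 ∞) := by
        have := hH.tendsto (t, ∞)
        rwa [Hi] at this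
      exact this hN
    rw [isCompact_univ.nhdsSet_prod_eq isCompact_singleton, nhdsSet_univ] at hN'
    obtain ⟨T, hT, W, hW, hTW⟩ := Filter.mem_prod_iff.1 hN'
    have hT' : T = univ := by simpa using hT
    rw [nhdsSet_singleton] at hW
    have hW' : (fun x : B × (Fin l → ℝ) => (x : OnePoint (B × (Fin l → ℝ)))) ⁻¹' W ∈
        coclosedCompact (B × (Fin l → ℝ)) := by
      have := tendsto_coe_infty (X := B × (Fin l → ℝ)) hW
      exact this
    rw [coclosedCompact_eq_cocompact] at hW'
    obtain ⟨K, hK, hKW⟩ := mem_cocompact.1 hW'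
    rw [mem_cocompact]
    refine ⟨(fun q : (B × (Fin l → ℝ)) × I => (q.1.1, q.1.2, q.2)) '' (K ×ˢ univ),
      (hK.prod isCompact_univ).image (by fun_prop), ?_⟩
    rintro ⟨b, s, t⟩ hx
    have hbs : (b, s) ∉ K := fun h => hx ⟨((b, s), t), ⟨h, mem_univ _⟩, rfl⟩
    have := hKW hbs
    exact hTW (mk_mem_prod (by rw [hT']; exact mem_univ t) this)
  · intro b s
    exact (H0 _).trans (hg b s)
  · intro b s
    exact H1 _

end null

end Crest.Agent.R090.Glue264
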