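import Crest.Agent.R090.GlueF_264
import Crest.Agent.R090.Univ_639

/-!
# Row 90: S0119 from the stable input `KillFor` (owner helper264)

`result_of_kill` : S0119 follows from `KillFor (fW w)` for every compact metrizable `Z : Type` with a
continuous map `w : Z → T` and a continuous family `Φ` of `K × 2pn` matrices, `K < 2pn`, injective
on the slot bundle.
-/

set_option autoImplicit false

open Topology Filter Set

namespace Crest.Agent.R090.GlueH264

open OnePoint Crest.Agent.R090.Sp962 Crest.Agent.R090.St528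
  Crest.Agent.R090.Pi568 Crest.Agent.R090.Dens255
  Crest.Agent.R090.Block568 Crest.Agent.R090.T5 Crest.Agent.R090.Cyl349
  Crest.Agent.R090.Glue264 Crest.Agent.R090.GlueS264 Crest.Agent.R090.GlueF264

/-- the torus collapse of one block -/
noncomputable def tcBc (p n : ℕ) : C(TT p n, OnePoint (Fin n × Fin (2 * p) → ℝ)) :=
  ⟨Bott513.tcB, Bott513.continuous_tcB⟩

/-- `κ ∘ w` for a compact space `Z` over the torus -/
noncomputable def fW {p n : ℕ} {Z : Type*} [TopologicalSpace Z] [CompactSpace Z]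
    (w : C(Z, TT p n)) : PMap Z (Fin n × Fin (2 * p) → ℝ) :=
  Bott513.ofC ((tcBc p n).comp w)

theorem fZ_eq_fW {p n : ℕ} {Y : Type*} [TopologicalSpace Y] [CompactSpace Y] [T2Space Y]
    (Z₀ : Set (Y × TT p n)) [CompactSpace Z₀] : fZ Z₀ = fW (torC Z₀) := rfl

/-- **output of KILL** for a pointed map `f : Z⁺ → E⁺` -/
def KillFor {Z E : Type*} [TopologicalSpace Z] [T2Space Z] [LocallyCompactSpace Z]
    [TopologicalSpace E] [T2Space E] [LocallyCompactSpace E] (f : PMap Z E) : Prop :=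
  ∀ q : ℕ, q.Prime → ∃ u m N : ℕ, 0 < u ∧ 4 * m ≤ u ∧ ¬ q ∣ N ∧
    N • St.ofP ((pow (Fin u) (Cyl.ret f)).comp
      (incl (isClosed_PP (ι := Fin u) (instFactRangeIU f).out m))) = 0

/-- the hypothesis on a compact space over the torus -/
structure MonoOn {p n : ℕ} {Z : Type*} [TopologicalSpace Z] (w : C(Z, TT p n)) (K : ℕ)
    (Φ : Z → Matrix (Fin K) ((Fin 2 × Fin p) × Fin n) ℂ) : Prop where
  lt : K < 2 * p * n
  cont : Continuous Φ
  mono : ∀ z, ∀ v : (Fin 2 × Fin p) × Fin n → ℂ,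
    (Crest.OpAlg.totalProj p n (w z)).mulVec v = v → (Φ z).mulVec v = 0 → v = 0

/-- `T5.SI` from `KillFor` -/
theorem SI_of_killFor {p n : ℕ} {a : ℝ} {Y : Type} [TopologicalSpace Y] [CompactSpace Y]
    [TopologicalSpace.MetrizableSpace Y] {f : Y → Fin n → Fin (2 * p + 1) → ℝ} {K : ℕ}
    {Φ : Y × (Fin n → Fin (2 * p) → Circle) → Matrix (Fin K) ((Fin 2 × Fin p) × Fin n) ℂ}
    (h : Univ639.Hyp p n a f K Φ)
    (H : ∀ (Z : Type) [TopologicalSpace Z] [CompactSpace Z] [TopologicalSpace.MetrizableSpace Z]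
      (w : C(Z, TT p n)) (Φ : Z → Matrix (Fin K) ((Fin 2 × Fin p) × Fin n) ℂ), MonoOn w K Φ →
      KillFor (fW w)) : SI p n a f := by
  obtain ⟨Z₀, Φ₀, hZ₀, hT, hΦ₀, -, hm⟩ :=
    Nbhd264.exists_nbhd (s := a * n) h.cont h.contΦ h.mono
  have : CompactSpace Z₀ := isCompact_iff_compactSpace.1 hZ₀.isCompact
  refine SI_of_kill hZ₀ h.cont hT ?_
  exact H Z₀ (torC Z₀) (fun z => Φ₀ z) ⟨h.lt, hΦ₀.comp continuous_subtype_val,
    fun z v h1 h2 => hm z z.2 v h1 h2⟩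

universe u

/-- **S0119 from `KillFor`.** -/
theorem result_of_kill
    (H : ∀ (p n : ℕ), 1 ≤ p → 1 ≤ n → ∀ (Z : Type) [TopologicalSpace Z] [CompactSpace Z]
      [TopologicalSpace.MetrizableSpace Z] (w : C(Z, TT p n)) (K : ℕ)
      (Φ : Z → Matrix (Fin K) ((Fin 2 × Fin p) × Fin n) ℂ), MonoOn w K Φ → KillFor (fW w))
    (p n : ℕ) (hp : 1 ≤ p) (hn : 1 ≤ n) (a : ℝ) (ha : 0 < a) (ha' : a < 1 / 16)
    (Y : Type u) [TopologicalSpace Y] [CompactSpace Y] [TopologicalSpace.MetrizableSpace Y]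
    (f : Y → Fin n → Fin (2 * p + 1) → ℝ) (hf : Continuous f)
    (hfC : ∀ y, f y ∈ Crest.OpAlg.cube (2 * p + 1) n)
    (K : ℕ) (hK : K < 2 * p * n)
    (Φ : Y × (Fin n → Fin (2 * p) → Circle) → Matrix (Fin K) ((Fin 2 × Fin p) × Fin n) ℂ)
    (hΦ : ContinuousOn Φ (Crest.OpAlg.torusLocus p n (a * n) f))
    (hmono : ∀ q ∈ Crest.OpAlg.torusLocus p n (a * n) f, ∀ v : (Fin 2 × Fin p) × Fin n → ℂ,
      (Crest.OpAlg.totalProj p n q.2).mulVec v = v → (Φ q).mulVec v = 0 → v = 0)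
    (U : ℕ) (_hU : 1 ≤ U) :
    ∃ u : ℕ, U ≤ u ∧ ∃ G : (Fin u → Y) → (Fin u × Fin n → Fin (2 * p + 1) → ℝ),
      Continuous G ∧ (∀ y s k, |G y s k| ≤ 1) ∧
      (∀ y, a / 8 * (u * n : ℝ) ≤
        (({s | Crest.OpAlg.IsBoundarySlot (G y s)} : Set (Fin u × Fin n)).ncard : ℝ)) ∧
      ∀ y (b : Fin u) (j : Fin n), Crest.OpAlg.IsBoundarySlot (f (y b) j) →
        G y (b, j) = f (y b) j :=
  Univ639.result_of_SI_small (fun p n hp hn _ _ _ _ _ _ _ _ K _ h =>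
      SI_of_killFor h fun Z _ _ _ w Φ hΦ => H p n hp hn Z w K Φ hΦ)
    p n hp hn a ha ha' Y f hf hfC K hK Φ hΦ hmono U

end Crest.Agent.R090.GlueH264
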