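import Mathlib

/-!
# Row 90, GLUE part N (owner helper264): the arithmetic of the prime gluing
-/

set_option autoImplicit false

namespace Crest.Agent.R090.GlueN264

/-- the arithmetic of the gluing over the primes (`d u m` = additive order of `κ_{u,m}`) -/
theorem exists_one (d : ℕ → ℕ → ℕ)
    (K1 : ∀ u m j m', 1 ≤ m → m ≤ u + 1 → j * (m - 1) < m' → d (j * u) m' ∣ (d u m) ^ j)
    (K3 : ∀ u m m', m ≤ m' → d u m' ∣ d u m)
    (H : ∀ q : ℕ, q.Prime → ∃ u m, 0 < u ∧ 4 * m ≤ u ∧ ¬ q ∣ d u m) :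
    ∃ u m, 0 < u ∧ 2 * m ≤ u ∧ d u m = 1 := by
  choose! U m hU hm hd using H
  -- finitely many primes
  set F : Finset ℕ := insert 2 (d (U 2) (m 2)).primeFactors with hF
  have hFp : ∀ q ∈ F, q.Prime := by
    intro q hq
    rcases Finset.mem_insert.1 hq with rfl | h
    · exact Nat.prime_two
    · exact Nat.prime_of_mem_primeFactors h
  set P : ℕ := ∏ q ∈ F, U q with hP
  have hPpos : 0 < P := Finset.prod_pos fun q hq => hU q (hFp q hq)
  have hdvd : ∀ q ∈ F, U q ∣ P := fun q hq => Finset.dvd_prod_of_mem U hq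
  -- all of them kill `κ_{4P, P+1}`
  have key : ∀ q ∈ F, ∃ j, d (4 * P) (P + 1) ∣ (d (U q) (m q)) ^ j := by
    intro q hq
    obtain ⟨c, hc⟩ := hdvd q hq
    have hqp := hFp q hq
    have h1 := hm q hqp
    have h2 := hU q hqp
    have e : (4 * c) * U q = 4 * P := by rw [hc]; ring
    have h3 : max (m q) 1 ≤ U q + 1 := by omega
    have h4 : (4 * c) * (max (m q) 1 - 1) < P + 1 := by
      have : (4 * c) * (max (m q) 1 - 1) ≤ (4 * c) * (m q) :=
        Nat.mul_le_mul_left _ (by omega)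
      have h5 : 4 * c * m q = c * (4 * m q) := by ring
      have h6 : c * (4 * m q) ≤ c * U q := Nat.mul_le_mul_left _ h1
      have h7 : c * U q = P := by rw [hc]; ring
      omega
    have h5 := K1 (U q) (max (m q) 1) (4 * c) (P + 1) (le_max_right _ _) h3 h4
    rw [e] at h5
    exact ⟨4 * c, h5.trans (pow_dvd_pow_of_dvd (K3 _ _ _ (le_max_left _ _)) _)⟩
  refine ⟨4 * P, P + 1, by omega, by omega, ?_⟩
  by_contra hne
  obtain ⟨q, hq, hqd⟩ := Nat.exists_prime_and_dvd hne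
  obtain ⟨j, hj⟩ := key 2 (Finset.mem_insert_self _ _)
  have h1 : q ∣ d (U 2) (m 2) := hq.dvd_of_dvd_pow (hqd.trans hj)
  have h0 : d (U 2) (m 2) ≠ 0 := by
    intro h
    exact hd 2 Nat.prime_two (h ▸ dvd_zero 2)
  have hqF : q ∈ F := Finset.mem_insert_of_mem (Nat.mem_primeFactors.2 ⟨hq, h1, h0⟩)
  obtain ⟨j', hj'⟩ := key q hqF
  exact hd q hq (hq.dvd_of_dvd_pow (hqd.trans hj'))

end Crest.Agent.R090.GlueN264
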