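import Crest.Agent.R090.Cone_962

/-!
# Row 90, T1-ADD (1): the group structure on `[U × Io, V]` (owner helper528)

`Io = Ioo (0:ℝ) 1` is the suspension coordinate.
-/

set_option autoImplicit false
set_option linter.unusedSectionVars false

open Topology Filter Set

namespace Crest.Agent.R090.Grp528

open OnePoint Crest.Agent.R090.Sp962
open scoped unitInterval

universe u v w x

theorem qI_not {x : ℝ} (h : x ∉ Ioo (0 : ℝ) 1) : qI x = ∞ := by
  rw [mem_Ioo, not_and_or, not_lt, not_lt] at h
  rcases h with h | h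
  · exact qI_of_le h
  · exact qI_of_ge h


variable {U : Type u} {V : Type v} {W : Type w} {X : Type x}
variable [TopologicalSpace U] [TopologicalSpace V] [TopologicalSpace W] [TopologicalSpace X]

section quot

variable [T2Space U] [LocallyCompactSpace U]

theorem continuous_smI : Continuous (fun p : I × OnePoint U => sm p.2 (qI (p.1 : ℝ))) :=
  continuous_snd.sm962 (continuous_qI.comp (continuous_subtype_val.comp continuous_fst))

theorem smI_surjective : Function.Surjective
    (fun p : I × OnePoint U => sm p.2 (qI (p.1 : ℝ))) := by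
  intro q
  obtain ⟨⟨a, b⟩, rfl⟩ := sm_surjective q
  obtain ⟨t, rfl⟩ := qI_surjective b
  exact ⟨(t, a), rfl⟩

/-- continuity of a map out of `K × (U × Io)⁺` -/
theorem continuous_of_smI' {K : Type*} [TopologicalSpace K] [T2Space K] [CompactSpace K]
    {Y : Type*} [TopologicalSpace Y] {g : K × OnePoint (U × Io) → Y}
    (h : Continuous (fun p : K × (I × OnePoint U) => g (p.1, sm p.2.2 (qI (p.2.1 : ℝ))))) :
    Continuous g := by
  have hc : Continuous
      (fun p : K × (I × OnePoint U) => (p.1, sm p.2.2 (qI (p.2.1 : ℝ)))) :=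
    continuous_fst.prodMk (continuous_smI.comp continuous_snd)
  have hs : Function.Surjective
      (fun p : K × (I × OnePoint U) => (p.1, sm p.2.2 (qI (p.2.1 : ℝ)))) := by
    rintro ⟨k, q⟩
    obtain ⟨p, hp⟩ := smI_surjective q
    exact ⟨(k, p), by simpa using hp⟩
  exact (hc.isClosedMap.isQuotientMap hc hs).continuous_iff.2 h

theorem continuous_of_smI {Y : Type*} [TopologicalSpace Y] {g : OnePoint (U × Io) → Y}
    (h : Continuous (fun p : I × OnePoint U => g (sm p.2 (qI (p.1 : ℝ))))) :
    Continuous g :=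
  ((continuous_smI (U := U)).isClosedMap.isQuotientMap continuous_smI
    smI_surjective).continuous_iff.2 h

theorem ext_smI {f g : PMap (U × Io) V}
    (h : ∀ (u : OnePoint U) (t : ℝ), f (sm u (qI t)) = g (sm u (qI t))) : f = g := by
  refine PMap.ext fun p => ?_
  obtain ⟨u, t⟩ := p
  have := h u t
  rwa [qI_coe] at this

end quot

/-! ## mapping space -/

/-- pointed maps with the compact-open topology -/
abbrev Mp (U : Type u) (V : Type v) [TopologicalSpace U] [TopologicalSpace V] :=
  {f : C(OnePoint U, OnePoint V) // f ∞ = ∞}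

/-- constant map -/
def Mp.zero (U : Type u) (V : Type v) [TopologicalSpace U] [TopologicalSpace V] : Mp U V :=
  ⟨ContinuousMap.const _ ∞, rfl⟩

section path

variable [T2Space U] [LocallyCompactSpace U]

/-- a map out of a suspension as a loop -/
noncomputable def toPath (f : PMap (U × Io) V) : Path (Mp.zero U V) (Mp.zero U V) where
  toFun t := ⟨⟨fun u => f (sm u (qI (t : ℝ))), f.cont.comp (continuous_id.sm962 continuous_const)⟩,
    by simp⟩
  continuous_toFun := by
    refine Continuous.subtype_mk ?_ _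
    exact (ContinuousMap.curry ⟨fun p : I × OnePoint U => f (sm p.2 (qI (p.1 : ℝ))),
      f.cont.comp continuous_smI⟩).continuous
  source' := by
    apply Subtype.ext; ext u; simp [Mp.zero]
  target' := by
    apply Subtype.ext; ext u; simp [Mp.zero]

theorem toPath_apply (f : PMap (U × Io) V) (t : I) (u : OnePoint U) :
    (toPath f t).1 u = f (sm u (qI (t : ℝ))) := rfl

theorem path_zero (γ : Path (Mp.zero U V) (Mp.zero U V)) (u : OnePoint U) : (γ 0).1 u = ∞ := by
  rw [γ.source]; rfl

theorem path_one (γ : Path (Mp.zero U V) (Mp.zero U V)) (u : OnePoint U) : (γ 1).1 u = ∞ := by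
  rw [γ.target]; rfl

theorem path_inf (γ : Path (Mp.zero U V) (Mp.zero U V)) (t : I) : (γ t).1 ∞ = ∞ := (γ t).2

/-- auxiliary: uncurried function on `(U × Io)⁺` -/
def unc (G : I → OnePoint U → OnePoint V) (x : OnePoint (U × Io)) : OnePoint V :=
  x.elim ∞ fun p => G ⟨p.2.1, p.2.2.1.le, p.2.2.2.le⟩ p.1

theorem unc_sm (G : I → OnePoint U → OnePoint V) (h0 : ∀ u, G 0 u = ∞) (h1 : ∀ u, G 1 u = ∞)
    (hi : ∀ t, G t ∞ = ∞) (t : I) (u : OnePoint U) :
    unc G (sm u (qI (t : ℝ))) = G t u := by
  induction u using OnePoint.rec with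
  | infty => simp [unc, hi]
  | coe u =>
    by_cases h : (t : ℝ) ∈ Ioo (0 : ℝ) 1
    · rw [qI_of_mem h]; rfl
    · rw [qI_not h, sm_inf_right]
      rw [mem_Ioo, not_and_or, not_lt, not_lt] at h
      rcases h with h | h
      · have : t = 0 := Subtype.ext (le_antisymm h t.2.1)
        rw [this, h0]; rfl
      · have : t = 1 := Subtype.ext (le_antisymm t.2.2 h)
        rw [this, h1]; rfl

/-- a loop as a map out of a suspension -/
noncomputable def ofPath (γ : Path (Mp.zero U V) (Mp.zero U V)) : PMap (U × Io) V where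
  toFun := unc fun t => (γ t).1
  cont := by
    refine continuous_of_smI ?_
    have : (fun p : I × OnePoint U => unc (fun t => (γ t).1) (sm p.2 (qI (p.1 : ℝ)))) =
        fun p => (γ p.1).1 p.2 := by
      funext p
      exact unc_sm _ (path_zero γ) (path_one γ) (path_inf γ) _ _
    rw [this]
    exact ContinuousEval.continuous_eval.comp
      ((continuous_subtype_val.comp (γ.continuous.comp continuous_fst)).prodMk continuous_snd)
  map_inf := rfl

theorem ofPath_sm (γ : Path (Mp.zero U V) (Mp.zero U V)) (t : I) (u : OnePoint U) :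
    ofPath γ (sm u (qI (t : ℝ))) = (γ t).1 u :=
  unc_sm _ (path_zero γ) (path_one γ) (path_inf γ) _ _

@[simp] theorem toPath_ofPath (γ : Path (Mp.zero U V) (Mp.zero U V)) : toPath (ofPath γ) = γ := by
  refine Path.ext (funext fun t => ?_)
  apply Subtype.ext
  ext u
  rw [toPath_apply, ofPath_sm]

@[simp] theorem ofPath_toPath (f : PMap (U × Io) V) : ofPath (toPath f) = f := by
  refine PMap.ext fun p => ?_
  obtain ⟨u, t⟩ := p
  have := ofPath_sm (toPath f) ⟨t.1, t.2.1.le, t.2.2.le⟩ (u : OnePoint U)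
  rw [toPath_apply] at this
  rwa [qI_coe] at this

theorem toPath_homotopic {f g : PMap (U × Io) V} (h : f.Homotopic g) :
    (toPath f).Homotopic (toPath g) := by
  obtain ⟨H, hH, H0, H1, Hi⟩ := h.exists
  have hc : Continuous (fun p : (I × I) × OnePoint U => H (p.1.1, sm p.2 (qI (p.1.2 : ℝ)))) := by
    refine hH.comp ((by fun_prop : Continuous fun p : (I × I) × OnePoint U => p.1.1).prodMk ?_)
    exact continuous_snd.sm962 (continuous_qI.comp (by fun_prop))
  refine ⟨⟨⟨⟨fun p => ⟨ContinuousMap.curry ⟨_, hc⟩ p, ?_⟩, ?_⟩, ?_, ?_⟩, ?_⟩⟩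
  · simp [Hi]
  · exact Continuous.subtype_mk (ContinuousMap.curry ⟨_, hc⟩).continuous _
  · intro t
    apply Subtype.ext
    ext u
    exact H0 _
  · intro t
    apply Subtype.ext
    ext u
    exact H1 _
  · intro t x hx
    apply Subtype.ext
    ext u
    change H (t, sm u (qI (x : ℝ))) = (toPath f x).1 u
    rw [toPath_apply]
    have hx' : qI (x : ℝ) = ∞ := by
      rcases hx with rfl | rfl
      · simp
      · simp
    rw [hx', sm_inf_right, Hi]; simp

theorem ofPath_homotopic {γ δ : Path (Mp.zero U V) (Mp.zero U V)} (h : γ.Homotopic δ) :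
    (ofPath γ).Homotopic (ofPath δ) := by
  obtain ⟨F⟩ := h
  have h0 : ∀ (s : I) (u : OnePoint U), (F (s, 0)).1 u = ∞ := fun s u => by
    rw [F.source]; rfl
  have h1 : ∀ (s : I) (u : OnePoint U), (F (s, 1)).1 u = ∞ := fun s u => by
    rw [F.target]; rfl
  have hsm : ∀ (s t : I) (u : OnePoint U),
      unc (fun t => (F (s, t)).1) (sm u (qI (t : ℝ))) = (F (s, t)).1 u := fun s t u =>
    unc_sm (fun t => (F (s, t)).1) (h0 s) (h1 s) (fun t => (F (s, t)).2) t u
  refine PMap.Homotopic.of (fun p => unc (fun t => (F (p.1, t)).1) p.2) ?_ ?_ ?_ ?_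
  · refine continuous_of_smI' ?_
    have : (fun p : I × (I × OnePoint U) =>
        unc (fun t => (F (p.1, t)).1) (sm p.2.2 (qI (p.2.1 : ℝ)))) =
        fun p => (F (p.1, p.2.1)).1 p.2.2 := by
      funext p
      exact hsm _ _ _
    change Continuous (fun p : I × (I × OnePoint U) =>
        unc (fun t => (F (p.1, t)).1) (sm p.2.2 (qI (p.2.1 : ℝ))))
    rw [this]
    exact ContinuousEval.continuous_eval.comp
      ((continuous_subtype_val.comp (F.continuous.comp (by fun_prop))).prodMk (by fun_prop))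
  · intro x
    change unc (fun t => (F (0, t)).1) x = unc (fun t => (γ t).1) x
    simp
  · intro x
    change unc (fun t => (F (1, t)).1) x = unc (fun t => (δ t).1) x
    simp
  · intro t; rfl

theorem homotopic_iff {f g : PMap (U × Io) V} :
    f.Homotopic g ↔ (toPath f).Homotopic (toPath g) :=
  ⟨toPath_homotopic, fun h => by simpa using ofPath_homotopic h⟩

end path

/-! ## group operations on maps out of a suspension -/

section ops

variable [T2Space U] [LocallyCompactSpace U]

/-- sum -/
noncomputable def padd (f g : PMap (U × Io) V) : PMap (U × Io) V :=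
  ofPath ((toPath f).trans (toPath g))

/-- negative -/
noncomputable def pneg (f : PMap (U × Io) V) : PMap (U × Io) V :=
  ofPath (toPath f).symm

theorem toPath_zero : toPath (PMap.zero (U × Io) V) = Path.refl _ := by
  refine Path.ext (funext fun t => ?_)
  apply Subtype.ext
  ext u
  rfl

theorem padd_smI (f g : PMap (U × Io) V) (t : I) (u : OnePoint U) :
    padd f g (sm u (qI (t : ℝ))) =
      if (t : ℝ) ≤ 1 / 2 then f (sm u (qI (2 * t))) else g (sm u (qI (2 * t - 1))) := by
  rw [padd, ofPath_sm, Path.trans_apply]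
  split_ifs with h
  · rfl
  · rfl

/-- the formula for the sum, all real parameters -/
theorem padd_sm (f g : PMap (U × Io) V) (t : ℝ) (u : OnePoint U) :
    padd f g (sm u (qI t)) =
      if t ≤ 1 / 2 then f (sm u (qI (2 * t))) else g (sm u (qI (2 * t - 1))) := by
  by_cases h0 : t ≤ 0
  · rw [qI_of_le h0, if_pos (by linarith), qI_of_le (by linarith)]
    simp
  by_cases h1 : 1 ≤ t
  · rw [qI_of_ge h1, if_neg (by linarith), qI_of_ge (by linarith)]
    simp
  exact padd_smI f g ⟨t, by linarith, by linarith⟩ u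

theorem pneg_sm (f : PMap (U × Io) V) (t : ℝ) (u : OnePoint U) :
    pneg f (sm u (qI t)) = f (sm u (qI (1 - t))) := by
  by_cases h0 : t ≤ 0
  · rw [qI_of_le h0, qI_of_ge (by linarith)]
    simp
  by_cases h1 : 1 ≤ t
  · rw [qI_of_ge h1, qI_of_le (by linarith)]
    simp
  exact ofPath_sm (toPath f).symm ⟨t, by linarith, by linarith⟩ u

theorem padd_congr {f f' g g' : PMap (U × Io) V} (hf : f.Homotopic f') (hg : g.Homotopic g') :
    (padd f g).Homotopic (padd f' g') :=
  ofPath_homotopic ((toPath_homotopic hf).hcomp (toPath_homotopic hg))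

theorem pneg_congr {f f' : PMap (U × Io) V} (hf : f.Homotopic f') :
    (pneg f).Homotopic (pneg f') := ofPath_homotopic (toPath_homotopic hf).symm₂

theorem padd_assoc (f g h : PMap (U × Io) V) :
    (padd (padd f g) h).Homotopic (padd f (padd g h)) := by
  rw [homotopic_iff]
  simp only [padd, toPath_ofPath]
  exact Path.Homotopic.trans_assoc _ _ _

theorem zero_padd (f : PMap (U × Io) V) : (padd (PMap.zero _ _) f).Homotopic f := by
  rw [homotopic_iff]
  simp only [padd, toPath_ofPath, toPath_zero]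
  exact Path.Homotopic.refl_trans _

theorem padd_zero (f : PMap (U × Io) V) : (padd f (PMap.zero _ _)).Homotopic f := by
  rw [homotopic_iff]
  simp only [padd, toPath_ofPath, toPath_zero]
  exact Path.Homotopic.trans_refl _

theorem pneg_padd (f : PMap (U × Io) V) : (padd (pneg f) f).Homotopic (PMap.zero _ _) := by
  rw [homotopic_iff]
  simp only [padd, pneg, toPath_ofPath, toPath_zero]
  exact Path.Homotopic.symm_trans _

theorem padd_pneg (f : PMap (U × Io) V) : (padd f (pneg f)).Homotopic (PMap.zero _ _) := by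
  rw [homotopic_iff]
  simp only [padd, pneg, toPath_ofPath, toPath_zero]
  exact Path.Homotopic.trans_symm _

/-! ### naturality -/

theorem comp_padd (k : PMap V W) (f g : PMap (U × Io) V) :
    k.comp (padd f g) = padd (k.comp f) (k.comp g) := by
  refine ext_smI fun u t => ?_
  rw [PMap.comp_apply, padd_sm, padd_sm]
  split_ifs <;> rfl

theorem comp_pneg (k : PMap V W) (f : PMap (U × Io) V) :
    k.comp (pneg f) = pneg (k.comp f) := by
  refine ext_smI fun u t => ?_
  rw [PMap.comp_apply, pneg_sm, pneg_sm]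
  rfl

theorem padd_comp [T2Space X] [LocallyCompactSpace X] (k : PMap X U) (f g : PMap (U × Io) V) :
    (padd f g).comp (k.smash (PMap.id Io)) =
      padd (f.comp (k.smash (PMap.id Io))) (g.comp (k.smash (PMap.id Io))) := by
  refine ext_smI fun u t => ?_
  rw [PMap.comp_apply, PMap.smash_sm, PMap.id_apply, padd_sm, padd_sm]
  split_ifs <;> rw [PMap.comp_apply, PMap.smash_sm, PMap.id_apply]

theorem pneg_comp [T2Space X] [LocallyCompactSpace X] (k : PMap X U) (f : PMap (U × Io) V) :
    (pneg f).comp (k.smash (PMap.id Io)) = pneg (f.comp (k.smash (PMap.id Io))) := by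
  refine ext_smI fun u t => ?_
  rw [PMap.comp_apply, PMap.smash_sm, PMap.id_apply, pneg_sm, pneg_sm, PMap.comp_apply,
    PMap.smash_sm, PMap.id_apply]

/-! ### the second coordinate and Eckmann–Hilton -/

/-- exchange of the last two suspension coordinates -/
def sw (U : Type u) [TopologicalSpace U] : (U × Io) × Io ≃ₜ (U × Io) × Io where
  toFun p := ((p.1.1, p.2), p.1.2)
  invFun p := ((p.1.1, p.2), p.1.2)
  left_inv _ := rfl
  right_inv _ := rfl
  continuous_toFun := by fun_prop
  continuous_invFun := by fun_prop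

theorem sw_sm (u : OnePoint U) (s t : OnePoint Io) :
    PMap.ofHomeo (sw U) (sm (sm u s) t) = sm (sm u t) s := by
  induction u using OnePoint.rec with
  | infty => simp
  | coe u =>
    induction s using OnePoint.rec with
    | infty => simp
    | coe s =>
      induction t using OnePoint.rec with
      | infty => simp
      | coe t => rfl

theorem sw_sw : (PMap.ofHomeo (sw U)).comp (PMap.ofHomeo (sw U)) = PMap.id _ :=
  PMap.ext fun _ => rfl

/-- sum along the first of two suspension coordinates -/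
noncomputable def padd' (f g : PMap ((U × Io) × Io) V) : PMap ((U × Io) × Io) V :=
  (padd (f.comp (PMap.ofHomeo (sw U))) (g.comp (PMap.ofHomeo (sw U)))).comp (PMap.ofHomeo (sw U))

theorem padd'_sm (f g : PMap ((U × Io) × Io) V) (s : ℝ) (t : OnePoint Io) (u : OnePoint U) :
    padd' f g (sm (sm u (qI s)) t) =
      if s ≤ 1 / 2 then f (sm (sm u (qI (2 * s))) t) else g (sm (sm u (qI (2 * s - 1))) t) := by
  rw [padd', PMap.comp_apply, sw_sm, padd_sm]
  split_ifs <;> rw [PMap.comp_apply, sw_sm]

theorem ext_smII {f g : PMap ((U × Io) × Io) V}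
    (h : ∀ (u : OnePoint U) (s t : ℝ), f (sm (sm u (qI s)) (qI t)) = g (sm (sm u (qI s)) (qI t))) :
    f = g := by
  refine PMap.ext fun p => ?_
  obtain ⟨⟨u, s⟩, t⟩ := p
  have := h u s t
  rwa [qI_coe, qI_coe] at this

theorem padd_interchange (a b c d : PMap ((U × Io) × Io) V) :
    padd (padd' a b) (padd' c d) = padd' (padd a c) (padd b d) := by
  refine ext_smII fun u s t => ?_
  by_cases h1 : s ≤ 1 / 2 <;> by_cases h2 : t ≤ 1 / 2 <;>
    simp only [padd'_sm, padd_sm, h1, h2, if_true, if_false]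

/-! ### classes -/

/-- sum of classes -/
noncomputable def hadd (a b : HC (U × Io) V) : HC (U × Io) V :=
  Quot.map₂ padd (fun _ _ _ h => padd_congr (.refl _) h) (fun _ _ _ h => padd_congr h (.refl _)) a b

/-- negative of a class -/
noncomputable def hneg (a : HC (U × Io) V) : HC (U × Io) V :=
  Quot.map pneg (fun _ _ h => pneg_congr h) a

/-- the zero class -/
def hzero (U : Type u) (V : Type v) [TopologicalSpace U] [TopologicalSpace V] : HC U V :=
  HC.mk (PMap.zero U V)

theorem hadd_mk (f g : PMap (U × Io) V) : hadd (HC.mk f) (HC.mk g) = HC.mk (padd f g) := rfl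

theorem hneg_mk (f : PMap (U × Io) V) : hneg (HC.mk f) = HC.mk (pneg f) := rfl

theorem hadd_assoc (a b c : HC (U × Io) V) : hadd (hadd a b) c = hadd a (hadd b c) := by
  obtain ⟨a, rfl⟩ := HC.mk_surj a
  obtain ⟨b, rfl⟩ := HC.mk_surj b
  obtain ⟨c, rfl⟩ := HC.mk_surj c
  exact HC.sound (padd_assoc a b c)

theorem hzero_hadd (a : HC (U × Io) V) : hadd (hzero _ _) a = a := by
  obtain ⟨a, rfl⟩ := HC.mk_surj a
  exact HC.sound (zero_padd a)

theorem hadd_hzero (a : HC (U × Io) V) : hadd a (hzero _ _) = a := by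
  obtain ⟨a, rfl⟩ := HC.mk_surj a
  exact HC.sound (padd_zero a)

theorem hneg_hadd (a : HC (U × Io) V) : hadd (hneg a) a = hzero _ _ := by
  obtain ⟨a, rfl⟩ := HC.mk_surj a
  exact HC.sound (pneg_padd a)

theorem hadd_hneg (a : HC (U × Io) V) : hadd a (hneg a) = hzero _ _ := by
  obtain ⟨a, rfl⟩ := HC.mk_surj a
  exact HC.sound (padd_pneg a)

/-- `[U × Io, V]` is a group -/
@[reducible] noncomputable def addGroupHC (U : Type u) (V : Type v) [TopologicalSpace U]
    [TopologicalSpace V] [T2Space U] [LocallyCompactSpace U] : AddGroup (HC (U × Io) V) :=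
  letI : Add (HC (U × Io) V) := ⟨hadd⟩
  letI : Zero (HC (U × Io) V) := ⟨hzero _ _⟩
  letI : Neg (HC (U × Io) V) := ⟨hneg⟩
  AddGroup.ofLeftAxioms hadd_assoc hzero_hadd hneg_hadd

theorem comp_hadd (k : HC V W) (a b : HC (U × Io) V) :
    k.comp (hadd a b) = hadd (k.comp a) (k.comp b) := by
  obtain ⟨a, rfl⟩ := HC.mk_surj a
  obtain ⟨b, rfl⟩ := HC.mk_surj b
  obtain ⟨k, rfl⟩ := HC.mk_surj k
  simp only [hadd_mk, HC.comp_mk, comp_padd]

theorem comp_hneg (k : HC V W) (a : HC (U × Io) V) :
    k.comp (hneg a) = hneg (k.comp a) := by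
  obtain ⟨a, rfl⟩ := HC.mk_surj a
  obtain ⟨k, rfl⟩ := HC.mk_surj k
  simp only [hneg_mk, HC.comp_mk, comp_pneg]

theorem hadd_comp [T2Space X] [LocallyCompactSpace X] (k : HC X U) (a b : HC (U × Io) V) :
    (hadd a b).comp (k.smash (HC.mk (PMap.id Io))) =
      hadd (a.comp (k.smash (HC.mk (PMap.id Io)))) (b.comp (k.smash (HC.mk (PMap.id Io)))) := by
  obtain ⟨a, rfl⟩ := HC.mk_surj a
  obtain ⟨b, rfl⟩ := HC.mk_surj b
  obtain ⟨k, rfl⟩ := HC.mk_surj k
  simp only [hadd_mk, HC.comp_mk, HC.smash_mk, padd_comp]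

theorem hneg_comp [T2Space X] [LocallyCompactSpace X] (k : HC X U) (a : HC (U × Io) V) :
    (hneg a).comp (k.smash (HC.mk (PMap.id Io))) =
      hneg (a.comp (k.smash (HC.mk (PMap.id Io)))) := by
  obtain ⟨a, rfl⟩ := HC.mk_surj a
  obtain ⟨k, rfl⟩ := HC.mk_surj k
  simp only [hneg_mk, HC.comp_mk, HC.smash_mk, pneg_comp]

/-- sum of classes along the first of two suspension coordinates -/
noncomputable def hadd' (a b : HC ((U × Io) × Io) V) : HC ((U × Io) × Io) V :=
  (hadd (a.comp (HC.mk (PMap.ofHomeo (sw U)))) (b.comp (HC.mk (PMap.ofHomeo (sw U))))).comp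
    (HC.mk (PMap.ofHomeo (sw U)))

theorem hadd'_mk (f g : PMap ((U × Io) × Io) V) :
    hadd' (HC.mk f) (HC.mk g) = HC.mk (padd' f g) := rfl

theorem hsw_hsw : (HC.mk (PMap.ofHomeo (sw U))).comp (HC.mk (PMap.ofHomeo (sw U))) =
    HC.mk (PMap.id _) := by
  rw [HC.comp_mk, sw_sw]

theorem comp_sw_sw (a : HC ((U × Io) × Io) V) :
    (a.comp (HC.mk (PMap.ofHomeo (sw U)))).comp (HC.mk (PMap.ofHomeo (sw U))) = a := by
  rw [HC.comp_assoc, hsw_hsw, HC.comp_id]

theorem hzero_comp (k : HC X U) : (hzero U V).comp k = hzero X V := by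
  obtain ⟨k, rfl⟩ := HC.mk_surj k
  exact congrArg HC.mk (PMap.ext fun _ => rfl)

theorem comp_hzero (k : HC V W) : k.comp (hzero U V) = hzero U W := by
  obtain ⟨k, rfl⟩ := HC.mk_surj k
  exact congrArg HC.mk (PMap.ext fun _ => by simp)

theorem hadd_interchange (a b c d : HC ((U × Io) × Io) V) :
    hadd (hadd' a b) (hadd' c d) = hadd' (hadd a c) (hadd b d) := by
  obtain ⟨a, rfl⟩ := HC.mk_surj a
  obtain ⟨b, rfl⟩ := HC.mk_surj b
  obtain ⟨c, rfl⟩ := HC.mk_surj c
  obtain ⟨d, rfl⟩ := HC.mk_surj d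
  simp only [hadd_mk, hadd'_mk, padd_interchange]

theorem hadd_isUnital : EckmannHilton.IsUnital (hadd (U := U × Io) (V := V)) (hzero _ _) where
  left_id := hzero_hadd
  right_id := hadd_hzero

theorem hadd'_isUnital : EckmannHilton.IsUnital (hadd' (U := U) (V := V)) (hzero _ _) where
  left_id a := by
    rw [hadd', hzero_comp, hzero_hadd, comp_sw_sw]
  right_id a := by
    rw [hadd', hzero_comp, hadd_hzero, comp_sw_sw]

/-- both coordinates give the same sum -/
theorem hadd_eq_hadd' : hadd (U := U × Io) (V := V) = hadd' :=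
  EckmannHilton.mul hadd_isUnital hadd'_isUnital hadd_interchange

theorem hadd_comm (a b : HC ((U × Io) × Io) V) : hadd a b = hadd b a := by
  have := (EckmannHilton.mul_comm hadd_isUnital hadd'_isUnital hadd_interchange).comm a b
  rwa [← hadd_eq_hadd'] at this

end ops

end Crest.Agent.R090.Grp528
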