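import Crest.Agent.R090.Ho_962

/-!
# Row 90, F2: pointed homotopies as objects, lifting through closed subspaces (owner helper255)
-/

set_option autoImplicit false

open Topology Filter Set

namespace Crest.Agent.R090.Dens255

open OnePoint Sp962
open scoped unitInterval

/-! ## pointed homotopies -/

/-- a pointed homotopy `I × U⁺ → V⁺` -/
structure HMap (U V : Type*) [TopologicalSpace U] [TopologicalSpace V] where
  /-- the map -/
  toFun : I × OnePoint U → OnePoint V
  cont : Continuous toFun
  map_inf : ∀ t, toFun (t, ∞) = ∞

namespace HMap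

variable {U V W : Type*} [TopologicalSpace U] [TopologicalSpace V] [TopologicalSpace W]

instance : CoeFun (HMap U V) (fun _ => I × OnePoint U → OnePoint V) := ⟨HMap.toFun⟩

attribute [simp] HMap.map_inf

theorem continuous (H : HMap U V) : Continuous H := H.cont

/-- the map at time `t` -/
def at' (H : HMap U V) (t : I) : PMap U V :=
  ⟨fun x => H (t, x), H.cont.comp (by fun_prop), H.map_inf t⟩

@[simp] theorem at'_apply (H : HMap U V) (t : I) (x : OnePoint U) : H.at' t x = H (t, x) := rfl

theorem homotopic (H : HMap U V) : (H.at' 0).Homotopic (H.at' 1) :=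
  PMap.Homotopic.of H H.cont (fun _ => rfl) (fun _ => rfl) H.map_inf

theorem exists_of_homotopic {f g : PMap U V} (h : f.Homotopic g) :
    ∃ H : HMap U V, H.at' 0 = f ∧ H.at' 1 = g := by
  obtain ⟨H, hH, h0, h1, hi⟩ := h.exists
  exact ⟨⟨H, hH, hi⟩, PMap.ext fun x => h0 x, PMap.ext fun x => h1 x⟩

/-- constant homotopy -/
def const (f : PMap U V) : HMap U V :=
  ⟨fun p => f p.2, f.cont.comp continuous_snd, fun _ => f.map_inf⟩

@[simp] theorem const_apply (f : PMap U V) (p : I × OnePoint U) : const f p = f p.2 := rfl

/-- postcomposition by a homotopy, precomposition by a homotopy -/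
def comp (G : HMap V W) (F : HMap U V) : HMap U W :=
  ⟨fun p => G (p.1, F p), G.cont.comp (continuous_fst.prodMk F.cont), fun t => by simp⟩

@[simp] theorem comp_apply (G : HMap V W) (F : HMap U V) (p : I × OnePoint U) :
    G.comp F p = G (p.1, F p) := rfl

section smash

variable {U' V' : Type*} [TopologicalSpace U'] [TopologicalSpace V']
  [T2Space U] [LocallyCompactSpace U] [T2Space V]
  [T2Space U'] [LocallyCompactSpace U'] [T2Space V']

/-- smash product of homotopies -/
def smash (F : HMap U V) (G : HMap U' V') : HMap (U × U') (V × V') where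
  toFun p := p.2.elim ∞ fun q => sm (F (p.1, (q.1 : OnePoint U))) (G (p.1, (q.2 : OnePoint U')))
  cont := by
    refine continuous_of_sm' ?_
    have : (fun p : I × (OnePoint U × OnePoint U') =>
        (sm p.2.1 p.2.2).elim ∞ fun q => sm (F (p.1, (q.1 : OnePoint U)))
          (G (p.1, (q.2 : OnePoint U')))) =
        fun p => sm (F (p.1, p.2.1)) (G (p.1, p.2.2)) := by
      funext p
      obtain ⟨t, a, b⟩ := p
      induction a using OnePoint.rec with
      | infty => simp
      | coe a =>
        induction b using OnePoint.rec with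
        | infty => simp
        | coe b => rfl
    change Continuous (fun p : I × (OnePoint U × OnePoint U') =>
        (sm p.2.1 p.2.2).elim ∞ fun q => sm (F (p.1, (q.1 : OnePoint U)))
          (G (p.1, (q.2 : OnePoint U'))))
    rw [this]
    exact (F.cont.comp (by fun_prop)).sm962 (G.cont.comp (by fun_prop))
  map_inf := fun t => rfl

@[simp] theorem smash_coe (F : HMap U V) (G : HMap U' V') (t : I) (x : U) (y : U') :
    F.smash G (t, ((x, y) : U × U')) = sm (F (t, x)) (G (t, y)) := rfl

@[simp] theorem smash_sm (F : HMap U V) (G : HMap U' V') (t : I) (x : OnePoint U)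
    (y : OnePoint U') : F.smash G (t, sm x y) = sm (F (t, x)) (G (t, y)) := by
  induction x using OnePoint.rec with
  | infty => simp
  | coe a =>
    induction y using OnePoint.rec with
    | infty => simp
    | coe b => rfl

end smash

end HMap

/-! ## lifting through a closed embedding -/

section lift

variable {Q Y : Type*} [TopologicalSpace Q] [TopologicalSpace Y] [T2Space Y]
  [LocallyCompactSpace Y]

theorem isClosedEmbedding_map {e : Q → Y} (he : IsClosedEmbedding e) :
    IsClosedEmbedding (OnePoint.map e) := by
  refine Continuous.isClosedEmbedding (PMap.ofClosed e he).cont ?_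
  intro a b hab
  induction a using OnePoint.rec with
  | infty =>
    induction b using OnePoint.rec with
    | infty => rfl
    | coe b => exact absurd hab.symm (coe_ne_infty _)
  | coe a =>
    induction b using OnePoint.rec with
    | infty => exact absurd hab (coe_ne_infty _)
    | coe b => exact congrArg _ (he.injective (coe_injective hab))

theorem exists_lift {T : Type*} [TopologicalSpace T] {e : Q → Y} (he : IsClosedEmbedding e)
    {K : T → OnePoint Y} (hK : Continuous K)
    (hr : ∀ t, K t = ∞ ∨ ∃ q : Q, K t = (e q : OnePoint Y)) :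
    ∃ K' : T → OnePoint Q, Continuous K' ∧ ∀ t, OnePoint.map e (K' t) = K t := by
  have h : ∀ t, ∃ q : OnePoint Q, OnePoint.map e q = K t := by
    intro t
    rcases hr t with h | ⟨q, h⟩
    · exact ⟨∞, h.symm⟩
    · exact ⟨q, h.symm⟩
  choose K' hK' using h
  refine ⟨K', ?_, hK'⟩
  rw [(isClosedEmbedding_map he).isEmbedding.continuous_iff]
  have : OnePoint.map e ∘ K' = K := funext hK'
  rw [this]
  exact hK

theorem map_injective {e : Q → Y} (he : IsClosedEmbedding e) :
    Function.Injective (OnePoint.map e) := (isClosedEmbedding_map he).injective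

variable {P X : Type*} [TopologicalSpace P] [TopologicalSpace X]

/-- restriction of a homotopy to closed subspaces -/
theorem exists_restrict {i : P → X} (hi : IsClosedEmbedding i) {e : Q → Y}
    (he : IsClosedEmbedding e) (K : HMap X Y)
    (hr : ∀ t x, K (t, (i x : OnePoint X)) = ∞ ∨
      ∃ q : Q, K (t, (i x : OnePoint X)) = (e q : OnePoint Y)) :
    ∃ K' : HMap P Q, ∀ t (x : OnePoint P), OnePoint.map e (K' (t, x)) =
      K (t, OnePoint.map i x) := by
  have hc : Continuous (fun p : I × OnePoint P => K (p.1, OnePoint.map i p.2)) :=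
    K.cont.comp (continuous_fst.prodMk ((PMap.ofClosed i hi).cont.comp continuous_snd))
  have hr' : ∀ p : I × OnePoint P, K (p.1, OnePoint.map i p.2) = ∞ ∨
      ∃ q : Q, K (p.1, OnePoint.map i p.2) = (e q : OnePoint Y) := by
    rintro ⟨t, x⟩
    induction x using OnePoint.rec with
    | infty => exact Or.inl (K.map_inf t)
    | coe x => exact hr t x
  obtain ⟨K', hK', h⟩ := exists_lift he hc hr'
  refine ⟨⟨K', hK', fun t => ?_⟩, fun t x => h (t, x)⟩
  refine map_injective he ?_
  rw [h]
  exact K.map_inf t

end lift

end Crest.Agent.R090.Dens255
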