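import Crest.Agent.R090.HSt_285
import Crest.Agent.R090.Sm_202

/-!
# Row 90, leaf AS6 (helper285): cross products on the stable category and `deg θ = L(φ)`

* `hst_smR`, `hst_smL` : naturality of the cross product for stable maps;
* `hst_theta` : `θ^* σ = L(φ) σ` for `θ = u ∘ (φ ∧ 1) ∘ swap ∘ g`, from one triangle identity
  (spheres of any parity) and Künneth for the one class `u^* σ`;
* `Lst_eq_of_theta` : if moreover `θ = m • 1` then `L(φ) = m`.
-/

set_option autoImplicit false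
set_option linter.unusedSectionVars false
set_option linter.style.haveILetI false

namespace Crest.Agent.R090.HSt285

open Topology Set Crest.Agent.R090.Sp962 Crest.Agent.R090.Grp528 Crest.Agent.R090.St528
open Crest.Agent.R090.CohT253 Crest.Agent.R090.Sm202

namespace CohX

variable {F : Type} [Field F] (H : CohX F)

variable {X Y Z W : Type} [TopologicalSpace X] [TopologicalSpace Y] [TopologicalSpace Z]
  [TopologicalSpace W] [T2Space X] [LocallyCompactSpace X] [T2Space Y] [LocallyCompactSpace Y]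
  [T2Space Z] [LocallyCompactSpace Z] [T2Space W] [LocallyCompactSpace W]

theorem cr_assoc' (x : H.h X) (y : H.h Y) (z : H.h Z) :
    H.hc (hh (Homeomorph.prodAssoc X Y Z)) (H.cr X (Y × Z) x (H.cr Y Z y z)) =
      H.cr (X × Y) Z (H.cr X Y x y) z := H.cr_assoc x y z

theorem cr_assoc_symm (x : H.h X) (y : H.h Y) (z : H.h Z) :
    H.hc (hh (Homeomorph.prodAssoc X Y Z).symm) (H.cr (X × Y) Z (H.cr X Y x y) z) =
      H.cr X (Y × Z) x (H.cr Y Z y z) := by
  rw [← cr_assoc', hc_symm_hh]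

theorem hc_h1_smash (b : HC Z W) (y : H.h Y) (w : H.h W) :
    H.hc ((h1 Y).smash b) (H.cr Y W y w) = H.cr Y Z y (H.hc b w) := by
  rw [hc_smash, hc_h1]

theorem hc_smash_h1 (a : HC X Y) (y : H.h Y) (w : H.h W) :
    H.hc (a.smash (h1 W)) (H.cr Y W y w) = H.cr X W (H.hc a y) w := by
  rw [hc_smash, hc_h1]

/-- equal composites of homeomorphisms act equally -/
theorem hc_congr {a b : HC X Y} (h : a = b) (y : H.h Y) : H.hc a y = H.hc b y := by rw [h]

/-- exchange of the last two factors when the middle one is the suspension class -/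
theorem cr_exchange (y : H.h Y) (w : H.h W) :
    H.hc (hh (swR Y W ℂ)) (H.cr (Y × ℂ) W (H.cr Y ℂ y H.sg) w) =
      H.cr (Y × W) ℂ (H.cr Y W y w) H.sg := by
  have h1' : H.hc (hh (Homeomorph.prodComm W ℂ)) (H.cr ℂ W H.sg w) = H.cr W ℂ w H.sg :=
    H.cr_comm_even H.sg w H.eps_sg
  rw [← cr_assoc', ← cr_assoc', ← h1', ← hc_h1_smash, ← hc_comp, ← hc_comp]
  refine H.hc_congr ?_ _
  rw [← hh_refl, hh_smash, ← hh_trans, ← hh_trans]
  exact hh_ext fun _ => rfl

/-! ## suspension of cross products -/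

theorem sus_crL (n : ℕ) (w : H.h W) (x : H.h X) :
    H.sus (W × X) n (H.cr W X w x) =
      H.hc (hh (asC W X (Fin n → ℂ))) (H.cr W (S X n) w (H.sus X n x)) := by
  induction n with
  | zero =>
    rw [sus_zero, sus_zero, ← hc_h1_smash, ← hc_comp]
    refine H.hc_congr ?_ _
    rw [← hh_refl, hh_smash, ← hh_trans]
    exact hh_ext fun _ => rfl
  | succ n ih =>
    rw [sus_succ, ih, ← hc_smash_h1, ← cr_assoc', sus_succ, ← hc_h1_smash, ← hc_comp, ← hc_comp,
      ← hc_comp]
    refine H.hc_congr ?_ _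
    rw [← hh_refl, ← hh_refl, hh_smash, hh_smash, ← hh_trans, ← hh_trans, ← hh_trans]
    exact hh_ext fun _ => rfl

theorem sus_crR (n : ℕ) (x : H.h X) (w : H.h W) :
    H.sus (X × W) n (H.cr X W x w) =
      H.hc (hh (swR X (Fin n → ℂ) W).symm) (H.cr (S X n) W (H.sus X n x) w) := by
  induction n with
  | zero =>
    rw [sus_zero, sus_zero, ← hc_smash_h1, ← hc_comp]
    refine H.hc_congr ?_ _
    rw [hh_smash_h1, ← hh_trans]
    exact hh_ext fun _ => rfl
  | succ n ih =>
    rw [sus_succ, ih, ← hc_smash_h1, ← cr_exchange, sus_succ, ← hc_smash_h1, ← hc_comp, ← hc_comp,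
      ← hc_comp]
    refine H.hc_congr ?_ _
    rw [hh_smash_h1, hh_smash_h1, ← hh_trans, ← hh_trans, ← hh_trans]
    exact hh_ext fun _ => rfl

/-! ## naturality for stable maps -/

theorem hn_levR {n : ℕ} (a : HC (S X n) (S Y n)) (y : H.h Y) (w : H.h W) :
    H.hn (levR W a) (H.cr Y W y w) = H.cr X W (H.hn a y) w := by
  refine H.hn_eq ?_
  rw [sus_crR, sus_crR, sus_hn, ← hc_smash_h1, levR, conj_def, hc_comp, hc_comp, hc_hh_symm]

theorem hn_levL {n : ℕ} (a : HC (S X n) (S Y n)) (w : H.h W) (y : H.h Y) :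
    H.hn (levL W a) (H.cr W Y w y) = H.cr W X w (H.hn a y) := by
  refine H.hn_eq ?_
  rw [sus_crL, sus_crL, sus_hn, ← hc_h1_smash, levL, conj_def, hc_comp, hc_comp, hc_symm_hh]
  rfl

theorem hst_smR (a : St X Y) (y : H.h Y) (w : H.h W) :
    H.hst (a.smR W) (H.cr Y W y w) = H.cr X W (H.hst a y) w := by
  obtain ⟨n, -, a, rfl⟩ := a.exists_of_ge 0
  rw [smR_of, hst_of, hst_of, hn_levR]

theorem hst_smL (a : St X Y) (w : H.h W) (y : H.h Y) :
    H.hst (a.smL W) (H.cr W Y w y) = H.cr W X w (H.hst a y) := by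
  obtain ⟨n, -, a, rfl⟩ := a.exists_of_ge 0
  rw [smL_of, hst_of, hst_of, hn_levL]

theorem hst_sh (e : X ≃ₜ Y) (y : H.h Y) : H.hst (sh e) y = H.hc (hh e) y := by
  rw [sh_eq, hst_map]

/-- Lefschetz numbers are invariant under `∧ ℂ` -/
theorem Lst_smR_C (φ : St X X) : H.Lst (φ.smR ℂ) = H.Lst φ := by
  let E : H.h X ≃ₗ[F] H.h (X × ℂ) :=
    LinearEquiv.ofBijective (LinearMap.flip (H.cr X ℂ) H.sg) (H.susp X)
  have e1 : H.eps (X × ℂ) ∘ₗ H.hst (φ.smR ℂ) =
      E.toLinearMap ∘ₗ (H.eps X ∘ₗ H.hst φ) ∘ₗ E.symm.toLinearMap := by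
    ext x
    obtain ⟨y, rfl⟩ := E.surjective x
    simp only [LinearMap.comp_apply, LinearEquiv.coe_coe, LinearEquiv.symm_apply_apply]
    change H.eps (X × ℂ) (H.hst (φ.smR ℂ) (H.cr X ℂ y H.sg)) =
      H.cr X ℂ (H.eps X (H.hst φ y)) H.sg
    rw [hst_smR, eps_cr, eps_sg]
  rw [Lst, Lst, e1, ← LinearMap.trace_conj' (H.eps X ∘ₗ H.hst φ) E]
  rfl

/-! ## duality computes the Lefschetz number -/

section theta

variable {M B S0 : Type} [TopologicalSpace M] [TopologicalSpace B] [TopologicalSpace S0]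
  [T2Space M] [LocallyCompactSpace M] [T2Space B] [LocallyCompactSpace B] [T2Space S0]
  [LocallyCompactSpace S0]

/-- **`θ^* σ = L(φ) σ`** (helper698's form of the duality datum) -/
theorem hst_theta (h2 : (2 : F) ≠ 0) (σ : H.h S0) (hσ0 : σ ≠ 0)
    (hσ : ∀ s : H.h S0, ∃ c : F, s = c • σ) (hpar : H.eps S0 σ = σ ∨ H.eps S0 σ = -σ)
    (hinj : ∀ x : H.h M, H.cr M S0 x σ = 0 → x = 0)
    (g : St S0 (B × M)) (u : St (M × B) S0)
    (tri : (u.smR M).comp ((sh (Homeomorph.prodAssoc M B M).symm).comp (g.smL M)) =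
      sh (Homeomorph.prodComm M S0))
    {ι : Type*} [Fintype ι] (a : ι → H.h M) (b : ι → H.h B)
    (hK : H.hst u σ = ∑ i, H.cr M B (a i) (b i)) (φ : St M M) :
    H.hst (u.comp ((φ.smR B).comp ((sh (Homeomorph.prodComm B M)).comp g))) σ =
      H.Lst φ • σ := by
  obtain ⟨lam, hlam, -⟩ := AS6285.exists_coord hσ0 hσ
  -- the dual family before the sign
  set c : ι → H.h M →ₗ[F] F := fun i => lam ∘ₗ H.hst g ∘ₗ H.cr B M (b i) with hc
  have hcσ : ∀ (bb : H.h B) (x : H.h M), H.hst g (H.cr B M bb x) =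
      lam (H.hst g (H.cr B M bb x)) • σ := fun bb x => hlam _
  -- the triangle identity on `σ × x`
  have key : ∀ x : H.h M, H.cr M S0 (∑ i, c i x • a i) σ =
      H.hc (hh (Homeomorph.prodComm M S0)) (H.cr S0 M σ x) := by
    intro x
    rw [← hst_sh, ← tri, hst_comp, hst_comp, hst_smR, hK]
    simp only [map_sum, LinearMap.sum_apply, map_smul, LinearMap.smul_apply]
    refine Finset.sum_congr rfl fun i _ => ?_
    rw [hst_sh, cr_assoc_symm, hst_smL, hcσ, map_smul]
    rfl
  -- the one term identity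
  have gpar : ∀ (bb : H.h B) (x : H.h M), H.hst g (H.cr B M (H.eps B bb) (H.eps M x)) =
      H.eps S0 (H.hst g (H.cr B M bb x)) := by
    intro bb x
    rw [eps_hst, eps_cr]
  have hL : H.hst (u.comp ((φ.smR B).comp ((sh (Homeomorph.prodComm B M)).comp g))) σ =
      ∑ i, H.hst g (H.hc (hh (Homeomorph.prodComm B M)) (H.cr M B (H.hst φ (a i)) (b i))) := by
    rw [hst_comp, hst_comp, hst_comp, hK]
    simp only [map_sum]
    refine Finset.sum_congr rfl fun i _ => ?_
    rw [hst_smR, hst_sh]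
  have split : ∀ (P : H.h M →ₗ[F] H.h S0) (Q : H.h M →ₗ[F] H.h S0),
      (∀ x, H.eps M x = x → P x = Q x) → (∀ x, H.eps M x = -x → P x = Q x) → ∀ x, P x = Q x := by
    intro P Q h0 h1 x
    have e : x = (2 : F)⁻¹ • (x + H.eps M x) + (2 : F)⁻¹ • (x - H.eps M x) := by
      rw [← smul_add, add_add_sub_cancel, ← two_smul F x, smul_smul, inv_mul_cancel₀ h2, one_smul]
    have e0 := h0 (x + H.eps M x) (by rw [map_add, H.eps_eps, add_comm])
    have e1 := h1 (x - H.eps M x) (by rw [map_sub, H.eps_eps, neg_sub])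
    rw [e, P.map_add, Q.map_add, P.map_smul, P.map_smul, Q.map_smul, Q.map_smul, e0, e1]
  have comm0 : ∀ (bb : H.h B) (x : H.h M), H.eps M x = x →
      H.hc (hh (Homeomorph.prodComm B M)) (H.cr M B x bb) = H.cr B M bb x :=
    fun bb x hx => H.cr_comm_even x bb hx
  have comm1 : ∀ (bb : H.h B) (x : H.h M), H.eps M x = -x →
      H.hc (hh (Homeomorph.prodComm B M)) (H.cr M B x bb) = H.cr B M (H.eps B bb) x :=
    fun bb x hx => H.cr_comm_odd x bb hx
  rcases hpar with hp | hp
  · -- even sphere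
    have hdual : ∀ x, x = ∑ i, c i x • a i := by
      intro x
      have h3 := key x
      have h4 : H.hc (hh (Homeomorph.prodComm M S0)) (H.cr S0 M σ x) = H.cr M S0 x σ :=
        H.cr_comm_even σ x hp
      rw [h4] at h3
      refine sub_eq_zero.1 (hinj _ ?_)
      rw [map_sub, LinearMap.sub_apply, h3, sub_self]
    rw [Lst, AS6285.trace_of_dual a c hdual, hL, Finset.sum_smul]
    refine Finset.sum_congr rfl fun i _ => ?_
    have hterm := split
      (H.hst g ∘ₗ H.hc (hh (Homeomorph.prodComm B M)) ∘ₗ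
        (LinearMap.flip (H.cr M B) (b i)) ∘ₗ H.hst φ)
      (H.hst g ∘ₗ H.cr B M (b i) ∘ₗ H.eps M ∘ₗ H.hst φ)
      (fun x hx => by
        have h5 : H.eps M (H.hst φ x) = H.hst φ x := by rw [eps_hst, hx]
        simp only [LinearMap.comp_apply, LinearMap.flip_apply]
        rw [comm0 _ _ h5, h5])
      (fun x hx => by
        have h5 : H.eps M (H.hst φ x) = -H.hst φ x := by rw [eps_hst, hx, map_neg]
        simp only [LinearMap.comp_apply, LinearMap.flip_apply]
        rw [comm1 _ _ h5]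
        have h6 := gpar (b i) (H.hst φ x)
        rw [h5, map_neg, map_neg] at h6
        have h7 : H.eps S0 (H.hst g (H.cr B M (b i) (H.hst φ x))) =
            H.hst g (H.cr B M (b i) (H.hst φ x)) := by
          rw [hcσ, map_smul, hp]
        rw [h7] at h6
        rw [h5, map_neg, map_neg, ← h6, neg_neg]) (a i)
    simp only [LinearMap.comp_apply, LinearMap.flip_apply] at hterm
    rw [hterm, hcσ]
    rfl
  · -- odd sphere
    have hdual : ∀ x, x = ∑ i, (c i ∘ₗ H.eps M) x • a i := by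
      intro x
      have h3 := key (H.eps M x)
      have h4 : H.hc (hh (Homeomorph.prodComm M S0)) (H.cr S0 M σ (H.eps M x)) =
          H.cr M S0 (H.eps M (H.eps M x)) σ :=
        H.cr_comm_odd σ (H.eps M x) hp
      rw [h4, H.eps_eps] at h3
      refine sub_eq_zero.1 (hinj _ ?_)
      simp only [LinearMap.comp_apply]
      rw [map_sub, LinearMap.sub_apply, h3, sub_self]
    rw [Lst, AS6285.trace_of_dual a (fun i => c i ∘ₗ H.eps M) hdual, hL, Finset.sum_smul]
    refine Finset.sum_congr rfl fun i _ => ?_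
    have hterm := split
      (H.hst g ∘ₗ H.hc (hh (Homeomorph.prodComm B M)) ∘ₗ
        (LinearMap.flip (H.cr M B) (b i)) ∘ₗ H.hst φ)
      (H.hst g ∘ₗ H.cr B M (b i) ∘ₗ H.hst φ)
      (fun x hx => by
        have h5 : H.eps M (H.hst φ x) = H.hst φ x := by rw [eps_hst, hx]
        simp only [LinearMap.comp_apply, LinearMap.flip_apply]
        rw [comm0 _ _ h5])
      (fun x hx => by
        have h5 : H.eps M (H.hst φ x) = -H.hst φ x := by rw [eps_hst, hx, map_neg]
        simp only [LinearMap.comp_apply, LinearMap.flip_apply]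
        rw [comm1 _ _ h5]
        have h6 := gpar (b i) (H.hst φ x)
        rw [h5, map_neg, map_neg] at h6
        have h7 : H.eps S0 (H.hst g (H.cr B M (b i) (H.hst φ x))) =
            -H.hst g (H.cr B M (b i) (H.hst φ x)) := by
          rw [hcσ, map_smul, hp, smul_neg]
        rw [h7] at h6
        exact neg_injective h6) (a i)
    simp only [LinearMap.comp_apply, LinearMap.flip_apply] at hterm
    rw [hterm, hcσ]
    simp only [LinearMap.comp_apply, H.eps_eps]
    rfl

/-- **AS6**: if `θ = m • 1` then `L(φ) = m` -/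
theorem Lst_eq_of_theta (h2 : (2 : F) ≠ 0) (σ : H.h S0) (hσ0 : σ ≠ 0)
    (hσ : ∀ s : H.h S0, ∃ c : F, s = c • σ) (hpar : H.eps S0 σ = σ ∨ H.eps S0 σ = -σ)
    (hinj : ∀ x : H.h M, H.cr M S0 x σ = 0 → x = 0)
    (g : St S0 (B × M)) (u : St (M × B) S0)
    (tri : (u.smR M).comp ((sh (Homeomorph.prodAssoc M B M).symm).comp (g.smL M)) =
      sh (Homeomorph.prodComm M S0))
    (hK : ∃ (n : ℕ) (a : Fin n → H.h M) (b : Fin n → H.h B),
      H.hst u σ = ∑ i, H.cr M B (a i) (b i)) (φ : St M M) (m : ℤ)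
    (hm : u.comp ((φ.smR B).comp ((sh (Homeomorph.prodComm B M)).comp g)) = m • St.id S0) :
    H.Lst φ = (m : F) := by
  obtain ⟨n, a, b, hK⟩ := hK
  have h := H.hst_theta h2 σ hσ0 hσ hpar hinj g u tri a b hK φ
  refine AS6285.trace_eq_of_degree hσ0 (θσ := H.Lst φ • σ) rfl ?_
  rw [← h, hm, hst_zsmul, hst_id]

end theta

end CohX

end Crest.Agent.R090.HSt285
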