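import Crest.Agent.R090.T5Defs_758

/-!
# Row 90, T5-1: cutting off a null homotopy near a closed set
-/

set_option autoImplicit false

noncomputable section

namespace Crest.Agent.R090.HepCut865

open Set Topology Filter OnePoint unitInterval
open Crest.Agent.R090.Sp962 Crest.Agent.R090.T5 Crest.OpAlg

section general

variable {X V : Type*} [TopologicalSpace X] [TopologicalSpace V]

omit [TopologicalSpace X] in
/-- properness of `sm (kap x) s` in `s`. -/
theorem exists_compact_sm {S : Type*} [TopologicalSpace S] (kap : X → OnePoint V)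
    {N : Set (OnePoint (V × S))} (hN : N ∈ 𝓝 (∞ : OnePoint (V × S))) :
    ∃ K : Set S, IsCompact K ∧ ∀ x (s : S), s ∉ K → sm (kap x) (s : OnePoint S) ∈ N := by
  obtain ⟨K', ⟨_, hK'⟩, hKN⟩ := hasBasis_nhds_infty.mem_iff.1 hN
  refine ⟨Prod.snd '' K', hK'.image continuous_snd, fun x s hs => hKN ?_⟩
  generalize kap x = a
  induction a using OnePoint.rec with
  | infty => simp
  | coe a =>
    left
    exact ⟨(a, s), fun h => hs ⟨(a, s), h, rfl⟩, rfl⟩

/-- general form of the cut-off of a null homotopy. -/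
theorem exists_cut [CompactSpace X] [T2Space X] [T2Space V] {l : ℕ} {B B0 O : Set X}
    (hB : IsClosed B) (hB0 : IsClosed B0) (hO : IsOpen O) (h1 : B0 ⊆ O) (h2 : O ⊆ B)
    {kap : X → OnePoint V} (hkap : Continuous kap) (hn : NullOn B kap l) :
    ∃ Θ : X × (Fin l → ℝ) × I → OnePoint (V × (Fin l → ℝ)), Continuous Θ ∧
      (∀ N ∈ 𝓝 (∞ : OnePoint (V × (Fin l → ℝ))), ∃ K : Set (Fin l → ℝ), IsCompact K ∧
        ∀ x s t, s ∉ K → Θ (x, s, t) ∈ N) ∧
      (∀ x s, Θ (x, s, 0) = sm (kap x) ((s : Fin l → ℝ) : OnePoint (Fin l → ℝ))) ∧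
      (∀ x ∈ B0, ∀ s, Θ (x, s, 1) = ∞) := by
  classical
  obtain ⟨h, hc, hlim, hh0, hh1⟩ := hn
  obtain ⟨φ, hφ0, hφ1, hφ⟩ := exists_continuous_zero_one_of_isClosed hO.isClosed_compl hB0
    (disjoint_compl_left_iff_subset.2 h1)
  let ψ : X → I := fun x => ⟨φ x, hφ x⟩
  have hψ : Continuous ψ := φ.continuous.subtype_mk _
  have hψ0 : ∀ x, x ∉ O → ψ x = 0 := fun x hx => Subtype.ext (hφ0 hx)
  have hψ1 : ∀ x, x ∈ B0 → ψ x = 1 := fun x hx => Subtype.ext (hφ1 hx)
  let Θ : X × (Fin l → ℝ) × I → OnePoint (V × (Fin l → ℝ)) := fun p =>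
    if hx : p.1 ∈ B then h (⟨p.1, hx⟩, p.2.1, p.2.2 * ψ p.1) else
      sm (kap p.1) ((p.2.1 : Fin l → ℝ) : OnePoint (Fin l → ℝ))
  have hΘ1 : ∀ x (hx : x ∈ B) s t, Θ (x, s, t) = h (⟨x, hx⟩, s, t * ψ x) := fun x hx s t => by
    simp only [Θ, dif_pos hx]
  have hΘ2 : ∀ x, x ∉ O → ∀ s t, Θ (x, s, t) = sm (kap x) (s : OnePoint (Fin l → ℝ)) := by
    intro x hx s t
    by_cases hxB : x ∈ B
    · rw [hΘ1 x hxB, hψ0 x hx, mul_zero, hh0]
    · simp only [Θ, dif_neg hxB]
  refine ⟨Θ, ?_, ?_, ?_, ?_⟩
  · -- continuity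
    have hC1 : IsClosed {p : X × (Fin l → ℝ) × I | p.1 ∈ B} := hB.preimage continuous_fst
    have hC2 : IsClosed {p : X × (Fin l → ℝ) × I | p.1 ∈ Oᶜ} :=
      hO.isClosed_compl.preimage continuous_fst
    have hcov : {p : X × (Fin l → ℝ) × I | p.1 ∈ B} ∪ {p : X × (Fin l → ℝ) × I | p.1 ∈ Oᶜ} =
        univ := by
      ext p
      simp only [mem_union, mem_ofPred_eq, mem_univ, iff_true]
      by_cases hp : p.1 ∈ O
      · exact Or.inl (h2 hp)
      · exact Or.inr hp
    rw [← continuousOn_univ, ← hcov]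
    refine ContinuousOn.union_of_isClosed ?_ ?_ hC1 hC2
    · rw [continuousOn_iff_continuous_domRestrict]
      have : (domRestrict {p : X × (Fin l → ℝ) × I | p.1 ∈ B} Θ) =
          fun p => h (⟨p.1.1, p.2⟩, p.1.2.1, p.1.2.2 * ψ p.1.1) := by
        funext p
        exact hΘ1 p.1.1 p.2 p.1.2.1 p.1.2.2
      rw [this]
      refine hc.comp ?_
      refine Continuous.prodMk ?_ (Continuous.prodMk ?_ ?_)
      · exact (continuous_fst.comp continuous_subtype_val).subtype_mk _
      · exact (continuous_fst.comp continuous_snd).comp continuous_subtype_val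
      · exact ((continuous_snd.comp continuous_snd).comp continuous_subtype_val).mul
          (hψ.comp (continuous_fst.comp continuous_subtype_val))
    · have : Continuous (fun p : X × (Fin l → ℝ) × I =>
          sm (kap p.1) ((p.2.1 : Fin l → ℝ) : OnePoint (Fin l → ℝ))) :=
        (hkap.comp continuous_fst).sm962
          (continuous_coe.comp (continuous_fst.comp continuous_snd))
      exact this.continuousOn.congr fun p hp => hΘ2 p.1 hp p.2.1 p.2.2
  · -- properness
    intro N hN
    obtain ⟨K1, hK1, hK1N⟩ := exists_compact_sm kap hN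
    have := hlim hN
    obtain ⟨K2, hK2, hK2N⟩ := mem_cocompact.1 (hlim hN)
    refine ⟨K1 ∪ ((fun p : B × (Fin l → ℝ) × I => p.2.1) '' K2),
      hK1.union (hK2.image (continuous_fst.comp continuous_snd)), ?_⟩
    intro x s t hs
    rw [mem_union, not_or] at hs
    by_cases hx : x ∈ B
    · rw [hΘ1 x hx]
      have : (⟨x, hx⟩, s, t * ψ x) ∈ K2ᶜ := fun hm => hs.2 ⟨_, hm, rfl⟩
      exact hK2N this
    · rw [hΘ2 x (fun h => hx (h2 h))]
      exact hK1N x s hs.1
  · intro x s
    by_cases hx : x ∈ B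
    · rw [hΘ1 x hx, zero_mul, hh0]
    · rw [hΘ2 x (fun h => hx (h2 h))]
  · intro x hx s
    rw [hΘ1 x (h2 (h1 hx)), hψ1 x hx, one_mul, hh1]

end general

/-! ## many coordinates in a set -/

section count

variable {W : Type*} [TopologicalSpace W] {u : ℕ}

theorem le_ncard_iff (m : ℕ) (P : Fin u → Prop) :
    m ≤ {b | P b}.ncard ↔ ∃ F : Finset (Fin u), F.card = m ∧ ∀ b ∈ F, P b := by
  classical
  constructor
  · intro h
    have h' : m ≤ (Finset.univ.filter P).card := by
      rwa [Set.ncard_eq_toFinset_card' {b | P b}, Set.toFinset_ofPred] at h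
    obtain ⟨F, hF, hc⟩ := Finset.exists_subset_card_eq h'
    exact ⟨F, hc, fun b hb => (Finset.mem_filter.1 (hF hb)).2⟩
  · rintro ⟨F, rfl, hF⟩
    rw [← Set.ncard_coe_finset]
    exact Set.ncard_le_ncard (fun b hb => hF b hb) (Set.toFinite _)

theorem isClosed_many {T : Set W} (hT : IsClosed T) (m : ℕ) :
    IsClosed {x : Fin u → W | m ≤ {b | x b ∈ T}.ncard} := by
  have : {x : Fin u → W | m ≤ {b | x b ∈ T}.ncard} =
      ⋃ F ∈ {F : Finset (Fin u) | F.card = m}, {x : Fin u → W | ∀ b ∈ F, x b ∈ T} := by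
    ext x
    simp only [mem_ofPred_eq, mem_iUnion, exists_prop]
    exact le_ncard_iff m _
  rw [this]
  refine Set.Finite.isClosed_biUnion (Set.toFinite _) fun F _ => ?_
  have : {x : Fin u → W | ∀ b ∈ F, x b ∈ T} = ⋂ b ∈ F, (fun x : Fin u → W => x b) ⁻¹' T := by
    ext x; simp
  rw [this]
  exact isClosed_biInter fun b _ => hT.preimage (continuous_apply b)

theorem isOpen_many {T : Set W} (hT : IsOpen T) (m : ℕ) :
    IsOpen {x : Fin u → W | m ≤ {b | x b ∈ T}.ncard} := by
  have : {x : Fin u → W | m ≤ {b | x b ∈ T}.ncard} =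
      ⋃ F ∈ {F : Finset (Fin u) | F.card = m}, {x : Fin u → W | ∀ b ∈ F, x b ∈ T} := by
    ext x
    simp only [mem_ofPred_eq, mem_iUnion, exists_prop]
    exact le_ncard_iff m _
  rw [this]
  refine isOpen_biUnion fun F _ => ?_
  have : {x : Fin u → W | ∀ b ∈ F, x b ∈ T} = ⋂ b ∈ F, (fun x : Fin u → W => x b) ⁻¹' T := by
    ext x; simp
  rw [this]
  exact isOpen_biInter_finset fun b _ => hT.preimage (continuous_apply b)

omit [TopologicalSpace W] in
theorem many_mono {T T' : Set W} (h : T ⊆ T') (m : ℕ) :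
    {x : Fin u → W | m ≤ {b | x b ∈ T}.ncard} ⊆ {x : Fin u → W | m ≤ {b | x b ∈ T'}.ncard} :=
  fun x hx => le_trans hx
    (Set.ncard_le_ncard (t := {b | x b ∈ T'}) (fun _ hb => h hb) (Set.toFinite _))

end count

/-! ## continuity of the torus data -/

section torus

theorem continuous_torusData (m : ℕ) : Continuous (torusData m) := by
  induction m with
  | zero => exact continuous_const
  | succ m ih =>
    have hinit : Continuous (fun w : Fin (m + 1) → Circle => (Fin.init w : Fin m → Circle)) :=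
      continuous_pi fun i => continuous_apply _
    have hz : Continuous (fun w : Fin (m + 1) → Circle => ((w (Fin.last m) : Circle) : ℂ)) :=
      continuous_subtype_val.comp (continuous_apply _)
    have hre := Complex.continuous_re.comp hz
    have him := Complex.continuous_im.comp hz
    have hp := ih.comp hinit
    have h1 := continuous_fst.comp hp
    have h2 := continuous_snd.comp hp
    refine Continuous.prodMk ?_ ?_
    · refine continuous_pi fun i => ?_
      refine Fin.lastCases ?_ (fun i => ?_) i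
      · simp only [Fin.snoc_last]
        exact continuous_const.mul him
      · simp only [Fin.snoc_castSucc]
        exact ((continuous_apply i).comp h1).add ((continuous_const.mul hre).mul
          ((continuous_apply i).comp h2))
    · refine continuous_pi fun i => ?_
      refine Fin.lastCases ?_ (fun i => ?_) i
      · simp only [Fin.snoc_last]
        exact him
      · simp only [Fin.snoc_castSucc]
        exact hre.mul ((continuous_apply i).comp h2)

theorem continuous_torusEmb (p : ℕ) : Continuous (torusEmb p) :=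
  continuous_fst.comp (continuous_torusData (2 * p))

theorem isClosed_sparse (t n : ℕ) (s : ℝ) : IsClosed (sparse t n s) := by
  classical
  have : sparse t n s = (⋂ j, ⋂ k, {z : Fin n → Fin t → ℝ | |z j k| ≤ 2}) ∩
      ⋃ F ∈ {F : Finset (Fin n) | (F.card : ℝ) ≤ s}, {z : Fin n → Fin t → ℝ | ∀ j ∉ F, z j = 0} := by
    ext z
    simp only [sparse, mem_ofPred_eq, mem_inter_iff, mem_iInter, mem_iUnion, exists_prop]
    refine and_congr Iff.rfl ?_
    constructor
    · intro h
      refine ⟨Finset.univ.filter (fun j => z j ≠ 0), ?_, fun j hj => ?_⟩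
      · rwa [Set.ncard_eq_toFinset_card' {j | z j ≠ 0}, Set.toFinset_ofPred] at h
      · by_contra h0
        exact hj (Finset.mem_filter.2 ⟨Finset.mem_univ j, h0⟩)
    · rintro ⟨F, hF, hz⟩
      refine le_trans ?_ hF
      have : ({j | z j ≠ 0} : Set (Fin n)).ncard ≤ F.card := by
        rw [← Set.ncard_coe_finset]
        refine Set.ncard_le_ncard (fun j hj => ?_) (Set.toFinite _)
        by_contra h
        exact hj (hz j h)
      exact_mod_cast this
  rw [this]
  refine IsClosed.inter ?_ ?_
  · refine isClosed_iInter fun j => isClosed_iInter fun k => ?_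
    exact isClosed_le (((continuous_apply k).comp (continuous_apply j)).abs) continuous_const
  · refine Set.Finite.isClosed_biUnion (Set.toFinite _) fun F _ => ?_
    have : {z : Fin n → Fin t → ℝ | ∀ j ∉ F, z j = 0} =
        ⋂ j, ⋂ (_ : j ∉ F), {z : Fin n → Fin t → ℝ | z j = 0} := by
      ext z; simp
    rw [this]
    exact isClosed_iInter fun j => isClosed_iInter fun _ =>
      isClosed_eq (continuous_apply j) continuous_const

theorem isClosed_torusLocus {Y : Type*} [TopologicalSpace Y] (p n : ℕ) (s : ℝ)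
    {f : Y → Fin n → Fin (2 * p + 1) → ℝ} (hf : Continuous f) :
    IsClosed (torusLocus p n s f) := by
  refine (isClosed_sparse (2 * p + 1) n s).preimage ?_
  refine continuous_pi fun j => ?_
  exact ((continuous_apply j).comp (hf.comp continuous_fst)).sub
    ((continuous_torusEmb p).comp ((continuous_apply j).comp continuous_snd))

/-- the torus collapse is continuous. -/
theorem continuous_tc {ι : Type*} [Finite ι] : Continuous (tc : (ι → Circle) → OnePoint (ι → ℝ)) := by
  classical
  rw [continuous_iff_continuousAt]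
  intro w
  have hre : ∀ i, Continuous (fun w : ι → Circle => ((w i : Circle) : ℂ).re) := fun i =>
    Complex.continuous_re.comp (continuous_subtype_val.comp (continuous_apply i))
  have him : ∀ i, Continuous (fun w : ι → Circle => ((w i : Circle) : ℂ).im) := fun i =>
    Complex.continuous_im.comp (continuous_subtype_val.comp (continuous_apply i))
  have hnorm : ∀ z : Circle, (z : ℂ).re ^ 2 + (z : ℂ).im ^ 2 = 1 := fun z => by
    have h := Circle.normSq_coe z
    rw [Complex.normSq_apply] at h
    nlinarith [h]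
  have hneg : ∀ z : Circle, (z : ℂ) = -1 ↔ 1 + (z : ℂ).re = 0 := fun z => by
    constructor
    · intro h; rw [h]; simp
    · intro h
      have h1 : (z : ℂ).re = -1 := by linarith
      have h2 : (z : ℂ).im = 0 := by
        have := hnorm z
        rw [h1] at this
        nlinarith [this]
      exact Complex.ext (by simp [h1]) (by simp [h2])
  by_cases hw : ∃ i, (w i : ℂ) = -1
  · obtain ⟨i, hi⟩ := hw
    have h0 : tc w = ∞ := by
      unfold tc
      rw [if_pos ⟨i, hi⟩]
    rw [ContinuousAt, h0, hasBasis_nhds_infty.tendsto_right_iff]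
    rintro K ⟨_, hK⟩
    have hKb : ∃ R : ℝ, ∀ v ∈ K, |v i| ≤ R := by
      obtain ⟨R, hR⟩ := (hK.image (continuous_apply i)).isBounded.exists_norm_le
      exact ⟨R, fun v hv => hR _ ⟨v, hv, rfl⟩⟩
    obtain ⟨R, hR⟩ := hKb
    have hopen : IsOpen {w' : ι → Circle |
        R ^ 2 * (1 + ((w' i : Circle) : ℂ).re) < 1 - ((w' i : Circle) : ℂ).re} :=
      isOpen_lt (continuous_const.mul (continuous_const.add (hre i))) (continuous_const.sub (hre i))
    have hmem : w ∈ {w' : ι → Circle |
        R ^ 2 * (1 + ((w' i : Circle) : ℂ).re) < 1 - ((w' i : Circle) : ℂ).re} := by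
      have h1 : ((w i : Circle) : ℂ).re = -1 := by rw [hi]; simp
      simp only [mem_ofPred_eq, h1]
      norm_num
    filter_upwards [hopen.mem_nhds hmem] with w' hw'
    replace hw' : R ^ 2 * (1 + ((w' i : Circle) : ℂ).re) < 1 - ((w' i : Circle) : ℂ).re := hw'
    by_cases hw2 : ∃ j, (w' j : ℂ) = -1
    · right
      unfold tc
      rw [if_pos hw2]
      rfl
    · left
      have h3 : tc w' = ((fun j => (w' j : ℂ).im / (1 + (w' j : ℂ).re) : ι → ℝ) :
          OnePoint (ι → ℝ)) := by
        unfold tc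
        rw [if_neg hw2]
      refine ⟨_, fun hmK => ?_, h3.symm⟩
      have h4 := hR _ hmK
      have h5 : 1 + ((w' i : Circle) : ℂ).re ≠ 0 := fun h => hw2 ⟨i, (hneg _).2 h⟩
      have h6 : -1 ≤ ((w' i : Circle) : ℂ).re := by
        have := hnorm (w' i)
        nlinarith [sq_nonneg ((w' i : Circle) : ℂ).im]
      have h7 : 0 < 1 + ((w' i : Circle) : ℂ).re := lt_of_le_of_ne (by linarith) (Ne.symm h5)
      have h8 : (((w' i : Circle) : ℂ).im / (1 + ((w' i : Circle) : ℂ).re)) ^ 2 ≤ R ^ 2 := by
        rw [← sq_abs]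
        exact pow_le_pow_left₀ (abs_nonneg _) h4 2
      rw [div_pow, div_le_iff₀ (by positivity)] at h8
      have h9 : ((w' i : Circle) : ℂ).im ^ 2 =
          (1 - ((w' i : Circle) : ℂ).re) * (1 + ((w' i : Circle) : ℂ).re) := by
        have := hnorm (w' i)
        linarith
      rw [h9] at h8
      nlinarith
  · have h0 : ∀ᶠ w' in 𝓝 w, tc w' = ((fun j => (w' j : ℂ).im / (1 + (w' j : ℂ).re) : ι → ℝ) :
        OnePoint (ι → ℝ)) := by
      have h1 : ∀ i, ∀ᶠ w' in 𝓝 w, 1 + ((w' i : Circle) : ℂ).re ≠ 0 := by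
        intro i
        have : IsOpen {w' : ι → Circle | 1 + ((w' i : Circle) : ℂ).re ≠ 0} :=
          isOpen_ne_fun (continuous_const.add (hre i)) continuous_const
        exact this.mem_nhds fun h => hw ⟨i, (hneg _).2 h⟩
      filter_upwards [Filter.eventually_all.2 h1] with w' hw'
      unfold tc
      rw [if_neg]
      rintro ⟨i, hi⟩
      exact hw' i ((hneg _).1 hi)
    refine ContinuousAt.congr ?_ (Filter.EventuallyEq.symm h0)
    refine continuous_coe.continuousAt.comp ?_
    refine tendsto_pi_nhds.2 fun i => ?_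
    refine ContinuousAt.div (him i).continuousAt (continuous_const.add (hre i)).continuousAt ?_
    exact fun h => hw ⟨i, (hneg _).2 h⟩

end torus

/-! ## leaf T5-1 -/

/-- **T5-1** for a general closed set `T` with closed neighbourhood `Z`. -/
theorem exists_theta {p n : ℕ} {Y : Type*} [TopologicalSpace Y] [CompactSpace Y] [T2Space Y]
    {T Z : Set (Y × TT p n)} (hT : IsClosed T) (hZ : IsClosed Z) (hTZ : T ⊆ interior Z)
    {u m l : ℕ} (hn : NullOn (Bad Z u m) (fun x => tc (allCoord x)) l) :
    ∃ Θ : (Fin u → Y) × (Idx p n u → Circle) × (Fin l → ℝ) × unitInterval →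
      OnePoint ((Idx p n u → ℝ) × (Fin l → ℝ)),
    Continuous Θ ∧ Tendsto Θ (cocompact _) (𝓝 ∞) ∧
    (∀ y W s, Θ (y, W, s, 0) = sm (tc W) ((s : (Fin l → ℝ)) : OnePoint (Fin l → ℝ))) ∧
    (∀ y W s, m ≤ ({b | (y b, fun j k => W (b, j, k)) ∈ T} : Set (Fin u)).ncard →
      Θ (y, W, s, 1) = ∞) := by
  have hall : Continuous (allCoord : (Fin u → Y × TT p n) → Idx p n u → Circle) := by
    refine continuous_pi fun q => ?_
    exact (continuous_apply q.2.2).comp ((continuous_apply q.2.1).comp
      (continuous_snd.comp (continuous_apply q.1)))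
  obtain ⟨Θ, hc, hprop, h0, h1⟩ := exists_cut (X := Fin u → Y × TT p n) (l := l)
    (isClosed_many hZ m) (isClosed_many hT m) (isOpen_many (isOpen_interior (s := Z)) m)
    (many_mono hTZ m) (many_mono interior_subset m) (continuous_tc.comp hall) hn
  let c : (Fin u → Y) × (Idx p n u → Circle) → (Fin u → Y × TT p n) :=
    fun q b => (q.1 b, fun j k => q.2 (b, j, k))
  have hcc : Continuous c := by
    refine continuous_pi fun b => Continuous.prodMk ?_ ?_
    · exact (continuous_apply b).comp continuous_fst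
    · exact continuous_pi fun j => continuous_pi fun k =>
        (continuous_apply _).comp continuous_snd
  have hac : ∀ y W, allCoord (c (y, W)) = W := fun y W => rfl
  refine ⟨fun q => Θ (c (q.1, q.2.1), q.2.2.1, q.2.2.2), ?_, ?_, ?_, ?_⟩
  · refine hc.comp (Continuous.prodMk ?_ (Continuous.prodMk ?_ ?_))
    · exact hcc.comp (continuous_fst.prodMk (continuous_fst.comp continuous_snd))
    · exact continuous_fst.comp (continuous_snd.comp continuous_snd)
    · exact continuous_snd.comp (continuous_snd.comp continuous_snd)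
  · intro N hN
    obtain ⟨K, hK, hKN⟩ := hprop N hN
    refine mem_cocompact.2 ⟨univ ×ˢ (univ ×ˢ (K ×ˢ univ)),
      isCompact_univ.prod (isCompact_univ.prod (hK.prod isCompact_univ)), ?_⟩
    rintro ⟨y, W, s, t⟩ hq
    refine hKN _ s t fun hs => hq ?_
    exact ⟨mem_univ _, mem_univ _, hs, mem_univ _⟩
  · intro y W s
    exact h0 (c (y, W)) s
  · intro y W s hm
    exact h1 (c (y, W)) hm s

/-- **T5-1**: `SI → ThetaInput`. -/
theorem thetaInput_of_SI {p n : ℕ} {a : ℝ} {Y : Type*} [TopologicalSpace Y] [CompactSpace Y]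
    [T2Space Y] {f : Y → Fin n → Fin (2 * p + 1) → ℝ} (hf : Continuous f) (h : SI p n a f) :
    ∃ u m l : ℕ, 0 < u ∧ 2 * m ≤ u ∧ ThetaInput p n a f u m l := by
  obtain ⟨Z, hZ, hTZ, u, m, l, hu, hm, hn⟩ := h
  exact ⟨u, m, l, hu, hm, exists_theta (isClosed_torusLocus p n (a * n) hf) hZ hTZ hn⟩

end Crest.Agent.R090.HepCut865
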