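import Crest.Agent.R090.Ho_962

/-!
# Row 90, HOPF part A (owner helper297): translations, scalings and collapses of `OnePoint E`

`E` is a finite dimensional real normed space.
-/

set_option autoImplicit false
set_option linter.unusedSectionVars false
set_option linter.style.haveILetI false

open Topology Filter Set Metric

namespace Crest.Agent.R090.Hopf297

open OnePoint Sp962
open scoped unitInterval

section general

variable {X : Type*} [TopologicalSpace X]
variable {E : Type*} [NormedAddCommGroup E] [NormedSpace ℝ E] [FiniteDimensional ℝ E]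

theorem properE (E : Type*) [NormedAddCommGroup E] [NormedSpace ℝ E] [FiniteDimensional ℝ E] :
    ProperSpace E := FiniteDimensional.proper ℝ E

/-- tending to the point at infinity of `OnePoint E` -/
theorem tendsto_inf_iff {α : Type*} {l : Filter α} {F : α → OnePoint E} :
    Tendsto F l (𝓝 ∞) ↔ ∀ R : ℝ, ∀ᶠ z in l, ∀ v : E, F z = (v : OnePoint E) → R < ‖v‖ := by
  haveI := properE E
  rw [OnePoint.hasBasis_nhds_infty.tendsto_right_iff]
  constructor
  · intro h R
    filter_upwards [h (closedBall (0 : E) R) ⟨isClosed_closedBall, isCompact_closedBall 0 R⟩]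
      with z hz v hv
    rcases hz with ⟨w, hw, hw'⟩ | hz
    · rw [hv, coe_eq_coe] at hw'
      subst hw'
      rw [mem_compl_iff, mem_closedBall_zero_iff, not_le] at hw
      exact hw
    · rw [mem_singleton_iff, hv] at hz
      exact absurd hz (coe_ne_infty _)
  · rintro h K ⟨_, hK⟩
    obtain ⟨R, hR⟩ := hK.isBounded.subset_closedBall (0 : E)
    filter_upwards [h R] with z hz
    cases hv : F z with
    | infty => right; rfl
    | coe v =>
      left
      refine ⟨v, ?_, rfl⟩
      intro hvK
      have := hR hvK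
      rw [mem_closedBall_zero_iff] at this
      exact absurd (hz v hv) (not_lt.2 this)

/-- translation by `v`, jointly -/
def sh (y : OnePoint E) (v : E) : OnePoint E := y.elim ∞ fun z => ((z + v : E) : OnePoint E)

@[simp] theorem sh_inf (v : E) : sh (∞ : OnePoint E) v = ∞ := rfl
@[simp] theorem sh_coe (z v : E) : sh (z : OnePoint E) v = ((z + v : E) : OnePoint E) := rfl

theorem sh_eq_coe {y : OnePoint E} {v w : E} (h : sh y v = (w : OnePoint E)) :
    y = ((w - v : E) : OnePoint E) := by
  induction y using OnePoint.rec with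
  | infty => exact absurd h (infty_ne_coe _)
  | coe z =>
    rw [sh_coe, coe_eq_coe] at h
    rw [← h, add_sub_cancel_right]

theorem continuous_sh : Continuous (fun p : OnePoint E × E => sh p.1 p.2) := by
  haveI := properE E
  rw [continuous_iff_continuousAt]
  rintro ⟨y, v⟩
  induction y using OnePoint.rec with
  | infty =>
    rw [ContinuousAt]
    change Tendsto _ _ (𝓝 ∞)
    rw [tendsto_inf_iff]
    intro R
    have h1 : ∀ᶠ y : OnePoint E in 𝓝 ∞, ∀ z : E, y = (z : OnePoint E) → R + (‖v‖ + 1) < ‖z‖ :=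
      (tendsto_inf_iff.1 tendsto_id) _
    have h2 : ∀ᶠ w : E in 𝓝 v, ‖w‖ < ‖v‖ + 1 :=
      (continuous_norm.tendsto v).eventually (gt_mem_nhds (by linarith))
    filter_upwards [h1.prod_inl_nhds v, h2.prod_inr_nhds (∞ : OnePoint E)] with p hp1 hp2 w hw
    have := hp1 _ (sh_eq_coe hw)
    have h3 : ‖w - p.2‖ ≤ ‖w‖ + ‖p.2‖ := norm_sub_le _ _
    linarith
  | coe z =>
    have he : IsOpenEmbedding (Prod.map ((↑) : E → OnePoint E) (id : E → E)) :=
      isOpenEmbedding_coe.prodMap IsOpenEmbedding.id
    have : ContinuousAt ((fun p : OnePoint E × E => sh p.1 p.2) ∘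
        (Prod.map ((↑) : E → OnePoint E) (id : E → E))) (z, v) := by
      have e : ((fun p : OnePoint E × E => sh p.1 p.2) ∘
        (Prod.map ((↑) : E → OnePoint E) (id : E → E))) =
          fun p : E × E => ((p.1 + p.2 : E) : OnePoint E) := rfl
      rw [e]
      exact (continuous_coe.comp (continuous_fst.add continuous_snd)).continuousAt
    exact he.continuousAt_iff.1 this

/-- extension by zero of a continuous function with compact support -/
theorem continuous_ext {Y : Type*} [TopologicalSpace Y] [T2Space Y] {F : Type*}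
    [NormedAddCommGroup F] {w : OnePoint Y → F}
    (h : Continuous fun y : Y => w y) (h0 : w ∞ = 0)
    (K : Set Y) (hK : IsCompact K) (hw : ∀ y : Y, y ∉ K → w y = 0) : Continuous w := by
  rw [OnePoint.continuous_iff]
  refine ⟨?_, h⟩
  rw [h0]
  refine tendsto_const_nhds.congr' ?_
  have : Kᶜ ∈ coclosedCompact Y := hasBasis_coclosedCompact.mem_of_mem ⟨hK.isClosed, hK⟩
  filter_upwards [this] with y hy
  exact (hw y hy).symm

/-! ## the collapse `y ↦ y / (1 - s|y|/δ)` -/

/-- `y ↦ (δ / (δ - s ‖y‖)) • y` where `s ‖y‖ < δ`, and `∞` elsewhere -/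
noncomputable def kap (δ s : ℝ) (y : OnePoint E) : OnePoint E :=
  open Classical in
  y.elim ∞ fun z => if s * ‖z‖ < δ then (((δ / (δ - s * ‖z‖)) • z : E) : OnePoint E) else ∞

@[simp] theorem kap_inf (δ s : ℝ) : kap δ s (∞ : OnePoint E) = ∞ := rfl

theorem kap_coe_lt {δ s : ℝ} {z : E} (h : s * ‖z‖ < δ) :
    kap δ s (z : OnePoint E) = (((δ / (δ - s * ‖z‖)) • z : E) : OnePoint E) := if_pos h

theorem kap_coe_ge {δ s : ℝ} {z : E} (h : δ ≤ s * ‖z‖) : kap δ s (z : OnePoint E) = ∞ :=
  if_neg (not_lt.2 h)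

theorem kap_eq_coe {δ s : ℝ} {y : OnePoint E} {v : E} (h : kap δ s y = (v : OnePoint E)) :
    ∃ z : E, y = (z : OnePoint E) ∧ s * ‖z‖ < δ ∧ v = (δ / (δ - s * ‖z‖)) • z := by
  induction y using OnePoint.rec with
  | infty => exact absurd h (infty_ne_coe _)
  | coe z =>
    by_cases hz : s * ‖z‖ < δ
    · rw [kap_coe_lt hz, coe_eq_coe] at h
      exact ⟨z, rfl, hz, h.symm⟩
    · rw [kap_coe_ge (not_lt.1 hz)] at h
      exact absurd h (infty_ne_coe _)

theorem kap_zero_s {δ : ℝ} (hδ : 0 < δ) (y : OnePoint E) : kap δ 0 y = y := by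
  induction y using OnePoint.rec with
  | infty => rfl
  | coe z =>
    rw [kap_coe_lt (by simpa using hδ)]
    simp [hδ.ne']

theorem continuous_kap {δ : ℝ} (hδ : 0 < δ) :
    Continuous (fun p : I × OnePoint E => kap δ (p.1 : ℝ) p.2) := by
  haveI := properE E
  rw [continuous_iff_continuousAt]
  rintro ⟨s, y⟩
  induction y using OnePoint.rec with
  | infty =>
    rw [ContinuousAt]
    change Tendsto _ _ (𝓝 ∞)
    rw [tendsto_inf_iff]
    intro R
    have h1 : ∀ᶠ y : OnePoint E in 𝓝 ∞, ∀ z : E, y = (z : OnePoint E) → R < ‖z‖ :=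
      (tendsto_inf_iff.1 tendsto_id) _
    filter_upwards [h1.prod_inr_nhds s] with p hp v hv
    obtain ⟨z, hz, hlt, rfl⟩ := kap_eq_coe hv
    have h2 := hp z hz
    have h3 : 0 < δ - p.1 * ‖z‖ := by linarith
    have h4 : (1 : ℝ) ≤ δ / (δ - p.1 * ‖z‖) := by
      rw [le_div_iff₀ h3]
      have : 0 ≤ (p.1 : ℝ) * ‖z‖ := mul_nonneg p.1.2.1 (norm_nonneg _)
      linarith
    rw [norm_smul, Real.norm_of_nonneg (by linarith)]
    nlinarith [norm_nonneg z]
  | coe z0 =>
    by_cases h0 : (s : ℝ) * ‖z0‖ < δ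
    · have he : IsOpenEmbedding (Prod.map (id : I → I) ((↑) : E → OnePoint E)) :=
        IsOpenEmbedding.id.prodMap isOpenEmbedding_coe
      have : ContinuousAt ((fun p : I × OnePoint E => kap δ (p.1 : ℝ) p.2) ∘
          (Prod.map (id : I → I) ((↑) : E → OnePoint E))) (s, z0) := by
        have hc : ContinuousAt (fun p : I × E =>
            (((δ / (δ - (p.1 : ℝ) * ‖p.2‖)) • p.2 : E) : OnePoint E)) (s, z0) := by
          refine continuous_coe.continuousAt.comp ?_
          refine ContinuousAt.smul (ContinuousAt.div continuousAt_const (by fun_prop) ?_)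
            (by fun_prop)
          simp only
          linarith
        refine hc.congr ?_
        have hopen : ∀ᶠ p : I × E in 𝓝 (s, z0), (p.1 : ℝ) * ‖p.2‖ < δ := by
          have : Continuous fun p : I × E => (p.1 : ℝ) * ‖p.2‖ := by fun_prop
          exact (this.tendsto (s, z0)).eventually (gt_mem_nhds h0)
        filter_upwards [hopen] with p hp
        exact (kap_coe_lt hp).symm
      exact he.continuousAt_iff.1 this
    · have hval : kap δ (s : ℝ) (z0 : OnePoint E) = ∞ := kap_coe_ge (not_lt.1 h0)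
      rw [ContinuousAt]
      change Tendsto _ _ (𝓝 (kap δ (s : ℝ) (z0 : OnePoint E)))
      rw [hval, tendsto_inf_iff]
      intro R
      have hz0 : 0 < ‖z0‖ := by
        rcases (norm_nonneg z0).lt_or_eq with h | h
        · exact h
        · rw [← h, mul_zero] at h0
          exact absurd hδ h0
      have he : IsOpenEmbedding (Prod.map (id : I → I) ((↑) : E → OnePoint E)) :=
        IsOpenEmbedding.id.prodMap isOpenEmbedding_coe
      have hmap : 𝓝 (s, (z0 : OnePoint E)) =
          Filter.map (Prod.map (id : I → I) ((↑) : E → OnePoint E)) (𝓝 (s, z0)) :=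
        (he.map_nhds_eq (s, z0)).symm
      rw [hmap, eventually_map]
      set a : ℝ := ‖z0‖ / 2 with ha
      have ha0 : 0 < a := by positivity
      have e1 : ∀ᶠ p : I × E in 𝓝 (s, z0), a < ‖p.2‖ := by
        have : Continuous fun p : I × E => ‖p.2‖ := by fun_prop
        exact (this.tendsto (s, z0)).eventually (lt_mem_nhds (by simp only; linarith))
      have hR : 0 < |R| + 1 := by positivity
      have e2 : ∀ᶠ p : I × E in 𝓝 (s, z0), δ - δ * a / (|R| + 1) < (p.1 : ℝ) * ‖p.2‖ := by
        have : Continuous fun p : I × E => (p.1 : ℝ) * ‖p.2‖ := by fun_prop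
        refine (this.tendsto (s, z0)).eventually (lt_mem_nhds ?_)
        have : 0 < δ * a / (|R| + 1) := by positivity
        simp only
        linarith [not_lt.1 h0]
      filter_upwards [e1, e2] with p hp1 hp2 v hv
      change kap δ (p.1 : ℝ) (p.2 : OnePoint E) = v at hv
      obtain ⟨z, hz, hlt, rfl⟩ := kap_eq_coe hv
      have hz' : p.2 = z := coe_injective hz
      rw [← hz'] at hlt ⊢
      have h3 : 0 < δ - p.1 * ‖p.2‖ := sub_pos.2 hlt
      rw [norm_smul, Real.norm_of_nonneg (by positivity)]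
      have h5 : R < |R| + 1 := by linarith [le_abs_self R]
      refine h5.trans ?_
      rw [div_mul_eq_mul_div, lt_div_iff₀ h3]
      have h6 : (|R| + 1) * (δ - p.1 * ‖p.2‖) < δ * a := by
        have : δ - p.1 * ‖p.2‖ < δ * a / (|R| + 1) := by
          linarith
        rwa [lt_div_iff₀ hR, mul_comm] at this
      exact h6.trans (mul_lt_mul_of_pos_left hp1 hδ)

/-- the collapse onto the open ball of radius `δ` -/
noncomputable def kapP (E : Type*) [NormedAddCommGroup E] [NormedSpace ℝ E] [FiniteDimensional ℝ E]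
    {δ : ℝ} (hδ : 0 < δ) : PMap E E where
  toFun := kap δ 1
  cont := by
    have := (continuous_kap (E := E) hδ).comp (Continuous.prodMk_right (1 : I))
    simpa [Function.comp_def] using this
  map_inf := rfl

theorem kapP_apply {δ : ℝ} (hδ : 0 < δ) (y : OnePoint E) : kapP E hδ y = kap δ 1 y := rfl

theorem kapP_homotopic {δ : ℝ} (hδ : 0 < δ) : (PMap.id E).Homotopic (kapP E hδ) := by
  refine PMap.Homotopic.of (fun p => kap δ (p.1 : ℝ) p.2) (continuous_kap hδ) ?_ ?_ ?_
  · intro x
    simp [kap_zero_s hδ]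
  · intro x
    simp [kapP_apply]
  · intro t
    rfl

theorem kapP_eq_coe {δ : ℝ} (hδ : 0 < δ) {y : OnePoint E} {v : E}
    (h : kapP E hδ y = (v : OnePoint E)) : ∃ z : E, y = (z : OnePoint E) ∧ ‖z‖ < δ := by
  obtain ⟨z, hz, hlt, _⟩ := kap_eq_coe (E := E) (s := 1) h
  exact ⟨z, hz, by simpa using hlt⟩

theorem kapP_eq_zero {δ : ℝ} (hδ : 0 < δ) {y : OnePoint E} :
    kapP E hδ y = ((0 : E) : OnePoint E) ↔ y = ((0 : E) : OnePoint E) := by
  constructor
  · intro h
    obtain ⟨z, hz, hlt, hv⟩ := kap_eq_coe (E := E) (s := 1) h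
    have : z = 0 := by
      rcases smul_eq_zero.1 hv.symm with h' | h'
      · exact absurd h' (div_pos hδ (by linarith)).ne'
      · exact h'
    rw [hz, this]
  · rintro rfl
    rw [kapP_apply, kap_coe_lt (by simpa using hδ)]
    simp

/-- derivative of the collapse at the origin -/
theorem hasFDerivAt_kap {δ : ℝ} (hδ : 0 < δ) :
    HasFDerivAt (fun z : E => (δ / (δ - 1 * ‖z‖)) • z) (ContinuousLinearMap.id ℝ E) 0 := by
  rw [hasFDerivAt_iff_isLittleO_nhds_zero]
  have : (fun h : E => (δ / (δ - 1 * ‖0 + h‖)) • (0 + h) - (δ / (δ - 1 * ‖(0 : E)‖)) • (0 : E) -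
      (ContinuousLinearMap.id ℝ E) h) = fun h : E => (δ / (δ - ‖h‖) - 1) • h := by
    funext h
    simp [sub_smul]
  rw [this]
  have h1 : Tendsto (fun h : E => δ / (δ - ‖h‖) - 1) (𝓝 0) (𝓝 0) := by
    have hc : ContinuousAt (fun h : E => δ / (δ - ‖h‖) - 1) 0 := by
      refine ContinuousAt.sub (ContinuousAt.div continuousAt_const (by fun_prop) ?_)
        continuousAt_const
      simpa using hδ.ne'
    have := hc.tendsto
    simpa [hδ.ne'] using this
  have h2 : (fun h : E => δ / (δ - ‖h‖) - 1) =o[𝓝 0] (fun _ : E => (1 : ℝ)) :=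
    (Asymptotics.isLittleO_one_iff ℝ).2 h1
  have h3 := h2.smul_isBigO (Asymptotics.isBigO_refl (fun h : E => h) (𝓝 0))
  simpa using h3

end general

end Crest.Agent.R090.Hopf297
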