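import Crest.Agent.R090.HopfA_297

/-!
# Row 90, HOPF part B (owner helper297): every pointed self map of a sphere is homotopic to one
with finitely many regular zeros
-/

set_option autoImplicit false
set_option linter.unusedSectionVars false
set_option linter.style.haveILetI false

open Topology Filter Set Metric

namespace Crest.Agent.R090.Hopf297

open OnePoint Sp962
open scoped unitInterval Manifold ContDiff

variable {E : Type*} [NormedAddCommGroup E] [NormedSpace ℝ E] [FiniteDimensional ℝ E]

theorem exists_approx (F : E → E) (hF : Continuous F) {ε : ℝ} (hε : 0 < ε) :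
    ∃ p : E → E, ContDiff ℝ 1 p ∧ ∀ x, ‖p x - F x‖ < ε := by
  haveI := properE E
  obtain ⟨g, hg⟩ := exists_contMDiffMap_forall_mem_convex_of_local_const (n := 1) (𝓘(ℝ, E))
    (M := E) (F := E) (t := fun x => ball (F x) ε) (fun x => convex_ball _ _) (fun x => by
      refine ⟨F x, ?_⟩
      have : ∀ᶠ y in 𝓝 x, dist (F y) (F x) < ε := hF.continuousAt.eventually (ball_mem_nhds _ hε)
      filter_upwards [this] with y hy
      rw [mem_ball, dist_comm]
      exact hy)
  refine ⟨g, g.contMDiff.contDiff, fun x => ?_⟩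
  have := hg x
  rwa [mem_ball, dist_eq_norm] at this

theorem exists_regular {p : E → E} (hp : ContDiff ℝ 1 p) {ε : ℝ} (hε : 0 < ε) :
    ∃ c : E, ‖c‖ < ε ∧ ∀ x, p x = c →
      ∃ A : E ≃L[ℝ] E, HasStrictFDerivAt p (A : E →L[ℝ] E) x := by
  haveI := properE E
  borelize E
  set μ : MeasureTheory.Measure E := MeasureTheory.Measure.addHaar with hμ
  set S : Set E := {x | (fderiv ℝ p x).det = 0} with hS
  have h0 : μ (p '' S) = 0 := by
    refine MeasureTheory.addHaar_image_eq_zero_of_det_fderivWithin_eq_zero μ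
      (f' := fun x => fderiv ℝ p x) (fun x _ => ?_) (fun x hx => hx)
    exact ((hp.differentiable one_ne_zero x).hasFDerivAt).hasFDerivWithinAt
  have h1 : 0 < μ (ball (0 : E) ε) := measure_ball_pos μ 0 hε
  obtain ⟨c, hc, hc'⟩ : ∃ c ∈ ball (0 : E) ε, c ∉ p '' S := by
    by_contra hcon
    push Not at hcon
    have : μ (ball (0 : E) ε) ≤ μ (p '' S) := MeasureTheory.measure_mono hcon
    rw [h0] at this
    exact absurd h1 (not_lt.2 this)
  refine ⟨c, by simpa using hc, fun x hx => ?_⟩
  have hdet : (fderiv ℝ p x).det ≠ 0 := fun h => hc' ⟨x, h, hx⟩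
  refine ⟨(fderiv ℝ p x).toContinuousLinearEquivOfDetNeZero hdet, ?_⟩
  have := hp.contDiffAt.hasStrictFDerivAt (x := x) one_ne_zero
  simpa using this

/-- a pointed self map with finitely many zeros, all regular -/
structure RegZ (g : PMap E E) : Prop where
  fin : {x : E | g x = ((0 : E) : OnePoint E)}.Finite
  reg : ∀ x : E, g x = ((0 : E) : OnePoint E) → ∃ (p : E → E) (A : E ≃L[ℝ] E),
    HasFDerivAt p (A : E →L[ℝ] E) x ∧ ∀ᶠ y : E in 𝓝 x, g y = (p y : OnePoint E)

/-- preimages of closed balls are compact in `E` -/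
theorem isCompact_pre (f : PMap E E) (R : ℝ) :
    IsCompact {x : E | ∃ v : E, f x = (v : OnePoint E) ∧ ‖v‖ ≤ R} := by
  haveI := properE E
  have h1 : IsClosed ((↑) '' (closedBall (0 : E) R) : Set (OnePoint E)) :=
    isClosed_image_coe.2 ⟨isClosed_closedBall, isCompact_closedBall 0 R⟩
  have h2 : IsCompact (f ⁻¹' ((↑) '' (closedBall (0 : E) R) : Set (OnePoint E))) :=
    (h1.preimage f.cont).isCompact
  have h3 : (f ⁻¹' ((↑) '' (closedBall (0 : E) R) : Set (OnePoint E))) =
      ((↑) : E → OnePoint E) '' {x : E | ∃ v : E, f x = (v : OnePoint E) ∧ ‖v‖ ≤ R} := by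
    ext y
    induction y using OnePoint.rec with
    | infty =>
      constructor
      · rintro ⟨v, _, hv⟩
        rw [f.map_inf] at hv
        exact absurd hv (coe_ne_infty _)
      · rintro ⟨x, _, hx⟩
        exact absurd hx (coe_ne_infty _)
    | coe y =>
      constructor
      · rintro ⟨v, hv, hv'⟩
        exact ⟨y, ⟨v, hv'.symm, by simpa using hv⟩, rfl⟩
      · rintro ⟨x, ⟨v, hv, hvR⟩, hx⟩
        rw [coe_eq_coe] at hx
        subst hx
        exact ⟨v, by simpa using hvR, hv.symm⟩
  rw [h3] at h2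
  exact isOpenEmbedding_coe.isEmbedding.isCompact_iff.2 h2

/-- radial cut off function on `OnePoint E` -/
noncomputable def cut (R : ℝ) (y : OnePoint E) : ℝ := y.elim 0 fun z => max 0 (min 1 (R - ‖z‖))

@[simp] theorem cut_inf (R : ℝ) : cut R (∞ : OnePoint E) = 0 := rfl
@[simp] theorem cut_coe (R : ℝ) (z : E) : cut R (z : OnePoint E) = max 0 (min 1 (R - ‖z‖)) := rfl

theorem cut_nonneg (R : ℝ) (y : OnePoint E) : 0 ≤ cut R y := by
  induction y using OnePoint.rec with
  | infty => simp
  | coe z => simp

theorem cut_le_one (R : ℝ) (y : OnePoint E) : cut R y ≤ 1 := by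
  induction y using OnePoint.rec with
  | infty => simp
  | coe z => simp

theorem cut_eq_one {R : ℝ} {z : E} (h : ‖z‖ ≤ R - 1) : cut R (z : OnePoint E) = 1 := by
  rw [cut_coe, min_eq_left (by linarith)]
  simp

theorem cut_eq_zero {R : ℝ} {z : E} (h : R ≤ ‖z‖) : cut R (z : OnePoint E) = 0 := by
  rw [cut_coe]
  refine max_eq_left ?_
  exact (min_le_right _ _).trans (by linarith)

theorem continuous_cut (R : ℝ) : Continuous (cut R : OnePoint E → ℝ) := by
  haveI := properE E
  refine continuous_ext (K := closedBall (0 : E) R) ?_ rfl (isCompact_closedBall 0 R) ?_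
  · change Continuous fun z : E => max 0 (min 1 (R - ‖z‖))
    fun_prop
  · intro z hz
    rw [mem_closedBall_zero_iff, not_le] at hz
    exact cut_eq_zero hz.le

/-- radially cut off identity -/
noncomputable def cutId (R : ℝ) (y : OnePoint E) : E := y.elim 0 fun z => cut R (z : OnePoint E) • z

theorem cutId_coe (R : ℝ) (z : E) : cutId R (z : OnePoint E) = cut R (z : OnePoint E) • z := rfl

theorem cutId_of_le {R : ℝ} {z : E} (h : ‖z‖ ≤ R - 1) : cutId R (z : OnePoint E) = z := by
  rw [cutId_coe, cut_eq_one h, one_smul]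

theorem continuous_cutId (R : ℝ) : Continuous (cutId R : OnePoint E → E) := by
  haveI := properE E
  refine continuous_ext (K := closedBall (0 : E) R) ?_ rfl (isCompact_closedBall 0 R) ?_
  · change Continuous fun z : E => cut R (z : OnePoint E) • z
    exact ((continuous_cut R).comp continuous_coe).smul continuous_id
  · intro z hz
    rw [mem_closedBall_zero_iff, not_le] at hz
    rw [cutId_coe, cut_eq_zero hz.le, zero_smul]

theorem exists_regZ (f : PMap E E) : ∃ g : PMap E E, f.Homotopic g ∧ RegZ g := by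
  haveI := properE E
  have hFc : Continuous fun x : E => cutId 4 (f x) :=
    (continuous_cutId 4).comp (f.cont.comp continuous_coe)
  obtain ⟨p, hp, hpF⟩ := exists_approx _ hFc (ε := 1 / 4) (by norm_num)
  obtain ⟨c, hc, hreg⟩ := exists_regular hp (ε := 1 / 4) (by norm_num)
  -- the displacement
  set w : OnePoint E → E := fun y =>
    y.elim 0 fun x => cut 3 (f x) • (p x - c - cutId 4 (f x)) with hw
  have hwcoe : ∀ x : E, w x = cut 3 (f x) • (p x - c - cutId 4 (f x)) := fun x => rfl
  have hwc : Continuous w := by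
    refine continuous_ext ?_ rfl _ (isCompact_pre f 3) ?_
    · change Continuous fun x : E => cut 3 (f x) • (p x - c - cutId 4 (f x))
      exact ((continuous_cut 3).comp (f.cont.comp continuous_coe)).smul
        ((hp.continuous.sub continuous_const).sub hFc)
    · intro x hx
      rw [hwcoe]
      have : cut 3 (f x) = 0 := by
        cases hv : f x with
        | infty => rfl
        | coe v =>
          refine cut_eq_zero ?_
          by_contra hlt
          exact hx ⟨v, hv, (not_le.1 hlt).le⟩
      rw [this, zero_smul]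
  have hwn : ∀ x : E, ‖w x‖ < 1 := by
    intro x
    rw [hwcoe, norm_smul, Real.norm_of_nonneg (cut_nonneg _ _)]
    have h1 : ‖p x - c - cutId 4 (f x)‖ ≤ ‖p x - cutId 4 (f x)‖ + ‖c‖ := by
      have : p x - c - cutId 4 (f x) = (p x - cutId 4 (f x)) - c := by abel
      rw [this]
      exact norm_sub_le _ _
    have h2 := hpF x
    have h3 := cut_le_one 3 (f x)
    have h4 := cut_nonneg 3 (f x)
    have h5 := norm_nonneg (p x - c - cutId 4 (f x))
    calc cut 3 (f x) * ‖p x - c - cutId 4 (f x)‖ ≤ 1 * ‖p x - c - cutId 4 (f x)‖ :=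
          mul_le_mul_of_nonneg_right h3 h5
      _ < 1 := by linarith
  let g : PMap E E :=
    { toFun := fun y => sh (f y) (w y)
      cont := continuous_sh.comp (f.cont.prodMk hwc)
      map_inf := by simp }
  have hg : ∀ y, g y = sh (f y) (w y) := fun y => rfl
  -- where `|f| < 1`, we have `g = p - c`
  have hgp : ∀ (x v : E), f x = (v : OnePoint E) → ‖v‖ ≤ 2 → g x = ((p x - c : E) : OnePoint E) := by
    intro x v hv hvn
    rw [hg, hv, sh_coe, hwcoe, hv, cut_eq_one (by linarith), one_smul, cutId_of_le (by linarith)]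
    congr 1
    abel
  have hzero : ∀ x : E, g x = ((0 : E) : OnePoint E) → ∃ v : E, f x = (v : OnePoint E) ∧ ‖v‖ < 1 := by
    intro x hx
    rw [hg] at hx
    have := sh_eq_coe hx
    refine ⟨_, this, ?_⟩
    rw [zero_sub, norm_neg]
    exact hwn x
  have hnear : ∀ (x v : E), f x = (v : OnePoint E) → ‖v‖ < 1 →
      ∀ᶠ y : E in 𝓝 x, g y = ((p y - c : E) : OnePoint E) := by
    intro x v hv hvn
    have h1 : IsOpen ((↑) '' (ball (0 : E) 1) : Set (OnePoint E)) := isOpen_image_coe.2 isOpen_ball
    have h2 : ∀ᶠ y : E in 𝓝 x, f y ∈ ((↑) '' (ball (0 : E) 1) : Set (OnePoint E)) := by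
      refine (f.cont.comp continuous_coe).continuousAt.eventually (h1.mem_nhds ?_)
      exact ⟨v, by simpa using hvn, hv.symm⟩
    filter_upwards [h2] with y hy
    obtain ⟨u, hu, hu'⟩ := hy
    refine hgp y u hu'.symm ?_
    have : ‖u‖ < 1 := by simpa using hu
    linarith
  refine ⟨g, ?_, ?_, ?_⟩
  · refine PMap.Homotopic.of (fun q => sh (f q.2) ((q.1 : ℝ) • w q.2)) ?_ ?_ ?_ ?_
    · exact continuous_sh.comp ((f.cont.comp continuous_snd).prodMk
        ((continuous_subtype_val.comp continuous_fst).smul (hwc.comp continuous_snd)))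
    · intro x
      simp only [Set.Icc.coe_zero, zero_smul]
      cases hv : f x with
      | infty => rfl
      | coe v => rw [sh_coe, add_zero]
    · intro x
      simp only [Set.Icc.coe_one, one_smul]
      rfl
    · intro t
      simp
  · -- finiteness
    have hcomp : IsCompact {x : E | ∃ v : E, f x = (v : OnePoint E) ∧ ‖v‖ ≤ 1} := isCompact_pre f 1
    by_contra hinf
    obtain ⟨x, _, hx⟩ := Set.Infinite.exists_accPt_of_subset_isCompact hinf hcomp
      (fun x hx => by
        obtain ⟨v, hv, hvn⟩ := hzero x hx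
        exact ⟨v, hv, hvn.le⟩)
    have hclosed : IsClosed {x : E | g x = ((0 : E) : OnePoint E)} :=
      isClosed_eq (g.cont.comp continuous_coe) continuous_const
    have hxZ : g x = ((0 : E) : OnePoint E) := by
      have : x ∈ closure {x : E | g x = ((0 : E) : OnePoint E)} := by
        rw [mem_closure_iff_clusterPt]
        exact hx.clusterPt
      rwa [hclosed.closure_eq] at this
    obtain ⟨v, hv, hvn⟩ := hzero x hxZ
    have hpx : p x = c := by
      have := hgp x v hv (by linarith)
      rw [hxZ, coe_eq_coe] at this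
      exact (sub_eq_zero.1 this.symm)
    obtain ⟨A, hA⟩ := hreg x hpx
    have hinj : ∀ᶠ y in 𝓝[≠] x, p y ≠ p x := by
      exact hA.hasFDerivAt.eventually_ne ⟨_, A.antilipschitz⟩
    have hfreq := accPt_iff_frequently.1 hx
    have hn := hnear x v hv hvn
    refine hfreq ?_
    rw [eventually_nhdsWithin_iff] at hinj
    filter_upwards [hinj, hn] with y hy1 hy2 ⟨hne, hyZ⟩
    refine hy1 hne ?_
    replace hyZ : g y = ((0 : E) : OnePoint E) := hyZ
    rw [hy2, coe_eq_coe] at hyZ
    rw [sub_eq_zero.1 hyZ, hpx]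
  · intro x hx
    obtain ⟨v, hv, hvn⟩ := hzero x hx
    have hpx : p x = c := by
      have := hgp x v hv (by linarith)
      rw [hx, coe_eq_coe] at this
      exact (sub_eq_zero.1 this.symm)
    obtain ⟨A, hA⟩ := hreg x hpx
    exact ⟨fun y => p y - c, A, hA.hasFDerivAt.sub_const c, hnear x v hv hvn⟩

end Crest.Agent.R090.Hopf297
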