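import Crest.Agent.R090.HopfB_297

/-!
# Row 90, HOPF part C (owner helper297): a pointed self map of `OnePoint E` with exactly one zero,
which is regular, is homotopic to a linear isomorphism
-/

set_option autoImplicit false
set_option linter.unusedSectionVars false
set_option linter.style.haveILetI false

open Topology Filter Set Metric

namespace Crest.Agent.R090.Hopf297

open OnePoint Sp962
open scoped unitInterval

variable {E : Type*} [NormedAddCommGroup E] [NormedSpace ℝ E] [FiniteDimensional ℝ E]

/-- scalar multiplication on `OnePoint E` (used for `c ≠ 0`) -/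
def scal (c : ℝ) (y : OnePoint E) : OnePoint E := y.elim ∞ fun z => ((c • z : E) : OnePoint E)

@[simp] theorem scal_inf (c : ℝ) : scal c (∞ : OnePoint E) = ∞ := rfl
@[simp] theorem scal_coe (c : ℝ) (z : E) : scal c (z : OnePoint E) = ((c • z : E) : OnePoint E) :=
  rfl

@[simp] theorem scal_one (y : OnePoint E) : scal 1 y = y := by
  induction y using OnePoint.rec with
  | infty => rfl
  | coe z => simp

theorem scal_eq_coe {c : ℝ} {y : OnePoint E} {v : E} (h : scal c y = (v : OnePoint E)) :
    ∃ z : E, y = (z : OnePoint E) ∧ v = c • z := by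
  induction y using OnePoint.rec with
  | infty => exact absurd h (infty_ne_coe _)
  | coe z => exact ⟨z, rfl, (coe_injective h).symm⟩

theorem continuousAt_scal {c : ℝ} (hc : 0 < c) (y : OnePoint E) :
    ContinuousAt (fun p : ℝ × OnePoint E => scal p.1 p.2) (c, y) := by
  induction y using OnePoint.rec with
  | infty =>
    rw [ContinuousAt]
    change Tendsto _ _ (𝓝 ∞)
    rw [tendsto_inf_iff]
    intro R
    have h1 : ∀ᶠ y : OnePoint E in 𝓝 ∞, ∀ z : E, y = (z : OnePoint E) → |R| * (2 / c) < ‖z‖ :=
      (tendsto_inf_iff.1 tendsto_id) _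
    have h2 : ∀ᶠ d : ℝ in 𝓝 c, c / 2 < d := lt_mem_nhds (by linarith)
    filter_upwards [h1.prod_inr_nhds c, h2.prod_inl_nhds (∞ : OnePoint E)] with p hp1 hp2 v hv
    obtain ⟨z, hz, rfl⟩ := scal_eq_coe hv
    have h3 := hp1 z hz
    rw [norm_smul, Real.norm_of_nonneg (by linarith)]
    have h4 : |R| < (c / 2) * ‖z‖ := by
      have : |R| * (2 / c) * (c / 2) < ‖z‖ * (c / 2) := mul_lt_mul_of_pos_right h3 (by linarith)
      have e : |R| * (2 / c) * (c / 2) = |R| := by field_simp
      rw [e] at this
      linarith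
    have h5 : (c / 2) * ‖z‖ ≤ p.1 * ‖z‖ := mul_le_mul_of_nonneg_right hp2.le (norm_nonneg _)
    linarith [le_abs_self R]
  | coe z =>
    have he : IsOpenEmbedding (Prod.map (id : ℝ → ℝ) ((↑) : E → OnePoint E)) :=
      IsOpenEmbedding.id.prodMap isOpenEmbedding_coe
    have : ContinuousAt ((fun p : ℝ × OnePoint E => scal p.1 p.2) ∘
        (Prod.map (id : ℝ → ℝ) ((↑) : E → OnePoint E))) (c, z) := by
      have e : ((fun p : ℝ × OnePoint E => scal p.1 p.2) ∘
        (Prod.map (id : ℝ → ℝ) ((↑) : E → OnePoint E))) =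
          fun p : ℝ × E => ((p.1 • p.2 : E) : OnePoint E) := rfl
      rw [e]
      exact (continuous_coe.comp (continuous_fst.smul continuous_snd)).continuousAt
    exact he.continuousAt_iff.1 this

/-- a positive lower bound for `‖f‖` on a compact set without zeros -/
theorem exists_lower (f : PMap E E) (K : Set (OnePoint E)) (hK : IsCompact K)
    (h0 : ∀ y ∈ K, f y ≠ ((0 : E) : OnePoint E)) :
    ∃ δ : ℝ, 0 < δ ∧ ∀ y ∈ K, ∀ v : E, f y = (v : OnePoint E) → δ ≤ ‖v‖ := by
  haveI := properE E
  have h1 : IsCompact (f '' K) := hK.image f.cont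
  have h2 : ((0 : E) : OnePoint E) ∉ f '' K := by
    rintro ⟨y, hy, hy'⟩
    exact h0 y hy hy'
  have h3 : ∀ᶠ v : E in 𝓝 0, (v : OnePoint E) ∈ (f '' K)ᶜ :=
    (continuous_coe.tendsto (0 : E)).eventually (h1.isClosed.isOpen_compl.mem_nhds h2)
  obtain ⟨δ, hδ, hδ'⟩ := Metric.eventually_nhds_iff.1 h3
  refine ⟨δ, hδ, fun y hy v hv => ?_⟩
  by_contra hlt
  exact hδ' (by simpa using not_le.1 hlt) ⟨y, hy, hv⟩

/-- one regular zero at the origin -/
theorem deg_lin0 (f : PMap E E) (q : E → E) (A : E ≃L[ℝ] E) (hq : HasFDerivAt q (A : E →L[ℝ] E) 0)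
    (hfq : ∀ᶠ y : E in 𝓝 0, f y = (q y : OnePoint E))
    (hu : ∀ x : E, f x = ((0 : E) : OnePoint E) ↔ x = 0) :
    f.Homotopic (PMap.ofHomeo A.toHomeomorph) := by
  haveI := properE E
  have hq0 : q 0 = 0 := by
    have h1 := hfq.self_of_nhds
    rw [(hu 0).2 rfl, coe_eq_coe] at h1
    exact h1.symm
  have hlit : (fun h : E => q h - A h) =o[𝓝 0] fun h : E => h := by
    have := hasFDerivAt_iff_isLittleO_nhds_zero.1 hq
    simpa [hq0] using this
  -- lower bound
  obtain ⟨a, ha, ρ, hρ, hlow⟩ : ∃ a : ℝ, 0 < a ∧ ∃ ρ : ℝ, 0 < ρ ∧ ∀ z : E, ‖z‖ < ρ →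
      f z = (q z : OnePoint E) ∧ a * ‖z‖ ≤ ‖q z‖ := by
    obtain ⟨C, hC⟩ : ∃ C : ℝ, 0 < C ∧ ∀ z, ‖z‖ ≤ C * ‖A z‖ := by
      refine ⟨‖(A.symm : E →L[ℝ] E)‖ + 1, by positivity, fun z => ?_⟩
      have h1 : ‖(A.symm : E →L[ℝ] E) (A z)‖ ≤ _ := (A.symm : E →L[ℝ] E).le_opNorm (A z)
      have h2 : (A.symm : E →L[ℝ] E) (A z) = z := A.symm_apply_apply z
      rw [h2] at h1
      nlinarith [norm_nonneg (A z)]
    have h1 := hlit.def (show 0 < 1 / (2 * C) by have := hC.1; positivity)
    obtain ⟨ρ, hρ, hρ'⟩ := Metric.eventually_nhds_iff.1 (h1.and hfq)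
    refine ⟨1 / (2 * C), by have := hC.1; positivity, ρ, hρ, fun z hz => ?_⟩
    obtain ⟨h2, h3⟩ := hρ' (show dist z 0 < ρ by simpa using hz)
    refine ⟨h3, ?_⟩
    have h4 := hC.2 z
    have h5 : ‖A z‖ ≤ ‖q z‖ + ‖q z - A z‖ := by
      have : A z = q z - (q z - A z) := by abel
      calc ‖A z‖ = ‖q z - (q z - A z)‖ := by rw [← this]
        _ ≤ _ := norm_sub_le _ _
    have h6 : ‖z‖ / C ≤ ‖A z‖ := by
      rw [div_le_iff₀ hC.1, mul_comm]
      exact h4
    have h7 : 1 / (2 * C) * ‖z‖ + 1 / (2 * C) * ‖z‖ = ‖z‖ / C := by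
      have := hC.1.ne'
      field_simp
      ring
    linarith
  obtain ⟨δ, hδ, hδ'⟩ := exists_lower f ((↑) '' ball (0 : E) ρ)ᶜ
    (isOpen_image_coe.2 isOpen_ball).isClosed_compl.isCompact (by
      intro y hy h0
      cases y with
      | infty =>
        rw [f.map_inf] at h0
        exact infty_ne_coe _ h0
      | coe x =>
        have := (hu x).1 h0
        subst this
        exact hy ⟨0, by simpa using hρ, rfl⟩)
  -- `‖f z‖ ≥ c * min (‖z‖) 1`
  obtain ⟨c, hc, hcb⟩ : ∃ c : ℝ, 0 < c ∧ ∀ z v : E, f z = (v : OnePoint E) →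
      c * min ‖z‖ 1 ≤ ‖v‖ := by
    refine ⟨min a δ, lt_min ha hδ, fun z v hv => ?_⟩
    by_cases hz : ‖z‖ < ρ
    · obtain ⟨h1, h2⟩ := hlow z hz
      rw [hv, coe_eq_coe] at h1
      subst h1
      refine le_trans ?_ h2
      exact mul_le_mul (min_le_left _ _) (min_le_left _ _) (by positivity) ha.le
    · have h1 : (z : OnePoint E) ∈ ((↑) '' ball (0 : E) ρ : Set (OnePoint E))ᶜ := by
        rintro ⟨w, hw, hw'⟩
        rw [coe_eq_coe] at hw'
        subst hw'
        exact hz (by simpa using hw)
      have h2 := hδ' _ h1 v hv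
      refine le_trans ?_ h2
      calc min a δ * min ‖z‖ 1 ≤ δ * 1 :=
            mul_le_mul (min_le_right _ _) (min_le_right _ _) (by positivity) hδ.le
        _ = δ := mul_one _
  -- the homotopy (parameter `0` : linear map, parameter `1` : `f`)
  set Ah : OnePoint E → OnePoint E := (PMap.ofHomeo A.toHomeomorph).toFun with hAh
  have hAhcoe : ∀ z : E, Ah z = ((A z : E) : OnePoint E) := fun z => rfl
  classical
  set G : I × OnePoint E → OnePoint E := fun p =>
    if (p.1 : ℝ) = 0 then Ah p.2 else scal (p.1 : ℝ)⁻¹ (f (scal (p.1 : ℝ) p.2)) with hG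
  have hGc : Continuous G := by
    rw [continuous_iff_continuousAt]
    rintro ⟨s, y⟩
    rcases s.2.1.eq_or_lt with hs | hs
    · -- `s = 0`
      have hGval : G (s, y) = Ah y := by
        simp only [hG]
        rw [if_pos hs.symm]
      rw [ContinuousAt, hGval]
      cases y with
      | infty =>
        change Tendsto _ _ (𝓝 ∞)
        rw [tendsto_inf_iff]
        intro R
        -- large radius for the linear map
        have hAinf : ∀ᶠ y : OnePoint E in 𝓝 ∞, ∀ v : E, Ah y = (v : OnePoint E) → R < ‖v‖ := by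
          have : Tendsto Ah (𝓝 ∞) (𝓝 ∞) := by
            have h := (PMap.ofHomeo A.toHomeomorph).cont.tendsto (∞ : OnePoint E)
            rwa [(PMap.ofHomeo A.toHomeomorph).map_inf] at h
          exact (tendsto_inf_iff.1 this) R
        set M : ℝ := (|R| + 1) / c with hM
        have hM0 : 0 < M := by positivity
        have h1 : ∀ᶠ y : OnePoint E in 𝓝 ∞, ∀ z : E, y = (z : OnePoint E) → M < ‖z‖ :=
          (tendsto_inf_iff.1 tendsto_id) _
        have h2 : ∀ᶠ t : I in 𝓝 s, (t : ℝ) < 1 / M := by
          refine (continuous_subtype_val.tendsto s).eventually (gt_mem_nhds ?_)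
          rw [← hs]
          positivity
        filter_upwards [h1.prod_inr_nhds s, h2.prod_inl_nhds (∞ : OnePoint E),
          hAinf.prod_inr_nhds s] with p hp1 hp2 hp3 v hv
        simp only [hG] at hv
        split_ifs at hv with ht
        · exact hp3 v hv
        · have htpos : 0 < (p.1 : ℝ) := lt_of_le_of_ne p.1.2.1 (Ne.symm ht)
          obtain ⟨u, hu1, rfl⟩ := scal_eq_coe hv
          cases hy : p.2 with
          | infty =>
            rw [hy, scal_inf, f.map_inf] at hu1
            exact absurd hu1 (infty_ne_coe _)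
          | coe z =>
            rw [hy, scal_coe] at hu1
            have h3 := hcb _ _ hu1
            have h4 := hp1 z hy
            rw [norm_smul, Real.norm_of_nonneg (by positivity)] at h3 ⊢
            have h5 : M * (p.1 : ℝ) < 1 := by
              rw [lt_div_iff₀ hM0, mul_comm] at hp2
              exact hp2
            have h6 : M * (p.1 : ℝ) ≤ min ((p.1 : ℝ) * ‖z‖) 1 := by
              refine le_min ?_ h5.le
              rw [mul_comm]
              exact mul_le_mul_of_nonneg_left h4.le htpos.le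
            have h7 : c * (M * (p.1 : ℝ)) ≤ ‖u‖ := le_trans (mul_le_mul_of_nonneg_left h6 hc.le) h3
            have h8 : c * M = |R| + 1 := by
              rw [hM]
              field_simp
            have h9 : (|R| + 1) * (p.1 : ℝ) ≤ ‖u‖ := by
              calc (|R| + 1) * (p.1 : ℝ) = c * (M * (p.1 : ℝ)) := by rw [← h8]; ring
                _ ≤ _ := h7
            rw [inv_mul_eq_div, lt_div_iff₀ htpos]
            have : R < |R| + 1 := by linarith [le_abs_self R]
            calc R * (p.1 : ℝ) < (|R| + 1) * (p.1 : ℝ) := mul_lt_mul_of_pos_right this htpos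
              _ ≤ ‖u‖ := h9
      | coe z0 =>
        rw [hAhcoe]
        have he : IsOpenEmbedding (Prod.map (id : I → I) ((↑) : E → OnePoint E)) :=
          IsOpenEmbedding.id.prodMap isOpenEmbedding_coe
        have hmap : 𝓝 (s, (z0 : OnePoint E)) =
            Filter.map (Prod.map (id : I → I) ((↑) : E → OnePoint E)) (𝓝 (s, z0)) :=
          (he.map_nhds_eq (s, z0)).symm
        rw [hmap, tendsto_map'_iff]
        -- the `E`-valued expression
        set g : I × E → E := fun p => if (p.1 : ℝ) = 0 then A p.2 else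
          (p.1 : ℝ)⁻¹ • q ((p.1 : ℝ) • p.2) with hg
        have hgt : Tendsto g (𝓝 (s, z0)) (𝓝 (A z0)) := by
          have hA : Tendsto (fun p : I × E => A p.2) (𝓝 (s, z0)) (𝓝 (A z0)) :=
            (A.continuous.comp continuous_snd).tendsto (s, z0)
          have hdiff : Tendsto (fun p : I × E => g p - A p.2) (𝓝 (s, z0)) (𝓝 0) := by
            rw [tendsto_zero_iff_norm_tendsto_zero, Metric.tendsto_nhds]
            intro ε hε
            have hB : 0 < ‖z0‖ + 1 := by positivity
            have h1 := hlit.def (show 0 < ε / (‖z0‖ + 1) by positivity)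
            have h2 : Tendsto (fun p : I × E => (p.1 : ℝ) • p.2) (𝓝 (s, z0)) (𝓝 (0 : E)) := by
              have : Continuous fun p : I × E => (p.1 : ℝ) • p.2 := by fun_prop
              have h := this.tendsto (s, z0)
              simp only at h
              rw [← hs, zero_smul] at h
              exact h
            have h3 : ∀ᶠ p : I × E in 𝓝 (s, z0), ‖p.2‖ < ‖z0‖ + 1 := by
              have : Continuous fun p : I × E => ‖p.2‖ := by fun_prop
              exact (this.tendsto (s, z0)).eventually (gt_mem_nhds (by simp only; linarith))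
            filter_upwards [h2.eventually h1, h3] with p hp hp3
            rw [dist_zero_right, norm_norm]
            simp only [hg]
            split_ifs with ht
            · simpa using hε
            · have htpos : 0 < (p.1 : ℝ) := lt_of_le_of_ne p.1.2.1 (Ne.symm ht)
              have e : (p.1 : ℝ)⁻¹ • q ((p.1 : ℝ) • p.2) - A p.2 =
                  (p.1 : ℝ)⁻¹ • (q ((p.1 : ℝ) • p.2) - A ((p.1 : ℝ) • p.2)) := by
                rw [smul_sub, _root_.map_smul, smul_smul, inv_mul_cancel₀ ht, one_smul]
              rw [e, norm_smul, norm_inv, Real.norm_of_nonneg htpos.le]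
              rw [norm_smul, Real.norm_of_nonneg htpos.le] at hp
              rw [inv_mul_lt_iff₀ htpos]
              refine lt_of_le_of_lt hp ?_
              have h5 : ε / (‖z0‖ + 1) * ((p.1 : ℝ) * ‖p.2‖) =
                  (p.1 : ℝ) * (ε / (‖z0‖ + 1) * ‖p.2‖) := by ring
              rw [h5]
              refine mul_lt_mul_of_pos_left ?_ htpos
              rw [div_mul_eq_mul_div, div_lt_iff₀ hB]
              exact mul_lt_mul_of_pos_left hp3 hε
          have := hdiff.add hA
          simpa using this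
        have hev : ∀ᶠ p : I × E in 𝓝 (s, z0), ((g p : E) : OnePoint E) =
            (G ∘ Prod.map (id : I → I) ((↑) : E → OnePoint E)) p := by
          have h2 : Tendsto (fun p : I × E => (p.1 : ℝ) • p.2) (𝓝 (s, z0)) (𝓝 (0 : E)) := by
            have : Continuous fun p : I × E => (p.1 : ℝ) • p.2 := by fun_prop
            have h := this.tendsto (s, z0)
            simp only at h
            rw [← hs, zero_smul] at h
            exact h
          filter_upwards [h2.eventually hfq] with p hp
          simp only [hG, hg, Function.comp_apply, Prod.map_fst, Prod.map_snd, id]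
          split_ifs with ht
          · rfl
          · rw [scal_coe, hp, scal_coe]
        exact ((continuous_coe.tendsto _).comp hgt).congr' hev
    · -- `s > 0`
      have hev : ∀ᶠ p : I × OnePoint E in 𝓝 (s, y),
          scal (p.1 : ℝ)⁻¹ (f (scal (p.1 : ℝ) p.2)) = G p := by
        have : ∀ᶠ t : I in 𝓝 s, 0 < (t : ℝ) :=
          (continuous_subtype_val.tendsto s).eventually (lt_mem_nhds hs)
        filter_upwards [this.prod_inl_nhds y] with p hp
        simp only [hG]
        rw [if_neg hp.ne']
      refine ContinuousAt.congr ?_ hev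
      have h1 : ContinuousAt (fun p : I × OnePoint E => scal (p.1 : ℝ) p.2) (s, y) := by
        have h := continuousAt_scal hs y
        exact ContinuousAt.comp (f := fun p : I × OnePoint E => ((p.1 : ℝ), p.2))
          (x := (s, y)) h (by fun_prop)
      have h2 : ContinuousAt (fun p : I × OnePoint E => f (scal (p.1 : ℝ) p.2)) (s, y) :=
        f.cont.continuousAt.comp h1
      have h3 := continuousAt_scal (inv_pos.2 hs) (f (scal (s : ℝ) y))
      have h4 : ContinuousAt (fun p : I × OnePoint E =>
          ((p.1 : ℝ)⁻¹, f (scal (p.1 : ℝ) p.2))) (s, y) := by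
        refine ContinuousAt.prodMk (ContinuousAt.inv₀ (by fun_prop) hs.ne') h2
      exact ContinuousAt.comp (f := fun p : I × OnePoint E =>
          ((p.1 : ℝ)⁻¹, f (scal (p.1 : ℝ) p.2))) (x := (s, y)) h3 h4
  symm
  refine PMap.Homotopic.of G hGc ?_ ?_ ?_
  · intro x
    simp only [hG]
    rw [if_pos (by simp)]
  · intro x
    simp only [hG]
    rw [if_neg (by simp)]
    simp
  · intro t
    simp only [hG]
    split_ifs
    · rfl
    · simp

/-- one regular zero -/
theorem deg_lin (f : PMap E E) (x0 : E) (p : E → E) (A : E ≃L[ℝ] E)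
    (hp : HasFDerivAt p (A : E →L[ℝ] E) x0)
    (hfp : ∀ᶠ y : E in 𝓝 x0, f y = (p y : OnePoint E))
    (hu : ∀ x : E, f x = ((0 : E) : OnePoint E) ↔ x = x0) :
    f.Homotopic (PMap.ofHomeo A.toHomeomorph) := by
  let T : PMap E E :=
    { toFun := fun y => sh y x0
      cont := continuous_sh.comp (Continuous.prodMk_left x0)
      map_inf := rfl }
  have hT : (PMap.id E).Homotopic T := by
    refine PMap.Homotopic.of (fun q => sh q.2 ((q.1 : ℝ) • x0)) ?_ ?_ ?_ ?_
    · exact continuous_sh.comp (continuous_snd.prodMk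
        ((continuous_subtype_val.comp continuous_fst).smul continuous_const))
    · intro x; simp
    · intro x
      change sh (x : OnePoint E) _ = sh (x : OnePoint E) x0
      simp
    · intro t; rfl
  have h1 : f.Homotopic (f.comp T) := PMap.Homotopic.comp_left f hT
  refine h1.trans ?_
  have hcoe : ∀ y : E, (f.comp T) y = f ((y + x0 : E) : OnePoint E) := fun y => rfl
  refine deg_lin0 (f.comp T) (fun y => p (y + x0)) A ?_ ?_ ?_
  · have h2 : HasFDerivAt (fun y : E => y + x0) (ContinuousLinearMap.id ℝ E) 0 :=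
      (hasFDerivAt_id (𝕜 := ℝ) (0 : E)).add_const x0
    have h3 : HasFDerivAt p (A : E →L[ℝ] E) ((fun y : E => y + x0) 0) := by simpa using hp
    have := h3.comp (0 : E) h2
    simpa [Function.comp_def] using this
  · have h2 : Tendsto (fun y : E => y + x0) (𝓝 0) (𝓝 x0) := by
      have : Continuous fun y : E => y + x0 := by fun_prop
      simpa using this.tendsto 0
    filter_upwards [h2.eventually hfp] with y hy
    rw [hcoe, hy]
  · intro x
    rw [hcoe, hu]
    constructor
    · intro h
      exact left_eq_add.1 (by rw [add_comm]; exact h.symm)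
    · rintro rfl
      simp

end Crest.Agent.R090.Hopf297
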