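import Crest.Agent.R090.HopfC_297

/-!
# Row 90, HOPF part D (owner helper297): disjoint unions of pointed maps, restriction, and the
induction principle for self maps of `OnePoint E`
-/

set_option autoImplicit false
set_option linter.unusedSectionVars false
set_option linter.style.haveILetI false

open Topology Filter Set Metric

namespace Crest.Agent.R090.Hopf297

open OnePoint Sp962
open scoped unitInterval

section general

variable {U V : Type*} [TopologicalSpace U] [TopologicalSpace V]

/-- `f` is the union of the maps `f1`, `f2` with disjoint supports -/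
def IsUnion (f f1 f2 : PMap U V) : Prop :=
  ∀ x : U, (f1 x = ∞ ∧ f x = f2 x) ∨ (f2 x = ∞ ∧ f x = f1 x)

theorem frontier_coe {S : Set U} {y : OnePoint U}
    (hy : y ∈ frontier ((↑) '' S : Set (OnePoint U))) : y = ∞ ∨ ∃ x ∈ frontier S, y = (x : OnePoint U) := by
  cases y with
  | infty => left; rfl
  | coe x =>
    right
    refine ⟨x, ?_, rfl⟩
    have h1 : ((↑) : U → OnePoint U) ⁻¹' frontier ((↑) '' S : Set (OnePoint U)) =
        frontier (((↑) : U → OnePoint U) ⁻¹' ((↑) '' S : Set (OnePoint U))) :=
      isOpenEmbedding_coe.isOpenMap.preimage_frontier_eq_frontier_preimage continuous_coe _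
    rw [preimage_image_eq _ coe_injective] at h1
    rw [← h1]
    exact hy

open Classical in
/-- the map `h` on `S`, and `∞` elsewhere -/
noncomputable def res (h : PMap U V) (S : Set U) (hS : ∀ x ∈ frontier S, h (x : OnePoint U) = ∞) :
    PMap U V where
  toFun := ((↑) '' S : Set (OnePoint U)).piecewise h (fun _ => ∞)
  cont := by
    refine Continuous.piecewise ?_ h.cont continuous_const
    intro y hy
    rcases frontier_coe hy with rfl | ⟨x, hx, rfl⟩
    · exact h.map_inf
    · exact hS x hx
  map_inf := by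
    rw [piecewise_eq_of_notMem]
    rintro ⟨x, _, hx⟩
    exact coe_ne_infty _ hx

theorem res_of_mem (h : PMap U V) (S : Set U) (hS) {x : U} (hx : x ∈ S) :
    res h S hS x = h x := by
  classical
  have hx' : (x : OnePoint U) ∈ ((↑) '' S : Set (OnePoint U)) := ⟨x, hx, rfl⟩
  exact piecewise_eq_of_mem ((↑) '' S : Set (OnePoint U)) h (fun _ => ∞) hx'

theorem res_of_notMem (h : PMap U V) (S : Set U) (hS) {x : U} (hx : x ∉ S) :
    res h S hS x = ∞ := by
  classical
  have hx' : (x : OnePoint U) ∉ ((↑) '' S : Set (OnePoint U)) := by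
    rintro ⟨z, hz, hzx⟩
    rw [coe_eq_coe] at hzx
    subst hzx
    exact hx hz
  exact piecewise_eq_of_notMem ((↑) '' S : Set (OnePoint U)) h (fun _ => ∞) hx'

theorem isUnion_res (h : PMap U V) (S : Set U) (hS : ∀ x ∈ frontier S, h (x : OnePoint U) = ∞)
    (hS' : ∀ x ∈ frontier Sᶜ, h (x : OnePoint U) = ∞) :
    IsUnion h (res h S hS) (res h Sᶜ hS') := by
  intro x
  by_cases hx : x ∈ S
  · right
    exact ⟨res_of_notMem _ _ _ (by simpa using hx), (res_of_mem _ _ _ hx).symm⟩
  · left
    exact ⟨res_of_notMem _ _ _ hx, (res_of_mem _ _ _ (by simpa using hx)).symm⟩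

end general

variable {E : Type*} [NormedAddCommGroup E] [NormedSpace ℝ E] [FiniteDimensional ℝ E]

/-- composing with the collapse keeps regular zeros -/
theorem reg_kap {g : PMap E E} {δ : ℝ} (hδ : 0 < δ) {x : E} {p : E → E} {A : E ≃L[ℝ] E}
    (h0 : g x = ((0 : E) : OnePoint E))
    (hp : HasFDerivAt p (A : E →L[ℝ] E) x) (hgp : ∀ᶠ y : E in 𝓝 x, g y = (p y : OnePoint E)) :
    ∃ p' : E → E, HasFDerivAt p' (A : E →L[ℝ] E) x ∧
      ∀ᶠ y : E in 𝓝 x, (kapP E hδ).comp g y = (p' y : OnePoint E) := by
  have hpx : p x = 0 := by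
    have h1 := hgp.self_of_nhds
    rw [h0, coe_eq_coe] at h1
    exact h1.symm
  refine ⟨fun y => (δ / (δ - 1 * ‖p y‖)) • p y, ?_, ?_⟩
  · have h1 := hasFDerivAt_kap (E := E) hδ
    rw [← hpx] at h1
    have := h1.comp x hp
    simpa [Function.comp_def] using this
  · have h1 : ∀ᶠ y : E in 𝓝 x, ‖p y‖ < δ := by
      have h2 : Tendsto (fun y => ‖p y‖) (𝓝 x) (𝓝 0) := by
        have := hp.continuousAt.norm.tendsto
        rwa [hpx, norm_zero] at this
      exact h2.eventually (gt_mem_nhds hδ)
    filter_upwards [h1, hgp] with y hy1 hy2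
    change kap δ 1 (g y) = _
    rw [hy2, kap_coe_lt (by simpa using hy1)]

/-- **Induction principle for self maps of spheres**: every pointed map `E⁺ → E⁺` is obtained from
the constant map and linear isomorphisms by homotopies and unions of maps with disjoint supports. -/
theorem hopf_ind (P : PMap E E → Prop) (hz : P (PMap.zero E E))
    (hlin : ∀ A : E ≃L[ℝ] E, P (PMap.ofHomeo A.toHomeomorph))
    (hhom : ∀ f g : PMap E E, f.Homotopic g → P g → P f)
    (hun : ∀ f f1 f2 : PMap E E, IsUnion f f1 f2 → P f1 → P f2 → P f) (f : PMap E E) : P f := by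
  haveI := properE E
  suffices H : ∀ (n : ℕ) (g : PMap E E), RegZ g →
      {x : E | g x = ((0 : E) : OnePoint E)}.ncard = n → P g by
    obtain ⟨g, hfg, hg⟩ := exists_regZ f
    exact hhom f g hfg (H _ g hg rfl)
  intro n
  induction n with
  | zero =>
    intro g hg hn
    rw [Set.ncard_eq_zero hg.fin] at hn
    obtain ⟨δ, hδ, hδ'⟩ := exists_lower g univ isCompact_univ (by
      intro y _ h0
      cases y with
      | infty =>
        rw [g.map_inf] at h0
        exact infty_ne_coe _ h0
      | coe x =>
        have : x ∈ {x : E | g x = ((0 : E) : OnePoint E)} := h0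
        rw [hn] at this
        exact this)
    have h1 : g.Homotopic ((kapP E hδ).comp g) := PMap.Homotopic.comp_right (kapP_homotopic hδ) g
    have h2 : (kapP E hδ).comp g = PMap.zero E E := by
      refine PMap.ext fun x => ?_
      rw [PMap.comp_apply, PMap.zero_apply]
      by_contra hne
      obtain ⟨v, hv⟩ := OnePoint.ne_infty_iff_exists.1 hne
      obtain ⟨z, hz, hzδ⟩ := kapP_eq_coe hδ hv.symm
      exact absurd hzδ (not_lt.2 (hδ' _ (mem_univ _) z hz))
    rw [h2] at h1
    exact hhom _ _ h1 hz
  | succ n ih =>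
    intro g hg hn
    obtain ⟨x1, hx1⟩ : {x : E | g x = ((0 : E) : OnePoint E)}.Nonempty := by
      rw [← Set.ncard_pos hg.fin, hn]
      exact Nat.succ_pos n
    replace hx1 : g x1 = ((0 : E) : OnePoint E) := hx1
    set Z : Set E := {x : E | g x = ((0 : E) : OnePoint E)} with hZ
    -- a small ball around `x1`
    obtain ⟨r, hr, hrZ⟩ : ∃ r : ℝ, 0 < r ∧ ∀ x ∈ closedBall x1 r, x ∈ Z → x = x1 := by
      have h1 : IsClosed (Z \ {x1}) := (hg.fin.subset sdiff_subset).isClosed
      have h2 : ∀ᶠ x in 𝓝 x1, x ∈ (Z \ {x1})ᶜ := h1.isOpen_compl.mem_nhds (by simp)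
      obtain ⟨r, hr, hr'⟩ := Metric.eventually_nhds_iff.1 h2
      refine ⟨r / 2, by linarith, fun x hx hxZ => ?_⟩
      have hx' : dist x x1 < r := lt_of_le_of_lt (mem_closedBall.1 hx) (by linarith)
      by_contra hne
      exact hr' hx' ⟨hxZ, hne⟩
    obtain ⟨δ, hδ, hδ'⟩ := exists_lower g ((↑) '' sphere x1 r)
      ((isCompact_sphere x1 r).image continuous_coe) (by
        rintro _ ⟨x, hx, rfl⟩ h0
        have h1 := hrZ x (sphere_subset_closedBall hx) h0
        subst h1
        rw [mem_sphere, dist_self] at hx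
        exact hr.ne hx)
    set h : PMap E E := (kapP E hδ).comp g with hh
    have hgh : g.Homotopic h := PMap.Homotopic.comp_right (kapP_homotopic hδ) g
    have hh0 : ∀ x : E, h x = ((0 : E) : OnePoint E) ↔ g x = ((0 : E) : OnePoint E) :=
      fun x => kapP_eq_zero hδ
    have hsph : ∀ x ∈ sphere x1 r, h (x : OnePoint E) = ∞ := by
      intro x hx
      by_contra hne
      obtain ⟨v, hv⟩ := OnePoint.ne_infty_iff_exists.1 hne
      obtain ⟨z, hz, hzδ⟩ := kapP_eq_coe hδ hv.symm
      exact absurd hzδ (not_lt.2 (hδ' _ ⟨x, hx, rfl⟩ z hz))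
    have hS : ∀ x ∈ frontier (ball x1 r), h (x : OnePoint E) = ∞ := fun x hx =>
      hsph x (frontier_ball_subset_sphere hx)
    have hS' : ∀ x ∈ frontier (ball x1 r)ᶜ, h (x : OnePoint E) = ∞ := by
      intro x hx
      rw [frontier_compl] at hx
      exact hS x hx
    have hU := isUnion_res h (ball x1 r) hS hS'
    refine hhom _ _ hgh (hun _ _ _ hU ?_ ?_)
    · -- one zero
      obtain ⟨p, A, hp, hgp⟩ := hg.reg x1 hx1
      obtain ⟨p', hp', hhp'⟩ := reg_kap hδ hx1 hp hgp
      refine hhom _ _ (deg_lin _ x1 p' A hp' ?_ ?_) (hlin A)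
      · filter_upwards [hhp', isOpen_ball.mem_nhds (mem_ball_self hr)] with y hy1 hy2
        rw [res_of_mem _ _ _ hy2]
        exact hy1
      · intro x
        constructor
        · intro hx
          by_cases hxb : x ∈ ball x1 r
          · rw [res_of_mem _ _ _ hxb, hh0] at hx
            exact hrZ x (ball_subset_closedBall hxb) hx
          · rw [res_of_notMem _ _ _ hxb] at hx
            exact absurd hx (infty_ne_coe _)
        · rintro rfl
          rw [res_of_mem _ _ _ (mem_ball_self hr), hh0]
          exact hx1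
    · -- the other zeros
      have hset : {x : E | res h (ball x1 r)ᶜ hS' x = ((0 : E) : OnePoint E)} = Z \ {x1} := by
        ext x
        constructor
        · intro hx
          replace hx : res h (ball x1 r)ᶜ hS' x = ((0 : E) : OnePoint E) := hx
          by_cases hxb : x ∈ (ball x1 r)ᶜ
          · rw [res_of_mem _ _ _ hxb, hh0] at hx
            refine ⟨hx, ?_⟩
            rintro rfl
            exact hxb (mem_ball_self hr)
          · rw [res_of_notMem _ _ _ hxb] at hx
            exact absurd hx (infty_ne_coe _)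
        · rintro ⟨hx, hne⟩
          have hxb : x ∈ (ball x1 r)ᶜ := fun hxb =>
            hne (hrZ x (ball_subset_closedBall hxb) hx)
          change res h (ball x1 r)ᶜ hS' x = ((0 : E) : OnePoint E)
          rw [res_of_mem _ _ _ hxb, hh0]
          exact hx
      refine ih _ ⟨?_, ?_⟩ ?_
      · rw [hset]
        exact hg.fin.subset sdiff_subset
      · intro x hx
        have hx' : x ∈ Z \ {x1} := by
          rw [← hset]
          exact hx
        obtain ⟨p, A, hp, hgp⟩ := hg.reg x hx'.1
        obtain ⟨p', hp', hhp'⟩ := reg_kap hδ hx'.1 hp hgp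
        refine ⟨p', A, hp', ?_⟩
        have hxc : x ∈ (closedBall x1 r)ᶜ := fun hxc => hx'.2 (hrZ x hxc hx'.1)
        filter_upwards [hhp', isClosed_closedBall.isOpen_compl.mem_nhds hxc] with y hy1 hy2
        have hyb : y ∈ (ball x1 r)ᶜ := fun hy => hy2 (ball_subset_closedBall hy)
        rw [res_of_mem _ _ _ hyb]
        exact hy1
      · have hx1' : x1 ∈ Z := hx1
        rw [hset, Set.ncard_sdiff_singleton_of_mem hx1', hn]
        rfl

end Crest.Agent.R090.Hopf297
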