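import Crest.Agent.R090.Grp_528

/-!
# Row 90, T1-ADD (2): the stable category (owner helper528)

* `gadd e` : sum on `HC A V` along a suspension coordinate `e : A ≃ₜ B × Io`;
* `S X n = X × (Fin n → ℂ)`, `st : HC (S X n) (S Y n) → HC (S X (n+1)) (S Y (n+1))`;
* `St X Y` : germs at infinity of sequences `s n : HC (S X n) (S Y n)` with
  `s (n+1) = st (s n)` eventually; `St.of n a`, `St.comp`, `AddCommGroup (St X Y)`.
-/

set_option autoImplicit false
set_option linter.unusedSectionVars false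

open Topology Filter Set

namespace Crest.Agent.R090.Sp962

open OnePoint

/-- `ℝ ≃ₜ Io` -/
noncomputable def ioHomeo : ℝ ≃ₜ Io :=
  (orderIsoIooNegOneOne ℝ).toHomeomorph.trans
    { toFun := fun x => ⟨(x.1 + 1) / 2, by constructor <;> [linarith [x.2.1]; linarith [x.2.2]]⟩
      invFun := fun x => ⟨2 * x.1 - 1, by constructor <;> [linarith [x.2.1]; linarith [x.2.2]]⟩
      left_inv := fun x => by apply Subtype.ext; simp only []; ring
      right_inv := fun x => by apply Subtype.ext; simp only []; ring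
      continuous_toFun := by fun_prop
      continuous_invFun := by fun_prop }

end Crest.Agent.R090.Sp962

namespace Crest.Agent.R090.St528

open OnePoint Crest.Agent.R090.Sp962 Crest.Agent.R090.Grp528
open scoped unitInterval

universe u v w x a' b' b''

variable {U : Type u} {V : Type v} {W : Type w} {X : Type x}
variable [TopologicalSpace U] [TopologicalSpace V] [TopologicalSpace W] [TopologicalSpace X]

/-- the class of a homeomorphism -/
def hh (e : U ≃ₜ V) : HC U V := HC.mk (PMap.ofHomeo e)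

/-- identity class -/
def h1 (U : Type u) [TopologicalSpace U] : HC U U := HC.mk (PMap.id U)

@[simp] theorem hh_refl : hh (Homeomorph.refl U) = h1 U := by simp [hh, h1]

theorem hh_trans (e : U ≃ₜ V) (e' : V ≃ₜ W) : hh (e.trans e') = (hh e').comp (hh e) := by
  rw [hh, hh, hh, HC.comp_mk, PMap.ofHomeo_comp]

@[simp] theorem hh_symm_comp (e : U ≃ₜ V) : (hh e.symm).comp (hh e) = h1 U := by
  rw [hh, hh, HC.comp_mk, PMap.ofHomeo_symm_comp]; rfl

@[simp] theorem hh_comp_symm (e : U ≃ₜ V) : (hh e).comp (hh e.symm) = h1 V := by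
  rw [hh, hh, HC.comp_mk, PMap.ofHomeo_comp_symm]; rfl

@[simp] theorem comp_h1 (a : HC U V) : a.comp (h1 U) = a := HC.comp_id a

@[simp] theorem h1_comp (a : HC U V) : (h1 V).comp a = a := HC.id_comp a

@[simp] theorem hh_symm_comp_assoc (e : U ≃ₜ V) (a : HC W U) :
    (hh e.symm).comp ((hh e).comp a) = a := by
  rw [← HC.comp_assoc, hh_symm_comp, h1_comp]

@[simp] theorem hh_comp_symm_assoc (e : U ≃ₜ V) (a : HC W V) :
    (hh e).comp ((hh e.symm).comp a) = a := by
  rw [← HC.comp_assoc, hh_comp_symm, h1_comp]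

theorem hh_ext {e e' : U ≃ₜ V} (h : ∀ x, e x = e' x) : hh e = hh e' := by
  rw [Homeomorph.ext h]

section smash

variable {U' : Type*} {V' : Type*}
  [TopologicalSpace U'] [TopologicalSpace V']
  [T2Space U] [LocallyCompactSpace U] [T2Space V]
  [T2Space U'] [LocallyCompactSpace U'] [T2Space V']

theorem hh_smash (e : U ≃ₜ V) (e' : U' ≃ₜ V') :
    (hh e).smash (hh e') = hh (e.prodCongr e') := by
  rw [hh, hh, hh, HC.smash_mk, PMap.smash_ofHomeo]

@[simp] theorem h1_smash_h1 : (h1 U).smash (h1 U') = h1 (U × U') := by simp [h1]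

theorem hh_smash_h1 (e : U ≃ₜ V) :
    (hh e).smash (h1 U') = hh (e.prodCongr (Homeomorph.refl U')) := by
  rw [← hh_refl, hh_smash]

@[simp] theorem hzero_smash (b : HC U' V') : (hzero U V).smash b = hzero _ _ := by
  obtain ⟨b, rfl⟩ := HC.mk_surj b
  simp [hzero]

@[simp] theorem smash_hzero (a : HC U V) : a.smash (hzero U' V') = hzero _ _ := by
  obtain ⟨a, rfl⟩ := HC.mk_surj a
  simp [hzero]

end smash

/-! ## sum along a coordinate -/

section gadd

variable {A : Type a'} [TopologicalSpace A] [T2Space A] [LocallyCompactSpace A]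
variable {B : Type b'} [TopologicalSpace B] [T2Space B] [LocallyCompactSpace B]
variable {B' : Type b''} [TopologicalSpace B'] [T2Space B'] [LocallyCompactSpace B']

/-- sum along the coordinate `e` -/
noncomputable def gadd (e : A ≃ₜ B × Io) (a b : HC A W) : HC A W :=
  (hadd (a.comp (hh e.symm)) (b.comp (hh e.symm))).comp (hh e)

/-- negative along the coordinate `e` -/
noncomputable def gneg (e : A ≃ₜ B × Io) (a : HC A W) : HC A W :=
  (hneg (a.comp (hh e.symm))).comp (hh e)

theorem gadd_assoc (e : A ≃ₜ B × Io) (a b c : HC A W) :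
    gadd e (gadd e a b) c = gadd e a (gadd e b c) := by
  simp only [gadd, HC.comp_assoc, hh_comp_symm, comp_h1, hadd_assoc]

theorem zero_gadd (e : A ≃ₜ B × Io) (a : HC A W) : gadd e (hzero _ _) a = a := by
  simp only [gadd, hzero_comp, hzero_hadd, HC.comp_assoc, hh_symm_comp, comp_h1]

theorem gadd_zero (e : A ≃ₜ B × Io) (a : HC A W) : gadd e a (hzero _ _) = a := by
  simp only [gadd, hzero_comp, hadd_hzero, HC.comp_assoc, hh_symm_comp, comp_h1]

theorem gneg_gadd (e : A ≃ₜ B × Io) (a : HC A W) : gadd e (gneg e a) a = hzero _ _ := by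
  simp only [gadd, gneg, HC.comp_assoc, hh_comp_symm, comp_h1, hneg_hadd, hzero_comp]

theorem comp_gadd (e : A ≃ₜ B × Io) (k : HC W V) (a b : HC A W) :
    k.comp (gadd e a b) = gadd e (k.comp a) (k.comp b) := by
  simp only [gadd, ← HC.comp_assoc, comp_hadd]

theorem comp_gneg (e : A ≃ₜ B × Io) (k : HC W V) (a : HC A W) :
    k.comp (gneg e a) = gneg e (k.comp a) := by
  simp only [gneg, ← HC.comp_assoc, comp_hneg]

/-- naturality in the source -/
theorem gadd_comp {A' : Type*} [TopologicalSpace A'] [T2Space A'] [LocallyCompactSpace A']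
    (e : A ≃ₜ B × Io) (e' : A' ≃ₜ B' × Io) (k : HC B' B) (a b : HC A W) :
    (gadd e a b).comp ((hh e.symm).comp ((k.smash (h1 Io)).comp (hh e'))) =
      gadd e' (a.comp ((hh e.symm).comp ((k.smash (h1 Io)).comp (hh e'))))
        (b.comp ((hh e.symm).comp ((k.smash (h1 Io)).comp (hh e')))) := by
  simp only [gadd, HC.comp_assoc, hh_comp_symm_assoc, hh_comp_symm, comp_h1]
  rw [← HC.comp_assoc, h1, hadd_comp, HC.comp_assoc, HC.comp_assoc]

theorem gneg_comp {A' : Type*} [TopologicalSpace A'] [T2Space A'] [LocallyCompactSpace A']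
    (e : A ≃ₜ B × Io) (e' : A' ≃ₜ B' × Io) (k : HC B' B) (a : HC A W) :
    (gneg e a).comp ((hh e.symm).comp ((k.smash (h1 Io)).comp (hh e'))) =
      gneg e' (a.comp ((hh e.symm).comp ((k.smash (h1 Io)).comp (hh e')))) := by
  simp only [gneg, HC.comp_assoc, hh_comp_symm_assoc, hh_comp_symm, comp_h1]
  rw [← HC.comp_assoc, h1, hneg_comp, HC.comp_assoc]

/-- change of the base part -/
theorem gadd_base (e : A ≃ₜ B × Io) (h : B ≃ₜ B') (a b : HC A W) :
    gadd (e.trans (h.prodCongr (Homeomorph.refl Io))) a b = gadd e a b := by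
  have key := gadd_comp e (e.trans (h.prodCongr (Homeomorph.refl Io))) (hh h.symm) a b
  have h2 : (hh e.symm).comp (((hh h.symm).smash (h1 Io)).comp
      (hh (e.trans (h.prodCongr (Homeomorph.refl Io))))) = h1 A := by
    rw [hh_smash_h1, ← hh_trans, ← hh_trans, ← hh_refl]
    refine hh_ext fun x => ?_
    change e.symm (h.symm (h (e x).1), (e x).2) = x
    rw [h.symm_apply_apply]
    exact e.symm_apply_apply x
  rw [h2, comp_h1, comp_h1, comp_h1] at key
  exact key.symm

/-- both of two suspension coordinates give the same sum -/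
theorem gadd_eh (e : A ≃ₜ (B × Io) × Io) (a b : HC A W) :
    gadd (e.trans (sw B)) a b = gadd e a b := by
  have h0 : gadd e a b = (hadd' (a.comp (hh e.symm)) (b.comp (hh e.symm))).comp (hh e) := by
    rw [gadd, hadd_eq_hadd' (U := B) (V := W)]
  have h3 : hh (e.trans (sw B)).symm = (hh e.symm).comp (hh (sw B)) := by
    rw [← hh_trans]; rfl
  rw [h0, gadd, hadd', h3, hh_trans, ← HC.comp_assoc, ← HC.comp_assoc, ← HC.comp_assoc]
  rfl

theorem gadd_comm (e : A ≃ₜ (B × Io) × Io) (a b : HC A W) :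
    gadd e a b = gadd e b a := by
  rw [gadd, hadd_comm, gadd]

/-- associativity homeomorphism used for smash products -/
def e3 (e : A ≃ₜ B × Io) (C : Type*) [TopologicalSpace C] : A × C ≃ₜ (B × C) × Io :=
  (e.prodCongr (Homeomorph.refl C)).trans
    { toFun := fun p => ((p.1.1, p.2), p.1.2)
      invFun := fun p => ((p.1.1, p.2), p.1.2)
      left_inv := fun _ => rfl
      right_inv := fun _ => rfl
      continuous_toFun := by fun_prop
      continuous_invFun := by fun_prop }

/-- smash product of a sum with an identity, unstable formula -/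
theorem padd_smash (f g : PMap (B × Io) W) (C : Type*) [TopologicalSpace C] [T2Space C]
    [LocallyCompactSpace C] [T2Space W] :
    (padd f g).smash (PMap.id C) =
      (padd ((f.smash (PMap.id C)).comp (PMap.ofHomeo (e3 (Homeomorph.refl (B × Io)) C).symm))
        ((g.smash (PMap.id C)).comp (PMap.ofHomeo (e3 (Homeomorph.refl (B × Io)) C).symm))).comp
        (PMap.ofHomeo (e3 (Homeomorph.refl (B × Io)) C)) := by
  refine PMap.ext fun p => ?_
  obtain ⟨⟨b, t⟩, c⟩ := p
  have e1 : (PMap.ofHomeo (e3 (Homeomorph.refl (B × Io)) C)) (((b, t), c) : (B × Io) × C) =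
      sm (((b, c) : B × C) : OnePoint (B × C)) (qI (t : ℝ)) := by
    rw [qI_coe]; rfl
  have e2 : ∀ s : OnePoint Io, (PMap.ofHomeo (e3 (Homeomorph.refl (B × Io)) C).symm)
      (sm (((b, c) : B × C) : OnePoint (B × C)) s) =
        sm (sm (b : OnePoint B) s) (c : OnePoint C) := by
    intro s
    induction s using OnePoint.rec with
    | infty => simp
    | coe s => rfl
  rw [PMap.comp_apply, e1, padd_sm, PMap.smash_coe]
  have e4 : (((b, t) : B × Io) : OnePoint (B × Io)) = sm (b : OnePoint B) (qI (t : ℝ)) := by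
    rw [qI_coe]; rfl
  rw [e4, padd_sm]
  split_ifs
  · rw [PMap.comp_apply, e2, PMap.smash_sm]
  · rw [PMap.comp_apply, e2, PMap.smash_sm]

theorem hadd_smash (a b : HC (B × Io) W) (C : Type*) [TopologicalSpace C] [T2Space C]
    [LocallyCompactSpace C] [T2Space W] :
    (hadd a b).smash (h1 C) =
      gadd (e3 (Homeomorph.refl (B × Io)) C) (a.smash (h1 C)) (b.smash (h1 C)) := by
  obtain ⟨f, rfl⟩ := HC.mk_surj a
  obtain ⟨g, rfl⟩ := HC.mk_surj b
  exact congrArg HC.mk (padd_smash f g C)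

/-- transport along a homeomorphism of the source -/
theorem gadd_hh {A' : Type*} [TopologicalSpace A'] [T2Space A'] [LocallyCompactSpace A']
    (e : A ≃ₜ B × Io) (f : A' ≃ₜ A) (a b : HC A W) :
    (gadd e a b).comp (hh f) = gadd (f.trans e) (a.comp (hh f)) (b.comp (hh f)) := by
  have h3 : hh (f.trans e).symm = (hh f.symm).comp (hh e.symm) := by
    rw [← hh_trans]; rfl
  rw [gadd, gadd, h3, hh_trans]
  simp only [HC.comp_assoc, hh_comp_symm_assoc]

theorem gadd_smash (e : A ≃ₜ B × Io) (a b : HC A W) (C : Type*) [TopologicalSpace C] [T2Space C]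
    [LocallyCompactSpace C] [T2Space W] :
    (gadd e a b).smash (h1 C) = gadd (e3 e C) (a.smash (h1 C)) (b.smash (h1 C)) := by
  have h2 : ∀ c : HC (B × Io) W, (c.comp (hh e)).smash (h1 C) =
      (c.smash (h1 C)).comp (hh (e.prodCongr (Homeomorph.refl C))) := by
    intro c
    rw [← hh_smash_h1, HC.smash_comp, comp_h1]
  have h4 : ∀ c : HC A W, c = (c.comp (hh e.symm)).comp (hh e) := by
    intro c
    rw [HC.comp_assoc, hh_symm_comp, comp_h1]
  rw [gadd, h2, hadd_smash, gadd_hh, ← h2, ← h2, ← h4, ← h4]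
  rfl

/-- change of the base part, pointwise form -/
theorem gadd_base' (e : A ≃ₜ B × Io) (h : B ≃ₜ B') (e' : A ≃ₜ B' × Io)
    (he : ∀ x, e' x = (h (e x).1, (e x).2)) (a b : HC A W) :
    gadd e' a b = gadd e a b := by
  have : e' = e.trans (h.prodCongr (Homeomorph.refl Io)) := Homeomorph.ext he
  rw [this, gadd_base]

end gadd

/-! ## levels -/

/-- `n`-fold complex suspension -/
abbrev S (X : Type u) (n : ℕ) : Type u := X × (Fin n → ℂ)

/-- `ℂ^(n+1) = ℂ^n × ℂ` -/
def eS (X : Type u) [TopologicalSpace X] (n : ℕ) : S X (n + 1) ≃ₜ S X n × ℂ where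
  toFun p := ((p.1, fun i => p.2 i.castSucc), p.2 (Fin.last n))
  invFun q := (q.1.1, Fin.snoc (α := fun _ => ℂ) q.1.2 q.2)
  left_inv p := by
    obtain ⟨x, v⟩ := p
    simp only [Prod.mk.injEq, true_and]
    exact Fin.snoc_init_self v
  right_inv q := by
    obtain ⟨⟨x, v⟩, c⟩ := q
    simp
  continuous_toFun := by fun_prop
  continuous_invFun := by
    refine continuous_fst.fst.prodMk ?_
    exact Continuous.finSnoc (A := fun _ => ℂ) (continuous_fst.snd) continuous_snd

/-- `ℂ ≃ₜ Io × Io` -/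
noncomputable def cIo : ℂ ≃ₜ Io × Io :=
  Complex.equivRealProdCLM.toHomeomorph.trans (ioHomeo.prodCongr ioHomeo)

/-- `U × ℂ ≃ₜ (U × Io) × Io` -/
noncomputable def cH (U : Type u) [TopologicalSpace U] : U × ℂ ≃ₜ (U × Io) × Io where
  toFun p := ((p.1, (cIo p.2).1), (cIo p.2).2)
  invFun q := (q.1.1, cIo.symm (q.1.2, q.2))
  left_inv p := by simp
  right_inv q := by simp
  continuous_toFun := by fun_prop
  continuous_invFun := by fun_prop

/-- the last suspension coordinates of level `n+1` -/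
noncomputable def lev (X : Type u) [TopologicalSpace X] (n : ℕ) :
    S X (n + 1) ≃ₜ (S X n × Io) × Io := (eS X n).trans (cH (S X n))

section levels

variable {Y : Type v} [TopologicalSpace Y] {Z : Type w} [TopologicalSpace Z]
variable {X : Type u} [TopologicalSpace X]
variable [T2Space X] [LocallyCompactSpace X] [T2Space Y] [LocallyCompactSpace Y]
  [T2Space Z] [LocallyCompactSpace Z]

/-- stabilisation -/
noncomputable def st {n : ℕ} (a : HC (S X n) (S Y n)) : HC (S X (n + 1)) (S Y (n + 1)) :=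
  (hh (eS Y n).symm).comp ((a.smash (h1 ℂ)).comp (hh (eS X n)))

theorem st_comp {n : ℕ} (b : HC (S Y n) (S Z n)) (a : HC (S X n) (S Y n)) :
    st (b.comp a) = (st b).comp (st a) := by
  simp only [st, HC.comp_assoc, hh_comp_symm_assoc]
  rw [← HC.comp_assoc (b.smash (h1 ℂ)), HC.smash_comp, comp_h1]

theorem st_h1 {n : ℕ} : st (h1 (S X n)) = h1 (S X (n + 1)) := by
  rw [st, h1_smash_h1, h1_comp, hh_symm_comp]

theorem st_hzero {n : ℕ} : st (hzero (S X n) (S Y n)) = hzero _ _ := by
  rw [st, hzero_smash, hzero_comp, comp_hzero]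

theorem st_hh {n : ℕ} (e : S X n ≃ₜ S Y n) :
    st (hh e) = hh ((eS X n).trans ((e.prodCongr (Homeomorph.refl ℂ)).trans (eS Y n).symm)) := by
  rw [st, hh_smash_h1, ← hh_trans, ← hh_trans]
  rfl

/-- sum at level `n+1` -/
noncomputable def sadd {n : ℕ} (a b : HC (S X (n + 1)) W) : HC (S X (n + 1)) W :=
  gadd (lev X n) a b

/-- negative at level `n+1` -/
noncomputable def sneg {n : ℕ} (a : HC (S X (n + 1)) W) : HC (S X (n + 1)) W :=
  gneg (lev X n) a

theorem cH_natural (k : HC X Y) :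
    k.smash (h1 ℂ) = (hh (cH Y).symm).comp (((k.smash (h1 Io)).smash (h1 Io)).comp (hh (cH X))) := by
  obtain ⟨f, rfl⟩ := HC.mk_surj k
  refine congrArg HC.mk (PMap.ext fun p => ?_)
  obtain ⟨x, c⟩ := p
  change sm (f x) (c : OnePoint ℂ) = (PMap.ofHomeo (cH Y).symm) (sm (sm (f x) ((cIo c).1 : OnePoint Io))
    ((cIo c).2 : OnePoint Io))
  generalize f x = y
  induction y using OnePoint.rec with
  | infty => simp
  | coe y =>
    change _ = (((cH Y).symm ((y, (cIo c).1), (cIo c).2) : Y × ℂ) : OnePoint (Y × ℂ))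
    simp [cH]

theorem st_eq_lev {n : ℕ} (a : HC (S X n) (S Y n)) :
    st a = (hh (lev Y n).symm).comp (((a.smash (h1 Io)).smash (h1 Io)).comp (hh (lev X n))) := by
  rw [st, cH_natural, lev, lev, hh_trans]
  have h3 : hh ((eS Y n).trans (cH (S Y n))).symm = (hh (eS Y n).symm).comp (hh (cH (S Y n)).symm) := by
    rw [← hh_trans]; rfl
  rw [h3]
  simp only [HC.comp_assoc]

theorem sadd_st {n : ℕ} (a b : HC (S Y (n + 1)) W) (k : HC (S X n) (S Y n)) :
    (sadd a b).comp (st k) = sadd (a.comp (st k)) (b.comp (st k)) := by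
  rw [st_eq_lev, sadd, sadd, gadd_comp]

theorem sneg_st {n : ℕ} (a : HC (S Y (n + 1)) W) (k : HC (S X n) (S Y n)) :
    (sneg a).comp (st k) = sneg (a.comp (st k)) := by
  rw [st_eq_lev, sneg, sneg, gneg_comp]

theorem sadd_eq {n : ℕ} (a b : HC (S X (n + 2)) W) :
    gadd ((eS X (n + 1)).trans (e3 (lev X n) ℂ)) a b = gadd (lev X (n + 1)) a b := by
  have h1 := gadd_base' ((eS X (n + 1)).trans (e3 (lev X n) ℂ)) (cH (S X n × Io))
    (((eS X (n + 1)).trans (e3 (lev X n) ℂ)).trans
      ((cH (S X n × Io)).prodCongr (Homeomorph.refl Io))) (fun _ => rfl) a b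
  rw [← h1, ← gadd_eh]
  have h2 := gadd_base' (lev X (n + 1))
    (((lev X n).prodCongr (Homeomorph.refl Io)).trans
      { toFun := fun p => ((p.1.1, p.2), p.1.2)
        invFun := fun p => ((p.1.1, p.2), p.1.2)
        left_inv := fun _ => rfl
        right_inv := fun _ => rfl
        continuous_toFun := by fun_prop
        continuous_invFun := by fun_prop } : S X (n + 1) × Io ≃ₜ ((S X n × Io) × Io) × Io)
    ((((eS X (n + 1)).trans (e3 (lev X n) ℂ)).trans
      ((cH (S X n × Io)).prodCongr (Homeomorph.refl Io))).trans (sw _)) (fun _ => rfl) a b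
  rw [h2]

/-- stabilisation is additive -/
theorem st_sadd {n : ℕ} (a b : HC (S X (n + 1)) (S Y (n + 1))) :
    st (sadd a b) = sadd (st a) (st b) := by
  rw [st, sadd, gadd_smash, gadd_hh, comp_gadd, sadd_eq]
  rfl

theorem sadd_comm {n : ℕ} (a b : HC (S X (n + 1)) W) : sadd a b = sadd b a := gadd_comm _ _ _

end levels

/-! ## stable maps -/

section stable

/-- eventually compatible sequences -/
structure Pre (X : Type u) (Y : Type v) [TopologicalSpace X] [TopologicalSpace Y]
    [T2Space X] [LocallyCompactSpace X] [T2Space Y] [LocallyCompactSpace Y] where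
  /-- the sequence -/
  seq : ∀ n : ℕ, HC (S X n) (S Y n)
  ev : ∃ N, ∀ n, N ≤ n → seq (n + 1) = st (seq n)

variable {X : Type u} {Y : Type v} {Z : Type w} {Z' : Type x}
variable [TopologicalSpace X] [TopologicalSpace Y] [TopologicalSpace Z] [TopologicalSpace Z']
variable [T2Space X] [LocallyCompactSpace X] [T2Space Y] [LocallyCompactSpace Y]
  [T2Space Z] [LocallyCompactSpace Z] [T2Space Z'] [LocallyCompactSpace Z']

/-- eventual equality -/
instance Pre.setoid (X : Type u) (Y : Type v) [TopologicalSpace X] [TopologicalSpace Y]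
    [T2Space X] [LocallyCompactSpace X] [T2Space Y] [LocallyCompactSpace Y] :
    Setoid (Pre X Y) where
  r s t := ∃ N, ∀ n, N ≤ n → s.seq n = t.seq n
  iseqv :=
    { refl := fun _ => ⟨0, fun _ _ => rfl⟩
      symm := fun ⟨N, h⟩ => ⟨N, fun n hn => (h n hn).symm⟩
      trans := fun ⟨N, h⟩ ⟨M, k⟩ => ⟨max N M, fun n hn =>
        (h n (le_of_max_le_left hn)).trans (k n (le_of_max_le_right hn))⟩ }

/-- **stable maps** `{X⁺, Y⁺}` -/
def St (X : Type u) (Y : Type v) [TopologicalSpace X] [TopologicalSpace Y]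
    [T2Space X] [LocallyCompactSpace X] [T2Space Y] [LocallyCompactSpace Y] : Type (max u v) :=
  Quotient (Pre.setoid X Y)

/-- iterated stabilisation -/
noncomputable def stN {n : ℕ} (a : HC (S X n) (S Y n)) :
    ∀ k : ℕ, HC (S X (n + k)) (S Y (n + k))
  | 0 => a
  | k + 1 => st (stN a k)

@[simp] theorem stN_zero {n : ℕ} (a : HC (S X n) (S Y n)) : stN a 0 = a := rfl

theorem stN_succ {n : ℕ} (a : HC (S X n) (S Y n)) (k : ℕ) : stN a (k + 1) = st (stN a k) := rfl

open Classical in
/-- the sequence generated by a map at level `k` -/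
noncomputable def gen (k : ℕ) (a : HC (S X k) (S Y k)) : ∀ n : ℕ, HC (S X n) (S Y n)
  | 0 => if h : k = 0 then h ▸ a else hzero _ _
  | n + 1 => if h : k = n + 1 then h ▸ a else st (gen k a n)

theorem gen_self (k : ℕ) (a : HC (S X k) (S Y k)) : gen k a k = a := by
  cases k with
  | zero => simp [gen]
  | succ k => simp [gen]

theorem gen_succ (k : ℕ) (a : HC (S X k) (S Y k)) (n : ℕ) (h : k ≤ n) :
    gen k a (n + 1) = st (gen k a n) := by
  rw [gen, dif_neg (by omega)]

theorem gen_add (k : ℕ) (a : HC (S X k) (S Y k)) (j : ℕ) : gen k a (k + j) = stN a j := by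
  induction j with
  | zero => exact gen_self k a
  | succ j ih =>
    change gen k a (k + j + 1) = _
    rw [gen_succ _ _ _ (by omega), ih, stN_succ]

/-- the class of a map at level `k` -/
noncomputable def St.of (k : ℕ) (a : HC (S X k) (S Y k)) : St X Y :=
  Quotient.mk _ ⟨gen k a, k, fun n hn => gen_succ k a n hn⟩

/-- the class of a pointed map at level `k` -/
noncomputable def St.mk (k : ℕ) (f : PMap (S X k) (S Y k)) : St X Y := St.of k (HC.mk f)

theorem Pre.seq_add (s : Pre X Y) {N : ℕ} (h : ∀ n, N ≤ n → s.seq (n + 1) = st (s.seq n))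
    {n : ℕ} (hn : N ≤ n) (k : ℕ) : s.seq (n + k) = stN (s.seq n) k := by
  induction k with
  | zero => rfl
  | succ k ih =>
    change s.seq (n + k + 1) = _
    rw [h _ (by omega), ih, stN_succ]

theorem Pre.mk_eq_of (s : Pre X Y) {N : ℕ} (h : ∀ n, N ≤ n → s.seq (n + 1) = st (s.seq n))
    {n : ℕ} (hn : N ≤ n) : (Quotient.mk _ s : St X Y) = St.of n (s.seq n) := by
  refine Quotient.sound ⟨n, fun m hm => ?_⟩
  obtain ⟨k, rfl⟩ := Nat.exists_eq_add_of_le hm
  change s.seq (n + k) = gen n (s.seq n) (n + k)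
  rw [gen_add, s.seq_add h hn]

/-- every stable map is represented at all high levels -/
theorem St.exists_of (s : St X Y) : ∃ N, ∀ n, N ≤ n → ∃ a, s = St.of n a := by
  obtain ⟨s, rfl⟩ := Quotient.exists_rep s
  obtain ⟨N, h⟩ := s.ev
  exact ⟨N, fun n hn => ⟨s.seq n, s.mk_eq_of h hn⟩⟩

theorem St.exists_of_ge (s : St X Y) (M : ℕ) : ∃ n, M ≤ n ∧ ∃ a, s = St.of n a := by
  obtain ⟨N, h⟩ := s.exists_of
  exact ⟨max N M, le_max_right _ _, h _ (le_max_left _ _)⟩

theorem St.exists_of₂ (s : St X Y) (t : St Z Z') (M : ℕ) :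
    ∃ n, M ≤ n ∧ (∃ a, s = St.of n a) ∧ ∃ b, t = St.of n b := by
  obtain ⟨N, h⟩ := s.exists_of
  obtain ⟨N', h'⟩ := t.exists_of
  exact ⟨max M (max N N'), le_max_left _ _, h _ (by omega), h' _ (by omega)⟩

/-- a common positive level, in the form `n + 1` -/
theorem St.exists_of_succ₂ (s : St X Y) (t : St Z Z') :
    ∃ n, (∃ a, s = St.of (n + 1) a) ∧ ∃ b, t = St.of (n + 1) b := by
  obtain ⟨n, hn, h⟩ := s.exists_of₂ t 1
  obtain ⟨m, rfl⟩ := Nat.exists_eq_add_of_le hn
  rw [Nat.add_comm] at h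
  exact ⟨m, h⟩

theorem St.of_eq_iff {n : ℕ} {a b : HC (S X n) (S Y n)} :
    St.of n a = St.of n b ↔ ∃ k, stN a k = stN b k := by
  constructor
  · intro h
    obtain ⟨N, h⟩ := Quotient.exact h
    refine ⟨N, ?_⟩
    have := h (n + N) (by omega)
    change gen n a (n + N) = gen n b (n + N) at this
    rwa [gen_add, gen_add] at this
  · rintro ⟨k, hk⟩
    refine Quotient.sound ⟨n + k, fun m hm => ?_⟩
    obtain ⟨j, rfl⟩ := Nat.exists_eq_add_of_le hm
    change gen n a (n + k + j) = gen n b (n + k + j)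
    induction j with
    | zero =>
      change gen n a (n + k) = gen n b (n + k)
      rw [gen_add, gen_add, hk]
    | succ j ih =>
      change gen n a (n + k + j + 1) = gen n b (n + k + j + 1)
      rw [gen_succ _ _ _ (by omega), gen_succ _ _ _ (by omega), ih (by omega)]

@[simp] theorem St.of_st {n : ℕ} (a : HC (S X n) (S Y n)) : St.of (n + 1) (st a) = St.of n a := by
  refine Quotient.sound ⟨n + 1, fun m hm => ?_⟩
  change gen (n + 1) (st a) m = gen n a m
  obtain ⟨j, rfl⟩ := Nat.exists_eq_add_of_le hm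
  rw [gen_add]
  have : gen n a (n + 1 + j) = stN (st a) j := by
    induction j with
    | zero =>
      change gen n a (n + 1) = _
      rw [gen_succ _ _ _ le_rfl, gen_self]; rfl
    | succ j ih =>
      change gen n a (n + 1 + j + 1) = _
      rw [gen_succ _ _ _ (by omega), ih (by omega)]; rfl
  rw [this]

@[simp] theorem St.of_stN {n : ℕ} (a : HC (S X n) (S Y n)) (k : ℕ) :
    St.of (n + k) (stN a k) = St.of n a := by
  induction k with
  | zero => rfl
  | succ k ih => exact (St.of_st _).trans ih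

/-! ### composition -/

/-- composition of stable maps -/
noncomputable def St.comp (t : St Y Z) (s : St X Y) : St X Z :=
  Quotient.map₂ (fun (t : Pre Y Z) (s : Pre X Y) =>
    (⟨fun n => (t.seq n).comp (s.seq n), by
      obtain ⟨N, h⟩ := t.ev
      obtain ⟨M, k⟩ := s.ev
      refine ⟨max N M, fun n hn => ?_⟩
      rw [h n (le_of_max_le_left hn), k n (le_of_max_le_right hn), st_comp]⟩ : Pre X Z))
    (by
      rintro t t' ⟨N, h⟩ s s' ⟨M, k⟩
      refine ⟨max N M, fun n hn => ?_⟩
      change (t.seq n).comp (s.seq n) = (t'.seq n).comp (s'.seq n)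
      rw [h n (le_of_max_le_left hn), k n (le_of_max_le_right hn)]) t s

theorem stN_comp {n : ℕ} (b : HC (S Y n) (S Z n)) (a : HC (S X n) (S Y n)) (k : ℕ) :
    stN (b.comp a) k = (stN b k).comp (stN a k) := by
  induction k with
  | zero => rfl
  | succ k ih => rw [stN_succ, ih, st_comp]; rfl

@[simp] theorem St.of_comp_of {n : ℕ} (b : HC (S Y n) (S Z n)) (a : HC (S X n) (S Y n)) :
    (St.of n b).comp (St.of n a) = St.of n (b.comp a) := by
  refine Quotient.sound ⟨n, fun m hm => ?_⟩
  obtain ⟨k, rfl⟩ := Nat.exists_eq_add_of_le hm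
  change (gen n b (n + k)).comp (gen n a (n + k)) = gen n (b.comp a) (n + k)
  rw [gen_add, gen_add, gen_add, stN_comp]

/-- identity stable map -/
noncomputable def St.id (X : Type u) [TopologicalSpace X] [T2Space X] [LocallyCompactSpace X] :
    St X X := Quotient.mk _ ⟨fun n => h1 (S X n), 0, fun n _ => st_h1.symm⟩

theorem St.comp_assoc (u : St Z Z') (t : St Y Z) (s : St X Y) :
    (u.comp t).comp s = u.comp (t.comp s) := by
  obtain ⟨u, rfl⟩ := Quotient.exists_rep u
  obtain ⟨t, rfl⟩ := Quotient.exists_rep t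
  obtain ⟨s, rfl⟩ := Quotient.exists_rep s
  exact Quotient.sound ⟨0, fun n _ => HC.comp_assoc _ _ _⟩

@[simp] theorem St.comp_id (s : St X Y) : s.comp (St.id X) = s := by
  obtain ⟨s, rfl⟩ := Quotient.exists_rep s
  exact Quotient.sound ⟨0, fun n _ => comp_h1 _⟩

@[simp] theorem St.id_comp (s : St X Y) : (St.id Y).comp s = s := by
  obtain ⟨s, rfl⟩ := Quotient.exists_rep s
  exact Quotient.sound ⟨0, fun n _ => h1_comp _⟩

theorem St.of_h1 (n : ℕ) : St.of n (h1 (S X n)) = St.id X :=
  ((Pre.mk_eq_of (⟨fun n => h1 (S X n), 0, fun n _ => st_h1.symm⟩ : Pre X X)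
    (fun _ _ => st_h1.symm) (Nat.zero_le n))).symm

/-! ### additive structure -/

/-- sum at all levels (zero at level `0`) -/
noncomputable def add' (a b : ∀ n, HC (S X n) (S Y n)) : ∀ n, HC (S X n) (S Y n)
  | 0 => hzero _ _
  | n + 1 => sadd (a (n + 1)) (b (n + 1))

/-- negative at all levels (zero at level `0`) -/
noncomputable def neg' (a : ∀ n, HC (S X n) (S Y n)) : ∀ n, HC (S X n) (S Y n)
  | 0 => hzero _ _
  | n + 1 => sneg (a (n + 1))

theorem sadd_assoc {n : ℕ} (a b c : HC (S X (n + 1)) Z) :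
    sadd (sadd a b) c = sadd a (sadd b c) := gadd_assoc _ _ _ _

theorem hzero_sadd {n : ℕ} (a : HC (S X (n + 1)) Z) : sadd (hzero _ _) a = a := zero_gadd _ _

theorem sadd_hzero {n : ℕ} (a : HC (S X (n + 1)) Z) : sadd a (hzero _ _) = a := gadd_zero _ _

theorem sneg_sadd {n : ℕ} (a : HC (S X (n + 1)) Z) : sadd (sneg a) a = hzero _ _ := gneg_gadd _ _

theorem st_sneg {n : ℕ} (a : HC (S X (n + 1)) (S Y (n + 1))) : st (sneg a) = sneg (st a) := by
  have h : sadd (st (sneg a)) (st a) = hzero _ _ := by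
    rw [← st_sadd, sneg_sadd, st_hzero]
  calc st (sneg a) = sadd (st (sneg a)) (sadd (st a) (sneg (st a))) := by
        rw [sadd_comm (st a), sneg_sadd, sadd_hzero]
    _ = sneg (st a) := by rw [← sadd_assoc, h, hzero_sadd]

noncomputable instance : Add (St X Y) where
  add s t := Quotient.map₂ (fun (s t : Pre X Y) => (⟨add' s.seq t.seq, by
      obtain ⟨N, h⟩ := s.ev
      obtain ⟨M, k⟩ := t.ev
      refine ⟨max N M + 1, fun n hn => ?_⟩
      obtain ⟨m, rfl⟩ := Nat.exists_eq_add_of_le' (show 1 ≤ n by omega)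
      change sadd (s.seq (m + 2)) (t.seq (m + 2)) = st (sadd (s.seq (m + 1)) (t.seq (m + 1)))
      rw [h (m + 1) (by omega), k (m + 1) (by omega), st_sadd]⟩ : Pre X Y))
    (by
      rintro s s' ⟨N, h⟩ t t' ⟨M, k⟩
      refine ⟨max N M + 1, fun n hn => ?_⟩
      obtain ⟨m, rfl⟩ := Nat.exists_eq_add_of_le' (show 1 ≤ n by omega)
      change sadd (s.seq (m + 1)) (t.seq (m + 1)) = sadd (s'.seq (m + 1)) (t'.seq (m + 1))
      rw [h (m + 1) (by omega), k (m + 1) (by omega)]) s t

noncomputable instance : Neg (St X Y) where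
  neg s := Quotient.map (fun (s : Pre X Y) => (⟨neg' s.seq, by
      obtain ⟨N, h⟩ := s.ev
      refine ⟨N + 1, fun n hn => ?_⟩
      obtain ⟨m, rfl⟩ := Nat.exists_eq_add_of_le' (show 1 ≤ n by omega)
      change sneg (s.seq (m + 2)) = st (sneg (s.seq (m + 1)))
      rw [h (m + 1) (by omega), st_sneg]⟩ : Pre X Y))
    (by
      rintro s s' ⟨N, h⟩
      refine ⟨N + 1, fun n hn => ?_⟩
      obtain ⟨m, rfl⟩ := Nat.exists_eq_add_of_le' (show 1 ≤ n by omega)
      change sneg (s.seq (m + 1)) = sneg (s'.seq (m + 1))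
      rw [h (m + 1) (by omega)]) s

noncomputable instance : Zero (St X Y) where
  zero := Quotient.mk _ ⟨fun n => hzero _ _, 0, fun n _ => st_hzero.symm⟩

theorem St.ext_succ {s t : Pre X Y} (h : ∀ n, s.seq (n + 1) = t.seq (n + 1)) :
    (Quotient.mk _ s : St X Y) = Quotient.mk _ t := by
  refine Quotient.sound ⟨1, fun n hn => ?_⟩
  obtain ⟨m, rfl⟩ := Nat.exists_eq_add_of_le' hn
  exact h m

theorem St.add_assoc' (a b c : St X Y) : a + b + c = a + (b + c) := by
  obtain ⟨a, rfl⟩ := Quotient.exists_rep a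
  obtain ⟨b, rfl⟩ := Quotient.exists_rep b
  obtain ⟨c, rfl⟩ := Quotient.exists_rep c
  exact St.ext_succ fun n => sadd_assoc _ _ _

theorem St.zero_add' (a : St X Y) : 0 + a = a := by
  obtain ⟨a, rfl⟩ := Quotient.exists_rep a
  exact St.ext_succ fun n => hzero_sadd _

theorem St.neg_add' (a : St X Y) : -a + a = 0 := by
  obtain ⟨a, rfl⟩ := Quotient.exists_rep a
  exact St.ext_succ fun n => sneg_sadd _

theorem St.add_comm' (a b : St X Y) : a + b = b + a := by
  obtain ⟨a, rfl⟩ := Quotient.exists_rep a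
  obtain ⟨b, rfl⟩ := Quotient.exists_rep b
  exact St.ext_succ fun n => sadd_comm _ _

noncomputable instance : AddCommGroup (St X Y) where
  toAddGroup := AddGroup.ofLeftAxioms St.add_assoc' St.zero_add' St.neg_add'
  add_comm := St.add_comm'

theorem St.of_add_of {n : ℕ} (a b : HC (S X (n + 1)) (S Y (n + 1))) :
    St.of (n + 1) a + St.of (n + 1) b = St.of (n + 1) (sadd a b) := by
  refine Quotient.sound ⟨n + 1, fun m hm => ?_⟩
  change add' (gen (n + 1) a) (gen (n + 1) b) m = gen (n + 1) (sadd a b) m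
  induction m, hm using Nat.le_induction with
  | base =>
    change sadd (gen (n + 1) a (n + 1)) (gen (n + 1) b (n + 1)) = gen (n + 1) (sadd a b) (n + 1)
    rw [gen_self, gen_self, gen_self]
  | succ m hm ih =>
    obtain ⟨j, rfl⟩ := Nat.exists_eq_add_of_le' (show 1 ≤ m by omega)
    change sadd (gen (n + 1) a (j + 1 + 1)) (gen (n + 1) b (j + 1 + 1)) =
      gen (n + 1) (sadd a b) (j + 1 + 1)
    rw [gen_succ _ _ _ hm, gen_succ _ _ _ hm, gen_succ _ _ _ hm, ← st_sadd, ← ih]
    rfl

theorem St.of_zero (n : ℕ) : St.of n (hzero (S X n) (S Y n)) = 0 :=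
  ((Pre.mk_eq_of (⟨fun n => hzero _ _, 0, fun n _ => st_hzero.symm⟩ : Pre X Y)
    (fun _ _ => st_hzero.symm) (Nat.zero_le n))).symm

theorem St.neg_of {n : ℕ} (a : HC (S X (n + 1)) (S Y (n + 1))) :
    -St.of (n + 1) a = St.of (n + 1) (sneg a) := by
  have h : St.of (n + 1) (sneg a) + St.of (n + 1) a = 0 := by
    rw [St.of_add_of, sneg_sadd, St.of_zero]
  exact (eq_neg_of_add_eq_zero_left h).symm

theorem St.comp_add (t : St Y Z) (a b : St X Y) : t.comp (a + b) = t.comp a + t.comp b := by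
  obtain ⟨a, rfl⟩ := Quotient.exists_rep a
  obtain ⟨b, rfl⟩ := Quotient.exists_rep b
  obtain ⟨t, rfl⟩ := Quotient.exists_rep t
  exact St.ext_succ fun n => comp_gadd _ _ _ _

theorem St.add_comp (a b : St Y Z) (s : St X Y) : (a + b).comp s = a.comp s + b.comp s := by
  obtain ⟨a, rfl⟩ := Quotient.exists_rep a
  obtain ⟨b, rfl⟩ := Quotient.exists_rep b
  obtain ⟨s, rfl⟩ := Quotient.exists_rep s
  obtain ⟨N, h⟩ := s.ev
  refine Quotient.sound ⟨N + 1, fun n hn => ?_⟩
  obtain ⟨m, rfl⟩ := Nat.exists_eq_add_of_le' (show 1 ≤ n by omega)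
  change (sadd (a.seq (m + 1)) (b.seq (m + 1))).comp (s.seq (m + 1)) =
    sadd ((a.seq (m + 1)).comp (s.seq (m + 1))) ((b.seq (m + 1)).comp (s.seq (m + 1)))
  rw [h m (by omega), sadd_st]

end stable

end Crest.Agent.R090.St528
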