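import Crest.Agent.R090.HopfD_297
import Crest.Agent.R090.St_528

/-!
# Row 90, HOPF part E (owner helper297): additivity for maps with disjoint supports

`union_susp` : if `f` is the union of `f1`, `f2` with disjoint supports, then
`f ∧ 1 ~ padd (f1 ∧ 1) (f2 ∧ 1)`; `mk_union` : the stable class of `f` is the sum.
-/

set_option autoImplicit false
set_option linter.unusedSectionVars false

open Topology Filter Set

namespace Crest.Agent.R090.Hopf297

open OnePoint Sp962 Grp528 St528
open scoped unitInterval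

universe u v w x

/-- union of two maps to `OnePoint V` with disjoint supports -/
noncomputable def un {X V : Type*} (F1 F2 : X → OnePoint V) (x : X) : OnePoint V :=
  open Classical in if F1 x = ∞ then F2 x else F1 x

theorem un_of_eq {X V : Type*} {F1 F2 : X → OnePoint V} {x : X} (h : F1 x = ∞) :
    un F1 F2 x = F2 x := if_pos h

theorem un_of_ne {X V : Type*} {F1 F2 : X → OnePoint V} {x : X} (h : F1 x ≠ ∞) :
    un F1 F2 x = F1 x := if_neg h

theorem un_of_eq' {X V : Type*} {F1 F2 : X → OnePoint V} {x : X} (h : F2 x = ∞) :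
    un F1 F2 x = F1 x := by
  by_cases h1 : F1 x = ∞
  · rw [un_of_eq h1, h, h1]
  · exact un_of_ne h1

theorem continuous_un {X V : Type*} [TopologicalSpace X] [TopologicalSpace V]
    {F1 F2 : X → OnePoint V} (h1 : Continuous F1) (h2 : Continuous F2)
    (hd : ∀ x, F1 x = ∞ ∨ F2 x = ∞) : Continuous (un F1 F2) := by
  have hopen : IsOpen ({∞}ᶜ : Set (OnePoint V)) := by
    rw [OnePoint.compl_infty]
    exact isOpen_range_coe
  rw [continuous_iff_continuousAt]
  intro x
  by_cases hx1 : F1 x = ∞
  · by_cases hx2 : F2 x = ∞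
    · rw [ContinuousAt, un_of_eq hx1, hx2]
      intro s hs
      have e1 : ∀ᶠ y in 𝓝 x, F1 y ∈ s := h1.continuousAt.eventually (by rw [hx1]; exact hs)
      have e2 : ∀ᶠ y in 𝓝 x, F2 y ∈ s := h2.continuousAt.eventually (by rw [hx2]; exact hs)
      rw [mem_map]
      filter_upwards [e1, e2] with y hy1 hy2
      rw [mem_preimage, un]
      split_ifs
      · exact hy2
      · exact hy1
    · have e2 : ∀ᶠ y in 𝓝 x, F2 y ∈ ({∞}ᶜ : Set (OnePoint V)) :=
        h2.continuousAt.eventually (hopen.mem_nhds hx2)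
      refine h2.continuousAt.congr ?_
      filter_upwards [e2] with y hy
      exact (un_of_eq ((hd y).resolve_right hy)).symm
  · have e1 : ∀ᶠ y in 𝓝 x, F1 y ∈ ({∞}ᶜ : Set (OnePoint V)) :=
      h1.continuousAt.eventually (hopen.mem_nhds hx1)
    refine h1.continuousAt.congr ?_
    filter_upwards [e1] with y hy
    exact (un_of_ne hy).symm

section unstable

variable {U : Type u} {V : Type v} [TopologicalSpace U] [TopologicalSpace V]
variable [T2Space U] [LocallyCompactSpace U] [T2Space V] [LocallyCompactSpace V]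

theorem IsUnion.disj {f f1 f2 : PMap U V} (h : IsUnion f f1 f2) (x : OnePoint U) :
    f1 x = ∞ ∨ f2 x = ∞ := by
  induction x using OnePoint.rec with
  | infty => left; exact f1.map_inf
  | coe x =>
    rcases h x with h | h
    · exact Or.inl h.1
    · exact Or.inr h.1

theorem IsUnion.eq_un {f f1 f2 : PMap U V} (h : IsUnion f f1 f2) (x : OnePoint U) :
    f x = un f1 f2 x := by
  induction x using OnePoint.rec with
  | infty => rw [un_of_eq f1.map_inf, f2.map_inf, f.map_inf]
  | coe x =>
    rcases h x with h | h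
    · rw [un_of_eq h.1, h.2]
    · rw [un_of_eq' h.1, h.2]

/-- the union of two maps with disjoint supports -/
noncomputable def unP (f1 f2 : PMap U V) (h : ∀ x : OnePoint U, f1 x = ∞ ∨ f2 x = ∞) : PMap U V where
  toFun := un f1 f2
  cont := continuous_un f1.cont f2.cont h
  map_inf := by rw [un_of_eq f1.map_inf, f2.map_inf]

theorem isUnion_unP (f1 f2 : PMap U V) (h : ∀ x : OnePoint U, f1 x = ∞ ∨ f2 x = ∞) :
    IsUnion (unP f1 f2 h) f1 f2 := by
  intro x
  rcases h x with h' | h'
  · exact Or.inl ⟨h', un_of_eq h'⟩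
  · exact Or.inr ⟨h', un_of_eq' h'⟩

theorem IsUnion.smash {f f1 f2 : PMap U V} (h : IsUnion f f1 f2) {U' : Type*} {V' : Type*}
    [TopologicalSpace U'] [TopologicalSpace V'] [T2Space U'] [LocallyCompactSpace U']
    [T2Space V'] [LocallyCompactSpace V'] (k : PMap U' V') :
    IsUnion (f.smash k) (f1.smash k) (f2.smash k) := by
  rintro ⟨x, y⟩
  rcases h x with h | h
  · left
    simp [h.1, h.2]
  · right
    simp [h.1, h.2]

/-- **additivity after one suspension** -/
theorem union_susp {f f1 f2 : PMap U V} (h : IsUnion f f1 f2) :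
    (f.smash (PMap.id Io)).Homotopic
      (padd (f1.smash (PMap.id Io)) (f2.smash (PMap.id Io))) := by
  -- the two halves of the homotopy
  set A : I × (I × OnePoint U) → OnePoint (V × Io) := fun p =>
    sm (f1 p.2.2) (qI ((1 + (p.1 : ℝ)) * (p.2.1 : ℝ))) with hA
  set B : I × (I × OnePoint U) → OnePoint (V × Io) := fun p =>
    sm (f2 p.2.2) (qI ((1 + (p.1 : ℝ)) * (p.2.1 : ℝ) - (p.1 : ℝ))) with hB
  have hAc : Continuous A := (f1.cont.comp (by fun_prop)).sm962 (continuous_qI.comp (by fun_prop))
  have hBc : Continuous B := (f2.cont.comp (by fun_prop)).sm962 (continuous_qI.comp (by fun_prop))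
  have hd : ∀ p, A p = ∞ ∨ B p = ∞ := by
    intro p
    rcases h.disj p.2.2 with h' | h'
    · left; simp [hA, h']
    · right; simp [hB, h']
  have hUc := continuous_un hAc hBc hd
  have hinf : ∀ {p}, A p = ∞ → B p = ∞ → un A B p = ∞ := by
    intro p h1 h2
    rw [un_of_eq h1, h2]
  set H : I × OnePoint (U × Io) → OnePoint (V × Io) := fun p =>
    unc (fun t u => un A B (p.1, (t, u))) p.2 with hH
  have hHs : ∀ (s t : I) (u : OnePoint U), H (s, sm u (qI (t : ℝ))) = un A B (s, (t, u)) := by
    intro s t u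
    have hs0 := s.2.1
    have hs1 := s.2.2
    refine unc_sm _ ?_ ?_ ?_ t u
    · intro u
      refine hinf (by simp [hA]) ?_
      simp only [hB, Set.Icc.coe_zero, mul_zero, zero_sub]
      rw [qI_of_le (by linarith), sm_inf_right]
    · intro u
      refine hinf ?_ (by simp [hB])
      simp only [hA, Set.Icc.coe_one, mul_one]
      rw [qI_of_ge (by linarith), sm_inf_right]
    · intro t
      exact hinf (by simp [hA, f1.map_inf]) (by simp [hB, f2.map_inf])
  have hHc : Continuous H := by
    refine continuous_of_smI' ?_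
    have : (fun p : I × (I × OnePoint U) => H (p.1, sm p.2.2 (qI (p.2.1 : ℝ)))) = un A B := by
      funext p
      exact hHs p.1 p.2.1 p.2.2
    rw [this]
    exact hUc
  refine PMap.Homotopic.of H hHc ?_ ?_ ?_
  · rintro ⟨u, t⟩
    have h1 := hHs 0 ⟨t.1, t.2.1.le, t.2.2.le⟩ (u : OnePoint U)
    rw [show sm (u : OnePoint U) (qI ((⟨t.1, t.2.1.le, t.2.2.le⟩ : I) : ℝ)) =
      (((u, t) : U × Io) : OnePoint (U × Io)) by rw [qI_coe]; rfl] at h1
    rw [h1]
    change un A B _ = sm (f u) (t : OnePoint Io)
    rcases h u with h' | h'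
    · rw [un_of_eq (by simp [hA, h'.1]), h'.2]
      simp [hB]
    · rw [un_of_eq' (by simp [hB, h'.1]), h'.2]
      simp [hA]
  · rintro ⟨u, t⟩
    have h1 := hHs 1 ⟨t.1, t.2.1.le, t.2.2.le⟩ (u : OnePoint U)
    rw [show sm (u : OnePoint U) (qI ((⟨t.1, t.2.1.le, t.2.2.le⟩ : I) : ℝ)) =
      (((u, t) : U × Io) : OnePoint (U × Io)) by rw [qI_coe]; rfl] at h1
    rw [h1]
    have h2 : (((u, t) : U × Io) : OnePoint (U × Io)) = sm (u : OnePoint U) (qI (t : ℝ)) := by
      rw [qI_coe]; rfl
    rw [h2, padd_sm]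
    have ht0 := t.2.1
    have ht1 := t.2.2
    rcases h u with h' | h'
    · rw [un_of_eq (by simp [hA, h'.1])]
      split_ifs with ht
      · simp only [hB, Set.Icc.coe_one, PMap.smash_sm, h'.1, sm_inf_left]
        rw [qI_of_le (by linarith), sm_inf_right]
      · simp only [hB, Set.Icc.coe_one, PMap.smash_sm, PMap.id_apply]
        rw [show ((1 : ℝ) + 1) * (t : ℝ) - 1 = 2 * (t : ℝ) - 1 by ring]
    · rw [un_of_eq' (by simp [hB, h'.1])]
      split_ifs with ht
      · simp only [hA, Set.Icc.coe_one, PMap.smash_sm, PMap.id_apply]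
        rw [show ((1 : ℝ) + 1) * (t : ℝ) = 2 * (t : ℝ) by ring]
      · simp only [hA, Set.Icc.coe_one, PMap.smash_sm, h'.1, sm_inf_left]
        rw [qI_of_ge (by linarith), sm_inf_right]
  · intro s
    rfl

end unstable

section stable

variable {X : Type u} {Y : Type v} [TopologicalSpace X] [TopologicalSpace Y]
variable [T2Space X] [LocallyCompactSpace X] [T2Space Y] [LocallyCompactSpace Y]

/-- **additivity of stable classes for disjoint supports** -/
theorem mk_union {n : ℕ} {f f1 f2 : PMap (S X n) (S Y n)} (h : IsUnion f f1 f2) :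
    St.mk n f = St.mk n f1 + St.mk n f2 := by
  have key : st (HC.mk f) = sadd (st (HC.mk f1)) (st (HC.mk f2)) := by
    rw [st_eq_lev, st_eq_lev, st_eq_lev, sadd, gadd]
    simp only [HC.comp_assoc, hh_comp_symm, comp_h1]
    rw [← comp_hadd, HC.comp_assoc]
    congr 2
    have h2 := union_susp (h.smash (PMap.id Io))
    exact HC.sound h2
  calc St.mk n f = St.of (n + 1) (st (HC.mk f)) := (St.of_st _).symm
    _ = St.of (n + 1) (st (HC.mk f1)) + St.of (n + 1) (st (HC.mk f2)) := by
        rw [key, St.of_add_of]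
    _ = _ := by rw [St.of_st, St.of_st]; rfl

end stable

end Crest.Agent.R090.Hopf297
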