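import Crest.Agent.R090.HopfE_297
import Crest.Agent.R090.Lin_202

/-!
# Row 90, HOPF part F (owner helper297): real linear isomorphisms are stably `± 1`
-/

set_option autoImplicit false
set_option linter.unusedSectionVars false

open Topology Filter Set

namespace Crest.Agent.R090.Hopf297

open OnePoint Sp962 Grp528 St528
open scoped unitInterval

universe u v w x

theorem coe_iso (x : ℝ) : ((orderIsoIooNegOneOne ℝ x : Ioo (-1 : ℝ) 1) : ℝ) = x / (1 + |x|) := by
  unfold orderIsoIooNegOneOne
  rfl

theorem coe_ioHomeo (x : ℝ) : ((ioHomeo x : Io) : ℝ) = (x / (1 + |x|) + 1) / 2 := by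
  have h := coe_iso x
  change (((orderIsoIooNegOneOne ℝ x : Ioo (-1 : ℝ) 1) : ℝ) + 1) / 2 = _
  rw [h]

theorem coe_ioHomeo_neg (x : ℝ) : ((ioHomeo (-x) : Io) : ℝ) = 1 - (ioHomeo x : ℝ) := by
  rw [coe_ioHomeo, coe_ioHomeo, abs_neg]
  ring

section refl

variable (X : Type u) [TopologicalSpace X] [T2Space X] [LocallyCompactSpace X]

/-- conjugation of the last coordinate -/
noncomputable def cj (m : ℕ) : S X (m + 1) ≃ₜ S X (m + 1) where
  toFun p := (p.1, Function.update p.2 (Fin.last m) (star (p.2 (Fin.last m))))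
  invFun p := (p.1, Function.update p.2 (Fin.last m) (star (p.2 (Fin.last m))))
  left_inv p := by simp
  right_inv p := by simp
  continuous_toFun := by
    refine continuous_fst.prodMk ?_
    exact Continuous.update continuous_snd _ (by fun_prop)
  continuous_invFun := by
    refine continuous_fst.prodMk ?_
    exact Continuous.update continuous_snd _ (by fun_prop)

theorem cj_neg (m : ℕ) : St.mk (m + 1) (PMap.ofHomeo (cj X m)) = -St.id X := by
  rw [← St.of_h1 (m + 1), St.neg_of]
  refine congrArg (St.of (m + 1)) ?_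
  rw [sneg, gneg, h1_comp]
  refine congrArg HC.mk (PMap.ext fun p => ?_)
  rw [PMap.comp_apply, PMap.ofHomeo_coe, PMap.ofHomeo_coe]
  have e1 : ((lev X m p : (S X m × Io) × Io) : OnePoint ((S X m × Io) × Io)) =
      sm (((lev X m p).1 : S X m × Io) : OnePoint (S X m × Io)) (qI ((lev X m p).2 : ℝ)) := by
    rw [qI_coe]; rfl
  rw [e1, pneg_sm]
  have e2 : (lev X m p).2 = ioHomeo (p.2 (Fin.last m)).im := rfl
  have e3 : (1 : ℝ) - ((lev X m p).2 : ℝ) = ((ioHomeo (-(p.2 (Fin.last m)).im) : Io) : ℝ) := by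
    rw [coe_ioHomeo_neg, e2]
  rw [e3, qI_coe, sm_coe, PMap.ofHomeo_coe, coe_eq_coe, Homeomorph.eq_symm_apply]
  obtain ⟨x, v⟩ := p
  refine Prod.ext (Prod.ext (Prod.ext rfl ?_) ?_) ?_
  · funext i
    change Function.update v (Fin.last m) (star (v (Fin.last m))) i.castSucc = v i.castSucc
    rw [Function.update_of_ne (Fin.castSucc_lt_last i).ne]
  · change ioHomeo (Function.update v (Fin.last m) (star (v (Fin.last m))) (Fin.last m)).re =
      ioHomeo (v (Fin.last m)).re
    simp
  · change ioHomeo (Function.update v (Fin.last m) (star (v (Fin.last m))) (Fin.last m)).im =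
      ioHomeo (-(v (Fin.last m)).im)
    simp

end refl

end Crest.Agent.R090.Hopf297
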