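import Crest.Agent.R090.I0a_275

/-!
# Row 90, I0 (owner helper417): operations on the Thom spaces `Th k ι` of `I0a_275`

* `ofTh`: pointed maps into `Th k ι` from proper maps;
* `mu`: the product `Th r ι × Th s κ → Th (r + s) (ι ⊕ κ)`;
* `reindex`: `Th k ι ≃ₜ Th k ι'` along `ι ≃ ι'`;
* `cst P S`: the inclusion of a fixed fibre;
* `pinch L`: the top cell chart of a rank one family on `ℂ^α ⊕ ℂ`.
-/

set_option autoImplicit false
set_option linter.unusedSectionVars false

open Topology Filter Set Matrix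

namespace Crest.Agent.R090.I0Defs417

open OnePoint Crest.Agent.R090.Sp962 Crest.Agent.R090.I0core275
open scoped unitInterval

variable {ι κ α : Type*} [Fintype ι] [DecidableEq ι] [Fintype κ] [DecidableEq κ]
  [Fintype α] [DecidableEq α]

/-! ## elementary facts on projections -/

theorem isPr_zero : IsPr 0 (0 : Matrix ι ι ℂ) := ⟨by simp, by simp, by simp⟩

theorem isPr_one : IsPr (Fintype.card ι) (1 : Matrix ι ι ℂ) := ⟨by simp, by simp, by simp⟩

theorem isPr_fromBlocks {r s : ℕ} {P : Matrix ι ι ℂ} {Q : Matrix κ κ ℂ} (hP : IsPr r P)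
    (hQ : IsPr s Q) : IsPr (r + s) (fromBlocks P 0 0 Q) := by
  refine ⟨?_, ?_, ?_⟩
  · rw [fromBlocks_conjTranspose, hP.herm, hQ.herm]; simp
  · rw [fromBlocks_multiply, hP.idem, hQ.idem]; simp
  · rw [trace, Fintype.sum_sum_type]
    simp only [diag_apply, fromBlocks_apply₁₁, fromBlocks_apply₂₂]
    have h1 : ∑ x, P x x = P.trace := rfl
    have h2 : ∑ x, Q x x = Q.trace := rfl
    rw [h1, h2, hP.tr, hQ.tr]; push_cast; rfl

theorem fromBlocks_diag_mulVec (P : Matrix ι ι ℂ) (Q : Matrix κ κ ℂ) (v : ι → ℂ) (w : κ → ℂ) :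
    fromBlocks P 0 0 Q *ᵥ Sum.elim v w = Sum.elim (P *ᵥ v) (Q *ᵥ w) := by
  rw [fromBlocks_mulVec]
  simp

theorem isPr_reindex {k : ℕ} {P : Matrix ι ι ℂ} (hP : IsPr k P) (e : ι ≃ κ) :
    IsPr k (Matrix.reindex e e P) := by
  refine ⟨?_, ?_, ?_⟩
  · rw [Matrix.reindex_apply, conjTranspose_submatrix, hP.herm]
  · rw [Matrix.reindex_apply, submatrix_mul_equiv, hP.idem]
  · rw [Matrix.reindex_apply, ← hP.tr, trace, trace]
    exact Fintype.sum_equiv e.symm _ _ fun i => rfl

theorem reindex_mulVec (e : ι ≃ κ) (P : Matrix ι ι ℂ) (v : ι → ℂ) :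
    Matrix.reindex e e P *ᵥ (v ∘ e.symm) = (P *ᵥ v) ∘ e.symm := by
  funext i
  simp only [Matrix.reindex_apply, mulVec, dotProduct, submatrix_apply, Function.comp]
  exact Fintype.sum_equiv e.symm _ _ fun i => rfl

/-! ## pointed maps into `Th k ι` -/

section ofTh

variable {U : Type*} [TopologicalSpace U]

/-- the pointed map given by a proper map -/
noncomputable def ofTh {k : ℕ} (f : U → Th k ι) (hf : Continuous f)
    (h : Tendsto (fun u => ‖(f u).1.2‖) (coclosedCompact U) atTop) : PMap U (Th k ι) :=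
  PMap.ofFun (fun u => (f u : OnePoint (Th k ι))) (continuous_coe.comp hf) (tendsto_infty h)

@[simp] theorem ofTh_coe {k : ℕ} (f : U → Th k ι) (hf : Continuous f)
    (h : Tendsto (fun u => ‖(f u).1.2‖) (coclosedCompact U) atTop) (u : U) :
    ofTh f hf h u = (f u : OnePoint (Th k ι)) := rfl

/-- properness from compact sublevel sets of a smaller function -/
theorem tendsto_of_compact_sublevel [T2Space U] {w n : U → ℝ} (hnw : ∀ u, n u ≤ w u)
    (hn : ∀ R : ℝ, ∃ K : Set U, IsCompact K ∧ ∀ u, n u ≤ R → u ∈ K) :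
    Tendsto w (coclosedCompact U) atTop := by
  rw [tendsto_atTop]
  intro R
  obtain ⟨K, hK, hK'⟩ := hn R
  rw [coclosedCompact_eq_cocompact, Filter.Eventually, Filter.mem_cocompact]
  refine ⟨K, hK, fun u hu => ?_⟩
  by_contra hlt
  rw [Set.mem_ofPred_eq, not_le] at hlt
  exact hu (hK' u ((hnw u).trans hlt.le))

theorem tendsto_norm_th (k : ℕ) :
    Tendsto (fun x : Th k ι => ‖x.1.2‖) (coclosedCompact (Th k ι)) atTop :=
  tendsto_of_compact_sublevel (fun _ => le_rfl) fun R => ⟨_, isCompact_ball k R, fun _ h => h⟩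

end ofTh

/-! ## the product -/

/-- the product map on points -/
def muFun {r s : ℕ} (p : Th r ι × Th s κ) : Th (r + s) (ι ⊕ κ) :=
  ⟨(fromBlocks p.1.1.1 0 0 p.2.1.1, Sum.elim p.1.1.2 p.2.1.2),
    isPr_fromBlocks p.1.2.1 p.2.2.1, by rw [fromBlocks_diag_mulVec, p.1.2.2, p.2.2.2]⟩

theorem continuous_sumElim {X : Type*} [TopologicalSpace X] {f : X → ι → ℂ} {g : X → κ → ℂ}
    (hf : Continuous f) (hg : Continuous g) : Continuous fun x => Sum.elim (f x) (g x) := by
  refine continuous_pi fun i => ?_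
  rcases i with i | i
  · exact (continuous_apply i).comp hf
  · exact (continuous_apply i).comp hg

theorem continuous_muFun {r s : ℕ} : Continuous (muFun : Th r ι × Th s κ → Th (r + s) (ι ⊕ κ)) := by
  refine Continuous.subtype_mk (Continuous.prodMk ?_ ?_) _
  · exact Continuous.matrix_fromBlocks
      (continuous_fst.comp (continuous_subtype_val.comp continuous_fst)) continuous_const
      continuous_const (continuous_fst.comp (continuous_subtype_val.comp continuous_snd))
  · exact continuous_sumElim (continuous_snd.comp (continuous_subtype_val.comp continuous_fst))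
      (continuous_snd.comp (continuous_subtype_val.comp continuous_snd))

theorem norm_sumElim (v : ι → ℂ) (w : κ → ℂ) : ‖Sum.elim v w‖ = max ‖v‖ ‖w‖ := by
  refine le_antisymm ?_ ?_
  · refine (pi_norm_le_iff_of_nonneg (le_max_of_le_left (norm_nonneg _))).2 fun i => ?_
    rcases i with i | i
    · exact (norm_le_pi_norm v i).trans (le_max_left _ _)
    · exact (norm_le_pi_norm w i).trans (le_max_right _ _)
  · refine max_le ?_ ?_
    · exact (pi_norm_le_iff_of_nonneg (norm_nonneg _)).2 fun i =>
        norm_le_pi_norm (Sum.elim v w) (Sum.inl i)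
    · exact (pi_norm_le_iff_of_nonneg (norm_nonneg _)).2 fun i =>
        norm_le_pi_norm (Sum.elim v w) (Sum.inr i)

theorem tendsto_muFun {r s : ℕ} :
    Tendsto (fun p : Th r ι × Th s κ => ‖(muFun p).1.2‖) (coclosedCompact (Th r ι × Th s κ))
      atTop := by
  refine tendsto_of_compact_sublevel (n := fun p : Th r ι × Th s κ => max ‖p.1.1.2‖ ‖p.2.1.2‖)
    (fun p => (norm_sumElim _ _).ge) fun R => ⟨_, (isCompact_ball r R).prod (isCompact_ball s R),
      fun p hp => ⟨(le_max_left _ _).trans hp, (le_max_right _ _).trans hp⟩⟩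

/-- the product `Th r ι × Th s κ → Th (r + s) (ι ⊕ κ)` as a pointed map -/
noncomputable def mu {r s : ℕ} : PMap (Th r ι × Th s κ) (Th (r + s) (ι ⊕ κ)) :=
  ofTh muFun continuous_muFun tendsto_muFun

@[simp] theorem mu_coe {r s : ℕ} (p : Th r ι × Th s κ) :
    mu (p : OnePoint (Th r ι × Th s κ)) = (muFun p : OnePoint _) := rfl

/-! ## reindexing -/

/-- reindexing along `ι ≃ κ` -/
def reidx {k : ℕ} (e : ι ≃ κ) : Th k ι ≃ₜ Th k κ where
  toFun x := ⟨(Matrix.reindex e e x.1.1, x.1.2 ∘ e.symm), isPr_reindex x.2.1 e, by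
    rw [reindex_mulVec, x.2.2]⟩
  invFun x := ⟨(Matrix.reindex e.symm e.symm x.1.1, x.1.2 ∘ e), isPr_reindex x.2.1 e.symm, by
    have := reindex_mulVec e.symm x.1.1 x.1.2
    rw [Equiv.symm_symm] at this
    rw [this, x.2.2]⟩
  left_inv x := by
    refine Subtype.ext (Prod.ext ?_ ?_)
    · ext i j; simp
    · funext i; simp
  right_inv x := by
    refine Subtype.ext (Prod.ext ?_ ?_)
    · ext i j; simp
    · funext i; simp
  continuous_toFun := by
    refine Continuous.subtype_mk (Continuous.prodMk ?_ ?_) _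
    · exact (continuous_fst.comp continuous_subtype_val).matrix_reindex e e
    · exact continuous_pi fun i =>
        (continuous_apply (e.symm i)).comp (continuous_snd.comp continuous_subtype_val)
  continuous_invFun := by
    refine Continuous.subtype_mk (Continuous.prodMk ?_ ?_) _
    · exact (continuous_fst.comp continuous_subtype_val).matrix_reindex e.symm e.symm
    · exact continuous_pi fun i =>
        (continuous_apply (e i)).comp (continuous_snd.comp continuous_subtype_val)

/-! ## fixed fibres -/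

/-- the inclusion of a fixed fibre, parametrised by an injective linear map `S` into `im P` -/
noncomputable def cst {k : ℕ} {P : Matrix ι ι ℂ} (hP : IsPr k P) (S : (α → ℂ) →ₗ[ℂ] (ι → ℂ))
    (hS : Function.Injective S) (hPS : ∀ v, P *ᵥ S v = S v) : PMap (α → ℂ) (Th k ι) :=
  ofTh (fun v => ⟨(P, S v), hP, hPS v⟩)
    (Continuous.subtype_mk (continuous_const.prodMk S.continuous_of_finiteDimensional) _) (by
      obtain ⟨K, hK, hK'⟩ := LinearMap.exists_antilipschitzWith S (LinearMap.ker_eq_bot.2 hS)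
      refine tendsto_of_compact_sublevel (n := fun v => (K : ℝ)⁻¹ * ‖v‖) (fun v => ?_) fun R =>
        ⟨Metric.closedBall 0 (K * R), isCompact_closedBall _ _, fun v hv => ?_⟩
      · have := hK'.le_mul_dist v 0
        rw [dist_zero_right, map_zero, dist_zero_right] at this
        rw [inv_mul_le_iff₀ (by exact_mod_cast hK)]
        exact this
      · rw [mem_closedBall_zero_iff]
        rwa [inv_mul_le_iff₀ (by exact_mod_cast hK)] at hv)

@[simp] theorem cst_coe {k : ℕ} {P : Matrix ι ι ℂ} (hP : IsPr k P) (S : (α → ℂ) →ₗ[ℂ] (ι → ℂ))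
    (hS : Function.Injective S) (hPS : ∀ v, P *ᵥ S v = S v) (v : α → ℂ) :
    cst hP S hS hPS v =
      ((show Th k ι from ⟨(P, S v), hP, hPS v⟩ : Th k ι) : OnePoint (Th k ι)) := rfl

/-! ## the chart of a rank one family -/

/-- the coordinate of a rank one projection on `ℂ^α ⊕ ℂ` around `e_none` -/
noncomputable def slope (P : Matrix (Option α) (Option α) ℂ) : α → ℂ :=
  fun a => P (Option.some a) none / P none none

theorem rank_one_sum {P : Matrix (Option α) (Option α) ℂ} (hP : IsPr 1 P) :
    ∑ a, ‖P (Option.some a) none‖ ^ 2 = ‖P none none‖ * (1 - ‖P none none‖) := by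
  have h1 := hP.sum_sq none
  rw [Fintype.sum_option] at h1
  have h2 : ‖P none none‖ = ‖P none none‖ ^ 2 + ∑ a, ‖P none (Option.some a)‖ ^ 2 := by
    conv_lhs => rw [← h1]
    rw [Complex.norm_real, Real.norm_eq_abs, abs_of_nonneg]
    exact add_nonneg (sq_nonneg _) (Finset.sum_nonneg fun _ _ => sq_nonneg _)
  have h3 : ∀ a, ‖P (Option.some a) none‖ = ‖P none (Option.some a)‖ := fun a => by
    have h4 : star (P none (Option.some a)) = P (Option.some a) none := congrFun (congrFun hP.herm (Option.some a)) none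
    rw [← h4]; exact norm_star _
  simp only [h3]
  linarith

theorem sum_slope {P : Matrix (Option α) (Option α) ℂ} (hP : IsPr 1 P) (h0 : P none none ≠ 0) :
    1 + ∑ a, ‖slope P a‖ ^ 2 = ‖P none none‖⁻¹ := by
  have h1 := rank_one_sum hP
  have h2 : ‖P none none‖ ≠ 0 := norm_ne_zero_iff.2 h0
  have h3 : ∑ a, ‖slope P a‖ ^ 2 = (∑ a, ‖P (Option.some a) none‖ ^ 2) / ‖P none none‖ ^ 2 := by
    rw [Finset.sum_div]
    exact Finset.sum_congr rfl fun a _ => by rw [slope, norm_div, div_pow]
  rw [h3, h1]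
  field_simp
  ring

open Classical in
/-- the chart, as a map to the one point compactification -/
noncomputable def pch (P : Matrix (Option α) (Option α) ℂ) : OnePoint (α → ℂ) :=
  if P none none = 0 then ∞ else (slope P : OnePoint (α → ℂ))

theorem pch_of_ne {P : Matrix (Option α) (Option α) ℂ} (h : P none none ≠ 0) :
    pch P = (slope P : OnePoint (α → ℂ)) := if_neg h

theorem pch_of_eq {P : Matrix (Option α) (Option α) ℂ} (h : P none none = 0) :
    pch P = ∞ := if_pos h

end Crest.Agent.R090.I0Defs417
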