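import Crest.Agent.R090.I0f_275

/-!
# Row 90, I0-CORE (owner helper275): the Euler class homotopy, conclusion

`EData.core`: `gmap 0 ∘ (1_Z × pinch)` is null homotopic.
-/

set_option autoImplicit false
set_option linter.unusedSectionVars false

open Topology Filter Set Matrix

namespace Crest.Agent.R090.I0core275

open OnePoint hiding some
open Crest.Agent.R090.Sp962
open scoped unitInterval ComplexOrder Kronecker

variable {h m : Type*} [Fintype h] [DecidableEq h] [Fintype m] [DecidableEq m]

namespace EData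

variable {Z B : Type*} [TopologicalSpace Z] [TopologicalSpace B] {N : ℕ}
  (C : EData Z B N h m)

section chart

variable (b : B)

/-- the chart coordinate -/
noncomputable def av : m → ℂ := fun i => C.L b (some i) none / C.L b none none

theorem star_entry (α β : Option m) : star (C.L b α β) = C.L b β α := by
  have := congrFun (congrFun (C.hL b).herm β) α
  rwa [conjTranspose_apply] at this

theorem wv_av (hb : C.L b none none ≠ 0) (α : Option m) :
    wv 1 (C.av b) α = C.L b none α / C.L b none none := by
  rcases α with _ | i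
  · rw [div_self hb]; rfl
  · change ((1 : ℝ) : ℂ) * star (C.L b (some i) none / C.L b none none) = _
    rw [Complex.ofReal_one, one_mul, star_div₀, C.star_entry, C.star_entry]

theorem norm_diag (α : Option m) : ‖C.L b α α‖ = (C.L b α α).re := by
  conv_lhs => rw [← C.diag_real b α]
  rw [Complex.norm_real, Real.norm_eq_abs, abs_of_nonneg (C.diag_nonneg b α)]

theorem wn_av (hb : C.L b none none ≠ 0) :
    ((wn 1 (C.av b) : ℝ) : ℂ)⁻¹ = C.L b none none := by
  have hl : (C.L b none none).re ≠ 0 := by
    intro h0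
    apply hb
    rw [← C.diag_real, h0, Complex.ofReal_zero]
  have h1 : wn 1 (C.av b) = (∑ α, ‖C.L b none α‖ ^ 2) / ‖C.L b none none‖ ^ 2 := by
    rw [wn, Finset.sum_div]
    refine Finset.sum_congr rfl fun α _ => ?_
    rw [C.wv_av b hb, norm_div, div_pow]
  have h2 : (∑ α, ‖C.L b none α‖ ^ 2 : ℝ) = (C.L b none none).re := by
    have := (C.hL b).sum_sq none
    rw [← C.diag_real b none] at this
    exact_mod_cast this
  rw [h1, h2, C.norm_diag]
  conv_rhs => rw [← C.diag_real b none]
  rw [← Complex.ofReal_inv]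
  congr 1
  field_simp

theorem wl_av (hb : C.L b none none ≠ 0) : wl 1 (C.av b) = (C.L b)ᵀ := by
  ext α β
  change ((wn 1 (C.av b) : ℝ) : ℂ)⁻¹ * (wv 1 (C.av b) α * star (wv 1 (C.av b) β)) = C.L b β α
  rw [C.wn_av b hb, C.wv_av b hb, C.wv_av b hb, star_div₀, C.star_entry, C.star_entry]
  have h1 := C.rank_one b β α
  field_simp
  linear_combination -h1

theorem gvec_av (hb : C.L b none none ≠ 0) (z : Z) :
    gvec h 1 (C.av b) = C.ampA.vec 1 (z, b) := by
  funext ⟨α, y⟩
  rcases y with y | i
  · change (0 : ℂ) = ((1 / den 1 (C.L b none none).re : ℝ) : ℂ) * 0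
    rw [mul_zero]
  · change wv 1 (C.av b) α * (C.L b (some i) none / C.L b none none) =
      ((1 / den 1 (C.L b none none).re : ℝ) : ℂ) * C.L b (some i) α
    have h1 := C.rank_one b (some i) α
    have h2 : den 1 (C.L b none none).re = (C.L b none none).re := by simp [den]
    rw [h2, C.wv_av b hb, Complex.ofReal_div, C.diag_real, Complex.ofReal_one]
    field_simp
    linear_combination -h1

end chart

variable [CompactSpace Z] [CompactSpace B] [T2Space Z] [T2Space B]

theorem gmap_comp (p : PMap B (m → ℂ)) (hp : ∀ b : B, p b = pinchL (C.L b)) :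
    (gmap (m := m) 1 C.R C.hRc C.hR).comp ((PMap.id Z).smash p) = C.f0 := by
  refine PMap.ext fun x => ?_
  obtain ⟨z, b⟩ := x
  rw [PMap.comp_apply, PMap.smash_coe, hp, PMap.id_apply]
  change _ = C.ampA.fin (z, b)
  by_cases hb : C.L b none none = 0
  · rw [pinchL, if_pos hb, sm_inf_right, PMap.map_inf, AmpData.fin, if_pos]
    refine ⟨(), ?_⟩
    change (C.L b none none).re = 0
    rw [hb, Complex.zero_re]
  · rw [pinchL, if_neg hb, sm_coe, AmpData.fin, if_neg]
    · refine Th.of_congr (a := isPr_gpl 1 (C.hR z) (C.av b)) (b := gpl_gvec 1 (C.R z) (C.av b))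
        (a' := C.ampA.isPr (z, b)) (b' := (C.ampA.pt 1 (z, b)).2.2) ?_ ?_
      · change wl 1 (C.av b) ⊗ₖ _ = (C.L b)ᵀ ⊗ₖ _
        rw [C.wl_av b hb]
      · exact C.gvec_av b hb z
    · rintro ⟨_, hi⟩
      apply hb
      rw [← C.diag_real]
      have : (C.L b none none).re = 0 := hi
      rw [this, Complex.ofReal_zero]

/-- **the Euler class homotopy** -/
theorem core (p : PMap B (m → ℂ)) (hp : ∀ b : B, p b = pinchL (C.L b)) :
    ((gmap (m := m) 0 C.R C.hRc C.hR).comp ((PMap.id Z).smash p)).Null :=
  ((gmap_homotopic C.R C.hRc C.hR).comp_right _).trans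
    ((PMap.Homotopic.of_eq (C.gmap_comp p hp)).trans C.f0null)

end EData

end Crest.Agent.R090.I0core275
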