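import Crest.Agent.R090.I0Glue_417
import Crest.Agent.R090.I0g_275
import Crest.Agent.R090.Match_513
import Crest.Agent.R090.F0Conv_96

/-!
# Row 90, I0 (owner helper417): binding of all inputs to `Spine.I0Stmt`
-/

set_option autoImplicit false
set_option linter.unusedSectionVars false

open Topology Filter Set Matrix

namespace Crest.Agent.R090.I0Final417

open OnePoint Crest.Agent.R090.Sp962 Crest.Agent.R090.I0core275 Crest.Agent.R090.I0Defs417
  Crest.Agent.R090.Bott513 Crest.Agent.R090.Match513 Crest.Agent.R090.I0Glue417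
open scoped unitInterval Kronecker

/-! ## rank one projections -/

section rankone

variable {ι : Type*} [Fintype ι] [DecidableEq ι]

theorem eq_zero_of_isPr_zero {Q : Matrix ι ι ℂ} (hQ : IsPr 0 Q) : Q = 0 := by
  have h1 : ∑ i, (∑ j, ‖Q i j‖ ^ 2) = (0 : ℝ) := by
    have h2 : ((∑ i, (∑ j, ‖Q i j‖ ^ 2) : ℝ) : ℂ) = 0 := by
      rw [Complex.ofReal_sum]
      rw [Finset.sum_congr rfl fun i _ => hQ.sum_sq i]
      exact hQ.tr.trans (by norm_num)
    exact_mod_cast h2
  ext i j
  have h3 := (Finset.sum_eq_zero_iff_of_nonneg fun i _ =>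
    Finset.sum_nonneg fun j _ => sq_nonneg ‖Q i j‖).1 h1 i (Finset.mem_univ i)
  have h4 := (Finset.sum_eq_zero_iff_of_nonneg fun j _ => sq_nonneg ‖Q i j‖).1 h3 j
    (Finset.mem_univ j)
  simpa using h4

theorem star_entry {k : ℕ} {P : Matrix ι ι ℂ} (hP : IsPr k P) (i j : ι) :
    star (P i j) = P j i := congrFun (congrFun hP.herm j) i

/-- the two by two minors of a rank one projection vanish -/
theorem minor_eq {P : Matrix ι ι ℂ} (hP : IsPr 1 P) (i j c : ι) :
    P i j * P c c = P i c * P c j := by
  have hs : ∀ i j, ∑ x, P i x * P x j = P i j := fun i j => by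
    have := congrFun (congrFun hP.idem i) j
    rwa [Matrix.mul_apply] at this
  by_cases h0 : P c c = 0
  · have h1 := hP.sum_sq c
    rw [h0] at h1
    have h2 : ∑ j, ‖P c j‖ ^ 2 = (0 : ℝ) := by exact_mod_cast h1
    have h3 := (Finset.sum_eq_zero_iff_of_nonneg fun j _ => sq_nonneg ‖P c j‖).1 h2 j
      (Finset.mem_univ j)
    have h4 : P c j = 0 := by simpa using h3
    rw [h0, h4, mul_zero, mul_zero]
  · have hd : star (P c c) = P c c := star_entry hP c c
    let Q : Matrix ι ι ℂ := P - Matrix.of fun i j => (P c c)⁻¹ * (P i c * P c j)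
    have hQ : IsPr 0 Q := by
      refine ⟨?_, ?_, ?_⟩
      · ext i j
        change star (P j i - (P c c)⁻¹ * (P j c * P c i)) = P i j - (P c c)⁻¹ * (P i c * P c j)
        rw [star_sub, star_mul', star_mul', star_inv₀, hd, star_entry hP, star_entry hP,
          star_entry hP]
        ring
      · ext i j
        rw [Matrix.mul_apply]
        change ∑ x, (P i x - (P c c)⁻¹ * (P i c * P c x)) * (P x j - (P c c)⁻¹ * (P x c * P c j)) =
          P i j - (P c c)⁻¹ * (P i c * P c j)
        have h1 : ∀ x, (P i x - (P c c)⁻¹ * (P i c * P c x)) *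
            (P x j - (P c c)⁻¹ * (P x c * P c j)) =
            P i x * P x j - ((P c c)⁻¹ * P c j) * (P i x * P x c)
              - ((P c c)⁻¹ * P i c) * (P c x * P x j)
              + ((P c c)⁻¹ * P i c * ((P c c)⁻¹ * P c j)) * (P c x * P x c) := fun x => by ring
        rw [Finset.sum_congr rfl fun x _ => h1 x, Finset.sum_add_distrib, Finset.sum_sub_distrib,
          Finset.sum_sub_distrib, ← Finset.mul_sum, ← Finset.mul_sum, ← Finset.mul_sum, hs, hs, hs,
          hs]
        field_simp
        ring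
      · rw [Matrix.trace]
        change ∑ x, (P x x - (P c c)⁻¹ * (P x c * P c x)) = _
        rw [Finset.sum_sub_distrib, ← Finset.mul_sum]
        have h1 : ∑ x, P x c * P c x = P c c := by
          rw [← hs c c]; exact Finset.sum_congr rfl fun x _ => mul_comm _ _
        have h2 : ∑ x, P x x = 1 := by
          have := hP.tr
          rw [Matrix.trace] at this
          simpa using this
        rw [h1, h2, inv_mul_cancel₀ h0]
        norm_num
    have h1 := congrFun (congrFun (eq_zero_of_isPr_zero hQ) i) j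
    change P i j - (P c c)⁻¹ * (P i c * P c j) = 0 at h1
    rw [sub_eq_zero] at h1
    rw [h1]
    field_simp

end rankone

/-! ## the twisting map `E` -/

section twist

variable {h m : Type} [Fintype h] [DecidableEq h] [Fintype m] [DecidableEq m]

/-- the coordinate line `e_none` -/
noncomputable def Dn (m : Type) [Fintype m] [DecidableEq m] : Matrix (Option m) (Option m) ℂ :=
  Matrix.diagonal fun x => if x = none then 1 else 0

theorem isPr_Dn : IsPr 1 (Dn m) := by
  refine ⟨?_, ?_, ?_⟩
  · rw [Dn, Matrix.diagonal_conjTranspose]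
    congr 1
    funext k
    by_cases h : k = none
    · simp only [Pi.star_apply, if_pos h, star_one]
    · simp only [Pi.star_apply, if_neg h, star_zero]
  · rw [Dn, Matrix.diagonal_mul_diagonal]
    congr 1
    funext k
    by_cases h : k = none
    · simp only [if_pos h, mul_one]
    · simp only [if_neg h, mul_zero]
  · rw [Dn, Matrix.trace_diagonal, Fintype.sum_option]
    simp

/-- the twisted vector -/
noncomputable def tv (v : h → ℂ) (a : m → ℂ) : Tw h m → ℂ :=
  fun y => if y.1 = none then Sum.elim v a y.2 else 0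

/-- the twisted plane -/
noncomputable def tp (P : Matrix h h ℂ) : Matrix (Tw h m) (Tw h m) ℂ :=
  Dn m ⊗ₖ fromBlocks P 0 0 (1 : Matrix m m ℂ)

theorem isPr_tp {N : ℕ} {P : Matrix h h ℂ} (hP : IsPr N P) :
    IsPr (N + Fintype.card m) (tp (m := m) P) :=
  (isPr_Dn.kronecker (hP.fromBlocks (IsPr.one m))).cast (one_mul _)

theorem tp_tv {P : Matrix h h ℂ} {v : h → ℂ} (hv : P *ᵥ v = v) (a : m → ℂ) :
    tp P *ᵥ tv v a = tv v a := by
  have h1 : tv v a = fun p : Tw h m => (Matrix.of fun (x : Option m) (y : h ⊕ m) =>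
      if x = none then Sum.elim v a y else 0) p.1 p.2 := rfl
  rw [h1, tp, kron_mulVec]
  have h2 : Dn m * (Matrix.of fun (x : Option m) (y : h ⊕ m) =>
      if x = none then Sum.elim v a y else 0) = (Matrix.of fun (x : Option m) (y : h ⊕ m) =>
      if x = none then Sum.elim v a y else 0) := by
    ext x y
    rw [Dn, Matrix.diagonal_mul]
    by_cases hx : x = none
    · simp [hx]
    · simp [hx]
  rw [h2]
  have h3 : (Matrix.of fun (x : Option m) (y : h ⊕ m) => if x = none then Sum.elim v a y else 0) *
      (fromBlocks P 0 0 (1 : Matrix m m ℂ))ᵀ = (Matrix.of fun (x : Option m) (y : h ⊕ m) =>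
      if x = none then Sum.elim v a y else 0) := by
    ext x y
    rw [Matrix.mul_apply]
    by_cases hx : x = none
    · have h4 : (fromBlocks P 0 0 (1 : Matrix m m ℂ) *ᵥ Sum.elim v a) y = Sum.elim v a y := by
        rw [fromBlocks_diag_mulVec, hv, Matrix.one_mulVec]
      simp only [Matrix.of_apply, if_pos hx, Matrix.transpose_apply]
      rw [← h4, Matrix.mulVec, dotProduct]
      exact Finset.sum_congr rfl fun z _ => mul_comm _ _
    · simp [hx]
  rw [h3]

/-- the twisting map on points -/
noncomputable def Efun {N : ℕ} (x : Th N h × (m → ℂ)) : Th (N + Fintype.card m) (Tw h m) :=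
  Th.of (tp x.1.1.1) (tv x.1.1.2 x.2) (isPr_tp x.1.2.1) (tp_tv x.1.2.2 x.2)

theorem continuous_Efun {N : ℕ} :
    Continuous (Efun : Th N h × (m → ℂ) → Th (N + Fintype.card m) (Tw h m)) := by
  refine continuous_th ?_ ?_
  · have h1 : Continuous fun x : Th N h × (m → ℂ) =>
        fromBlocks x.1.1.1 0 0 (1 : Matrix m m ℂ) :=
      (continuous_fst.comp (continuous_subtype_val.comp continuous_fst)).matrix_fromBlocks
        continuous_const continuous_const continuous_const
    exact continuous_const.kron275 h1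
  · refine continuous_pi fun y => ?_
    change Continuous fun x : Th N h × (m → ℂ) =>
      if y.1 = none then Sum.elim x.1.1.2 x.2 y.2 else 0
    by_cases hy : y.1 = none
    · simp only [if_pos hy]
      exact (continuous_apply y.2).comp (continuous_sumElim
        (continuous_snd.comp (continuous_subtype_val.comp continuous_fst)) continuous_snd)
    · simp only [if_neg hy]
      exact continuous_const

theorem norm_tv (v : h → ℂ) (a : m → ℂ) : max ‖v‖ ‖a‖ ≤ ‖tv v a‖ := by
  have h1 : ∀ y, ‖Sum.elim v a y‖ ≤ ‖tv v a‖ := fun y => by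
    have := norm_le_pi_norm (tv v a) ((none, y) : Tw h m)
    simpa [tv] using this
  refine max_le ?_ ?_
  · exact (pi_norm_le_iff_of_nonneg (norm_nonneg _)).2 fun i => h1 (Sum.inl i)
  · exact (pi_norm_le_iff_of_nonneg (norm_nonneg _)).2 fun i => h1 (Sum.inr i)

theorem tendsto_Efun {N : ℕ} :
    Tendsto (fun x : Th N h × (m → ℂ) => ‖(Efun x).1.2‖) (coclosedCompact _) atTop := by
  refine tendsto_of_compact_sublevel (n := fun x : Th N h × (m → ℂ) => max ‖x.1.1.2‖ ‖x.2‖)
    (fun x => norm_tv _ _) fun R => ⟨_, (isCompact_ball N R).prod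
      (isCompact_closedBall (0 : m → ℂ) R), fun x hx => ⟨(le_max_left _ _).trans hx, ?_⟩⟩
  rw [mem_closedBall_zero_iff]
  exact (le_max_right _ _).trans hx

/-- the twisting map -/
noncomputable def Emap {N : ℕ} : PMap (Th N h × (m → ℂ)) (Th (N + Fintype.card m) (Tw h m)) :=
  I0Defs417.ofTh Efun continuous_Efun tendsto_Efun

theorem wl_zero (a : m → ℂ) : wl 0 a = Dn m := by
  have h1 : wv 0 a = fun x => if x = none then 1 else 0 := by
    funext x
    rcases x with _ | i
    · simp [wv]
    · simp [wv]
  have h2 : wn 0 a = 1 := by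
    rw [wn, h1, Fintype.sum_option]
    simp
  ext x y
  rw [wl, h2, h1, Dn, Matrix.smul_apply, vecMulVec_apply, Matrix.diagonal_apply]
  by_cases hx : x = none
  · by_cases hy : y = none
    · simp [hx, hy]
    · have : ¬ (none = y) := fun hh => hy hh.symm
      simp [hx, hy, this]
  · simp [hx]

theorem gvec_zero (a : m → ℂ) : gvec h 0 a = tv (0 : h → ℂ) a := by
  funext ⟨x, y⟩
  change rcol h (vecMulVec (wv 0 a) a) x y = if x = none then Sum.elim (0 : h → ℂ) a y else 0
  rcases y with y | y
  · simp [rcol]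
  · rcases x with _ | i
    · simp [rcol, vecMulVec_apply, wv]
    · simp [rcol, vecMulVec_apply, wv]

/-- the zero section of a family of projections -/
noncomputable def zsec {Z : Type} [TopologicalSpace Z] [CompactSpace Z] {N : ℕ}
    (R : Z → Matrix h h ℂ) (hRc : Continuous R) (hR : ∀ z, IsPr N (R z)) : PMap Z (Th N h) :=
  ofC ⟨fun z => ((Th.of (R z) 0 (hR z) (by simp) : Th N h) : OnePoint (Th N h)),
    continuous_coe.comp (continuous_th hRc continuous_const)⟩

theorem Emap_zsec {Z : Type} [TopologicalSpace Z] [CompactSpace Z] [T2Space Z] {N : ℕ}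
    (R : Z → Matrix h h ℂ) (hRc : Continuous R) (hR : ∀ z, IsPr N (R z)) :
    Emap.comp ((zsec R hRc hR).smash (PMap.id (m → ℂ))) = gmap (m := m) 0 R hRc hR := by
  refine PMap.ext fun x => ?_
  obtain ⟨z, a⟩ := x
  refine Th.of_congr ?_ ?_
  · change Dn m ⊗ₖ _ = wl 0 a ⊗ₖ _
    rw [wl_zero]; rfl
  · exact (gvec_zero a).symm

/-- the coordinates of the twisted fibre -/
def s1 {γ : Type} (s0 : γ → h) : γ ⊕ m → Tw h m := fun x => (none, Sum.map s0 id x)

theorem s1_injective {γ : Type} {s0 : γ → h} (hs0 : Function.Injective s0) :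
    Function.Injective (s1 s0 : γ ⊕ m → Tw h m) := fun x y hxy =>
  (hs0.sumMap Function.injective_id) (congrArg Prod.snd hxy)

theorem tp_pJ {γ : Type} [Fintype γ] (s0 : γ → h) :
    tp (pJ s0) = pJ (s1 s0 : γ ⊕ m → Tw h m) := by
  classical
  have h1 : (1 : Matrix m m ℂ) = pJ (id : m → m) := by
    rw [pJ, ← Matrix.diagonal_one]
    congr 1
    funext k
    simp
  rw [tp, h1, pJ_sum, Dn, pJ, pJ, Matrix.diagonal_kronecker_diagonal]
  congr 1
  funext q
  obtain ⟨x, y⟩ := q
  by_cases hx : x = none
  · subst hx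
    have : ((none, y) ∈ range (s1 s0 : γ ⊕ m → Tw h m)) ↔ y ∈ range (Sum.map s0 (id : m → m)) := by
      constructor
      · rintro ⟨z, hz⟩; exact ⟨z, congrArg Prod.snd hz⟩
      · rintro ⟨z, hz⟩; exact ⟨z, by rw [s1, hz]⟩
    by_cases hy : y ∈ range (Sum.map s0 (id : m → m))
    · rw [if_pos hy, if_pos (this.2 hy)]; simp
    · rw [if_neg hy, if_neg fun hh => hy (this.1 hh)]; simp
  · rw [if_neg hx, zero_mul, if_neg]
    rintro ⟨z, hz⟩
    exact hx (congrArg Prod.fst hz).symm

theorem tv_extend {γ : Type} [Fintype γ] {s0 : γ → h} (hs0 : Function.Injective s0) (v : γ → ℂ) (a : m → ℂ) :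
    tv (Function.extend s0 v 0) a =
      Function.extend (s1 s0 : γ ⊕ m → Tw h m) (Sum.elim v a) 0 := by
  have hid : Function.extend (id : m → m) a 0 = a := by
    funext k
    exact Function.injective_id.extend_apply a 0 k
  have h1 := extend_sum hs0 (Function.injective_id (α := m)) v a
  rw [hid] at h1
  funext ⟨x, y⟩
  change (if x = none then Sum.elim (Function.extend s0 v 0) a y else 0) = _
  rw [h1]
  by_cases hx : x = none
  · subst hx
    rw [if_pos rfl]
    by_cases hy : ∃ z, Sum.map s0 (id : m → m) z = y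
    · obtain ⟨z, rfl⟩ := hy
      rw [(hs0.sumMap Function.injective_id).extend_apply]
      exact ((s1_injective hs0).extend_apply (Sum.elim v a) 0 z).symm
    · rw [Function.extend_apply' _ _ _ hy, Function.extend_apply']
      · rfl
      · rintro ⟨z, hz⟩; exact hy ⟨z, congrArg Prod.snd hz⟩
  · rw [if_neg hx, Function.extend_apply']
    · rfl
    · rintro ⟨z, hz⟩; exact hx (congrArg Prod.fst hz).symm

theorem Emap_fib {γ : Type} [Fintype γ] {N : ℕ} {s0 : γ → h} (hs0 : Function.Injective s0)
    (hN : Fintype.card γ = N) (hr : Fintype.card (γ ⊕ m) = N + Fintype.card m) :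
    Emap.comp (((PMap.ofHomeo (castTh hN)).comp (fibJ s0 hs0)).smash (PMap.id (m → ℂ))) =
      (PMap.ofHomeo (castTh hr)).comp ((fibJ (s1 s0) (s1_injective hs0)).comp
        (PMap.ofHomeo (I0Glue417.sumH γ m))) := by
  refine PMap.ext fun x => ?_
  obtain ⟨v, a⟩ := x
  refine congrArg (fun y : Th (N + Fintype.card m) (Tw h m) =>
    (y : OnePoint (Th (N + Fintype.card m) (Tw h m)))) (Subtype.ext ?_)
  refine Eq.trans ?_ (castTh_val hr _).symm
  have h0 := castTh_val hN (⟨(pJ s0, Function.extend s0 v 0), isPr_pJ hs0,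
      pJ_mulVec_extLin s0 hs0 v⟩ : Th (Fintype.card γ) h)
  refine Prod.ext ?_ ?_
  · refine (congrArg (fun A => tp (m := m) A) (congrArg Prod.fst h0)).trans ?_
    exact tp_pJ s0
  · refine (congrArg (fun w => tv (m := m) w a) (congrArg Prod.snd h0)).trans ?_
    exact tv_extend hs0 v a

end twist

/-! ## the fibre in the form of helper96 -/

section convert

variable {γ κ κ' : Type} [Fintype γ] [DecidableEq γ] [Fintype κ] [DecidableEq κ] [Fintype κ']
  [DecidableEq κ']

theorem reindex_pJ (s : γ → κ) (e : κ ≃ κ') : Matrix.reindex e e (pJ s) = pJ (e ∘ s) := by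
  classical
  ext i j
  rw [Matrix.reindex_apply, Matrix.submatrix_apply, pJ, pJ, Matrix.diagonal_apply,
    Matrix.diagonal_apply]
  by_cases hij : i = j
  · subst hij
    rw [if_pos rfl, if_pos rfl]
    have : (e.symm i ∈ range s) ↔ i ∈ range (e ∘ s) := by
      constructor
      · rintro ⟨x, hx⟩; exact ⟨x, by rw [Function.comp_apply, hx, Equiv.apply_symm_apply]⟩
      · rintro ⟨x, hx⟩; exact ⟨x, by rw [← hx, Function.comp_apply, Equiv.symm_apply_apply]⟩
    by_cases h : e.symm i ∈ range s
    · rw [if_pos h, if_pos (this.1 h)]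
    · rw [if_neg h, if_neg fun hh => h (this.2 hh)]
  · rw [if_neg hij, if_neg fun h => hij (e.symm.injective h)]

theorem extend_comp_symm {s : γ → κ} (hs : Function.Injective s) (e : κ ≃ κ') (v : γ → ℂ) :
    (Function.extend s v 0) ∘ e.symm = Function.extend (e ∘ s) v 0 := by
  have hs' : Function.Injective (e ∘ s) := e.injective.comp hs
  funext k
  by_cases h : ∃ a, s a = e.symm k
  · obtain ⟨a, ha⟩ := h
    have hk : k = (e ∘ s) a := by rw [Function.comp_apply, ha, Equiv.apply_symm_apply]
    rw [hk, hs'.extend_apply, Function.comp_apply, Function.comp_apply, Equiv.symm_apply_apply,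
      hs.extend_apply]
  · rw [Function.comp_apply, Function.extend_apply' _ _ _ h, Function.extend_apply']
    · rfl
    · rintro ⟨a, ha⟩
      exact h ⟨a, by rw [← ha, Function.comp_apply, Equiv.symm_apply_apply]⟩

theorem pJ_inl : pJ (Sum.inl : γ → γ ⊕ κ) = F0Mul96.pInl γ κ := by
  classical
  ext i j
  rw [pJ, F0Mul96.pInl, Matrix.diagonal_apply]
  rcases i with i | i <;> rcases j with j | j
  · by_cases h : i = j
    · subst h; simp
    · simp [h]
  · simp
  · simp
  · simp

theorem extend_inl (v : γ → ℂ) :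
    Function.extend (Sum.inl : γ → γ ⊕ κ) v 0 = Sum.elim v 0 := by
  funext k
  rcases k with k | k
  · exact Sum.inl_injective.extend_apply v 0 k
  · rw [Function.extend_apply']
    · rfl
    · rintro ⟨a, ha⟩; exact Sum.inl_ne_inr ha

/-- the splitting of the index set along an injection -/
noncomputable def splitE (s : γ → κ) (hs : Function.Injective s) :
    κ ≃ γ ⊕ {x : κ // x ∉ range s} := by
  classical
  exact ((Equiv.sumCompl (fun x : κ => x ∈ range s)).symm).trans
    ((Equiv.ofInjective s hs).symm.sumCongr (Equiv.refl _))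

theorem splitE_comp (s : γ → κ) (hs : Function.Injective s) :
    (splitE s hs) ∘ s = Sum.inl := by
  classical
  funext a
  change (splitE s hs) (s a) = Sum.inl a
  rw [← Equiv.eq_symm_apply]
  simp [splitE]

open Classical in
/-- a coordinate fibre is the standard fibre, after reindexing -/
theorem reidx_fibJ (s : γ → κ) (hs : Function.Injective s) :
    (PMap.ofHomeo (reidx (k := Fintype.card γ) (splitE s hs))).comp (fibJ s hs) =
      F0Mul96.fibM (F0Mul96.isPr_pInl γ {x : κ // x ∉ range s})
        (F0Mul96.eInl γ {x : κ // x ∉ range s}) := by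
  refine PMap.ext fun v => ?_
  refine congrArg (fun y : Th (Fintype.card γ) (γ ⊕ {x : κ // x ∉ range s}) =>
    (y : OnePoint (Th (Fintype.card γ) (γ ⊕ {x : κ // x ∉ range s})))) (Subtype.ext ?_)
  refine Prod.ext ?_ ?_
  · refine (reindex_pJ s (splitE s hs)).trans ?_
    rw [splitE_comp]
    exact pJ_inl
  · refine (extend_comp_symm hs (splitE s hs) v).trans ?_
    rw [splitE_comp]
    exact extend_inl v

end convert

/-- from the general coordinate form to helper96's form -/
theorem i0At_conv {Z : Type} [TopologicalSpace Z] [CompactSpace Z] [T2Space Z] {a : Type}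
    [Fintype a] [DecidableEq a] (κ : C(Z, OnePoint (a → ℂ))) (h : I0Glue417.I0At (ofC κ)) :
    F0Conv96.I0At a κ := by
  classical
  obtain ⟨m, k, _, _, s, hs, hn⟩ := h
  refine ⟨m, {x : k // x ∉ range s}, inferInstance, inferInstance, ?_⟩
  have h1 := hn.comp_left (PMap.ofHomeo (reidx (k := Fintype.card (a ⊕ Fin m)) (splitE s hs)))
  rw [← PMap.comp_assoc] at h1
  have h2 := reidx_fibJ s hs
  have h3 : (PMap.ofHomeo (I0Glue417.sumH a (Fin m))).comp
      ((ofC κ).smash (PMap.id (Fin m → ℂ))) = F0Conv96.twist a κ m := by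
    refine PMap.ext fun x => ?_
    obtain ⟨z, w⟩ := x
    change (PMap.ofHomeo (I0Glue417.sumH a (Fin m))) (sm (κ z) (w : OnePoint (Fin m → ℂ))) =
      (PMap.ofHomeo (F0Conv96.sumArrow a m)) (sm (κ z) (w : OnePoint (Fin m → ℂ)))
    generalize κ z = y
    induction y using OnePoint.rec with
    | infty => rfl
    | coe y => rfl
  rw [h3] at h1
  convert h1 using 2
  convert h2.symm

end Crest.Agent.R090.I0Final417
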