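import Crest.Agent.R090.I0Defs_417
import Crest.Agent.R090.BottN_513

/-!
# Row 90, I0 (owner helper417): the top cell chart as a pointed map, the top cell input, the glue
-/

set_option autoImplicit false
set_option linter.unusedSectionVars false

open Topology Filter Set Matrix

namespace Crest.Agent.R090.I0Glue417

open OnePoint Crest.Agent.R090.Sp962 Crest.Agent.R090.I0core275 Crest.Agent.R090.I0Defs417
  Crest.Agent.R090.Bott513 Crest.Agent.R090.Deg513
open scoped unitInterval

/-! ## the chart `pinch` -/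

section pinch

variable {α : Type*} [Fintype α] [DecidableEq α]
variable {B : Type*} [TopologicalSpace B]

theorem continuous_pch {L : B → Matrix (Option α) (Option α) ℂ} (hL : Continuous L)
    (hP : ∀ b, IsPr 1 (L b)) : Continuous fun b => pch (L b) := by
  have hd : Continuous fun b => L b none none := hL.matrix_elem _ _
  rw [continuous_iff_continuousAt]
  intro b
  by_cases h0 : L b none none = 0
  · have e0 : pch (L b) = ∞ := pch_of_eq h0
    rw [ContinuousAt, e0, tendsto_infty_iff]
    intro R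
    have hc : (0 : ℝ) < 1 + Fintype.card α * (|R| + 1) ^ 2 := by positivity
    have h1 : ∀ᶠ b' in 𝓝 b, ‖L b' none none‖ < (1 + Fintype.card α * (|R| + 1) ^ 2)⁻¹ := by
      have h2 : Tendsto (fun b' => ‖L b' none none‖) (𝓝 b) (𝓝 0) := by
        have := hd.norm.continuousAt (x := b)
        rwa [ContinuousAt, h0, norm_zero] at this
      exact h2.eventually_lt_const (by positivity)
    filter_upwards [h1] with b' hb'
    by_cases h2 : L b' none none = 0
    · rw [pch_of_eq h2]; exact far_infty R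
    · rw [pch_of_ne h2, far_coe]
      by_contra hcon
      rw [not_lt] at hcon
      have h3 := sum_slope (hP b') h2
      have h4 : ∑ a, ‖slope (L b') a‖ ^ 2 ≤ Fintype.card α * (|R| + 1) ^ 2 := by
        calc ∑ a, ‖slope (L b') a‖ ^ 2 ≤ ∑ _a : α, (|R| + 1) ^ 2 := by
              refine Finset.sum_le_sum fun a _ => ?_
              have h5 := norm_le_pi_norm (slope (L b')) a
              have h6 := le_abs_self R
              have h7 := norm_nonneg (slope (L b') a)
              nlinarith [abs_nonneg R]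
          _ = Fintype.card α * (|R| + 1) ^ 2 := by simp
      have h5 : 1 + Fintype.card α * (|R| + 1) ^ 2 < ‖L b' none none‖⁻¹ := by
        rw [lt_inv_comm₀ hc (norm_pos_iff.2 h2)]
        exact hb'
      linarith
  · have h1 : ∀ᶠ b' in 𝓝 b, L b' none none ≠ 0 := hd.continuousAt.eventually_ne h0
    have h2 : (fun b' => pch (L b')) =ᶠ[𝓝 b]
        fun b' => ((slope (L b') : α → ℂ) : OnePoint (α → ℂ)) := by
      filter_upwards [h1] with b' hb'
      exact pch_of_ne hb'
    refine ContinuousAt.congr ?_ h2.symm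
    refine continuous_coe.continuousAt.comp (f := fun b' => slope (L b')) ?_
    rw [continuousAt_pi]
    intro a
    exact (hL.matrix_elem _ _).continuousAt.div hd.continuousAt h0

/-- the chart, as a pointed map -/
noncomputable def pinch [CompactSpace B] (L : B → Matrix (Option α) (Option α) ℂ)
    (hL : Continuous L) (hP : ∀ b, IsPr 1 (L b)) : PMap B (α → ℂ) :=
  ofC ⟨fun b => pch (L b), continuous_pch hL hP⟩

@[simp] theorem pinch_coe [CompactSpace B] (L : B → Matrix (Option α) (Option α) ℂ)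
    (hL : Continuous L) (hP : ∀ b, IsPr 1 (L b)) (b : B) : pinch L hL hP b = pch (L b) := rfl

end pinch

/-! ## isometric change of the ambient space -/

section conj

variable {ι κ : Type*} [Fintype ι] [DecidableEq ι] [Fintype κ] [DecidableEq κ]

theorem isPr_conj {k : ℕ} {P : Matrix ι ι ℂ} (hP : IsPr k P) {V : Matrix κ ι ℂ}
    (hV : Vᴴ * V = 1) : IsPr k (V * P * Vᴴ) := by
  refine ⟨?_, ?_, ?_⟩
  · rw [conjTranspose_mul, conjTranspose_mul, conjTranspose_conjTranspose, hP.herm,
      Matrix.mul_assoc]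
  · have : V * P * Vᴴ * (V * P * Vᴴ) = V * (P * (Vᴴ * V) * P) * Vᴴ := by
      simp only [Matrix.mul_assoc]
    rw [this, hV, Matrix.mul_one, hP.idem]
  · rw [Matrix.trace_mul_comm, ← Matrix.mul_assoc, hV, Matrix.one_mul, hP.tr]

/-- the map `(P, v) ↦ (V P Vᴴ, V v)` for an isometry `V` -/
noncomputable def conjTh {k : ℕ} (V : Matrix κ ι ℂ) (hV : Vᴴ * V = 1) : PMap (Th k ι) (Th k κ) :=
  ofTh (fun x => ⟨(V * x.1.1 * Vᴴ, V *ᵥ x.1.2), isPr_conj x.2.1 hV, by
      show (V * x.1.1 * Vᴴ) *ᵥ (V *ᵥ x.1.2) = V *ᵥ x.1.2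
      rw [Matrix.mulVec_mulVec, Matrix.mul_assoc, hV, Matrix.mul_one, ← Matrix.mulVec_mulVec,
        x.2.2]⟩)
    (Continuous.subtype_mk (((continuous_const.matrix_mul
      (continuous_fst.comp continuous_subtype_val)).matrix_mul continuous_const).prodMk
        (continuous_const.matrix_mulVec (continuous_snd.comp continuous_subtype_val))) _) (by
      have hinj : Function.Injective (Matrix.mulVecLin V) := by
        intro v w h
        have h1 := congrArg (fun x => Vᴴ *ᵥ x) h
        simp only [Matrix.mulVecLin_apply, Matrix.mulVec_mulVec, hV, Matrix.one_mulVec] at h1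
        exact h1
      obtain ⟨K, hK, hK'⟩ := LinearMap.exists_antilipschitzWith (Matrix.mulVecLin V)
        (LinearMap.ker_eq_bot.2 hinj)
      refine tendsto_of_compact_sublevel (n := fun x : Th k ι => (K : ℝ)⁻¹ * ‖x.1.2‖)
        (fun x => ?_) fun R => ⟨_, isCompact_ball k (K * R), fun x hx => ?_⟩
      · have := hK'.le_mul_dist x.1.2 0
        rw [dist_zero_right, map_zero, dist_zero_right, Matrix.mulVecLin_apply] at this
        rw [inv_mul_le_iff₀ (by exact_mod_cast hK)]
        exact this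
      · rwa [inv_mul_le_iff₀ (by exact_mod_cast hK)] at hx)

@[simp] theorem conjTh_coe {k : ℕ} (V : Matrix κ ι ℂ) (hV : Vᴴ * V = 1) (x : Th k ι) :
    conjTh V hV x = ((show Th k κ from ⟨(V * x.1.1 * Vᴴ, V *ᵥ x.1.2), isPr_conj x.2.1 hV, by
      show (V * x.1.1 * Vᴴ) *ᵥ (V *ᵥ x.1.2) = V *ᵥ x.1.2
      rw [Matrix.mulVec_mulVec, Matrix.mul_assoc, hV, Matrix.mul_one, ← Matrix.mulVec_mulVec,
        x.2.2]⟩ : Th k κ) : OnePoint (Th k κ)) := rfl

end conj

/-! ## fibre inclusions -/

section fibres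

variable {α β γ ι κ : Type*} [Fintype α] [Fintype β] [Fintype γ] [Fintype ι] [DecidableEq ι]
  [Fintype κ] [DecidableEq κ]

/-- `ℂ^α × ℂ^β = ℂ^(α ⊕ β)` -/
def sumH (α β : Type*) : (α → ℂ) × (β → ℂ) ≃ₜ (α ⊕ β → ℂ) where
  toEquiv := (Equiv.sumArrowEquivProdArrow α β ℂ).symm
  continuous_toFun := continuous_pi fun i => by
    rcases i with i | i
    · exact (continuous_apply i).comp continuous_fst
    · exact (continuous_apply i).comp continuous_snd
  continuous_invFun := (continuous_pi fun i => continuous_apply (Sum.inl i)).prodMk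
    (continuous_pi fun i => continuous_apply (Sum.inr i))

theorem sumH_apply (v : α → ℂ) (w : β → ℂ) : sumH α β (v, w) = Sum.elim v w := rfl

/-- the sum of two linear maps -/
def sumLin (S : (α → ℂ) →ₗ[ℂ] (ι → ℂ)) (T : (β → ℂ) →ₗ[ℂ] (κ → ℂ)) :
    (α ⊕ β → ℂ) →ₗ[ℂ] (ι ⊕ κ → ℂ) where
  toFun v := Sum.elim (S fun a => v (Sum.inl a)) (T fun b => v (Sum.inr b))
  map_add' v w := by
    have h1 : (fun a => (v + w) (Sum.inl a)) = (fun a => v (Sum.inl a)) + fun a => w (Sum.inl a) :=
      rfl
    have h2 : (fun a => (v + w) (Sum.inr a)) = (fun a => v (Sum.inr a)) + fun a => w (Sum.inr a) :=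
      rfl
    rw [h1, h2, map_add, map_add]
    funext i; rcases i with i | i <;> rfl
  map_smul' c v := by
    have h1 : (fun a => (c • v) (Sum.inl a)) = c • (fun a => v (Sum.inl a)) := rfl
    have h2 : (fun a => (c • v) (Sum.inr a)) = c • (fun a => v (Sum.inr a)) := rfl
    rw [h1, h2, _root_.map_smul, _root_.map_smul]
    funext i; rcases i with i | i <;> rfl

theorem sumLin_elim (S : (α → ℂ) →ₗ[ℂ] (ι → ℂ)) (T : (β → ℂ) →ₗ[ℂ] (κ → ℂ)) (v : α → ℂ)
    (w : β → ℂ) : sumLin S T (Sum.elim v w) = Sum.elim (S v) (T w) := rfl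

theorem sumLin_injective {S : (α → ℂ) →ₗ[ℂ] (ι → ℂ)} {T : (β → ℂ) →ₗ[ℂ] (κ → ℂ)}
    (hS : Function.Injective S) (hT : Function.Injective T) : Function.Injective (sumLin S T) := by
  intro v w h
  have h1 : S (fun a => v (Sum.inl a)) = S (fun a => w (Sum.inl a)) :=
    funext fun i => congrFun h (Sum.inl i)
  have h2 : T (fun a => v (Sum.inr a)) = T (fun a => w (Sum.inr a)) :=
    funext fun i => congrFun h (Sum.inr i)
  funext i
  rcases i with i | i
  · exact congrFun (hS h1) i
  · exact congrFun (hT h2) i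

theorem sumLin_mulVec {S : (α → ℂ) →ₗ[ℂ] (ι → ℂ)} {T : (β → ℂ) →ₗ[ℂ] (κ → ℂ)}
    {P : Matrix ι ι ℂ} {Q : Matrix κ κ ℂ} (hS : ∀ v, P *ᵥ S v = S v) (hT : ∀ v, Q *ᵥ T v = T v)
    (v : α ⊕ β → ℂ) : fromBlocks P 0 0 Q *ᵥ sumLin S T v = sumLin S T v := by
  change fromBlocks P 0 0 Q *ᵥ Sum.elim _ _ = Sum.elim _ _
  rw [fromBlocks_diag_mulVec, hS, hT]

theorem mu_smash_cst {r s : ℕ} {P : Matrix ι ι ℂ} (hP : IsPr r P) {Q : Matrix κ κ ℂ}
    (hQ : IsPr s Q) (S : (α → ℂ) →ₗ[ℂ] (ι → ℂ)) (hS : Function.Injective S)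
    (hPS : ∀ v, P *ᵥ S v = S v) (T : (β → ℂ) →ₗ[ℂ] (κ → ℂ)) (hT : Function.Injective T)
    (hQT : ∀ v, Q *ᵥ T v = T v) :
    mu.comp ((cst hP S hS hPS).smash (cst hQ T hT hQT)) =
      (cst (isPr_fromBlocks hP hQ) (sumLin S T) (sumLin_injective hS hT)
        (sumLin_mulVec hPS hQT)).comp (PMap.ofHomeo (sumH α β)) :=
  PMap.ext fun _ => rfl

end fibres

/-! ## coordinate fibres -/

section coord

variable {γ δ ι κ : Type*} [Fintype γ] [Fintype δ] [Fintype ι] [DecidableEq ι]
  [Fintype κ] [DecidableEq κ]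

open Classical in
/-- the coordinate projection onto the range of an injection -/
noncomputable def pJ (s : γ → κ) : Matrix κ κ ℂ :=
  Matrix.diagonal fun k => if k ∈ range s then 1 else 0

theorem isPr_pJ {s : γ → κ} (hs : Function.Injective s) : IsPr (Fintype.card γ) (pJ s) := by
  classical
  refine ⟨?_, ?_, ?_⟩
  · rw [pJ, Matrix.diagonal_conjTranspose]
    congr 1
    funext k
    by_cases h : k ∈ range s
    · simp only [Pi.star_apply, if_pos h, star_one]
    · simp only [Pi.star_apply, if_neg h, star_zero]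
  · rw [pJ, Matrix.diagonal_mul_diagonal]
    congr 1
    funext k
    by_cases h : k ∈ range s
    · simp only [if_pos h, mul_one]
    · simp only [if_neg h, mul_zero]
  · rw [pJ, Matrix.trace_diagonal, Finset.sum_ite, Finset.sum_const_zero, add_zero,
      Finset.sum_const, nsmul_eq_mul, mul_one]
    norm_cast
    have : (Finset.univ.filter fun k => k ∈ range s) = Finset.univ.image s := by
      ext k; simp
    rw [this, Finset.card_image_of_injective _ hs, Finset.card_univ]

/-- extension by zero -/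
noncomputable def extLin (s : γ → κ) (hs : Function.Injective s) : (γ → ℂ) →ₗ[ℂ] (κ → ℂ) where
  toFun v := Function.extend s v 0
  map_add' v w := by
    funext k
    by_cases h : ∃ a, s a = k
    · obtain ⟨a, rfl⟩ := h
      simp [hs.extend_apply]
    · simp [Function.extend_apply' _ _ _ h]
  map_smul' c v := by
    funext k
    by_cases h : ∃ a, s a = k
    · obtain ⟨a, rfl⟩ := h
      simp [hs.extend_apply]
    · simp [Function.extend_apply' _ _ _ h]

theorem extLin_apply (s : γ → κ) (hs : Function.Injective s) (v : γ → ℂ) :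
    extLin s hs v = Function.extend s v 0 := rfl

theorem extLin_injective (s : γ → κ) (hs : Function.Injective s) :
    Function.Injective (extLin s hs) := by
  intro v w h
  funext a
  have := congrFun h (s a)
  rwa [extLin_apply, extLin_apply, hs.extend_apply, hs.extend_apply] at this

theorem pJ_mulVec_extLin (s : γ → κ) (hs : Function.Injective s) (v : γ → ℂ) :
    pJ s *ᵥ extLin s hs v = extLin s hs v := by
  classical
  funext k
  rw [pJ, Matrix.mulVec_diagonal, extLin_apply]
  by_cases h : k ∈ range s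
  · simp [h]
  · rw [if_neg h, Function.extend_apply' _ _ _ h]; simp

/-- the inclusion of the coordinate fibre: `v ↦ (coordinate plane, v extended by zero)` -/
noncomputable def fibJ (s : γ → κ) (hs : Function.Injective s) :
    PMap (γ → ℂ) (Th (Fintype.card γ) κ) :=
  cst (isPr_pJ hs) (extLin s hs) (extLin_injective s hs) (pJ_mulVec_extLin s hs)

theorem fibJ_coe (s : γ → κ) (hs : Function.Injective s) (v : γ → ℂ) :
    fibJ s hs v = ((show Th (Fintype.card γ) κ from ⟨(pJ s, Function.extend s v 0), isPr_pJ hs,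
      pJ_mulVec_extLin s hs v⟩ : Th (Fintype.card γ) κ) : OnePoint (Th (Fintype.card γ) κ)) := rfl

theorem pJ_sum (s : γ → ι) (t : δ → κ) :
    fromBlocks (pJ s) 0 0 (pJ t) = pJ (Sum.map s t) := by
  classical
  rw [pJ, pJ, pJ, Matrix.fromBlocks_diagonal]
  congr 1
  funext k
  rcases k with k | k
  · simp
  · simp

theorem extend_sum {s : γ → ι} {t : δ → κ} (hs : Function.Injective s) (ht : Function.Injective t)
    (v : γ → ℂ) (w : δ → ℂ) :
    Sum.elim (Function.extend s v 0) (Function.extend t w 0) =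
      Function.extend (Sum.map s t) (Sum.elim v w) 0 := by
  have hst : Function.Injective (Sum.map s t) := hs.sumMap ht
  funext k
  rcases k with k | k
  · by_cases h : ∃ a, s a = k
    · obtain ⟨a, rfl⟩ := h
      have h1 := hst.extend_apply (Sum.elim v w) (0 : ι ⊕ κ → ℂ) (Sum.inl a)
      rw [Sum.map_inl] at h1
      rw [h1, Sum.elim_inl, hs.extend_apply, Sum.elim_inl]
    · rw [Sum.elim_inl, Function.extend_apply' _ _ _ h, Function.extend_apply']
      · rfl
      · rintro ⟨a | a, ha⟩
        · exact h ⟨a, Sum.inl_injective ha⟩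
        · exact Sum.inr_ne_inl ha
  · by_cases h : ∃ a, t a = k
    · obtain ⟨a, rfl⟩ := h
      have h1 := hst.extend_apply (Sum.elim v w) (0 : ι ⊕ κ → ℂ) (Sum.inr a)
      rw [Sum.map_inr] at h1
      rw [h1, Sum.elim_inr, ht.extend_apply, Sum.elim_inr]
    · rw [Sum.elim_inr, Function.extend_apply' _ _ _ h, Function.extend_apply']
      · rfl
      · rintro ⟨a | a, ha⟩
        · exact Sum.inl_ne_inr ha
        · exact h ⟨a, Sum.inr_injective ha⟩

/-- the rank is only a label -/
def castTh {k k' : ℕ} (h : k = k') : Th k ι ≃ₜ Th k' ι := h ▸ Homeomorph.refl _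

theorem castTh_val {k k' : ℕ} (h : k = k') (x : Th k ι) : (castTh h x).1 = x.1 := by
  subst h; rfl

/-- the coordinate fibre over `Fin j`, with the rank written as `j` -/
noncomputable def fibN {j : ℕ} (s : Fin j → κ) (hs : Function.Injective s) :
    PMap (Fin j → ℂ) (Th j κ) :=
  (PMap.ofHomeo (castTh (Fintype.card_fin j))).comp (fibJ s hs)

/-- the product of two coordinate fibres is a coordinate fibre -/
theorem mu_smash_fibJ {s : γ → ι} {t : δ → κ} (hs : Function.Injective s)
    (ht : Function.Injective t) :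
    (PMap.ofHomeo (castTh (Fintype.card_sum (α := γ) (β := δ)).symm)).comp
      (mu.comp ((fibJ s hs).smash (fibJ t ht))) =
      (fibJ (Sum.map s t) (hs.sumMap ht)).comp (PMap.ofHomeo (sumH γ δ)) := by
  refine PMap.ext fun x => ?_
  obtain ⟨v, w⟩ := x
  refine congrArg (fun y : Th (Fintype.card (γ ⊕ δ)) (ι ⊕ κ) =>
    (y : OnePoint (Th (Fintype.card (γ ⊕ δ)) (ι ⊕ κ)))) (Subtype.ext ?_)
  rw [castTh_val]
  refine Prod.ext ?_ ?_
  · exact pJ_sum s t
  · exact extend_sum hs ht v w

theorem pJ_comp_equiv (s : γ → κ) (e : δ ≃ γ) : pJ (s ∘ e) = pJ s := by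
  classical
  rw [pJ, pJ]
  congr 1
  funext k
  have h : (k ∈ range (s ∘ e)) ↔ k ∈ range s := by rw [e.surjective.range_comp]
  by_cases h1 : k ∈ range s
  · rw [if_pos h1, if_pos (h.2 h1)]
  · rw [if_neg h1, if_neg fun h2 => h1 (h.1 h2)]

theorem extend_comp_equiv {s : γ → κ} (hs : Function.Injective s) (e : δ ≃ γ) (w : δ → ℂ) :
    Function.extend (s ∘ e) w 0 = Function.extend s (w ∘ e.symm) 0 := by
  have hs' : Function.Injective (s ∘ e) := hs.comp e.injective
  funext k
  by_cases h : ∃ a, s a = k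
  · obtain ⟨a, rfl⟩ := h
    have h1 := hs'.extend_apply w (0 : κ → ℂ) (e.symm a)
    rw [Function.comp_apply, Equiv.apply_symm_apply] at h1
    rw [h1, hs.extend_apply, Function.comp_apply]
  · rw [Function.extend_apply' _ _ _ h, Function.extend_apply']
    rintro ⟨a, ha⟩
    exact h ⟨e a, ha⟩

/-- reindexing the parameters of a coordinate fibre -/
def funH (e : γ ≃ δ) : (γ → ℂ) ≃ₜ (δ → ℂ) where
  toFun v := v ∘ e.symm
  invFun v := v ∘ e
  left_inv v := by funext i; simp
  right_inv v := by funext i; simp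
  continuous_toFun := continuous_pi fun i => continuous_apply (e.symm i)
  continuous_invFun := continuous_pi fun i => continuous_apply (e i)

end coord

/-! ## the top cell input -/

/-- the top cell of (a space mapping to) the projective space of `ℂ^α ⊕ ℂ` splits off, up to
the fibre of a Thom space -/
def TopCellIn (α : Type) [Fintype α] [DecidableEq α] : Prop :=
  ∃ (B : Type) (_ : TopologicalSpace B) (_ : CompactSpace B) (_ : T2Space B)
    (L : B → Matrix (Option α) (Option α) ℂ) (hL : Continuous L) (hP : ∀ b, IsPr 1 (L b))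
    (κ : Type) (_ : Fintype κ) (_ : DecidableEq κ) (j : ℕ) (s : Fin j → κ)
    (hs : Function.Injective s) (τ : PMap ((α → ℂ) × (Fin j → ℂ)) (B × Th j κ)),
    (((pinch L hL hP).smash (PMap.id (Th j κ))).comp τ).Homotopic
      ((PMap.id (α → ℂ)).smash (fibN s hs))

/-! ## the glue -/

section glue

variable {α : Type} [Fintype α] [DecidableEq α]
variable {Z Y : Type*} [TopologicalSpace Z] [T2Space Z] [LocallyCompactSpace Z]
  [TopologicalSpace Y] [T2Space Y] [LocallyCompactSpace Y]

theorem comp_congr_right {U V W : Type*} [TopologicalSpace U] [TopologicalSpace V]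
    [TopologicalSpace W] {f : PMap V W} (e : U ≃ₜ V) (h : (f.comp (PMap.ofHomeo e)).Null) :
    f.Null := by
  have h1 := h.comp_right (PMap.ofHomeo e.symm)
  rw [PMap.comp_assoc, PMap.ofHomeo_comp_symm, PMap.comp_id] at h1
  exact h1

/-- if `g` dies on every pinch then `g ∧ (a fibre inclusion)` is null -/
theorem null_smash_fibN (g : PMap (Z × (α → ℂ)) Y)
    (hA : ∀ (B : Type) [TopologicalSpace B] [CompactSpace B] [T2Space B]
      (L : B → Matrix (Option α) (Option α) ℂ) (hL : Continuous L) (hP : ∀ b, IsPr 1 (L b)),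
      (g.comp ((PMap.id Z).smash (pinch L hL hP))).Null)
    (hT : TopCellIn α) :
    ∃ (κ : Type) (_ : Fintype κ) (_ : DecidableEq κ) (j : ℕ) (s : Fin j → κ)
      (hs : Function.Injective s), (g.smash (fibN s hs)).Null := by
  obtain ⟨B, _, _, _, L, hL, hP, κ, _, _, j, s, hs, τ, hτ⟩ := hT
  refine ⟨κ, inferInstance, inferInstance, j, s, hs, ?_⟩
  have h1 := hA B L hL hP
  -- the composite
  let a1 : Z × ((α → ℂ) × Th j κ) ≃ₜ (Z × (α → ℂ)) × Th j κ := (Homeomorph.prodAssoc _ _ _).symm
  let a2 : Z × (B × Th j κ) ≃ₜ (Z × B) × Th j κ := (Homeomorph.prodAssoc _ _ _).symm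
  have e1 : ((g.smash (PMap.id (Th j κ))).comp (PMap.ofHomeo a1)).comp
      ((PMap.id Z).smash ((pinch L hL hP).smash (PMap.id (Th j κ)))) =
      ((g.comp ((PMap.id Z).smash (pinch L hL hP))).smash (PMap.id (Th j κ))).comp
        (PMap.ofHomeo a2) := by
    refine PMap.ext fun x => ?_
    obtain ⟨z, b, t⟩ := x
    have e2 : (PMap.ofHomeo a1) (sm (z : OnePoint Z) (sm (pinch L hL hP b)
        ((t : Th j κ) : OnePoint (Th j κ)))) =
        sm (sm (z : OnePoint Z) (pinch L hL hP b)) (t : OnePoint (Th j κ)) := by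
      generalize pinch L hL hP b = y
      induction y using OnePoint.rec with
      | infty => rfl
      | coe y => rfl
    change (g.smash (PMap.id (Th j κ))) ((PMap.ofHomeo a1) (sm (z : OnePoint Z)
      (sm (pinch L hL hP b) ((t : Th j κ) : OnePoint (Th j κ))))) = _
    rw [e2, PMap.smash_sm]
    rfl
  have h2 : (((g.smash (PMap.id (Th j κ))).comp (PMap.ofHomeo a1)).comp
      ((PMap.id Z).smash ((pinch L hL hP).smash (PMap.id (Th j κ))))).Null := by
    rw [e1]
    exact (h1.smash_left _).comp_right _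
  have h3 := h2.comp_right ((PMap.id Z).smash τ)
  rw [PMap.comp_assoc, PMap.smash_comp] at h3
  have h4 : ((PMap.id Z).comp (PMap.id Z)).smash
      (((pinch L hL hP).smash (PMap.id (Th j κ))).comp τ) |>.Homotopic
      ((PMap.id Z).smash ((PMap.id (α → ℂ)).smash (fibN s hs))) :=
    (PMap.Homotopic.refl _).smash hτ
  have h5 := ((h4.comp_left ((g.smash (PMap.id (Th j κ))).comp (PMap.ofHomeo a1))).symm).trans h3
  let a3 : Z × ((α → ℂ) × (Fin j → ℂ)) ≃ₜ (Z × (α → ℂ)) × (Fin j → ℂ) :=
    (Homeomorph.prodAssoc _ _ _).symm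
  have e3 : ((g.smash (PMap.id (Th j κ))).comp (PMap.ofHomeo a1)).comp
      ((PMap.id Z).smash ((PMap.id (α → ℂ)).smash (fibN s hs))) =
      (g.smash (fibN s hs)).comp (PMap.ofHomeo a3) := by
    refine PMap.ext fun x => ?_
    obtain ⟨z, w⟩ := x
    rfl
  rw [e3] at h5
  exact comp_congr_right _ h5

end glue

/-! ## the assembly -/

section final

variable {α0 : Type} [Fintype α0]

/-- the output of the block (I0) -/
def I0At {Z : Type} [TopologicalSpace Z] [T2Space Z] [LocallyCompactSpace Z]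
    (kap : PMap Z (α0 → ℂ)) : Prop :=
  ∃ (m : ℕ) (κ : Type) (_ : Fintype κ) (_ : DecidableEq κ) (s : α0 ⊕ Fin m → κ)
    (hs : Function.Injective s),
    ((fibJ s hs).comp ((PMap.ofHomeo (sumH α0 (Fin m))).comp
      (kap.smash (PMap.id (Fin m → ℂ))))).Null

theorem i0At_of {Z : Type} [TopologicalSpace Z] [T2Space Z] [LocallyCompactSpace Z]
    {α ι ι' : Type} [Fintype α] [DecidableEq α] [Fintype ι] [DecidableEq ι] [Fintype ι']
    [DecidableEq ι'] {N r : ℕ} (kap : PMap Z (α0 → ℂ)) (e0 : PMap Z (Th N ι))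
    (E : PMap (Th N ι × (α → ℂ)) (Th r ι')) (s0 : α0 → ι) (hs0 : Function.Injective s0)
    (hN : Fintype.card α0 = N) (s1 : α0 ⊕ α → ι') (hs1 : Function.Injective s1)
    (hr : Fintype.card (α0 ⊕ α) = r)
    (hstart : e0.Homotopic ((PMap.ofHomeo (castTh hN)).comp ((fibJ s0 hs0).comp kap)))
    (hE : E.comp (((PMap.ofHomeo (castTh hN)).comp (fibJ s0 hs0)).smash (PMap.id (α → ℂ))) =
      (PMap.ofHomeo (castTh hr)).comp ((fibJ s1 hs1).comp (PMap.ofHomeo (sumH α0 α))))
    (hA : ∀ (B : Type) [TopologicalSpace B] [CompactSpace B] [T2Space B]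
      (L : B → Matrix (Option α) (Option α) ℂ) (hL : Continuous L) (hP : ∀ b, IsPr 1 (L b)),
      ((E.comp (e0.smash (PMap.id (α → ℂ)))).comp
        ((PMap.id Z).smash (pinch L hL hP))).Null)
    (hT : TopCellIn α) : I0At kap := by
  obtain ⟨κ, _, _, j, s, hs, h⟩ := null_smash_fibN _ hA hT
  have h1 : (E.comp (e0.smash (PMap.id (α → ℂ)))).Homotopic
      (((PMap.ofHomeo (castTh hr)).comp ((fibJ s1 hs1).comp (PMap.ofHomeo (sumH α0 α)))).comp
        (kap.smash (PMap.id (α → ℂ)))) := by
    rw [← hE, PMap.comp_assoc, PMap.smash_comp]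
    exact PMap.Homotopic.comp_left _ (hstart.smash (PMap.Homotopic.refl _))
  have h2 := ((h1.smash (PMap.Homotopic.refl (fibN s hs))).symm).trans h
  -- apply the product
  have h3 := h2.comp_left (mu (r := r) (s := j) (ι := ι') (κ := κ))
  have hcard : r + j = Fintype.card ((α0 ⊕ α) ⊕ Fin j) := by
    rw [Fintype.card_sum, hr, Fintype.card_fin]
  -- reindexing
  let e : α ⊕ Fin j ≃ Fin (Fintype.card (α ⊕ Fin j)) := Fintype.equivFin _
  let e' : α0 ⊕ Fin (Fintype.card (α ⊕ Fin j)) ≃ (α0 ⊕ α) ⊕ Fin j :=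
    ((Equiv.refl α0).sumCongr e.symm).trans (Equiv.sumAssoc _ _ _).symm
  have hs' : Function.Injective (Sum.map s1 s ∘ e') := (hs1.sumMap hs).comp e'.injective
  refine ⟨Fintype.card (α ⊕ Fin j), ι' ⊕ κ, inferInstance, inferInstance, Sum.map s1 s ∘ e', hs', ?_⟩
  have hcard' : r + j = Fintype.card (α0 ⊕ Fin (Fintype.card (α ⊕ Fin j))) := by
    rw [hcard]; exact Fintype.card_congr e'.symm
  let d : (Z × (α → ℂ)) × (Fin j → ℂ) ≃ₜ Z × (Fin (Fintype.card (α ⊕ Fin j)) → ℂ) :=
    (Homeomorph.prodAssoc _ _ _).trans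
      ((Homeomorph.refl Z).prodCongr ((sumH α (Fin j)).trans (funH e)))
  refine comp_congr_right d ?_
  have h4 := (h3.comp_left (PMap.ofHomeo (castTh (ι := ι' ⊕ κ) hcard')))
  have e5 : (PMap.ofHomeo (castTh (ι := ι' ⊕ κ) hcard')).comp
      (mu.comp ((((PMap.ofHomeo (castTh hr)).comp
        ((fibJ s1 hs1).comp (PMap.ofHomeo (sumH α0 α)))).comp
        (kap.smash (PMap.id (α → ℂ)))).smash (fibN s hs))) =
      ((fibJ (Sum.map s1 s ∘ e') hs').comp
        ((PMap.ofHomeo (sumH α0 (Fin (Fintype.card (α ⊕ Fin j))))).comp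
          (kap.smash (PMap.id (Fin (Fintype.card (α ⊕ Fin j)) → ℂ))))).comp (PMap.ofHomeo d) := by
    refine PMap.ext fun x => ?_
    obtain ⟨⟨z, a⟩, x⟩ := x
    change (PMap.ofHomeo (castTh (ι := ι' ⊕ κ) hcard')) (mu (sm ((PMap.ofHomeo (castTh hr))
      ((fibJ s1 hs1) ((PMap.ofHomeo (sumH α0 α)) (sm (kap z) (a : OnePoint (α → ℂ))))))
      (fibN s hs x))) = (fibJ (Sum.map s1 s ∘ e') hs')
      ((PMap.ofHomeo (sumH α0 (Fin (Fintype.card (α ⊕ Fin j)))))
        (sm (kap z) ((funH e (sumH α (Fin j) (a, x)) : Fin (Fintype.card (α ⊕ Fin j)) → ℂ) :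
          OnePoint (Fin (Fintype.card (α ⊕ Fin j)) → ℂ))))
    generalize kap z = y
    induction y using OnePoint.rec with
    | infty => rfl
    | coe v =>
      refine congrArg (fun y : Th (Fintype.card (α0 ⊕ Fin (Fintype.card (α ⊕ Fin j)))) (ι' ⊕ κ) =>
        (y : OnePoint (Th (Fintype.card (α0 ⊕ Fin (Fintype.card (α ⊕ Fin j)))) (ι' ⊕ κ))))
        (Subtype.ext ?_)
      rw [castTh_val]
      refine Prod.ext ?_ ?_
      · refine (congrArg₂ (fun A B => fromBlocks A 0 0 B)
          (congrArg Prod.fst (castTh_val hr _))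
          (congrArg Prod.fst (castTh_val (Fintype.card_fin j) _))).trans ?_
        refine Eq.trans ?_ (pJ_comp_equiv (Sum.map s1 s) e').symm
        exact pJ_sum s1 s
      · refine (congrArg₂ (fun A B => Sum.elim A B)
          (congrArg Prod.snd (castTh_val hr _))
          (congrArg Prod.snd (castTh_val (Fintype.card_fin j) _))).trans ?_
        refine (extend_sum hs1 hs (Sum.elim v a) x).trans ?_
        refine Eq.trans ?_ (extend_comp_equiv (hs1.sumMap hs) e' _).symm
        congr 1
        funext i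
        rcases i with (i | i) | i
        · rfl
        · change a i = Sum.elim a x (e.symm (e (Sum.inl i)))
          rw [Equiv.symm_apply_apply]; rfl
        · change x i = Sum.elim a x (e.symm (e (Sum.inr i)))
          rw [Equiv.symm_apply_apply]; rfl
  rw [e5] at h4
  refine h4.trans (.of_eq (PMap.ext fun x => ?_))
  simp

end final

end Crest.Agent.R090.I0Glue417
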