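import Crest.Agent.R090.I0End_417

/-!
# Row 90, I0 (owner helper417): START, the zero section of the complement of the slot bundle
is homotopic to the Bott coordinates in a constant plane
-/

set_option autoImplicit false
set_option linter.unusedSectionVars false

open Topology Filter Set Matrix

namespace Crest.Agent.R090.I0Start417

open OnePoint Crest.OpAlg Crest.Agent.R090.Sp962 Crest.Agent.R090.I0core275
  Crest.Agent.R090.I0Defs417 Crest.Agent.R090.Bott513 Crest.Agent.R090.Match513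
  Crest.Agent.R090.I0Glue417 Crest.Agent.R090.I0Final417 Crest.Agent.R090.T5
  Crest.Agent.R090.I0End417 Crest.Agent.R090.Pi568
open scoped unitInterval

/-- the index type -/
abbrev HH (p n : ℕ) : Type := (Fin 2 × Fin p) × Fin n

variable {p n : ℕ}

/-- block diagonal matrices -/
def bd (M : Fin n × Fin p → Matrix (Fin 2) (Fin 2) ℂ) : Matrix (HH p n) (HH p n) ℂ :=
  Matrix.blockDiagonal fun j : Fin n => Matrix.blockDiagonal fun i : Fin p => M (j, i)

theorem bd_apply (M : Fin n × Fin p → Matrix (Fin 2) (Fin 2) ℂ) (x y : HH p n) :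
    bd M x y = if x.2 = y.2 then (if x.1.2 = y.1.2 then M (x.2, x.1.2) x.1.1 y.1.1 else 0)
      else 0 := by
  rw [bd, Matrix.blockDiagonal_apply]
  split_ifs with h1 h2
  · rw [Matrix.blockDiagonal_apply, if_pos h2]
  · rw [Matrix.blockDiagonal_apply, if_neg h2]
  · rfl

theorem bd_mulVec (M : Fin n × Fin p → Matrix (Fin 2) (Fin 2) ℂ) (v : HH p n → ℂ) :
    bd M *ᵥ v = fun x => (M (x.2, x.1.2) *ᵥ fun c => v ((c, x.1.2), x.2)) x.1.1 := by
  funext x
  obtain ⟨⟨c, i⟩, j⟩ := x
  simp only [Matrix.mulVec, dotProduct, Fintype.sum_prod_type, bd_apply, ite_mul, zero_mul,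
    Finset.sum_ite_eq, Finset.mem_univ, if_true]

theorem isPr_bd {M : Fin n × Fin p → Matrix (Fin 2) (Fin 2) ℂ} (hM : ∀ q, IsPr 1 (M q)) :
    IsPr (Fintype.card (Fin n × Fin p)) (bd M) := by
  have h1 : ∀ j, IsPr p (Matrix.blockDiagonal fun i : Fin p => M (j, i)) := fun j => by
    have := isPr_blockDiagonal (o := Fin p) (k := 1) (P := fun i : Fin p => M (j, i))
      fun i => hM _
    rwa [Fintype.card_fin, mul_one] at this
  have := isPr_blockDiagonal (o := Fin n) (k := p) h1
  rw [Fintype.card_fin] at this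
  rw [Fintype.card_prod, Fintype.card_fin, Fintype.card_fin]
  exact this

/-- the line of the slot `q` -/
noncomputable def LL (W : TT p n) (q : Fin n × Fin p) : Matrix (Fin 2) (Fin 2) ℂ :=
  lineProj (W q.1 ⟨2 * q.2.val, two_mul_lt q.2⟩) (W q.1 ⟨2 * q.2.val + 1, two_mul_add_lt q.2⟩)

theorem isPr_LL (W : TT p n) (q : Fin n × Fin p) : IsPr 1 (LL W q) := isPr_lineProj _ _

theorem compl_eq (W : TT p n) : 1 - totalProj p n W = bd fun q => 1 - LL W q := by
  ext x y
  rw [bd_apply, Matrix.sub_apply, Matrix.one_apply, totalProj, Matrix.blockDiagonal_apply]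
  obtain ⟨⟨c, i⟩, j⟩ := x
  obtain ⟨⟨c', i'⟩, j'⟩ := y
  by_cases h1 : j = j'
  · subst h1
    by_cases h2 : i = i'
    · subst h2
      simp only [if_true, slotProj, Matrix.blockDiagonal_apply, Matrix.sub_apply,
        Matrix.one_apply, Prod.mk.injEq, and_true, LL]
    · simp [slotProj, Matrix.blockDiagonal_apply, h2]
  · simp [h1]

theorem isPr_one_compl {L : Matrix (Fin 2) (Fin 2) ℂ} (hL : IsPr 1 L) : IsPr 1 (1 - L) := by
  refine ⟨hL.compl_herm, hL.compl_idem, ?_⟩
  rw [Matrix.trace_sub, Matrix.trace_one, hL.tr, Fintype.card_fin]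
  norm_num

/-! ## the amplitude homotopy -/

section amp

variable {Z : Type} [TopologicalSpace Z] (w : C(Z, TT p n))

theorem continuous_LL (q : Fin n × Fin p) : Continuous fun z => LL (w z) q := by
  have h1 : Continuous fun z => totalProj p n (w z) :=
    (Nbhd264.continuous_totalProj p n).comp w.continuous
  refine continuous_matrix fun c c' => ?_
  have h2 : ∀ z, LL (w z) q c c' = totalProj p n (w z) ((c, q.2), q.1) ((c', q.2), q.1) := by
    intro z
    simp [totalProj, slotProj, Matrix.blockDiagonal_apply, LL]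
  simp only [h2]
  exact h1.matrix_elem _ _

theorem LL_diag (W : TT p n) (q : Fin n × Fin p) : (((LL W q 0 0).re : ℝ) : ℂ) = LL W q 0 0 := by
  rw [← (isPr_LL W q).sum_sq 0, Complex.ofReal_re]

noncomputable def ampS : AmpData Z (Fin n × Fin p) (Fintype.card (Fin n × Fin p)) (HH p n) where
  Pi z := 1 - totalProj p n (w z)
  hPi := continuous_compl w
  isPr z := isPr_compl p n (w z)
  blk x := (x.2, x.1.2)
  s z x := (1 - LL (w z) (x.2, x.1.2)) x.1.1 0
  hs := continuous_pi fun x =>
    (continuous_const.sub (continuous_LL w (x.2, x.1.2))).matrix_elem x.1.1 0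
  c q z := (LL (w z) q 0 0).re
  hc q := Complex.continuous_re.comp ((continuous_LL w q).matrix_elem 0 0)
  c_nonneg q z := by
    rw [← (isPr_LL (w z) q).sum_sq 0, Complex.ofReal_re]
    exact Finset.sum_nonneg fun _ _ => by positivity
  inv z μ := by
    rw [compl_eq, bd_mulVec]
    funext x
    have h1 := congrFun (congrFun (isPr_LL (w z) (x.2, x.1.2)).compl_idem x.1.1) 0
    rw [Matrix.mul_apply] at h1
    rw [← h1, Matrix.mulVec, dotProduct, Finset.mul_sum]
    refine Finset.sum_congr rfl fun c _ => ?_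
    ring
  nz z q h := by
    refine ⟨((0, q.2), q.1), rfl, ?_⟩
    have h1 : LL (w z) q 0 0 = 0 := by rw [← LL_diag, h, Complex.ofReal_zero]
    change (1 - LL (w z) q) 0 0 ≠ 0
    rw [Matrix.sub_apply, h1, Matrix.one_apply_eq, sub_zero]
    exact one_ne_zero

end amp

/-! ## the standard family -/

/-- complement of the line of slope `t a` -/
noncomputable def cpl (t : ℝ) (a : ℂ) : Matrix (Fin 2) (Fin 2) ℂ :=
  ((1 + t ^ 2 * ‖a‖ ^ 2 : ℝ) : ℂ)⁻¹ •
    !![((t ^ 2 * ‖a‖ ^ 2 : ℝ) : ℂ), -((t : ℂ) * star a); -((t : ℂ) * a), 1]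

/-- the vector -/
noncomputable def vc (t : ℝ) (a : ℂ) : Fin 2 → ℂ := ![((t * ‖a‖ ^ 2 : ℝ) : ℂ), -a]

theorem den_pos (t : ℝ) (a : ℂ) : (0 : ℝ) < 1 + t ^ 2 * ‖a‖ ^ 2 := by positivity

theorem mul_star_eq (a : ℂ) : a * star a = ((‖a‖ ^ 2 : ℝ) : ℂ) := by
  rw [Complex.star_def, Complex.mul_conj, Complex.normSq_eq_norm_sq]

theorem exists_k (t : ℝ) (a : ℂ) : ∃ k : ℂ, ((1 + t ^ 2 * ‖a‖ ^ 2 : ℝ) : ℂ)⁻¹ = k ∧
    star k = k ∧ k * (1 + (t : ℂ) ^ 2 * (a * star a)) = 1 := by
  have h0 : ((1 + t ^ 2 * ‖a‖ ^ 2 : ℝ) : ℂ) ≠ 0 := by exact_mod_cast (den_pos t a).ne'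
  refine ⟨_, rfl, ?_, ?_⟩
  · rw [star_inv₀, Complex.star_def, Complex.conj_ofReal]
  · have hd : 1 + (t : ℂ) ^ 2 * (a * star a) = ((1 + t ^ 2 * ‖a‖ ^ 2 : ℝ) : ℂ) := by
      rw [mul_star_eq]; push_cast; ring
    rw [hd, inv_mul_cancel₀ h0]

theorem isPr_cpl (t : ℝ) (a : ℂ) : IsPr 1 (cpl t a) := by
  obtain ⟨k, hk, hs, hk1⟩ := exists_k t a
  have hd2 : ((t ^ 2 * ‖a‖ ^ 2 : ℝ) : ℂ) = (t : ℂ) ^ 2 * (a * star a) := by
    rw [mul_star_eq]; push_cast; ring
  refine ⟨?_, ?_, ?_⟩
  · rw [cpl, hk, conjTranspose_smul, hs]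
    congr 1
    ext i j
    fin_cases i <;> fin_cases j <;> simp [Matrix.conjTranspose_apply]
  · rw [cpl, hk, Matrix.smul_mul, Matrix.mul_smul, smul_smul, hd2]
    ext i j
    fin_cases i <;> fin_cases j <;>
      simp only [Matrix.smul_apply, Matrix.mul_apply, Fin.sum_univ_two, Fin.zero_eta, Fin.mk_one,
        Matrix.of_apply, Matrix.cons_val', Matrix.cons_val_zero, Matrix.cons_val_one,
        Matrix.cons_val_fin_one, smul_eq_mul]
    · linear_combination (k * (t : ℂ) ^ 2 * (a * star a)) * hk1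
    · linear_combination (-(k * (t : ℂ) * star a)) * hk1
    · linear_combination (-(k * (t : ℂ) * a)) * hk1
    · linear_combination k * hk1
  · rw [cpl, hk, trace_smul, Matrix.trace_fin_two, hd2]
    simp only [Matrix.of_apply, Matrix.cons_val', Matrix.cons_val_zero, Matrix.cons_val_one,
        Matrix.cons_val_fin_one, smul_eq_mul]
    push_cast
    linear_combination hk1

theorem cpl_vc (t : ℝ) (a : ℂ) : cpl t a *ᵥ vc t a = vc t a := by
  obtain ⟨k, hk, hs, hk1⟩ := exists_k t a
  have hd2 : ((t ^ 2 * ‖a‖ ^ 2 : ℝ) : ℂ) = (t : ℂ) ^ 2 * (a * star a) := by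
    rw [mul_star_eq]; push_cast; ring
  have hd3 : ((t * ‖a‖ ^ 2 : ℝ) : ℂ) = (t : ℂ) * (a * star a) := by
    rw [mul_star_eq]; push_cast; ring
  rw [cpl, hk, vc, hd2, hd3, Matrix.smul_mulVec]
  funext i
  fin_cases i <;>
    simp only [Matrix.mulVec, dotProduct, Fin.sum_univ_two, Fin.zero_eta, Fin.mk_one,
      Matrix.of_apply, Matrix.cons_val', Matrix.cons_val_zero, Matrix.cons_val_one,
      Matrix.cons_val_fin_one, Pi.smul_apply, smul_eq_mul]
  · linear_combination ((t : ℂ) * (a * star a)) * hk1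
  · linear_combination (-a) * hk1

theorem cpl_one {L : Matrix (Fin 2) (Fin 2) ℂ} (hL : IsPr 1 L) (h0 : L 0 0 ≠ 0) :
    cpl 1 (L 1 0 / L 0 0) = 1 - L ∧
      ∀ c, vc 1 (L 1 0 / L 0 0) c = (L 0 0)⁻¹ * (1 - L) c 0 := by
  have htr : L 0 0 + L 1 1 = 1 := by
    have := hL.tr
    rw [Matrix.trace_fin_two] at this
    simpa using this
  have h01 : star (L 1 0) = L 0 1 := star_entry hL 1 0
  have h00 : star (L 0 0) = L 0 0 := star_entry hL 0 0
  have hid : L 0 0 * L 0 0 + L 0 1 * L 1 0 = L 0 0 := by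
    have := congrFun (congrFun hL.idem 0) 0
    rw [Matrix.mul_apply, Fin.sum_univ_two] at this
    exact this
  have ha : ((‖L 1 0 / L 0 0‖ ^ 2 : ℝ) : ℂ) = (L 0 0)⁻¹ - 1 := by
    rw [← mul_star_eq, star_div₀, h01, h00]
    field_simp
    linear_combination hid
  have h1 : ((1 + 1 ^ 2 * ‖L 1 0 / L 0 0‖ ^ 2 : ℝ) : ℂ) = (L 0 0)⁻¹ := by
    have : ((1 + 1 ^ 2 * ‖L 1 0 / L 0 0‖ ^ 2 : ℝ) : ℂ) =
      1 + ((‖L 1 0 / L 0 0‖ ^ 2 : ℝ) : ℂ) := by push_cast; ring
    rw [this, ha]; ring
  have h2 : ((1 ^ 2 * ‖L 1 0 / L 0 0‖ ^ 2 : ℝ) : ℂ) = (L 0 0)⁻¹ - 1 := by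
    rw [one_pow, one_mul]; exact ha
  have h3 : ((1 * ‖L 1 0 / L 0 0‖ ^ 2 : ℝ) : ℂ) = (L 0 0)⁻¹ - 1 := by
    rw [one_mul]; exact ha
  refine ⟨?_, ?_⟩
  · rw [cpl, h1, inv_inv, h2]
    ext i j
    fin_cases i <;> fin_cases j
    · simp only [Matrix.smul_apply, Fin.zero_eta, Matrix.of_apply, Matrix.cons_val',
        Matrix.cons_val_zero, Matrix.cons_val_fin_one, smul_eq_mul, Matrix.sub_apply,
        Matrix.one_apply_eq]
      field_simp
    · simp only [Matrix.smul_apply, Fin.zero_eta, Fin.mk_one, Matrix.of_apply, Matrix.cons_val',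
        Matrix.cons_val_zero, Matrix.cons_val_one, Matrix.cons_val_fin_one, smul_eq_mul,
        Matrix.sub_apply, star_div₀, h01, h00]
      rw [Matrix.one_apply_ne (by decide)]
      push_cast
      field_simp
      ring
    · simp only [Matrix.smul_apply, Fin.zero_eta, Fin.mk_one, Matrix.of_apply, Matrix.cons_val',
        Matrix.cons_val_zero, Matrix.cons_val_one, Matrix.cons_val_fin_one, smul_eq_mul,
        Matrix.sub_apply]
      rw [Matrix.one_apply_ne (by decide)]
      push_cast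
      field_simp
      ring
    · simp only [Matrix.smul_apply, Fin.mk_one, Matrix.of_apply, Matrix.cons_val',
        Matrix.cons_val_one, Matrix.cons_val_fin_one, smul_eq_mul,
        Matrix.sub_apply, Matrix.one_apply_eq]
      linear_combination htr
  · intro c
    rw [vc, h3]
    fin_cases c
    · simp only [Fin.zero_eta, Matrix.cons_val_zero, Matrix.sub_apply, Matrix.one_apply_eq]
      field_simp
    · simp only [Fin.mk_one, Matrix.cons_val_one, Matrix.cons_val_fin_one, Matrix.sub_apply]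
      rw [Matrix.one_apply_ne (by decide)]
      field_simp
      ring

/-! ## the maps `G_t` -/

section G

/-- the point of `G_t` -/
noncomputable def Gpt (t : ℝ) (a : Fin n × Fin p → ℂ) :
    Th (Fintype.card (Fin n × Fin p)) (HH p n) :=
  Th.of (bd fun q => cpl t (a q)) (fun x => vc t (a (x.2, x.1.2)) x.1.1)
    (isPr_bd fun q => isPr_cpl t (a q)) (by
      rw [bd_mulVec]
      funext x
      have h := congrFun (cpl_vc t (a (x.2, x.1.2))) x.1.1
      exact h)

theorem continuous_cpl {X : Type*} [TopologicalSpace X] {t : X → ℝ} {a : X → ℂ}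
    (ht : Continuous t) (ha : Continuous a) : Continuous fun x => cpl (t x) (a x) := by
  have h1 : Continuous fun x => (((1 + t x ^ 2 * ‖a x‖ ^ 2 : ℝ) : ℂ))⁻¹ := by
    refine Continuous.inv₀ (Complex.continuous_ofReal.comp
      (continuous_const.add ((ht.pow 2).mul (ha.norm.pow 2)))) fun x => ?_
    exact_mod_cast (den_pos (t x) (a x)).ne'
  refine continuous_matrix fun i j => ?_
  have h2 : Continuous fun x => (t x : ℂ) := Complex.continuous_ofReal.comp ht
  have h3 : Continuous fun x => ((t x ^ 2 * ‖a x‖ ^ 2 : ℝ) : ℂ) :=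
    Complex.continuous_ofReal.comp ((ht.pow 2).mul (ha.norm.pow 2))
  fin_cases i <;> fin_cases j
  · exact h1.mul h3
  · exact h1.mul (h2.mul (continuous_star.comp ha)).neg
  · exact h1.mul (h2.mul ha).neg
  · exact h1.mul continuous_const

theorem continuous_vc {X : Type*} [TopologicalSpace X] {t : X → ℝ} {a : X → ℂ}
    (ht : Continuous t) (ha : Continuous a) : Continuous fun x => vc (t x) (a x) := by
  refine continuous_pi fun i => ?_
  fin_cases i
  · exact Complex.continuous_ofReal.comp (ht.mul (ha.norm.pow 2))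
  · exact ha.neg

theorem continuous_Gpt {X : Type*} [TopologicalSpace X] {t : X → ℝ}
    {a : X → Fin n × Fin p → ℂ} (ht : Continuous t) (ha : Continuous a) :
    Continuous fun x => (Gpt (t x) (a x) : Th _ (HH p n)) := by
  refine continuous_th ?_ ?_
  · refine continuous_matrix fun x y => ?_
    change Continuous fun z => bd (fun q => cpl (t z) (a z q)) x y
    simp only [bd_apply]
    by_cases h1 : x.2 = y.2
    · by_cases h2 : x.1.2 = y.1.2
      · simp only [if_pos h1, if_pos h2]
        exact (continuous_cpl ht ((continuous_apply _).comp ha)).matrix_elem _ _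
      · simp only [if_neg h2, ite_self]
        exact continuous_const
    · simp only [if_neg h1]
      exact continuous_const
  · refine continuous_pi fun x => ?_
    exact (continuous_apply x.1.1).comp (continuous_vc ht ((continuous_apply _).comp ha))

theorem norm_Gpt (t : ℝ) (a : Fin n × Fin p → ℂ) : ‖a‖ ≤ ‖(Gpt t a : Th _ (HH p n)).1.2‖ := by
  rw [pi_norm_le_iff_of_nonneg (norm_nonneg _)]
  intro q
  have h1 : ‖vc t (a q) 1‖ ≤ ‖(Gpt t a : Th _ (HH p n)).1.2‖ :=
    norm_le_pi_norm (fun x : HH p n => vc t (a (x.2, x.1.2)) x.1.1) ((1, q.2), q.1)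
  have h2 : vc t (a q) 1 = -(a q) := rfl
  rwa [h2, norm_neg] at h1

theorem tendsto_norm_pi {ι : Type*} [Fintype ι] :
    Tendsto (fun a : ι → ℂ => ‖a‖) (coclosedCompact _) atTop := by
  refine tendsto_coclosedCompact_of continuous_norm fun R => ?_
  have : {a : ι → ℂ | ‖a‖ ≤ R} = Metric.closedBall 0 R := by ext a; simp
  rw [this]
  exact isCompact_closedBall _ _

theorem tendsto_norm_pi' {ι : Type*} [Fintype ι] :
    Tendsto (fun p : I × (ι → ℂ) => ‖p.2‖) (coclosedCompact _) atTop := by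
  refine tendsto_coclosedCompact_of (continuous_norm.comp continuous_snd) fun R => ?_
  have : {p : I × (ι → ℂ) | ‖p.2‖ ≤ R} = univ ×ˢ Metric.closedBall 0 R := by ext a; simp
  rw [this]
  exact isCompact_univ.prod (isCompact_closedBall _ _)

/-- the map `G_t` -/
noncomputable def Gmap (p n : ℕ) (t : ℝ) :
    PMap (Fin n × Fin p → ℂ) (Th (Fintype.card (Fin n × Fin p)) (HH p n)) :=
  I0core275.ofTh (fun a => Gpt t a) (continuous_Gpt continuous_const continuous_id)
    (tendsto_atTop_mono (fun a => norm_Gpt t a) tendsto_norm_pi)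

theorem Gmap_homotopic (p n : ℕ) : (Gmap p n 0).Homotopic (Gmap p n 1) :=
  homotopic_of_th (fun x : I × (Fin n × Fin p → ℂ) => Gpt (x.1 : ℝ) x.2)
    (continuous_Gpt (continuous_subtype_val.comp continuous_fst) continuous_snd)
    (tendsto_atTop_mono (fun x => norm_Gpt _ x.2) tendsto_norm_pi')
    (fun _ => rfl) (fun _ => rfl)

/-- the end of the scaling is a coordinate fibre -/
theorem Gmap_zero (p n : ℕ) : Gmap p n 0 = (fibJ (sq0 p n) (sq0_injective p n)).comp
    (PMap.ofHomeo (Homeomorph.neg (Fin n × Fin p → ℂ))) := by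
  classical
  refine PMap.ext fun a => ?_
  refine Th.of_congr (a' := isPr_pJ (sq0_injective p n))
    (b' := pJ_mulVec_extLin (sq0 p n) (sq0_injective p n) (-a)) ?_ ?_
  · ext x y
    rw [bd_apply, pJ, Matrix.diagonal_apply]
    obtain ⟨⟨c, i⟩, j⟩ := x
    obtain ⟨⟨c', i'⟩, j'⟩ := y
    have hc : ∀ q : Fin n × Fin p, cpl 0 (a q) = !![0, 0; 0, 1] := fun q => by
      ext i j
      fin_cases i <;> fin_cases j <;> simp [cpl]
    rw [hc]
    have hr : (((c, i), j) ∈ range (sq0 p n)) ↔ c = 1 := by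
      constructor
      · rintro ⟨q, hq⟩
        exact (congrArg (fun z : HH p n => z.1.1) hq).symm
      · rintro rfl
        exact ⟨(j, i), rfl⟩
    by_cases h1 : j = j'
    · subst h1
      by_cases h2 : i = i'
      · subst h2
        rw [if_pos rfl, if_pos rfl]
        by_cases h3 : c = c'
        · subst h3
          rw [if_pos rfl]
          fin_cases c
          · rw [if_neg (by rw [hr]; decide)]; rfl
          · rw [if_pos (by rw [hr]; rfl)]; rfl
        · rw [if_neg (by simp [h3])]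
          fin_cases c <;> fin_cases c' <;> first | rfl | exact absurd rfl h3
      · rw [if_pos rfl, if_neg h2, if_neg (by simp [h2])]
    · rw [if_neg h1, if_neg (by simp [h1])]
  · funext x
    obtain ⟨⟨c, i⟩, j⟩ := x
    change vc 0 (a (j, i)) c = Function.extend (sq0 p n) (-a) 0 ((c, i), j)
    by_cases hc : c = 1
    · subst hc
      have := (sq0_injective p n).extend_apply (-a) (0 : HH p n → ℂ) (j, i)
      exact this.symm
    · rw [Function.extend_apply']
      · have : c = 0 := by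
          fin_cases c
          · rfl
          · exact absurd rfl hc
        subst this
        simp [vc]
      · rintro ⟨q, hq⟩
        exact hc (congrArg (fun z : HH p n => z.1.1) hq).symm

end G

/-! ## START -/

section start

variable {Z : Type} [TopologicalSpace Z] [CompactSpace Z] [T2Space Z] (w : C(Z, TT p n))

theorem bottB_eq_coe {W : TT p n} (h : ∀ q, LL W q 0 0 ≠ 0) :
    bottB W = ((fun q => LL W q 1 0 / LL W q 0 0 : Fin n × Fin p → ℂ) :
      OnePoint (Fin n × Fin p → ℂ)) := by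
  refine smPi_eq_coe.2 fun q => ?_
  exact (stz_sphereVec _ _).trans (if_neg (h q))

theorem bottB_eq_inf {W : TT p n} (q : Fin n × Fin p) (h : LL W q 0 0 = 0) : bottB W = ∞ := by
  refine smPi_of_inf q ?_
  exact (stz_sphereVec _ _).trans (if_pos h)

theorem Gmap_one_bott : (Gmap p n 1).comp (ofC ((bottc p n).comp w)) =
    ofCompact (ampS w).fin (ampS w).continuous_fin := by
  refine PMap.ext fun z => ?_
  change (Gmap p n 1) (bottB (w z)) = (ampS w).fin z
  by_cases h : ∃ q, LL (w z) q 0 0 = 0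
  · obtain ⟨q, hq⟩ := h
    rw [bottB_eq_inf q hq, PMap.map_inf, AmpData.fin, if_pos]
    refine ⟨q, ?_⟩
    change (LL (w z) q 0 0).re = 0
    rw [hq, Complex.zero_re]
  · push Not at h
    rw [bottB_eq_coe h, AmpData.fin, if_neg]
    · refine Th.of_congr (a' := (ampS w).isPr z) (b' := ((ampS w).pt 1 z).2.2) ?_ ?_
      · change _ = 1 - totalProj p n (w z)
        rw [compl_eq]
        congr 1
        funext q
        exact (cpl_one (isPr_LL (w z) q) (h q)).1
      · funext x
        have h1 := (cpl_one (isPr_LL (w z) (x.2, x.1.2)) (h (x.2, x.1.2))).2 x.1.1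
        refine h1.trans ?_
        change _ = ((1 / den 1 (LL (w z) (x.2, x.1.2) 0 0).re : ℝ) : ℂ) *
          (1 - LL (w z) (x.2, x.1.2)) x.1.1 0
        have h2 : den 1 (LL (w z) (x.2, x.1.2) 0 0).re = (LL (w z) (x.2, x.1.2) 0 0).re := by
          simp [den]
        rw [h2, Complex.ofReal_div, LL_diag, Complex.ofReal_one, one_div]
    · rintro ⟨q, hq⟩
      apply h q
      rw [← LL_diag]
      have : (LL (w z) q 0 0).re = 0 := hq
      rw [this, Complex.ofReal_zero]

/-- **START** -/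
theorem start : StartStmt w := by
  have h1 : (zsec (fun z => 1 - totalProj p n (w z)) (continuous_compl w)
      (fun z => isPr_compl p n (w z))).Homotopic
      (ofCompact (ampS w).fin (ampS w).continuous_fin) :=
    (ampS w).homotopic (fun _ => rfl) (fun _ => rfl)
  rw [← Gmap_one_bott] at h1
  refine h1.trans (((Gmap_homotopic p n).symm.comp_right _).trans (.of_eq ?_))
  rw [Gmap_zero, PMap.comp_assoc]
  congr 1
  exact PMap.ext fun _ => rfl

end start

end Crest.Agent.R090.I0Start417
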