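import Crest.Agent.R090.I0a_275

/-!
# Row 90, I0-CORE part b (owner helper275): isomorphic bundles give homotopic projections
-/

set_option autoImplicit false
set_option linter.unusedSectionVars false

open Topology Filter Set Matrix

namespace Crest.Agent.R090.I0core275

open OnePoint Crest.Agent.R090.Sp962
open scoped unitInterval ComplexOrder

variable {ι κ : Type*} [Fintype ι] [DecidableEq ι] [Fintype κ] [DecidableEq κ]

/-- data of an isomorphism `X` from the image of `P` onto the image of `P'` -/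
structure IsIso (P : Matrix ι ι ℂ) (P' : Matrix κ κ ℂ) (X : Matrix κ ι ℂ) (Y : Matrix ι κ ℂ) :
    Prop where
  XP : X * P = X
  YX : Y * X = P
  P'X : P' * X = X
  XY : X * Y = P'

section path

variable (P : Matrix ι ι ℂ) (X : Matrix κ ι ℂ) (s : ℝ)

/-- the embedding of the path -/
noncomputable def emb : Matrix (ι ⊕ κ) ι ℂ :=
  fromRows (((1 - s : ℝ) : ℂ) • P) ((s : ℂ) • X)

/-- the Gram matrix of the path -/
noncomputable def gram : Matrix ι ι ℂ := (emb P X s)ᴴ * emb P X s + (1 - P)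

/-- the path of projections -/
noncomputable def pathP : Matrix (ι ⊕ κ) (ι ⊕ κ) ℂ := emb P X s * ((gram P X s)⁻¹ * (emb P X s)ᴴ)

end path

variable {P : Matrix ι ι ℂ} {P' : Matrix κ κ ℂ} {X : Matrix κ ι ℂ} {Y : Matrix ι κ ℂ} {k : ℕ}

theorem IsPr.compl_mul (hP : IsPr k P) : (1 - P) * P = 0 := by
  rw [Matrix.sub_mul, Matrix.one_mul, hP.idem, sub_self]

theorem IsPr.mul_compl (hP : IsPr k P) : P * (1 - P) = 0 := by
  rw [Matrix.mul_sub, Matrix.mul_one, hP.idem, sub_self]

theorem IsPr.compl_idem (hP : IsPr k P) : (1 - P) * (1 - P) = 1 - P := by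
  rw [Matrix.mul_sub, hP.compl_mul, Matrix.mul_one, sub_zero]

theorem IsPr.compl_herm (hP : IsPr k P) : (1 - P)ᴴ = 1 - P := by
  rw [conjTranspose_sub, conjTranspose_one, hP.herm]

theorem gram_herm (hP : IsPr k P) (s : ℝ) : (gram P X s)ᴴ = gram P X s := by
  rw [gram, conjTranspose_add, conjTranspose_mul, conjTranspose_conjTranspose, hP.compl_herm]

theorem emb_mul_compl (hP : IsPr k P) (hX : X * P = X) (s : ℝ) : emb P X s * (1 - P) = 0 := by
  rw [emb, fromRows_mul, Matrix.smul_mul, Matrix.smul_mul, hP.mul_compl, Matrix.mul_sub,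
    Matrix.mul_one, hX, sub_self, smul_zero, smul_zero]
  exact fromRows_zero

theorem gram_mul_compl (hP : IsPr k P) (hX : X * P = X) (s : ℝ) :
    gram P X s * (1 - P) = 1 - P := by
  rw [gram, Matrix.add_mul, Matrix.mul_assoc, emb_mul_compl hP hX, Matrix.mul_zero, zero_add,
    hP.compl_idem]

theorem compl_mul_gram (hP : IsPr k P) (hX : X * P = X) (s : ℝ) :
    (1 - P) * gram P X s = 1 - P := by
  have h := congrArg conjTranspose (gram_mul_compl hP hX s)
  rwa [conjTranspose_mul, gram_herm hP, hP.compl_herm] at h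

theorem isUnit_gram (hP : IsPr k P) (h : IsIso P P' X Y) (s : ℝ) : IsUnit (gram P X s) := by
  rw [← Matrix.mulVec_injective_iff_isUnit]
  have key : ∀ v : ι → ℂ, gram P X s *ᵥ v = 0 → v = 0 := by
    intro v hv
    have h1 : (1 - P) *ᵥ v = 0 := by
      rw [← compl_mul_gram hP h.XP s, ← Matrix.mulVec_mulVec, hv, Matrix.mulVec_zero]
    have h2 : ((emb P X s)ᴴ * emb P X s) *ᵥ v = 0 := by
      rw [gram, Matrix.add_mulVec, h1, add_zero] at hv
      exact hv
    rw [Matrix.conjTranspose_mul_self_mulVec_eq_zero] at h2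
    rw [emb, Matrix.fromRows_mulVec] at h2
    have h3 : (((1 - s : ℝ) : ℂ) • P) *ᵥ v = 0 := funext fun i => congrFun h2 (Sum.inl i)
    have h4 : ((s : ℂ) • X) *ᵥ v = 0 := funext fun i => congrFun h2 (Sum.inr i)
    have h5 : v = P *ᵥ v := by
      rw [Matrix.sub_mulVec, Matrix.one_mulVec, sub_eq_zero] at h1
      exact h1
    rw [Matrix.smul_mulVec, ← h5] at h3
    have h6 : (s : ℂ) • v = 0 := by
      have : Y *ᵥ (((s : ℂ) • X) *ᵥ v) = 0 := by rw [h4, Matrix.mulVec_zero]
      rw [Matrix.smul_mulVec, Matrix.mulVec_smul, Matrix.mulVec_mulVec, h.YX, ← h5] at this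
      exact this
    have h7 : v = ((1 - s : ℝ) : ℂ) • v + (s : ℂ) • v := by
      rw [← add_smul]; push_cast; simp
    rw [h7, h3, h6, add_zero]
  intro v w hvw
  have := key (v - w) (by rw [Matrix.mulVec_sub]; exact sub_eq_zero.2 hvw)
  exact sub_eq_zero.1 this

theorem gram_inv_mul (hP : IsPr k P) (h : IsIso P P' X Y) (s : ℝ) :
    (gram P X s)⁻¹ * gram P X s = 1 :=
  Matrix.nonsing_inv_mul _ ((Matrix.isUnit_iff_isUnit_det _).1 (isUnit_gram hP h s))

theorem gram_mul_inv (hP : IsPr k P) (h : IsIso P P' X Y) (s : ℝ) :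
    gram P X s * (gram P X s)⁻¹ = 1 :=
  Matrix.mul_nonsing_inv _ ((Matrix.isUnit_iff_isUnit_det _).1 (isUnit_gram hP h s))

theorem gram_inv_compl (hP : IsPr k P) (h : IsIso P P' X Y) (s : ℝ) :
    (gram P X s)⁻¹ * (1 - P) = 1 - P := by
  conv_lhs => rw [← gram_mul_compl hP h.XP s, ← Matrix.mul_assoc, gram_inv_mul hP h, Matrix.one_mul]

theorem gram_inv_herm (hP : IsPr k P) (s : ℝ) :
    ((gram P X s)⁻¹)ᴴ = (gram P X s)⁻¹ := by
  rw [conjTranspose_nonsing_inv, gram_herm hP]

/-- `G⁻¹ MᴴM = P` -/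
theorem gram_inv_emb (hP : IsPr k P) (h : IsIso P P' X Y) (s : ℝ) :
    (gram P X s)⁻¹ * ((emb P X s)ᴴ * emb P X s) = P := by
  have h1 : (emb P X s)ᴴ * emb P X s = gram P X s - (1 - P) := by rw [gram]; abel
  rw [h1, Matrix.mul_sub, gram_inv_mul hP h, gram_inv_compl hP h, sub_sub_cancel]

theorem emb_mul_P (hP : IsPr k P) (hX : X * P = X) (s : ℝ) : emb P X s * P = emb P X s := by
  have h := emb_mul_compl hP hX s
  rw [Matrix.mul_sub, Matrix.mul_one, sub_eq_zero] at h
  exact h.symm

theorem isPr_pathP (hP : IsPr k P) (h : IsIso P P' X Y) (s : ℝ) : IsPr k (pathP P X s) := by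
  refine ⟨?_, ?_, ?_⟩
  · rw [pathP, conjTranspose_mul, conjTranspose_mul, conjTranspose_conjTranspose,
      gram_inv_herm hP, Matrix.mul_assoc]
  · have : pathP P X s * pathP P X s =
        emb P X s * ((gram P X s)⁻¹ * ((emb P X s)ᴴ * emb P X s)) *
          ((gram P X s)⁻¹ * (emb P X s)ᴴ) := by
      simp only [pathP, Matrix.mul_assoc]
    rw [this, gram_inv_emb hP h, emb_mul_P hP h.XP, pathP]
  · rw [pathP, Matrix.trace_mul_comm, Matrix.mul_assoc, gram_inv_emb hP h, hP.tr]

theorem pathP_zero (hP : IsPr k P) : pathP P X 0 = fromBlocks P 0 0 0 := by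
  have h1 : emb P X 0 = fromRows P 0 := by simp [emb]
  have h2 : gram P X 0 = 1 := by
    rw [gram, h1, conjTranspose_fromRows_eq_fromCols_conjTranspose, fromCols_mul_fromRows,
      hP.herm, hP.idem]
    simp
  rw [pathP, h2, h1, inv_one, Matrix.one_mul, conjTranspose_fromRows_eq_fromCols_conjTranspose,
    fromRows_mul_fromCols, hP.herm, hP.idem]
  simp

theorem pathP_one (hP : IsPr k P) (hP' : P'ᴴ = P') (h : IsIso P P' X Y) :
    pathP P X 1 = fromBlocks 0 0 0 P' := by
  have h1 : emb P X 1 = fromRows 0 X := by simp [emb]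
  have h2 := gram_inv_emb hP h 1
  rw [h1, conjTranspose_fromRows_eq_fromCols_conjTranspose, fromCols_mul_fromRows,
    Matrix.mul_zero, zero_add] at h2
  have h3 : X * ((gram P X 1)⁻¹ * Xᴴ) = P' := by
    have h4 : X * ((gram P X 1)⁻¹ * Xᴴ) * P' = P' := by
      rw [← h.XY]
      calc X * ((gram P X 1)⁻¹ * Xᴴ) * (X * Y) = X * ((gram P X 1)⁻¹ * (Xᴴ * X)) * Y := by
            simp only [Matrix.mul_assoc]
        _ = X * Y := by rw [h2, h.XP]
    have h5 := congrArg conjTranspose h4
    rw [conjTranspose_mul, conjTranspose_mul, conjTranspose_mul, conjTranspose_conjTranspose, hP',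
      gram_inv_herm hP] at h5
    rw [← h5, Matrix.mul_assoc, ← Matrix.mul_assoc P' X, h.P'X]
  rw [pathP, h1, conjTranspose_fromRows_eq_fromCols_conjTranspose, conjTranspose_zero,
    mul_fromCols, fromRows_mul_fromCols, h3, Matrix.mul_zero, Matrix.zero_mul, Matrix.mul_zero,
    Matrix.zero_mul]

theorem continuous_inv_mat {Z : Type*} [TopologicalSpace Z] {G : Z → Matrix ι ι ℂ}
    (hG : Continuous G) (hu : ∀ z, IsUnit (G z)) : Continuous fun z => (G z)⁻¹ := by
  have h : (fun z => (G z)⁻¹) = fun z => ((G z).det)⁻¹ • (G z).adjugate := by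
    funext z
    rw [Matrix.inv_def, Ring.inverse_eq_inv']
  rw [h]
  refine Continuous.smul (Continuous.inv₀ hG.matrix_det fun z => ?_) hG.matrix_adjugate
  exact ((Matrix.isUnit_iff_isUnit_det _).1 (hu z)).ne_zero

theorem continuous_pathP {Z : Type*} [TopologicalSpace Z] {P : Z → Matrix ι ι ℂ}
    {P' : Z → Matrix κ κ ℂ} {X : Z → Matrix κ ι ℂ} {Y : Z → Matrix ι κ ℂ} {s : Z → ℝ}
    (hPc : Continuous P) (hXc : Continuous X) (hs : Continuous s)
    (hP : ∀ z, IsPr k (P z)) (h : ∀ z, IsIso (P z) (P' z) (X z) (Y z)) :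
    Continuous fun z => pathP (P z) (X z) (s z) := by
  have he : Continuous fun z => emb (P z) (X z) (s z) := by
    refine continuous_matrix fun i j => ?_
    rcases i with i | i
    · exact (Complex.continuous_ofReal.comp (continuous_const.sub hs)).mul
        (hPc.matrix_elem i j)
    · exact (Complex.continuous_ofReal.comp hs).mul (hXc.matrix_elem i j)
  have hg : Continuous fun z => gram (P z) (X z) (s z) :=
    (he.matrix_conjTranspose.matrix_mul he).add (continuous_const.sub hPc)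
  have hi : Continuous fun z => (gram (P z) (X z) (s z))⁻¹ :=
    continuous_inv_mat hg fun z => isUnit_gram (hP z) (h z) (s z)
  exact he.matrix_mul (hi.matrix_mul he.matrix_conjTranspose)

end Crest.Agent.R090.I0core275
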