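import Crest.Agent.R090.I0b_275

/-!
# Row 90, I0-CORE part c (owner helper275): amplitude homotopies
-/

set_option autoImplicit false
set_option linter.unusedSectionVars false

open Topology Filter Set Matrix

namespace Crest.Agent.R090.I0core275

open OnePoint Crest.Agent.R090.Sp962
open scoped unitInterval ComplexOrder Kronecker

variable {ι κ : Type*} [Fintype ι] [DecidableEq ι] [Fintype κ] [DecidableEq κ]

/-! ## construction of pointed maps and homotopies -/

theorem coclosedCompact_eq_bot_of_compact (X : Type*) [TopologicalSpace X] [CompactSpace X] :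
    coclosedCompact X = ⊥ := by
  rw [← Filter.empty_mem_iff_bot, hasBasis_coclosedCompact.mem_iff]
  exact ⟨univ, ⟨isClosed_univ, isCompact_univ⟩, by simp⟩

/-- a free map on a compact space is a pointed map -/
def ofCompact {X V : Type*} [TopologicalSpace X] [TopologicalSpace V] [CompactSpace X]
    (f : X → OnePoint V) (hf : Continuous f) : PMap X V :=
  PMap.ofFun f hf (by rw [coclosedCompact_eq_bot_of_compact]; exact tendsto_bot)

@[simp] theorem ofCompact_coe {X V : Type*} [TopologicalSpace X] [TopologicalSpace V]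
    [CompactSpace X] (f : X → OnePoint V) (hf : Continuous f) (x : X) :
    ofCompact f hf (x : OnePoint X) = f x := rfl

/-- homotopies of free maps on a compact space -/
theorem homotopic_of_compact {X V : Type*} [TopologicalSpace X] [TopologicalSpace V]
    [CompactSpace X] {f g : PMap X V} (H : I × X → OnePoint V) (hH : Continuous H)
    (h0 : ∀ x : X, H (0, x) = f x) (h1 : ∀ x : X, H (1, x) = g x) : f.Homotopic g := by
  refine PMap.Homotopic.of (fun p : I × OnePoint X => p.2.elim ∞ fun u => H (p.1, u)) ?_ h0 h1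
    (fun _ => rfl)
  refine continuous_ext H hH ?_
  rw [coclosedCompact_eq_bot_of_compact]
  exact tendsto_bot

/-- properness criterion -/
theorem tendsto_coclosedCompact_of {X : Type*} [TopologicalSpace X] {f : X → ℝ}
    (hf : Continuous f) (h : ∀ R, IsCompact {x | f x ≤ R}) :
    Tendsto f (coclosedCompact X) atTop := by
  rw [tendsto_atTop]
  intro R
  rw [Filter.Eventually, hasBasis_coclosedCompact.mem_iff]
  refine ⟨{x | f x ≤ R}, ⟨isClosed_le hf continuous_const, h R⟩, fun x hx => ?_⟩
  have : ¬ f x ≤ R := hx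
  exact (not_le.1 this).le

/-- homotopies given by proper families of finite points of Thom spaces -/
theorem homotopic_of_th {U : Type*} [TopologicalSpace U] {k : ℕ} {f g : PMap U (Th k ι)}
    (H : I × U → Th k ι) (hH : Continuous H)
    (hp : Tendsto (fun p => ‖(H p).1.2‖) (coclosedCompact (I × U)) atTop)
    (h0 : ∀ x : U, f x = H (0, x)) (h1 : ∀ x : U, g x = H (1, x)) : f.Homotopic g :=
  PMap.Homotopic.of
    (fun p : I × OnePoint U => p.2.elim ∞ fun u => ((H (p.1, u) : Th k ι) : OnePoint (Th k ι)))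
    (continuous_ext (fun p => ((H p : Th k ι) : OnePoint (Th k ι))) (continuous_coe.comp hH)
      (tendsto_infty hp)) (fun x => (h0 x).symm) (fun x => (h1 x).symm) (fun _ => rfl)

/-- pointed maps given by proper maps to Thom spaces -/
def ofTh {U : Type*} [TopologicalSpace U] {k : ℕ} (f : U → Th k ι) (hf : Continuous f)
    (hp : Tendsto (fun p => ‖(f p).1.2‖) (coclosedCompact U) atTop) : PMap U (Th k ι) :=
  PMap.ofFun (fun u => (f u : OnePoint (Th k ι))) (continuous_coe.comp hf) (tendsto_infty hp)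

@[simp] theorem ofTh_coe {U : Type*} [TopologicalSpace U] {k : ℕ} (f : U → Th k ι)
    (hf : Continuous f) (hp : Tendsto (fun p => ‖(f p).1.2‖) (coclosedCompact U) atTop) (u : U) :
    ofTh f hf hp (u : OnePoint U) = (f u : OnePoint (Th k ι)) := rfl

theorem continuous_th {X : Type*} [TopologicalSpace X] {k : ℕ} {f : X → Th k ι}
    (h1 : Continuous fun x => (f x).1.1) (h2 : Continuous fun x => (f x).1.2) : Continuous f :=
  Continuous.subtype_mk (f := fun x => (f x).1) (h1.prodMk h2) (fun x => (f x).2)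

@[ext] theorem Th.ext {k : ℕ} {x y : Th k ι} (h1 : x.1.1 = y.1.1) (h2 : x.1.2 = y.1.2) : x = y :=
  Subtype.ext (Prod.ext h1 h2)

/-- constructor -/
def Th.of {k : ℕ} (P : Matrix ι ι ℂ) (v : ι → ℂ) (h : IsPr k P) (hv : P *ᵥ v = v) : Th k ι :=
  ⟨(P, v), h, hv⟩

@[simp] theorem Th.of_fst {k : ℕ} (P : Matrix ι ι ℂ) (v : ι → ℂ) (h : IsPr k P)
    (hv : P *ᵥ v = v) : (Th.of P v h hv).1.1 = P := rfl

@[simp] theorem Th.of_snd {k : ℕ} (P : Matrix ι ι ℂ) (v : ι → ℂ) (h : IsPr k P)
    (hv : P *ᵥ v = v) : (Th.of P v h hv).1.2 = v := rfl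

/-! ## the amplitude homotopy -/

/-- the denominator -/
def den (t c : ℝ) : ℝ := (1 - t) + t * c

theorem den_nonneg {t c : ℝ} (h0 : 0 ≤ t) (h1 : t ≤ 1) (hc : 0 ≤ c) : 0 ≤ den t c := by
  have := mul_nonneg h0 hc
  rw [den]; linarith

theorem den_eq_zero {t c : ℝ} (h0 : 0 ≤ t) (h1 : t ≤ 1) (hc : 0 ≤ c) :
    den t c = 0 ↔ t = 1 ∧ c = 0 := by
  constructor
  · intro h
    have h2 := mul_nonneg h0 hc
    rw [den] at h
    have h3 : t = 1 := by linarith
    subst h3
    refine ⟨rfl, by linarith⟩
  · rintro ⟨rfl, rfl⟩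
    simp [den]

/-- data of an amplitude homotopy -/
structure AmpData (X : Type*) [TopologicalSpace X] (J : Type*) (k : ℕ) (ι : Type*)
    [Fintype ι] [DecidableEq ι] where
  /-- projections -/
  Pi : X → Matrix ι ι ℂ
  hPi : Continuous Pi
  isPr : ∀ x, IsPr k (Pi x)
  /-- blocks -/
  blk : ι → J
  /-- section -/
  s : X → ι → ℂ
  hs : Continuous s
  /-- inverse amplitudes -/
  c : J → X → ℝ
  hc : ∀ i, Continuous (c i)
  c_nonneg : ∀ i x, 0 ≤ c i x
  inv : ∀ x (μ : J → ℂ), Pi x *ᵥ (fun j => μ (blk j) * s x j) = fun j => μ (blk j) * s x j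
  nz : ∀ x i, c i x = 0 → ∃ j, blk j = i ∧ s x j ≠ 0

namespace AmpData

variable {X J : Type*} [TopologicalSpace X] [Finite J] {k : ℕ} (A : AmpData X J k ι)

/-- the vector at time `t` -/
noncomputable def vec (t : ℝ) (x : X) : ι → ℂ :=
  fun j => ((t / den t (A.c (A.blk j) x) : ℝ) : ℂ) * A.s x j

/-- the point at time `t` -/
noncomputable def pt (t : ℝ) (x : X) : Th k ι :=
  ⟨(A.Pi x, A.vec t x), A.isPr x, A.inv x fun i => ((t / den t (A.c i x) : ℝ) : ℂ)⟩

/-- the homotopy -/
noncomputable def F (p : I × X) : OnePoint (Th k ι) :=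
  open Classical in
  if ∃ i, den p.1 (A.c i p.2) = 0 then ∞ else (A.pt p.1 p.2 : OnePoint (Th k ι))

theorem continuous_F : Continuous A.F := by
  have hden : ∀ i, Continuous fun p : I × X => den p.1 (A.c i p.2) := by
    intro i
    have h1 : Continuous fun p : I × X => (p.1 : ℝ) := continuous_subtype_val.comp continuous_fst
    exact (continuous_const.sub h1).add (h1.mul ((A.hc i).comp continuous_snd))
  have hD : IsOpen {p : I × X | ∀ i, den p.1 (A.c i p.2) ≠ 0} := by
    have : {p : I × X | ∀ i, den p.1 (A.c i p.2) ≠ 0} =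
        ⋂ i, {p : I × X | den p.1 (A.c i p.2) ≠ 0} := by ext; simp
    rw [this]
    exact isOpen_iInter_of_finite fun i => isOpen_ne_fun (hden i) continuous_const
  refine continuous_glue _ hD A.F (fun p => A.pt p.1.1 p.1.2) ?_ ?_ ?_ ?_
  · refine continuous_th (A.hPi.comp (continuous_snd.comp continuous_subtype_val)) ?_
    refine continuous_pi fun j => ?_
    refine Continuous.mul (Complex.continuous_ofReal.comp ?_)
      ((continuous_apply j).comp (A.hs.comp (continuous_snd.comp continuous_subtype_val)))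
    refine Continuous.div ?_ ((hden (A.blk j)).comp continuous_subtype_val) ?_
    · exact continuous_subtype_val.comp (continuous_fst.comp continuous_subtype_val)
    · intro p; exact p.2 _
  · intro p
    rw [F, if_neg]
    rintro ⟨i, hi⟩
    exact p.2 i hi
  · intro p hp
    rw [F, if_pos]
    by_contra hcon
    exact hp fun i hi => hcon ⟨i, hi⟩
  · intro p hp
    have hp' : ∃ i, den p.1 (A.c i p.2) = 0 := by
      by_contra hcon
      exact hp fun i hi => hcon ⟨i, hi⟩
    obtain ⟨i, hi⟩ := hp'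
    have h1 := (den_eq_zero p.1.2.1 p.1.2.2 (A.c_nonneg i p.2)).1 hi
    obtain ⟨j, hj, hsj⟩ := A.nz p.2 i h1.2
    refine tendsto_of_le (c := fun q : I × X => den q.1 (A.c i q.2))
      (n := fun q : I × X => (q.1 : ℝ) * ‖A.s q.2 j‖) (hden i).continuousAt ?_ hi ?_ ?_
    · have h2 : Continuous fun q : I × X => (q.1 : ℝ) * ‖A.s q.2 j‖ :=
        (continuous_subtype_val.comp continuous_fst).mul
          (continuous_norm.comp ((continuous_apply j).comp (A.hs.comp continuous_snd)))
      exact h2.continuousAt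
    · rw [h1.1, one_mul]
      exact norm_pos_iff.2 hsj
    · intro q
      have h3 : ‖A.vec q.1.1 q.1.2 j‖ ≤ ‖(A.pt q.1.1 q.1.2).1.2‖ :=
        norm_le_pi_norm (A.vec q.1.1 q.1.2) j
      have h4 : (q.1.1 : ℝ) * ‖A.s q.1.2 j‖ =
          ‖A.vec q.1.1 q.1.2 j‖ * |den q.1.1 (A.c i q.1.2)| := by
        rw [vec, hj, norm_mul, Complex.norm_real, Real.norm_eq_abs, abs_div,
          abs_of_nonneg q.1.1.2.1]
        have h5 : |den q.1.1 (A.c i q.1.2)| ≠ 0 := abs_ne_zero.2 (q.2 i)
        field_simp
      rw [h4]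
      exact mul_le_mul_of_nonneg_right h3 (abs_nonneg _)

/-- the end point of the homotopy -/
noncomputable def fin (x : X) : OnePoint (Th k ι) :=
  open Classical in
  if ∃ i, A.c i x = 0 then ∞ else (A.pt 1 x : OnePoint (Th k ι))

theorem F_one (x : X) : A.F (1, x) = A.fin x := by
  have h : ∀ i, den ((1 : I) : ℝ) (A.c i x) = A.c i x := fun i => by simp [den]
  by_cases hx : ∃ i, A.c i x = 0
  · rw [fin, if_pos hx, F, if_pos]
    obtain ⟨i, hi⟩ := hx
    exact ⟨i, (h i).trans hi⟩
  · rw [fin, if_neg hx, F, if_neg]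
    · rfl
    · rintro ⟨i, hi⟩
      exact hx ⟨i, (h i).symm.trans hi⟩

theorem pt_zero (x : X) : A.pt 0 x = Th.of (A.Pi x) 0 (A.isPr x) (by simp) := by
  refine Th.ext rfl ?_
  funext j
  change ((0 / den 0 (A.c (A.blk j) x) : ℝ) : ℂ) * A.s x j = 0
  simp

theorem F_zero (x : X) : A.F (0, x) = (A.pt 0 x : OnePoint (Th k ι)) := by
  have h : ∀ i, den ((0 : I) : ℝ) (A.c i x) = 1 := fun i => by simp [den]
  rw [F, if_neg]
  · rfl
  · rintro ⟨i, hi⟩
    exact one_ne_zero ((h i).symm.trans hi)

theorem continuous_fin : Continuous A.fin := by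
  have : A.fin = fun x => A.F (1, x) := funext fun x => (A.F_one x).symm
  rw [this]
  exact A.continuous_F.comp (by fun_prop)

/-- **the amplitude homotopy**: the zero section is homotopic to `s / c` -/
theorem homotopic [CompactSpace X] {f g : PMap X (Th k ι)}
    (hf : ∀ x : X, f x = (Th.of (A.Pi x) 0 (A.isPr x) (by simp) : Th k ι))
    (hg : ∀ x : X, g x = A.fin x) : f.Homotopic g :=
  homotopic_of_compact A.F A.continuous_F
    (fun x => by rw [A.F_zero, A.pt_zero]; exact (hf x).symm)
    (fun x => by rw [A.F_one]; exact (hg x).symm)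

end AmpData

end Crest.Agent.R090.I0core275
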