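import Crest.Agent.R090.I0c_275

/-!
# Row 90, I0-CORE part d (owner helper275): algebra of the twisted projections
-/

set_option autoImplicit false
set_option linter.unusedSectionVars false

open Topology Filter Set Matrix

namespace Crest.Agent.R090.I0core275

open OnePoint Crest.Agent.R090.Sp962
open scoped unitInterval ComplexOrder Kronecker

variable {ι κ : Type*} [Fintype ι] [DecidableEq ι] [Fintype κ] [DecidableEq κ]
variable {ι' κ' : Type*} [Fintype ι'] [DecidableEq ι'] [Fintype κ'] [DecidableEq κ']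

theorem IsPr.one (ι : Type*) [Fintype ι] [DecidableEq ι] :
    IsPr (Fintype.card ι) (1 : Matrix ι ι ℂ) :=
  ⟨conjTranspose_one, Matrix.one_mul _, by rw [trace_one]⟩

theorem IsPr.zero (ι : Type*) [Fintype ι] [DecidableEq ι] : IsPr 0 (0 : Matrix ι ι ℂ) :=
  ⟨conjTranspose_zero, Matrix.mul_zero _, by simp⟩

theorem IsPr.fromBlocks {a b : ℕ} {P : Matrix ι ι ℂ} {Q : Matrix κ κ ℂ} (hP : IsPr a P)
    (hQ : IsPr b Q) : IsPr (a + b) (fromBlocks P 0 0 Q) := by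
  refine ⟨?_, ?_, ?_⟩
  · rw [fromBlocks_conjTranspose, hP.herm, hQ.herm, conjTranspose_zero, conjTranspose_zero]
  · rw [fromBlocks_multiply, hP.idem, hQ.idem]
    simp
  · have h1 := hP.tr
    have h2 := hQ.tr
    simp only [Matrix.trace, diag_apply] at h1 h2
    simp only [Matrix.trace, Fintype.sum_sum_type, diag_apply, fromBlocks_apply₁₁,
      fromBlocks_apply₂₂, h1, h2]
    push_cast
    rfl

theorem IsPr.cast {a b : ℕ} {P : Matrix ι ι ℂ} (hP : IsPr a P) (h : a = b) : IsPr b P := h ▸ hP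

theorem IsPr.inl {a : ℕ} {P : Matrix ι ι ℂ} (hP : IsPr a P) (κ : Type*) [Fintype κ]
    [DecidableEq κ] : IsPr a (Matrix.fromBlocks P 0 0 (0 : Matrix κ κ ℂ)) :=
  (hP.fromBlocks (IsPr.zero κ)).cast (add_zero a)

theorem IsPr.inr {a : ℕ} {P : Matrix κ κ ℂ} (hP : IsPr a P) (ι : Type*) [Fintype ι]
    [DecidableEq ι] : IsPr a (Matrix.fromBlocks (0 : Matrix ι ι ℂ) 0 0 P) :=
  ((IsPr.zero ι).fromBlocks hP).cast (zero_add a)

theorem IsPr.kronecker {a b : ℕ} {P : Matrix ι ι ℂ} {Q : Matrix κ κ ℂ} (hP : IsPr a P)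
    (hQ : IsPr b Q) : IsPr (a * b) (P ⊗ₖ Q) := by
  refine ⟨?_, ?_, ?_⟩
  · rw [conjTranspose_kronecker, hP.herm, hQ.herm]
  · rw [← mul_kronecker_mul, hP.idem, hQ.idem]
  · rw [trace_kronecker, hP.tr, hQ.tr]
    push_cast
    rfl

theorem IsPr.transpose {a : ℕ} {P : Matrix ι ι ℂ} (hP : IsPr a P) : IsPr a Pᵀ := by
  refine ⟨?_, ?_, ?_⟩
  · have : Pᵀᴴ = Pᴴᵀ := by ext; simp
    rw [this, hP.herm]
  · rw [← transpose_mul, hP.idem]
  · rw [trace_transpose, hP.tr]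

theorem IsIso.kronecker {P : Matrix ι ι ℂ} {P' : Matrix κ κ ℂ} {X : Matrix κ ι ℂ}
    {Y : Matrix ι κ ℂ} (h : IsIso P P' X Y) {L : Matrix ι' ι' ℂ} (hL : L * L = L) :
    IsIso (L ⊗ₖ P) (L ⊗ₖ P') (L ⊗ₖ X) (L ⊗ₖ Y) := by
  refine ⟨?_, ?_, ?_, ?_⟩ <;> rw [← mul_kronecker_mul, hL]
  · rw [h.XP]
  · rw [h.YX]
  · rw [h.P'X]
  · rw [h.XY]

theorem kron_mulVec (L : Matrix ι ι ℂ) (P : Matrix κ κ ℂ) (W : Matrix ι κ ℂ) :
    (L ⊗ₖ P) *ᵥ (fun p => W p.1 p.2) = fun p => (L * W * Pᵀ) p.1 p.2 := by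
  funext ⟨a, b⟩
  simp only [mulVec, dotProduct, Fintype.sum_prod_type, kroneckerMap_apply, Matrix.mul_apply,
    transpose_apply, Finset.sum_mul]
  rw [Finset.sum_comm]
  refine Finset.sum_congr rfl fun y _ => Finset.sum_congr rfl fun x _ => ?_
  ring

theorem fromBlocks_mulVec_inl (A : Matrix ι ι ℂ) (D : Matrix κ κ ℂ) (v : ι → ℂ) :
    Matrix.fromBlocks A 0 0 D *ᵥ Sum.elim v (0 : κ → ℂ) = Sum.elim (A *ᵥ v) (0 : κ → ℂ) := by
  rw [fromBlocks_mulVec]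
  simp

theorem fromBlocks_mulVec_inr (A : Matrix ι ι ℂ) (D : Matrix κ κ ℂ) (v : κ → ℂ) :
    Matrix.fromBlocks A 0 0 D *ᵥ Sum.elim (0 : ι → ℂ) v = Sum.elim (0 : ι → ℂ) (D *ᵥ v) := by
  rw [fromBlocks_mulVec]
  simp

/-- columns only in the second block -/
def rcol {m : Type*} (h : Type*) (W : Matrix ι m ℂ) : Matrix ι (h ⊕ m) ℂ :=
  Matrix.of fun α y => Sum.elim (fun _ => 0) (fun i => W α i) y

theorem rcol_mul {h m : Type*} [Fintype h] [DecidableEq h] [Fintype m] [DecidableEq m]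
    (W : Matrix ι m ℂ) (P : Matrix h h ℂ) :
    rcol h W * (Matrix.fromBlocks P 0 0 (1 : Matrix m m ℂ))ᵀ = rcol h W := by
  ext α y
  rw [fromBlocks_transpose, Matrix.mul_apply, Fintype.sum_sum_type]
  rcases y with y | y
  · simp [rcol]
  · simp [rcol, Matrix.one_apply]

theorem mul_rcol {h m : Type*} (L : Matrix ι ι ℂ) (W : Matrix ι m ℂ) :
    L * rcol h W = rcol h (L * W) := by
  ext α y
  rcases y with y | y
  · simp [rcol, Matrix.mul_apply]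
  · simp [rcol, Matrix.mul_apply]

/-- the vector `W` of `ℂ^ι ⊗ ℂ^(h ⊕ m)` lies in the image of `L ⊗ (P ⊕ 1)` if `L W = W` -/
theorem twist_mulVec {h m : Type*} [Fintype h] [DecidableEq h] [Fintype m] [DecidableEq m]
    (L : Matrix ι ι ℂ) (W : Matrix ι m ℂ) (P : Matrix h h ℂ) (hW : L * W = W) :
    (L ⊗ₖ Matrix.fromBlocks P 0 0 (1 : Matrix m m ℂ)) *ᵥ (fun p => rcol h W p.1 p.2) =
      fun p => rcol h W p.1 p.2 := by
  rw [kron_mulVec, mul_rcol, rcol_mul, hW]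

end Crest.Agent.R090.I0core275
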