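import Crest.Agent.R090.I0d_275

/-!
# Row 90, I0-CORE part e (owner helper275): the Euler class homotopy

`g ∘ (1_Z × pinch)` is null homotopic, where `g (z, a) = (e₀ ⊗ (P_z ⊕ 1), e₀ ⊗ (0, a))`.
-/

set_option autoImplicit false
set_option linter.unusedSectionVars false

open Topology Filter Set Matrix

namespace Crest.Agent.R090.I0core275

open OnePoint hiding some
open Crest.Agent.R090.Sp962
open scoped unitInterval ComplexOrder Kronecker

theorem Th.of_congr {ι : Type*} [Fintype ι] [DecidableEq ι] {k : ℕ} {P P' : Matrix ι ι ℂ}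
    {v v' : ι → ℂ} {a : IsPr k P} {b : P *ᵥ v = v} {a' : IsPr k P'} {b' : P' *ᵥ v' = v'}
    (h1 : P = P') (h2 : v = v') :
    ((Th.of P v a b : Th k ι) : OnePoint (Th k ι)) = (Th.of P' v' a' b' : Th k ι) := by
  subst h1; subst h2; rfl

/-- chart collapse `ℂP^M → (ℂ^M)⁺` -/
noncomputable def pinchL {m : Type*} (L : Matrix (Option m) (Option m) ℂ) : OnePoint (m → ℂ) :=
  open Classical in
  if L none none = 0 then ∞
  else ((fun i => L (some i) none / L none none : m → ℂ) : OnePoint (m → ℂ))

variable {h q m : Type*} [Fintype h] [DecidableEq h] [Fintype q] [DecidableEq q] [Fintype m]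
  [DecidableEq m]

/-- the big index type -/
abbrev Big (h q m : Type*) : Type _ := (Option m × (h ⊕ m)) ⊕ (Option m × (q ⊕ h))

/-- the data: an isomorphism `P ⊕ 1_m ≃ Q ⊕ 1_h` over `Z`, a family of lines over `B` -/
structure CoreData (Z B : Type*) [TopologicalSpace Z] [TopologicalSpace B]
    (N r : ℕ) (h q m : Type*) [Fintype h] [DecidableEq h] [Fintype q] [DecidableEq q]
    [Fintype m] [DecidableEq m] where
  P : Z → Matrix h h ℂ
  hPc : Continuous P
  hP : ∀ z, IsPr N (P z)
  Q : Z → Matrix q q ℂ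
  hQc : Continuous Q
  hQ : ∀ z, IsPr r (Q z)
  X : Z → Matrix (q ⊕ h) (h ⊕ m) ℂ
  hXc : Continuous X
  Y : Z → Matrix (h ⊕ m) (q ⊕ h) ℂ
  iso : ∀ z, IsIso (fromBlocks (P z) 0 0 (1 : Matrix m m ℂ)) (fromBlocks (Q z) 0 0 (1 : Matrix h h ℂ))
    (X z) (Y z)
  e : Option m ↪ h
  L : B → Matrix (Option m) (Option m) ℂ
  hLc : Continuous L
  hL : ∀ b, IsPr 1 (L b)
  rank_one : ∀ b α β, L b α β * L b none none = L b α none * L b none β

namespace CoreData

variable {Z B : Type*} [TopologicalSpace Z] [TopologicalSpace B] {N r : ℕ}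
  (C : CoreData Z B N r h q m)

/-- the twisted projection `L̄ ⊗ (P ⊕ 1)` -/
def PA (p : Z × B) : Matrix (Option m × (h ⊕ m)) (Option m × (h ⊕ m)) ℂ :=
  (C.L p.2)ᵀ ⊗ₖ fromBlocks (C.P p.1) 0 0 (1 : Matrix m m ℂ)

/-- the twisted projection `L̄ ⊗ (Q ⊕ 1)` -/
def PB (p : Z × B) : Matrix (Option m × (q ⊕ h)) (Option m × (q ⊕ h)) ℂ :=
  (C.L p.2)ᵀ ⊗ₖ fromBlocks (C.Q p.1) 0 0 (1 : Matrix h h ℂ)

theorem isPr_PA (p : Z × B) : IsPr (N + Fintype.card m) (C.PA p) :=
  ((C.hL p.2).transpose.kronecker ((C.hP p.1).fromBlocks (IsPr.one m))).cast (one_mul _)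

theorem iso_AB (p : Z × B) : IsIso (C.PA p) (C.PB p) ((C.L p.2)ᵀ ⊗ₖ C.X p.1)
    ((C.L p.2)ᵀ ⊗ₖ C.Y p.1) :=
  (C.iso p.1).kronecker (C.hL p.2).transpose.idem

theorem herm_PB (p : Z × B) : (C.PB p)ᴴ = C.PB p :=
  ((C.hL p.2).transpose.kronecker ((C.hQ p.1).fromBlocks (IsPr.one h))).herm

theorem continuous_LT : Continuous fun p : Z × B => (C.L p.2)ᵀ :=
  (C.hLc.comp continuous_snd).matrix_transpose

theorem _root_.Continuous.kron275 {X : Type*} [TopologicalSpace X] {a b c d : Type*}
    {F : X → Matrix a b ℂ} {G : X → Matrix c d ℂ} (hF : Continuous F) (hG : Continuous G) :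
    Continuous fun x => F x ⊗ₖ G x :=
  continuous_matrix fun i j => (hF.matrix_elem i.1 j.1).mul (hG.matrix_elem i.2 j.2)

theorem continuous_PA : Continuous C.PA :=
  C.continuous_LT.kron275 ((C.hPc.comp continuous_fst).matrix_fromBlocks continuous_const
    continuous_const continuous_const)

theorem continuous_PB : Continuous C.PB :=
  C.continuous_LT.kron275 ((C.hQc.comp continuous_fst).matrix_fromBlocks continuous_const
    continuous_const continuous_const)

/-! ### the A side -/

/-- the section of the A side -/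
def sA (p : Z × B) : Big h q m → ℂ :=
  Sum.elim (fun y => rcol h (Matrix.of fun (α : Option m) (i : m) => C.L p.2 (some i) α) y.1 y.2)
    (fun _ => 0)

theorem continuous_sA : Continuous C.sA := by
  refine continuous_pi fun j => ?_
  rcases j with ⟨α, y | i⟩ | j
  · exact continuous_const
  · exact (C.hLc.comp continuous_snd).matrix_elem _ _
  · exact continuous_const

theorem exists_diag_ne (b : B) (hb : C.L b none none = 0) : ∃ i, C.L b (some i) (some i) ≠ 0 := by
  by_contra hcon
  push Not at hcon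
  have h1 := (C.hL b).tr
  rw [Matrix.trace, Fintype.sum_option] at h1
  simp only [diag_apply, hb, hcon, Finset.sum_const_zero, add_zero, Nat.cast_one] at h1
  exact zero_ne_one h1

theorem diag_real (b : B) (α : Option m) : (((C.L b α α).re : ℝ) : ℂ) = C.L b α α := by
  rw [← (C.hL b).sum_sq α, Complex.ofReal_re]

theorem diag_nonneg (b : B) (α : Option m) : 0 ≤ (C.L b α α).re := by
  rw [← (C.hL b).sum_sq α, Complex.ofReal_re]
  exact Finset.sum_nonneg fun _ _ => by positivity

theorem sum_mu (μ : Unit → ℂ) (f : Big h q m → ℂ) :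
    (fun j => μ () * f j) = μ () • f := rfl

theorem PA_sA (p : Z × B) : fromBlocks (C.PA p) 0 0 0 *ᵥ C.sA p = C.sA p := by
  have h1 : C.sA p = Sum.elim
      (fun y => rcol h (Matrix.of fun (α : Option m) (i : m) => C.L p.2 (some i) α) y.1 y.2)
      (0 : Option m × (q ⊕ h) → ℂ) := rfl
  rw [h1, fromBlocks_mulVec_inl, PA, twist_mulVec]
  ext α i
  rw [Matrix.mul_apply]
  have h2 := congrFun (congrFun (C.hL p.2).idem (some i)) α
  rw [Matrix.mul_apply] at h2
  simp only [transpose_apply, of_apply]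
  rw [← h2]
  exact Finset.sum_congr rfl fun x _ => mul_comm _ _

/-- amplitude data of the A side -/
noncomputable def ampA : AmpData (Z × B) Unit (N + Fintype.card m) (Big h q m) where
  Pi p := fromBlocks (C.PA p) 0 0 0
  hPi := C.continuous_PA.matrix_fromBlocks continuous_const continuous_const continuous_const
  isPr p := (C.isPr_PA p).inl _
  blk _ := ()
  s := C.sA
  hs := C.continuous_sA
  c _ p := (C.L p.2 none none).re
  hc _ := Complex.continuous_re.comp ((C.hLc.comp continuous_snd).matrix_elem _ _)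
  c_nonneg _ p := C.diag_nonneg _ _
  inv p μ := by
    rw [sum_mu, mulVec_smul, C.PA_sA]
  nz p _ hp := by
    have h1 : C.L p.2 none none = 0 := by
      rw [← C.diag_real, hp, Complex.ofReal_zero]
    obtain ⟨i, hi⟩ := C.exists_diag_ne p.2 h1
    exact ⟨Sum.inl (some i, Sum.inr i), rfl, hi⟩

/-! ### the B side -/

/-- the matrix of the nowhere zero section -/
noncomputable def WB (b : B) : Matrix (Option m) h ℂ :=
  Matrix.of fun α j => ∑ β, if C.e β = j then C.L b β α else 0

theorem WB_e (b : B) (α β : Option m) : C.WB b α (C.e β) = C.L b β α := by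
  rw [WB, of_apply, Finset.sum_eq_single β]
  · simp
  · intro γ _ hγ
    rw [if_neg]
    exact fun hh => hγ (C.e.injective hh)
  · intro hh; exact absurd (Finset.mem_univ _) hh

/-- the section of the B side -/
noncomputable def sB (p : Z × B) : Big h q m → ℂ :=
  Sum.elim (fun _ => 0) (fun y => rcol q (C.WB p.2) y.1 y.2)

theorem continuous_sB : Continuous C.sB := by
  refine continuous_pi fun j => ?_
  rcases j with j | ⟨α, y | i⟩
  · exact continuous_const
  · exact continuous_const
  · change Continuous fun p : Z × B => ∑ β, if C.e β = i then C.L p.2 β α else 0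
    refine continuous_finsetSum _ fun β _ => ?_
    split_ifs
    · exact (C.hLc.comp continuous_snd).matrix_elem _ _
    · exact continuous_const

theorem PB_sB (p : Z × B) : fromBlocks 0 0 0 (C.PB p) *ᵥ C.sB p = C.sB p := by
  have h1 : C.sB p = Sum.elim (0 : Option m × (h ⊕ m) → ℂ)
      (fun y => rcol q (C.WB p.2) y.1 y.2) := rfl
  rw [h1, fromBlocks_mulVec_inr, PB, twist_mulVec]
  ext α i
  rw [Matrix.mul_apply]
  simp only [transpose_apply, WB, of_apply, Finset.mul_sum]
  rw [Finset.sum_comm]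
  refine Finset.sum_congr rfl fun β _ => ?_
  split_ifs
  · have h2 := congrFun (congrFun (C.hL p.2).idem β) α
    rw [Matrix.mul_apply] at h2
    rw [← h2]
    exact Finset.sum_congr rfl fun x _ => mul_comm _ _
  · simp

theorem exists_diag_ne' (b : B) : ∃ β, C.L b β β ≠ 0 := by
  by_contra hcon
  push Not at hcon
  have h1 := (C.hL b).tr
  rw [Matrix.trace] at h1
  simp only [diag_apply, hcon, Finset.sum_const_zero, Nat.cast_one] at h1
  exact zero_ne_one h1

/-- amplitude data of the B side -/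
noncomputable def ampB : AmpData (Z × B) Unit (N + Fintype.card m) (Big h q m) where
  Pi p := fromBlocks 0 0 0 (C.PB p)
  hPi := (continuous_const (y := (0 : Matrix _ _ ℂ))).matrix_fromBlocks continuous_const
    continuous_const C.continuous_PB
  isPr p := by
    have h1 := isPr_pathP (C.isPr_PA p) (C.iso_AB p) 1
    rwa [pathP_one (C.isPr_PA p) (C.herm_PB p) (C.iso_AB p)] at h1
  blk _ := ()
  s := C.sB
  hs := C.continuous_sB
  c _ _ := 0
  hc _ := continuous_const
  c_nonneg _ _ := le_rfl
  inv p μ := by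
    rw [sum_mu, mulVec_smul, C.PB_sB]
  nz p _ _ := by
    obtain ⟨β, hβ⟩ := C.exists_diag_ne' p.2
    refine ⟨Sum.inr (β, Sum.inr (C.e β)), rfl, ?_⟩
    change C.WB p.2 β (C.e β) ≠ 0
    rwa [C.WB_e]

/-! ### the chain of homotopies -/

variable [CompactSpace Z] [CompactSpace B]

/-- the end point of the A side -/
noncomputable def f0 : PMap (Z × B) (Th (N + Fintype.card m) (Big h q m)) :=
  ofCompact C.ampA.fin C.ampA.continuous_fin

theorem zeroA_cont : Continuous fun p : Z × B =>
    (Th.of (C.ampA.Pi p) 0 (C.ampA.isPr p) (by simp) : Th (N + Fintype.card m) (Big h q m)) :=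
  continuous_th C.ampA.hPi continuous_const

theorem zeroB_cont : Continuous fun p : Z × B =>
    (Th.of (C.ampB.Pi p) 0 (C.ampB.isPr p) (by simp) : Th (N + Fintype.card m) (Big h q m)) :=
  continuous_th C.ampB.hPi continuous_const

/-- zero section of the A side -/
noncomputable def f2 : PMap (Z × B) (Th (N + Fintype.card m) (Big h q m)) :=
  ofCompact (fun p => ((Th.of (C.ampA.Pi p) 0 (C.ampA.isPr p) (by simp) :
    Th (N + Fintype.card m) (Big h q m)) : OnePoint _)) (continuous_coe.comp C.zeroA_cont)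

/-- zero section of the B side -/
noncomputable def f3 : PMap (Z × B) (Th (N + Fintype.card m) (Big h q m)) :=
  ofCompact (fun p => ((Th.of (C.ampB.Pi p) 0 (C.ampB.isPr p) (by simp) :
    Th (N + Fintype.card m) (Big h q m)) : OnePoint _)) (continuous_coe.comp C.zeroB_cont)

theorem f20 : C.f2.Homotopic C.f0 := C.ampA.homotopic (fun _ => rfl) (fun _ => rfl)

theorem f3null : C.f3.Null := by
  refine C.ampB.homotopic (fun _ => rfl) (fun x => ?_)
  rw [AmpData.fin, if_pos ⟨(), rfl⟩]
  rfl

theorem f23 : C.f2.Homotopic C.f3 := by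
  refine homotopic_of_compact (fun p : I × (Z × B) =>
    ((Th.of (pathP (C.PA p.2) ((C.L p.2.2)ᵀ ⊗ₖ C.X p.2.1) p.1) 0
      (isPr_pathP (C.isPr_PA p.2) (C.iso_AB p.2) p.1) (by simp) :
      Th (N + Fintype.card m) (Big h q m)) : OnePoint _)) ?_ ?_ ?_
  · refine continuous_coe.comp (continuous_th ?_ continuous_const)
    refine continuous_pathP (P := fun p : I × (Z × B) => C.PA p.2)
      (P' := fun p : I × (Z × B) => C.PB p.2)
      (X := fun p : I × (Z × B) => (C.L p.2.2)ᵀ ⊗ₖ C.X p.2.1)
      (Y := fun p : I × (Z × B) => (C.L p.2.2)ᵀ ⊗ₖ C.Y p.2.1)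
      (s := fun p : I × (Z × B) => (p.1 : ℝ)) (C.continuous_PA.comp continuous_snd) ?_
      (continuous_subtype_val.comp continuous_fst) (fun p => C.isPr_PA p.2) (fun p => C.iso_AB p.2)
    exact (C.continuous_LT.comp continuous_snd).kron275
      (C.hXc.comp (continuous_fst.comp continuous_snd))
  · intro x
    exact Th.of_congr (pathP_zero (C.isPr_PA x)) rfl
  · intro x
    exact Th.of_congr (pathP_one (C.isPr_PA x) (C.herm_PB x) (C.iso_AB x)) rfl

theorem f0null : C.f0.Null := (C.f20.symm.trans C.f23).trans C.f3null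

end CoreData

end Crest.Agent.R090.I0core275
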