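import Crest.Agent.R090.I0e_275

/-!
# Row 90, I0-CORE (owner helper275): the Euler class homotopy, short form (417's short cut)

`Z`, `B` compact, `R : Z → ` projections of `ℂ^h` of rank `N`, `Φ z : ℂ^h → ℂ^m` injective on
`ker (R z)`, `card m < card h`; `L` a continuous family of lines of `ℂ^{1+m}` over `B`.
Then `g ∘ (1_Z × pinch)` is null homotopic, where `g (z, a) = (e₀ ⊗ (R_z ⊕ 1), e₀ ⊗ (0, a))`.
-/

set_option autoImplicit false
set_option linter.unusedSectionVars false

open Topology Filter Set Matrix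

namespace Crest.Agent.R090.I0core275

open OnePoint hiding some
open Crest.Agent.R090.Sp962
open scoped unitInterval ComplexOrder Kronecker

variable {h m : Type*} [Fintype h] [DecidableEq h] [Fintype m] [DecidableEq m]

/-- the twisted index type -/
abbrev Tw (h m : Type*) : Type _ := Option m × (h ⊕ m)

/-- the data -/
structure EData (Z B : Type*) [TopologicalSpace Z] [TopologicalSpace B]
    (N : ℕ) (h m : Type*) [Fintype h] [DecidableEq h] [Fintype m] [DecidableEq m] where
  R : Z → Matrix h h ℂ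
  hRc : Continuous R
  hR : ∀ z, IsPr N (R z)
  Φ : Z → Matrix m h ℂ
  hΦc : Continuous Φ
  inj : ∀ z (v : h → ℂ), R z *ᵥ v = 0 → Φ z *ᵥ v = 0 → v = 0
  e : Option m ↪ h
  L : B → Matrix (Option m) (Option m) ℂ
  hLc : Continuous L
  hL : ∀ b, IsPr 1 (L b)
  rank_one : ∀ b α β, L b α β * L b none none = L b α none * L b none β

namespace EData

variable {Z B : Type*} [TopologicalSpace Z] [TopologicalSpace B] {N : ℕ}
  (C : EData Z B N h m)

/-- the twisted projection `L̄ ⊗ (R ⊕ 1)` -/
def PA (p : Z × B) : Matrix (Tw h m) (Tw h m) ℂ :=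
  (C.L p.2)ᵀ ⊗ₖ fromBlocks (C.R p.1) 0 0 (1 : Matrix m m ℂ)

theorem isPr_PA (p : Z × B) : IsPr (N + Fintype.card m) (C.PA p) :=
  ((C.hL p.2).transpose.kronecker ((C.hR p.1).fromBlocks (IsPr.one m))).cast (one_mul _)

theorem continuous_PA : Continuous C.PA :=
  (C.hLc.comp continuous_snd).matrix_transpose.kron275
    ((C.hRc.comp continuous_fst).matrix_fromBlocks continuous_const continuous_const
      continuous_const)

/-! ### the A side -/

/-- the section of the A side -/
def sA (p : Z × B) : Tw h m → ℂ :=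
  fun y => rcol h (Matrix.of fun (α : Option m) (i : m) => C.L p.2 (some i) α) y.1 y.2

theorem continuous_sA : Continuous C.sA := by
  refine continuous_pi fun j => ?_
  rcases j with ⟨α, y | i⟩
  · exact continuous_const
  · exact (C.hLc.comp continuous_snd).matrix_elem _ _

theorem exists_diag_ne (b : B) (hb : C.L b none none = 0) : ∃ i, C.L b (some i) (some i) ≠ 0 := by
  by_contra hcon
  push Not at hcon
  have h1 := (C.hL b).tr
  rw [Matrix.trace, Fintype.sum_option] at h1
  simp only [diag_apply, hb, hcon, Finset.sum_const_zero, add_zero, Nat.cast_one] at h1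
  exact zero_ne_one h1

theorem diag_real (b : B) (α : Option m) : (((C.L b α α).re : ℝ) : ℂ) = C.L b α α := by
  rw [← (C.hL b).sum_sq α, Complex.ofReal_re]

theorem diag_nonneg (b : B) (α : Option m) : 0 ≤ (C.L b α α).re := by
  rw [← (C.hL b).sum_sq α, Complex.ofReal_re]
  exact Finset.sum_nonneg fun _ _ => by positivity

theorem PA_sA (p : Z × B) : C.PA p *ᵥ C.sA p = C.sA p := by
  have h1 : C.sA p =
      fun y => rcol h (Matrix.of fun (α : Option m) (i : m) => C.L p.2 (some i) α) y.1 y.2 := rfl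
  rw [h1, PA, twist_mulVec]
  ext α i
  rw [Matrix.mul_apply]
  have h2 := congrFun (congrFun (C.hL p.2).idem (some i)) α
  rw [Matrix.mul_apply] at h2
  simp only [transpose_apply, of_apply]
  rw [← h2]
  exact Finset.sum_congr rfl fun x _ => mul_comm _ _

/-- amplitude data of the A side -/
noncomputable def ampA : AmpData (Z × B) Unit (N + Fintype.card m) (Tw h m) where
  Pi := C.PA
  hPi := C.continuous_PA
  isPr := C.isPr_PA
  blk _ := ()
  s := C.sA
  hs := C.continuous_sA
  c _ p := (C.L p.2 none none).re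
  hc _ := Complex.continuous_re.comp ((C.hLc.comp continuous_snd).matrix_elem _ _)
  c_nonneg _ p := C.diag_nonneg _ _
  inv p μ := by
    change C.PA p *ᵥ (μ () • C.sA p) = μ () • C.sA p
    rw [mulVec_smul, C.PA_sA]
  nz p _ hp := by
    have h1 : C.L p.2 none none = 0 := by
      rw [← C.diag_real, hp, Complex.ofReal_zero]
    obtain ⟨i, hi⟩ := C.exists_diag_ne p.2 h1
    exact ⟨(some i, Sum.inr i), rfl, hi⟩

/-! ### the B side -/

/-- the injective map `ℂ^{1+m} → im R ⊕ ℂ^m` -/
def AZ (z : Z) : Matrix (h ⊕ m) (Option m) ℂ :=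
  fromRows ((C.R z).submatrix id C.e) ((C.Φ z * (1 - C.R z)).submatrix id C.e)

theorem continuous_AZ : Continuous C.AZ := by
  refine continuous_matrix fun i j => ?_
  rcases i with i | i
  · exact C.hRc.matrix_elem _ _
  · exact (C.hΦc.matrix_mul (continuous_const.sub C.hRc)).matrix_elem _ _

theorem RAZ (z : Z) : fromBlocks (C.R z) 0 0 (1 : Matrix m m ℂ) * C.AZ z = C.AZ z := by
  rw [AZ, fromBlocks_mul_fromRows, Matrix.zero_mul, Matrix.zero_mul, zero_add, add_zero,
    Matrix.one_mul]
  congr 1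
  ext i j
  have := congrFun (congrFun (C.hR z).idem i) (C.e j)
  rw [Matrix.mul_apply] at this ⊢
  exact this

/-- extension by zero along `e` -/
def ext (x : Option m → ℂ) : h → ℂ := fun j => ∑ β, if C.e β = j then x β else 0

theorem ext_e (x : Option m → ℂ) (β : Option m) : C.ext x (C.e β) = x β := by
  rw [ext, Finset.sum_eq_single β]
  · simp
  · intro γ _ hγ
    rw [if_neg]
    exact fun hh => hγ (C.e.injective hh)
  · intro hh; exact absurd (Finset.mem_univ _) hh

theorem submatrix_mulVec {a : Type*} (M : Matrix a h ℂ) (x : Option m → ℂ) :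
    (M.submatrix id C.e) *ᵥ x = M *ᵥ C.ext x := by
  funext i
  simp only [mulVec, dotProduct, submatrix_apply, id, ext, Finset.mul_sum]
  rw [Finset.sum_comm]
  refine Finset.sum_congr rfl fun β _ => ?_
  rw [Finset.sum_eq_single (C.e β)]
  · simp
  · intro j _ hj
    rw [if_neg (fun hh => hj hh.symm), mul_zero]
  · intro hh; exact absurd (Finset.mem_univ _) hh

theorem AZ_inj (z : Z) (x : Option m → ℂ) (hx : C.AZ z *ᵥ x = 0) : x = 0 := by
  rw [AZ, fromRows_mulVec, C.submatrix_mulVec, C.submatrix_mulVec] at hx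
  have h1 : C.R z *ᵥ C.ext x = 0 := funext fun i => congrFun hx (Sum.inl i)
  have h2 : (C.Φ z * (1 - C.R z)) *ᵥ C.ext x = 0 := funext fun i => congrFun hx (Sum.inr i)
  have h3 : C.Φ z *ᵥ C.ext x = 0 := by
    rw [← mulVec_mulVec, sub_mulVec, one_mulVec, h1, sub_zero] at h2
    exact h2
  have h4 := C.inj z _ h1 h3
  funext β
  rw [← C.ext_e x β, h4]
  rfl

/-- the section of the B side -/
noncomputable def sB (p : Z × B) : Tw h m → ℂ :=
  fun y => (C.AZ p.1 * C.L p.2)ᵀ y.1 y.2

theorem continuous_sB : Continuous C.sB := by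
  refine continuous_pi fun j => ?_
  exact ((C.continuous_AZ.comp continuous_fst).matrix_mul
    (C.hLc.comp continuous_snd)).matrix_elem _ _

theorem PA_sB (p : Z × B) : C.PA p *ᵥ C.sB p = C.sB p := by
  have h1 : C.sB p = fun y => (C.AZ p.1 * C.L p.2)ᵀ y.1 y.2 := rfl
  rw [h1, PA, kron_mulVec]
  have : (C.L p.2)ᵀ * (C.AZ p.1 * C.L p.2)ᵀ *
      (fromBlocks (C.R p.1) 0 0 (1 : Matrix m m ℂ))ᵀ = (C.AZ p.1 * C.L p.2)ᵀ := by
    rw [← transpose_mul, ← transpose_mul, Matrix.mul_assoc, (C.hL p.2).idem,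
      ← Matrix.mul_assoc, C.RAZ]
  rw [this]

theorem exists_sB_ne (p : Z × B) : ∃ j, C.sB p j ≠ 0 := by
  by_contra hcon
  push Not at hcon
  have h1 : C.AZ p.1 * C.L p.2 = 0 := by
    ext i j
    exact hcon (j, i)
  have h2 : C.L p.2 = 0 := by
    ext α β
    have h3 : C.AZ p.1 *ᵥ (fun γ => C.L p.2 γ β) = 0 := by
      funext i
      exact congrFun (congrFun h1 i) β
    exact congrFun (C.AZ_inj p.1 _ h3) α
  have h4 := (C.hL p.2).tr
  rw [h2] at h4
  simp at h4

/-- amplitude data of the B side -/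
noncomputable def ampB : AmpData (Z × B) Unit (N + Fintype.card m) (Tw h m) where
  Pi := C.PA
  hPi := C.continuous_PA
  isPr := C.isPr_PA
  blk _ := ()
  s := C.sB
  hs := C.continuous_sB
  c _ _ := 0
  hc _ := continuous_const
  c_nonneg _ _ := le_rfl
  inv p μ := by
    change C.PA p *ᵥ (μ () • C.sB p) = μ () • C.sB p
    rw [mulVec_smul, C.PA_sB]
  nz p _ _ := by
    obtain ⟨j, hj⟩ := C.exists_sB_ne p
    exact ⟨j, rfl, hj⟩

variable [CompactSpace Z] [CompactSpace B]

/-- the end point of the A side -/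
noncomputable def f0 : PMap (Z × B) (Th (N + Fintype.card m) (Tw h m)) :=
  ofCompact C.ampA.fin C.ampA.continuous_fin

theorem zero_cont : Continuous fun p : Z × B =>
    (Th.of (C.PA p) 0 (C.isPr_PA p) (by simp) : Th (N + Fintype.card m) (Tw h m)) :=
  continuous_th C.continuous_PA continuous_const

/-- zero section -/
noncomputable def f2 : PMap (Z × B) (Th (N + Fintype.card m) (Tw h m)) :=
  ofCompact (fun p => ((Th.of (C.PA p) 0 (C.isPr_PA p) (by simp) :
    Th (N + Fintype.card m) (Tw h m)) : OnePoint _)) (continuous_coe.comp C.zero_cont)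

theorem f20 : C.f2.Homotopic C.f0 := C.ampA.homotopic (fun _ => rfl) (fun _ => rfl)

theorem f2null : C.f2.Null := by
  refine C.ampB.homotopic (fun _ => rfl) (fun x => ?_)
  rw [AmpData.fin, if_pos ⟨(), rfl⟩]
  rfl

theorem f0null : C.f0.Null := C.f20.symm.trans C.f2null

end EData

/-! ### the maps `g_t` -/

section gt

/-- the vector `w = (1, t ā)` -/
noncomputable def wv (t : ℝ) (a : m → ℂ) : Option m → ℂ
  | none => 1
  | some i => (t : ℂ) * star (a i)

/-- its square norm -/
noncomputable def wn (t : ℝ) (a : m → ℂ) : ℝ := ∑ α, ‖wv t a α‖ ^ 2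

theorem wn_pos (t : ℝ) (a : m → ℂ) : 0 < wn t a := by
  have h1 : ‖wv t a none‖ ^ 2 ≤ wn t a :=
    Finset.single_le_sum (f := fun α => ‖wv t a α‖ ^ 2) (fun _ _ => by positivity)
      (Finset.mem_univ none)
  have h2 : ‖wv t a none‖ ^ 2 = 1 := by simp [wv]
  linarith

theorem star_dot (t : ℝ) (a : m → ℂ) : star (wv t a) ⬝ᵥ wv t a = (wn t a : ℂ) := by
  rw [dotProduct, wn]
  push_cast
  refine Finset.sum_congr rfl fun α _ => ?_
  rw [Pi.star_apply, Complex.star_def, mul_comm, Complex.mul_conj, Complex.normSq_eq_norm_sq]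
  push_cast
  rfl

/-- the line spanned by `w` -/
noncomputable def wl (t : ℝ) (a : m → ℂ) : Matrix (Option m) (Option m) ℂ :=
  ((wn t a)⁻¹ : ℂ) • vecMulVec (wv t a) (star (wv t a))

theorem wl_mulVec (t : ℝ) (a : m → ℂ) : wl t a *ᵥ wv t a = wv t a := by
  have h := (wn_pos t a).ne'
  rw [wl, smul_mulVec, vecMulVec_mulVec, star_dot, op_smul_eq_smul, smul_smul,
    inv_mul_cancel₀ (by exact_mod_cast h), one_smul]

theorem isPr_wl (t : ℝ) (a : m → ℂ) : IsPr 1 (wl t a) := by
  have h := (wn_pos t a).ne'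
  have h' : (wn t a : ℂ) ≠ 0 := by exact_mod_cast h
  refine ⟨?_, ?_, ?_⟩
  · rw [wl, conjTranspose_smul, conjTranspose_vecMulVec, star_star]
    congr 1
    rw [star_inv₀, Complex.star_def, Complex.conj_ofReal]
  · rw [wl, Matrix.smul_mul, Matrix.mul_smul, vecMulVec_mul_vecMulVec, star_dot]
    ext i j
    simp only [Matrix.smul_apply, smul_eq_mul, vecMulVec_apply, Pi.smul_apply, Pi.star_apply]
    field_simp
  · rw [wl, trace_smul, trace_vecMulVec, dotProduct_comm, star_dot, smul_eq_mul,
      inv_mul_cancel₀ h', Nat.cast_one]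

theorem continuous_wv : Continuous fun p : ℝ × (m → ℂ) => wv p.1 p.2 := by
  refine continuous_pi fun α => ?_
  rcases α with _ | i
  · exact continuous_const
  · exact (Complex.continuous_ofReal.comp continuous_fst).mul
      (continuous_star.comp ((continuous_apply i).comp continuous_snd))

theorem continuous_wl : Continuous fun p : ℝ × (m → ℂ) => wl p.1 p.2 := by
  have hn : Continuous fun p : ℝ × (m → ℂ) => wn p.1 p.2 :=
    continuous_finsetSum _ fun α _ =>
      (continuous_norm.comp ((continuous_apply α).comp continuous_wv)).pow 2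
  refine continuous_matrix fun i j => ?_
  have h1 : Continuous fun p : ℝ × (m → ℂ) => ((wn p.1 p.2 : ℝ) : ℂ)⁻¹ := by
    refine Continuous.inv₀ (Complex.continuous_ofReal.comp hn) fun p => ?_
    exact_mod_cast (wn_pos p.1 p.2).ne'
  exact h1.mul (((continuous_apply i).comp continuous_wv).mul
      (continuous_star.comp ((continuous_apply j).comp continuous_wv)))

/-- the vector part of `g_t` -/
noncomputable def gvec (h : Type*) (t : ℝ) (a : m → ℂ) : Tw h m → ℂ :=
  fun y => rcol h (vecMulVec (wv t a) a) y.1 y.2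

/-- the plane of `g_t` -/
noncomputable def gpl (t : ℝ) (R : Matrix h h ℂ) (a : m → ℂ) : Matrix (Tw h m) (Tw h m) ℂ :=
  wl t a ⊗ₖ fromBlocks R 0 0 (1 : Matrix m m ℂ)

theorem isPr_gpl {N : ℕ} (t : ℝ) {R : Matrix h h ℂ} (hR : IsPr N R) (a : m → ℂ) :
    IsPr (N + Fintype.card m) (gpl t R a) :=
  ((isPr_wl t a).kronecker (hR.fromBlocks (IsPr.one m))).cast (one_mul _)

theorem gpl_gvec (t : ℝ) (R : Matrix h h ℂ) (a : m → ℂ) :
    gpl t R a *ᵥ gvec h t a = gvec h t a := by
  have h1 : gvec h t a = fun y => rcol h (vecMulVec (wv t a) a) y.1 y.2 := rfl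
  rw [h1, gpl, twist_mulVec]
  rw [mul_vecMulVec, wl_mulVec]

/-- the point of `g_t` -/
noncomputable def gpt {N : ℕ} (t : ℝ) (R : {R : Matrix h h ℂ // IsPr N R}) (a : m → ℂ) :
    Th (N + Fintype.card m) (Tw h m) :=
  Th.of (gpl t R.1 a) (gvec h t a) (isPr_gpl t R.2 a) (gpl_gvec t R.1 a)

theorem continuous_gpt {X : Type*} [TopologicalSpace X] {N : ℕ} {t : X → ℝ} {R : X → Matrix h h ℂ}
    {hR : ∀ x, IsPr N (R x)} {a : X → m → ℂ} (ht : Continuous t) (hRc : Continuous R)
    (ha : Continuous a) : Continuous fun x => gpt (t x) ⟨R x, hR x⟩ (a x) := by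
  have hta : Continuous fun x => (t x, a x) := ht.prodMk ha
  refine continuous_th ?_ ?_
  · exact (continuous_wl.comp hta).kron275
      (hRc.matrix_fromBlocks continuous_const continuous_const continuous_const)
  · refine continuous_pi fun j => ?_
    rcases j with ⟨α, y | i⟩
    · exact continuous_const
    · exact ((continuous_apply α).comp (continuous_wv.comp hta)).mul ((continuous_apply i).comp ha)

theorem norm_gpt {N : ℕ} (t : ℝ) (R : {R : Matrix h h ℂ // IsPr N R}) (a : m → ℂ) :
    ‖a‖ ≤ ‖(gpt t R a).1.2‖ := by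
  rw [pi_norm_le_iff_of_nonneg (norm_nonneg _)]
  intro i
  have h1 : ‖gvec h t a (none, Sum.inr i)‖ ≤ ‖(gpt t R a).1.2‖ :=
    norm_le_pi_norm (gvec h t a) _
  have h2 : gvec h t a (none, Sum.inr i) = a i := by
    change vecMulVec (wv t a) a none i = a i
    rw [vecMulVec_apply]
    simp [wv]
  rwa [h2] at h1

theorem tendsto_norm_snd (K : Type*) [TopologicalSpace K] [CompactSpace K] :
    Tendsto (fun p : K × (m → ℂ) => ‖p.2‖) (coclosedCompact _) atTop := by
  refine tendsto_coclosedCompact_of (continuous_norm.comp continuous_snd) fun R => ?_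
  have : {p : K × (m → ℂ) | ‖p.2‖ ≤ R} = univ ×ˢ Metric.closedBall 0 R := by
    ext p; simp
  rw [this]
  exact isCompact_univ.prod (isCompact_closedBall _ _)

theorem tendsto_norm_snd' (K : Type*) [TopologicalSpace K] [CompactSpace K] :
    Tendsto (fun p : I × (K × (m → ℂ)) => ‖p.2.2‖) (coclosedCompact _) atTop := by
  refine tendsto_coclosedCompact_of
    (continuous_norm.comp (continuous_snd.comp continuous_snd)) fun R => ?_
  have : {p : I × (K × (m → ℂ)) | ‖p.2.2‖ ≤ R} = univ ×ˢ (univ ×ˢ Metric.closedBall 0 R) := by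
    ext p; simp
  rw [this]
  exact isCompact_univ.prod (isCompact_univ.prod (isCompact_closedBall _ _))

variable {Z : Type*} [TopologicalSpace Z] [CompactSpace Z] {N : ℕ}

/-- the map `g_t : (Z × ℂ^m)⁺ → Th` -/
noncomputable def gmap (t : ℝ) (R : Z → Matrix h h ℂ) (hRc : Continuous R)
    (hR : ∀ z, IsPr N (R z)) : PMap (Z × (m → ℂ)) (Th (N + Fintype.card m) (Tw h m)) :=
  ofTh (fun p => gpt t ⟨R p.1, hR p.1⟩ p.2)
    (continuous_gpt continuous_const (hRc.comp continuous_fst) continuous_snd)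
    (tendsto_atTop_mono (fun p => norm_gpt t _ p.2) (tendsto_norm_snd Z))

theorem gmap_homotopic (R : Z → Matrix h h ℂ) (hRc : Continuous R)
    (hR : ∀ z, IsPr N (R z)) :
    (gmap (m := m) 0 R hRc hR).Homotopic (gmap (m := m) 1 R hRc hR) :=
  homotopic_of_th (fun p : I × (Z × (m → ℂ)) => gpt (p.1 : ℝ) ⟨R p.2.1, hR p.2.1⟩ p.2.2)
    (continuous_gpt (continuous_subtype_val.comp continuous_fst)
      (hRc.comp (continuous_fst.comp continuous_snd)) (continuous_snd.comp continuous_snd))
    (tendsto_atTop_mono (fun p => norm_gpt _ _ p.2.2) (tendsto_norm_snd' Z))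
    (fun _ => rfl) (fun _ => rfl)

end gt

end Crest.Agent.R090.I0core275
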