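import Crest.Agent.R090.I0f_275

/-!
# Row 90, I0-CORE (d) (owner helper275): START

`ρ z j` rank one projections of `ℂ²` (`j ∈ J`), `R z = blockDiagonal (1 - ρ z j)`.
The zero section `z ↦ (R z, 0)` is homotopic to `z ↦ (constant plane, -b(z))`,
`b_j = ρ_{10} / ρ_{00}` (`∞` if some `ρ_{00} = 0`).
-/

set_option autoImplicit false
set_option linter.unusedSectionVars false
set_option maxHeartbeats 400000

open Topology Filter Set Matrix

namespace Crest.Agent.R090.I0core275

open OnePoint hiding some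
open Crest.Agent.R090.Sp962
open scoped unitInterval ComplexOrder Kronecker

variable {J : Type*} [Fintype J] [DecidableEq J]

theorem blockDiagonal_mulVec_apply (M : J → Matrix (Fin 2) (Fin 2) ℂ) (v : Fin 2 × J → ℂ)
    (i : Fin 2) (j : J) :
    (blockDiagonal M *ᵥ v) (i, j) = M j i 0 * v (0, j) + M j i 1 * v (1, j) := by
  rw [mulVec, dotProduct, Fintype.sum_prod_type, Fin.sum_univ_two]
  simp only [blockDiagonal_apply]
  congr 1
  · rw [Finset.sum_eq_single j]
    · simp
    · intro k _ hk; simp [Ne.symm hk]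
    · intro hh; exact absurd (Finset.mem_univ _) hh
  · rw [Finset.sum_eq_single j]
    · simp
    · intro k _ hk; simp [Ne.symm hk]
    · intro hh; exact absurd (Finset.mem_univ _) hh

theorem isPr_blockDiagonal {M : J → Matrix (Fin 2) (Fin 2) ℂ} (h : ∀ j, IsPr 1 (M j)) :
    IsPr (Fintype.card J) (blockDiagonal M) := by
  refine ⟨?_, ?_, ?_⟩
  · rw [blockDiagonal_conjTranspose]
    congr 1
    funext j
    exact (h j).herm
  · rw [← blockDiagonal_mul]
    congr 1
    funext j
    exact (h j).idem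
  · rw [trace_blockDiagonal]
    have : ∀ j, (M j).trace = 1 := fun j => by simpa using (h j).tr
    simp [this]

theorem IsPr.compl_two {ρ : Matrix (Fin 2) (Fin 2) ℂ} (h : IsPr 1 ρ) : IsPr 1 (1 - ρ) := by
  refine ⟨h.compl_herm, h.compl_idem, ?_⟩
  rw [trace_sub, trace_one, h.tr]
  norm_num

/-- data of the start -/
structure SData (Z : Type*) [TopologicalSpace Z] (J : Type*) [Fintype J] [DecidableEq J] where
  ρ : Z → J → Matrix (Fin 2) (Fin 2) ℂ
  hρ : ∀ j, Continuous fun z => ρ z j
  pr : ∀ z j, IsPr 1 (ρ z j)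

namespace SData

variable {Z : Type*} [TopologicalSpace Z] (S : SData Z J)

/-- the projection -/
def R (z : Z) : Matrix (Fin 2 × J) (Fin 2 × J) ℂ := blockDiagonal fun j => 1 - S.ρ z j

theorem isPr_R (z : Z) : IsPr (Fintype.card J) (S.R z) :=
  isPr_blockDiagonal fun j => (S.pr z j).compl_two

theorem continuous_R : Continuous S.R := by
  refine continuous_matrix fun i j => ?_
  obtain ⟨i, k⟩ := i
  obtain ⟨j, l⟩ := j
  simp only [R, blockDiagonal_apply]
  split_ifs with h
  · exact (continuous_const.sub (S.hρ k)).matrix_elem i j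
  · exact continuous_const

/-- amplitude data -/
noncomputable def amp : AmpData Z J (Fintype.card J) (Fin 2 × J) where
  Pi := S.R
  hPi := S.continuous_R
  isPr := S.isPr_R
  blk x := x.2
  s z x := (1 - S.ρ z x.2) x.1 0
  hs := continuous_pi fun x => (continuous_const.sub (S.hρ x.2)).matrix_elem _ _
  c j z := (S.ρ z j 0 0).re
  hc j := Complex.continuous_re.comp ((S.hρ j).matrix_elem _ _)
  c_nonneg j z := by
    rw [← (S.pr z j).sum_sq 0, Complex.ofReal_re]
    exact Finset.sum_nonneg fun _ _ => by positivity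
  inv z μ := by
    funext ⟨i, j⟩
    rw [R, blockDiagonal_mulVec_apply]
    change (1 - S.ρ z j) i 0 * (μ j * (1 - S.ρ z j) 0 0) +
      (1 - S.ρ z j) i 1 * (μ j * (1 - S.ρ z j) 1 0) = μ j * (1 - S.ρ z j) i 0
    have h := congrFun (congrFun (S.pr z j).compl_idem i) 0
    rw [Matrix.mul_apply, Fin.sum_univ_two] at h
    linear_combination (μ j) * h
  nz z j hz := by
    refine ⟨(0, j), rfl, ?_⟩
    have h1 : S.ρ z j 0 0 = 0 := by
      rw [← (S.pr z j).sum_sq 0, Complex.ofReal_re] at hz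
      rw [← (S.pr z j).sum_sq 0, hz, Complex.ofReal_zero]
    change (1 - S.ρ z j) 0 0 ≠ 0
    simp [h1]

end SData

/-! ### the maps `G_t` -/

/-- the vector `(-t b̄, 1)` -/
noncomputable def ub (t : ℝ) (b : ℂ) : Fin 2 → ℂ := ![-(t : ℂ) * star b, 1]

/-- its norm -/
noncomputable def un (t : ℝ) (b : ℂ) : ℝ := t ^ 2 * ‖b‖ ^ 2 + 1

theorem un_pos (t : ℝ) (b : ℂ) : 0 < un t b := by rw [un]; positivity

theorem ub_dot (t : ℝ) (b : ℂ) : star (ub t b) ⬝ᵥ ub t b = (un t b : ℂ) := by
  rw [dotProduct, Fin.sum_univ_two, un]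
  simp only [ub, Pi.star_apply, cons_val_zero, cons_val_one, star_mul', star_neg, star_star,
    Complex.star_def, Complex.conj_ofReal, star_one, mul_one]
  have h := Complex.mul_conj b
  rw [Complex.normSq_eq_norm_sq] at h
  push_cast at h ⊢
  rw [← h]
  simp
  ring

/-- the line spanned by `(-t b̄, 1)` -/
noncomputable def ul (t : ℝ) (b : ℂ) : Matrix (Fin 2) (Fin 2) ℂ :=
  ((un t b)⁻¹ : ℂ) • vecMulVec (ub t b) (star (ub t b))

theorem ul_mulVec (t : ℝ) (b : ℂ) : ul t b *ᵥ ub t b = ub t b := by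
  have h := (un_pos t b).ne'
  rw [ul, smul_mulVec, vecMulVec_mulVec, ub_dot, op_smul_eq_smul, smul_smul,
    inv_mul_cancel₀ (by exact_mod_cast h), one_smul]

theorem isPr_ul (t : ℝ) (b : ℂ) : IsPr 1 (ul t b) := by
  have h := (un_pos t b).ne'
  have h' : (un t b : ℂ) ≠ 0 := by exact_mod_cast h
  refine ⟨?_, ?_, ?_⟩
  · rw [ul, conjTranspose_smul, conjTranspose_vecMulVec, star_star]
    congr 1
    rw [star_inv₀, Complex.star_def, Complex.conj_ofReal]
  · rw [ul, Matrix.smul_mul, Matrix.mul_smul, vecMulVec_mul_vecMulVec, ub_dot]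
    ext i j
    simp only [Matrix.smul_apply, smul_eq_mul, vecMulVec_apply, Pi.smul_apply, Pi.star_apply]
    field_simp
  · rw [ul, trace_smul, trace_vecMulVec, dotProduct_comm, ub_dot, smul_eq_mul,
      inv_mul_cancel₀ h', Nat.cast_one]

/-- the vector of `G_t` -/
noncomputable def Gvec (t : ℝ) (b : J → ℂ) : Fin 2 × J → ℂ := fun x => -(b x.2) * ub t (b x.2) x.1

theorem G_inv (t : ℝ) (b : J → ℂ) :
    blockDiagonal (fun j => ul t (b j)) *ᵥ Gvec t b = Gvec t b := by
  funext ⟨i, j⟩
  rw [blockDiagonal_mulVec_apply]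
  have h := congrFun (ul_mulVec t (b j)) i
  rw [mulVec, dotProduct, Fin.sum_univ_two] at h
  change ul t (b j) i 0 * (-(b j) * ub t (b j) 0) + ul t (b j) i 1 * (-(b j) * ub t (b j) 1) =
    -(b j) * ub t (b j) i
  rw [← h]
  ring

/-- the point of `G_t` -/
noncomputable def Gpt (t : ℝ) (b : J → ℂ) : Th (Fintype.card J) (Fin 2 × J) :=
  Th.of (blockDiagonal fun j => ul t (b j)) (Gvec t b) (isPr_blockDiagonal fun j => isPr_ul t (b j))
    (G_inv t b)

theorem continuous_ub {X : Type*} [TopologicalSpace X] {t : X → ℝ} {b : X → ℂ}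
    (ht : Continuous t) (hb : Continuous b) : Continuous fun x => ub (t x) (b x) := by
  refine continuous_pi fun i => ?_
  fin_cases i
  · exact ((Complex.continuous_ofReal.comp ht).neg).mul (continuous_star.comp hb)
  · exact continuous_const

theorem continuous_ul {X : Type*} [TopologicalSpace X] {t : X → ℝ} {b : X → ℂ}
    (ht : Continuous t) (hb : Continuous b) : Continuous fun x => ul (t x) (b x) := by
  have hn : Continuous fun x => un (t x) (b x) :=
    ((ht.pow 2).mul (hb.norm.pow 2)).add continuous_const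
  have hu := continuous_ub ht hb
  have h1 : Continuous fun x => ((un (t x) (b x) : ℝ) : ℂ)⁻¹ := by
    refine Continuous.inv₀ (Complex.continuous_ofReal.comp hn) fun x => ?_
    exact_mod_cast (un_pos (t x) (b x)).ne'
  refine continuous_matrix fun i j => ?_
  exact h1.mul (((continuous_apply i).comp hu).mul (continuous_star.comp
    ((continuous_apply j).comp hu)))

theorem continuous_Gpt {X : Type*} [TopologicalSpace X] {t : X → ℝ} {b : X → J → ℂ}
    (ht : Continuous t) (hb : Continuous b) : Continuous fun x => Gpt (t x) (b x) := by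
  have hbj : ∀ j, Continuous fun x => b x j := fun j => (continuous_apply j).comp hb
  have h1 : Continuous fun x => (blockDiagonal fun j => ul (t x) (b x j) :
      Matrix (Fin 2 × J) (Fin 2 × J) ℂ) := by
    refine continuous_matrix fun i j => ?_
    obtain ⟨i, k⟩ := i
    obtain ⟨j, l⟩ := j
    simp only [blockDiagonal_apply]
    split_ifs with h
    · exact (continuous_ul ht (hbj k)).matrix_elem i j
    · exact continuous_const
  have h2 : Continuous fun x => Gvec (t x) (b x) := by
    refine continuous_pi fun x => ?_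
    exact ((hbj x.2).neg).mul ((continuous_apply x.1).comp (continuous_ub ht (hbj x.2)))
  exact continuous_th h1 h2

theorem norm_Gpt (t : ℝ) (b : J → ℂ) : ‖b‖ ≤ ‖(Gpt t b).1.2‖ := by
  rw [pi_norm_le_iff_of_nonneg (norm_nonneg _)]
  intro j
  have h1 : ‖Gvec t b (1, j)‖ ≤ ‖(Gpt t b).1.2‖ := norm_le_pi_norm (Gvec t b) _
  have h2 : ‖Gvec t b (1, j)‖ = ‖b j‖ := by
    rw [Gvec]
    simp [ub]
  rwa [h2] at h1

theorem tendsto_norm_J : Tendsto (fun b : J → ℂ => ‖b‖) (coclosedCompact _) atTop := by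
  refine tendsto_coclosedCompact_of continuous_norm fun R => ?_
  have : {b : J → ℂ | ‖b‖ ≤ R} = Metric.closedBall 0 R := by ext p; simp
  rw [this]
  exact isCompact_closedBall _ _

theorem tendsto_norm_J' : Tendsto (fun p : I × (J → ℂ) => ‖p.2‖) (coclosedCompact _) atTop := by
  refine tendsto_coclosedCompact_of (continuous_norm.comp continuous_snd) fun R => ?_
  have : {p : I × (J → ℂ) | ‖p.2‖ ≤ R} = univ ×ˢ Metric.closedBall 0 R := by ext p; simp
  rw [this]
  exact isCompact_univ.prod (isCompact_closedBall _ _)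

/-- the map `G_t` -/
noncomputable def Gmap (J : Type*) [Fintype J] [DecidableEq J] (t : ℝ) :
    PMap (J → ℂ) (Th (Fintype.card J) (Fin 2 × J)) :=
  ofTh (U := J → ℂ) (fun b : J → ℂ => Gpt t b) (continuous_Gpt continuous_const continuous_id)
    (tendsto_atTop_mono (fun b : J → ℂ => norm_Gpt t b) tendsto_norm_J)

theorem Gmap_homotopic (J : Type*) [Fintype J] [DecidableEq J] :
    (Gmap J 0).Homotopic (Gmap J 1) := by
  refine homotopic_of_th (U := J → ℂ) (fun p : I × (J → ℂ) => Gpt (p.1 : ℝ) p.2) ?_ ?_ ?_ ?_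
  · exact continuous_Gpt (continuous_subtype_val.comp continuous_fst) continuous_snd
  · exact tendsto_atTop_mono (fun p : I × (J → ℂ) => norm_Gpt _ p.2) tendsto_norm_J'
  · intro b; rfl
  · intro b; rfl

/-! ### the chart coordinate -/

open Classical in
/-- the Bott coordinates `b_j = ρ_{10}/ρ_{00}` -/
noncomputable def bch (ρ : J → Matrix (Fin 2) (Fin 2) ℂ) : OnePoint (J → ℂ) :=
  if ∃ j, ρ j 0 0 = 0 then ∞ else ((fun j => ρ j 1 0 / ρ j 0 0 : J → ℂ) : OnePoint (J → ℂ))

namespace SData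

variable {Z : Type*} [TopologicalSpace Z] (S : SData Z J)

theorem entries (z : Z) (j : J) (h0 : S.ρ z j 0 0 ≠ 0) :
    1 - S.ρ z j = ul 1 (S.ρ z j 1 0 / S.ρ z j 0 0) := by
  have hr : (((S.ρ z j 0 0).re : ℝ) : ℂ) = S.ρ z j 0 0 := by
    rw [← (S.pr z j).sum_sq 0, Complex.ofReal_re]
  set l : ℝ := (S.ρ z j 0 0).re with hl
  have hl0 : l ≠ 0 := by
    intro h; apply h0; rw [← hr, h, Complex.ofReal_zero]
  have h01 : S.ρ z j 0 1 = star (S.ρ z j 1 0) := by
    have := congrFun (congrFun (S.pr z j).herm 0) 1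
    rw [conjTranspose_apply] at this
    exact this.symm
  have h11 : S.ρ z j 1 1 = 1 - S.ρ z j 0 0 := by
    have := (S.pr z j).tr
    rw [Matrix.trace, Fin.sum_univ_two] at this
    simp only [diag_apply, Nat.cast_one] at this
    linear_combination this
  have hmul : S.ρ z j 1 0 * star (S.ρ z j 1 0) = (l : ℂ) * (1 - l) := by
    have := congrFun (congrFun (S.pr z j).idem 0) 0
    rw [Matrix.mul_apply, Fin.sum_univ_two, h01, ← hr] at this
    linear_combination this
  have hnorm : ‖S.ρ z j 1 0‖ ^ 2 = l * (1 - l) := by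
    have h2 := hmul
    rw [Complex.star_def, Complex.mul_conj, Complex.normSq_eq_norm_sq] at h2
    exact_mod_cast h2
  have hlpos : 0 ≤ l := by
    rw [hl, ← (S.pr z j).sum_sq 0, Complex.ofReal_re]
    exact Finset.sum_nonneg fun _ _ => by positivity
  have hun : un 1 (S.ρ z j 1 0 / S.ρ z j 0 0) = l⁻¹ := by
    rw [un, norm_div, div_pow, hnorm]
    have : ‖S.ρ z j 0 0‖ = l := by
      rw [← hr, Complex.norm_real, Real.norm_eq_abs, abs_of_nonneg hlpos]
    rw [this]
    field_simp
    ring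
  have hlc : (l : ℂ) ≠ 0 := by exact_mod_cast hl0
  have hu0 : ub 1 (S.ρ z j 1 0 / S.ρ z j 0 0) 0 = -(star (S.ρ z j 1 0) / l) := by
    rw [ub, cons_val_zero, star_div₀, ← hr, Complex.star_def, Complex.conj_ofReal,
      Complex.ofReal_one]
    ring
  have hu1 : ub 1 (S.ρ z j 1 0 / S.ρ z j 0 0) 1 = 1 := rfl
  have hs : star (-(star (S.ρ z j 1 0) / (l : ℂ))) = -(S.ρ z j 1 0 / l) := by
    rw [star_neg, star_div₀, star_star, Complex.star_def, Complex.conj_ofReal]
  have hul : ∀ i k, ul 1 (S.ρ z j 1 0 / S.ρ z j 0 0) i k =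
      (l : ℂ) * (ub 1 (S.ρ z j 1 0 / S.ρ z j 0 0) i *
        star (ub 1 (S.ρ z j 1 0 / S.ρ z j 0 0) k)) := by
    intro i k
    rw [ul, hun, Matrix.smul_apply, vecMulVec_apply, Complex.ofReal_inv, inv_inv, smul_eq_mul,
      Pi.star_apply]
  ext i k
  rw [hul, Matrix.sub_apply]
  fin_cases i <;> fin_cases k
  · change (1 : Matrix (Fin 2) (Fin 2) ℂ) 0 0 - S.ρ z j 0 0 = _ * (ub _ _ 0 * star (ub _ _ 0))
    rw [hu0, hs, one_apply_eq, ← hr]
    field_simp
    linear_combination -hmul
  · change (1 : Matrix (Fin 2) (Fin 2) ℂ) 0 1 - S.ρ z j 0 1 = _ * (ub _ _ 0 * star (ub _ _ 1))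
    rw [hu0, hu1, h01, one_apply_ne (by decide), star_one]
    field_simp
    ring
  · change (1 : Matrix (Fin 2) (Fin 2) ℂ) 1 0 - S.ρ z j 1 0 = _ * (ub _ _ 1 * star (ub _ _ 0))
    rw [hu0, hu1, hs, one_apply_ne (by decide)]
    field_simp
    ring
  · change (1 : Matrix (Fin 2) (Fin 2) ℂ) 1 1 - S.ρ z j 1 1 = _ * (ub _ _ 1 * star (ub _ _ 1))
    rw [hu1, h11, one_apply_eq, star_one, ← hr]
    ring

/-! ### START -/

variable [CompactSpace Z]

theorem zero_cont : Continuous fun z : Z =>
    (Th.of (S.R z) 0 (S.isPr_R z) (by simp) : Th (Fintype.card J) (Fin 2 × J)) :=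
  continuous_th S.continuous_R continuous_const

/-- the zero section -/
noncomputable def zeroSec : PMap Z (Th (Fintype.card J) (Fin 2 × J)) :=
  ofCompact (fun z => ((Th.of (S.R z) 0 (S.isPr_R z) (by simp) :
    Th (Fintype.card J) (Fin 2 × J)) : OnePoint _)) (continuous_coe.comp S.zero_cont)

@[simp] theorem zeroSec_coe (z : Z) : S.zeroSec (z : OnePoint Z) =
    ((Th.of (S.R z) 0 (S.isPr_R z) (by simp) : Th (Fintype.card J) (Fin 2 × J)) : OnePoint _) :=
  rfl

/-- `z ↦ G_1 (b z)` is the end of the amplitude homotopy -/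
theorem Gmap_one_bch (z : Z) : Gmap J 1 (bch (S.ρ z)) = S.amp.fin z := by
  by_cases hz : ∃ j, S.ρ z j 0 0 = 0
  · rw [bch, if_pos hz, PMap.map_inf, AmpData.fin, if_pos]
    obtain ⟨j, hj⟩ := hz
    refine ⟨j, ?_⟩
    change (S.ρ z j 0 0).re = 0
    rw [hj, Complex.zero_re]
  · rw [bch, if_neg hz, AmpData.fin, if_neg]
    · have hz' : ∀ j, S.ρ z j 0 0 ≠ 0 := fun j hj => hz ⟨j, hj⟩
      have hE : ∀ j, 1 - S.ρ z j = ul 1 (S.ρ z j 1 0 / S.ρ z j 0 0) :=
        fun j => S.entries z j (hz' j)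
      refine Th.of_congr (a := isPr_blockDiagonal fun j => isPr_ul 1 _)
        (b := G_inv 1 (fun j => S.ρ z j 1 0 / S.ρ z j 0 0))
        (a' := S.amp.isPr z) (b' := (S.amp.pt 1 z).2.2) ?_ ?_
      · change _ = blockDiagonal fun j => 1 - S.ρ z j
        congr 1
        funext j
        exact (hE j).symm
      · funext ⟨i, j⟩
        change -(S.ρ z j 1 0 / S.ρ z j 0 0) * ub 1 (S.ρ z j 1 0 / S.ρ z j 0 0) i =
          ((1 / den 1 (S.ρ z j 0 0).re : ℝ) : ℂ) * (1 - S.ρ z j) i 0
        have hr : (((S.ρ z j 0 0).re : ℝ) : ℂ) = S.ρ z j 0 0 := by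
          rw [← (S.pr z j).sum_sq 0, Complex.ofReal_re]
        have h2 : den 1 (S.ρ z j 0 0).re = (S.ρ z j 0 0).re := by simp [den]
        have hidem := congrFun (congrFun (S.pr z j).idem 0) 0
        rw [Matrix.mul_apply, Fin.sum_univ_two] at hidem
        have h01 : S.ρ z j 0 1 = star (S.ρ z j 1 0) := by
          have := congrFun (congrFun (S.pr z j).herm 0) 1
          rw [conjTranspose_apply] at this
          exact this.symm
        have h00 : star (S.ρ z j 0 0) = S.ρ z j 0 0 := by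
          have := congrFun (congrFun (S.pr z j).herm 0) 0
          rwa [conjTranspose_apply] at this
        have hn := hz' j
        rw [h2, Complex.ofReal_div, hr, Complex.ofReal_one, Matrix.sub_apply]
        fin_cases i
        · change -(S.ρ z j 1 0 / S.ρ z j 0 0) * (-((1 : ℝ) : ℂ) * star (S.ρ z j 1 0 / S.ρ z j 0 0)) =
            1 / S.ρ z j 0 0 * ((1 : Matrix (Fin 2) (Fin 2) ℂ) 0 0 - S.ρ z j 0 0)
          rw [star_div₀, h00, ← h01, one_apply_eq, Complex.ofReal_one]
          field_simp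
          linear_combination hidem
        · change -(S.ρ z j 1 0 / S.ρ z j 0 0) * 1 =
            1 / S.ρ z j 0 0 * ((1 : Matrix (Fin 2) (Fin 2) ℂ) 1 0 - S.ρ z j 1 0)
          rw [one_apply_ne (by decide)]
          field_simp
          ring
    · rintro ⟨j, hj⟩
      apply hz
      refine ⟨j, ?_⟩
      have hr : (((S.ρ z j 0 0).re : ℝ) : ℂ) = S.ρ z j 0 0 := by
        rw [← (S.pr z j).sum_sq 0, Complex.ofReal_re]
      have hj' : (S.ρ z j 0 0).re = 0 := hj
      rw [← hr, hj', Complex.ofReal_zero]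

/-- **START**: the zero section of `⊕ (1 - ρ_j)` is homotopic to `G_0 ∘ b`, for every pointed map
`b` with values the Bott coordinates -/
theorem start (b : PMap Z (J → ℂ)) (hb : ∀ z : Z, b z = bch (S.ρ z)) :
    S.zeroSec.Homotopic ((Gmap J 0).comp b) := by
  have h1 : S.zeroSec.Homotopic ((Gmap J 1).comp b) :=
    S.amp.homotopic (fun _ => rfl) (fun z => by
      rw [PMap.comp_apply, hb, S.Gmap_one_bch])
  exact h1.trans ((Gmap_homotopic J).symm.comp_right b)

end SData

/-- `G_0` explicitly: constant plane, vector `-b` in the second coordinates -/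
theorem Gmap_zero_coe (J : Type*) [Fintype J] [DecidableEq J] (b : J → ℂ) :
    Gmap J 0 (b : OnePoint (J → ℂ)) =
      ((Th.of (blockDiagonal fun _ : J => !![0, 0; 0, 1])
        (fun x : Fin 2 × J => if x.1 = 1 then -(b x.2) else 0)
        (isPr_blockDiagonal fun _ => by
          refine ⟨?_, ?_, ?_⟩
          · ext i j; fin_cases i <;> fin_cases j <;> simp
          · ext i j; fin_cases i <;> fin_cases j <;> simp
          · simp [Matrix.trace, Fin.sum_univ_two])
        (by
          funext ⟨i, j⟩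
          rw [blockDiagonal_mulVec_apply]
          fin_cases i <;> simp) : Th (Fintype.card J) (Fin 2 × J)) : OnePoint _) := by
  refine Th.of_congr ?_ ?_
  · congr 1
    funext j
    have : un 0 (b j) = 1 := by simp [un]
    rw [ul, this]
    ext i k
    fin_cases i <;> fin_cases k <;> simp [ub, vecMulVec_apply]
  · funext ⟨i, j⟩
    fin_cases i <;> simp [Gvec, ub]

end Crest.Agent.R090.I0core275
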