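import Crest.Agent.R090.Inj_812
import Crest.Agent.R090.QU_389

/-!
# Row 90, leaf A-INJ (2): `Inj` for the spaces of the power construction (owner helper812)
-/

set_option autoImplicit false

open Topology Filter Set

namespace Crest.Agent.R090.Inj812

open OnePoint
open Crest.Agent.R090.Sp962
open Crest.Agent.R090.Pi568
open Crest.Agent.R090.Orb389
open Crest.Agent.R090.QU389

universe u v w

/-- the reduced power -/
theorem Inj.QU {q : ℕ} [NeZero q] {U : Type u} [TopologicalSpace U] [T2Space U]
    [LocallyCompactSpace U] (h : Inj U) : Inj (QU389.QU q U) :=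
  h.nonconst (ZMod q)

/-- orbit spaces -/
theorem Inj.orb {G : Type v} [Group G] [Finite G] {W : Type u} [TopologicalSpace W]
    [T2Space W] [LocallyCompactSpace W] [MulAction G W] [ContinuousConstSMul G W]
    (h : Inj W) : Inj (Orb G W) :=
  h.quot (G := G)

/-- **the power construction**: `(QU q U × S) / Cq q`, for any `S` with `Inj S` -/
theorem Inj.orb_QU_prod {q : ℕ} [NeZero q] {U : Type u} [TopologicalSpace U] [T2Space U]
    [LocallyCompactSpace U] (h : Inj U) {S : Type v} [TopologicalSpace S] [T2Space S]
    [LocallyCompactSpace S] [MulAction (Cq q) S] [ContinuousConstSMul (Cq q) S]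
    [LocallyCompactSpace (QU389.QU q U)] [ContinuousConstSMul (Cq q) (QU389.QU q U × S)]
    (hS : Inj S) : Inj (Orb (Cq q) (QU389.QU q U × S)) :=
  (h.QU.prod hS).orb

/-- compact subsets of a finite dimensional space (spheres) -/
theorem Inj.closed_fd {E : Type w} [NormedAddCommGroup E] [NormedSpace ℝ E]
    [FiniteDimensional ℝ E] {S : Set E} (hS : IsClosed S) : Inj S :=
  Inj.of_closedEmbedding _ hS.isClosedEmbedding_subtypeVal

end Crest.Agent.R090.Inj812
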