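import Crest.Agent.R090.Kun2_493
import Crest.Agent.R090.PiNat_568

/-!
# Row 90, block HOM: words of classes on powers (owner helper493)

* `crP X n : MultilinearMap F (fun _ : Fin n => h U) (h (Fin n → U))`, the iterated cross product;
* `crP_eps`, `crP_pow` : parity and naturality;
* `basisP` : for `U` in the Künneth class the words of a basis are a basis;
* `crPi X e`, `basisPi` : the same for an index type `ι` with `e : Fin n ≃ ι`.
-/

set_option autoImplicit false
set_option linter.unusedSectionVars false

namespace Crest.Agent.R090.Kun493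

open Topology Set OnePoint TensorProduct Module Crest.Agent.R090.Sp962 Crest.Agent.R090.CohT253
open Crest.Agent.R090.HSt285 Crest.Agent.R090.AClass923 Crest.Agent.R090.Pi568

variable {F : Type} [Field F] {H : CohX F} (X : KX H)

variable {U V W : Type} [TopologicalSpace U] [T2Space U] [LocallyCompactSpace U]
  [TopologicalSpace V] [T2Space V] [LocallyCompactSpace V]
  [TopologicalSpace W] [T2Space W] [LocallyCompactSpace W]

/-- head and tail of a power -/
abbrev fs (U : Type) [TopologicalSpace U] (n : ℕ) : (Fin (n + 1) → U) ≃ₜ U × (Fin n → U) :=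
  finSucc (fun _ => U)

/-- the empty power is a point -/
abbrev f0 (U : Type) [TopologicalSpace U] : (Fin 0 → U) ≃ₜ Unit :=
  Homeomorph.homeomorphOfUnique (Fin 0 → U) Unit

variable (U) in
/-- iterated cross product -/
noncomputable def crP : (n : ℕ) → MultilinearMap F (fun _ : Fin n => H.h U) (H.h (Fin n → U))
  | 0 => MultilinearMap.constOfIsEmpty F _ (H.map (PMap.ofHomeo (f0 U)) X.one)
  | n + 1 => LinearMap.uncurryLeft
      { toFun := fun a => ((H.map (PMap.ofHomeo (fs U n))) ∘ₗ
          (H.cr U (Fin n → U) a)).compMultilinearMap (crP n)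
        map_add' := fun a b => by
          ext v
          simp
        map_smul' := fun r a => by
          ext v
          simp }

theorem crP_zero (v : Fin 0 → H.h U) : crP X U 0 v = H.map (PMap.ofHomeo (f0 U)) X.one := rfl

theorem crP_succ (n : ℕ) (v : Fin (n + 1) → H.h U) : crP X U (n + 1) v =
    H.map (PMap.ofHomeo (fs U n)) (H.cr U (Fin n → U) (v 0) (crP X U n (fun i => v i.succ))) := rfl

/-- parity -/
theorem crP_eps (n : ℕ) (v : Fin n → H.h U) :
    H.eps (Fin n → U) (crP X U n v) = crP X U n (fun i => H.eps U (v i)) := by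
  induction n with
  | zero => rw [crP_zero, crP_zero, H.eps_map, X.eps_one]
  | succ n ih => rw [crP_succ, crP_succ, H.eps_map, H.eps_cr, ih]

/-- naturality -/
theorem crP_pow (f : PMap U V) (n : ℕ) (v : Fin n → H.h V) :
    H.map (pow (Fin n) f) (crP X V n v) = crP X U n (fun i => H.map f (v i)) := by
  induction n with
  | zero =>
    rw [crP_zero, crP_zero, ← H.map_comp]
    congr 1
    refine congrArg _ (PMap.ext fun x => ?_)
    have : (PMap.ofHomeo (f0 V)).comp (pow (Fin 0) f) (x : OnePoint (Fin 0 → U)) =
        PMap.ofHomeo (f0 V) (smPi (fun i : Fin 0 => f (x i))) := rfl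
    rw [this]
    have e : (fun i : Fin 0 => f (x i)) = fun i : Fin 0 => ((i.elim0 : V) : OnePoint V) :=
      funext fun i => i.elim0
    rw [e, smPi_coe]
    rfl
  | succ n ih =>
    rw [crP_succ, crP_succ, ← ih, ← H.cr_map, ← H.map_comp, ← H.map_comp]
    congr 1
    exact congrArg _ (finSucc_pi (fun _ => f))

section basis

variable {J : Type*}

/-- the unit class spans the cohomology of the point -/
noncomputable def oneEquiv : F ≃ₗ[F] H.h Unit :=
  LinearEquiv.ofBijective (LinearMap.toSpanSingleton F (H.h Unit) X.one) (by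
    constructor
    · intro r s hrs
      simp only [LinearMap.toSpanSingleton_apply] at hrs
      have h1 : (r - s) • X.one = 0 := by rw [sub_smul, hrs, sub_self]
      exact sub_eq_zero.1 ((smul_eq_zero.1 h1).resolve_right X.one_ne)
    · intro x
      obtain ⟨r, rfl⟩ := X.one_gen x
      exact ⟨r, rfl⟩)

/-- isomorphism of a homeomorphism -/
noncomputable def homeoEquiv (e : U ≃ₜ V) : H.h V ≃ₗ[F] H.h U :=
  LinearEquiv.ofBijective (H.map (PMap.ofHomeo e)) (map_homeo_bijective e)

theorem homeoEquiv_apply (e : U ≃ₜ V) (x : H.h V) :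
    homeoEquiv e x = H.map (PMap.ofHomeo e) x := rfl

/-- words of a basis -/
noncomputable def basisP (hU : KU H U) (b : Basis J F (H.h U)) :
    (n : ℕ) → Basis (Fin n → J) F (H.h (Fin n → U))
  | 0 => (Basis.singleton (Fin 0 → J) F).map ((oneEquiv X).trans (homeoEquiv (f0 U)))
  | n + 1 => (((b.tensorProduct (basisP hU b n)).map
      ((LinearEquiv.ofBijective (crT H U (Fin n → U)) (hU _)).trans
        (homeoEquiv (fs U n))))).reindex (Fin.consEquiv (fun _ : Fin (n + 1) => J))

theorem basisP_apply (hU : KU H U) (b : Basis J F (H.h U)) (n : ℕ) (w : Fin n → J) :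
    basisP X hU b n w = crP X U n (fun i => b (w i)) := by
  induction n with
  | zero =>
    rw [crP_zero, basisP, Basis.map_apply, Basis.singleton_apply, LinearEquiv.trans_apply,
      homeoEquiv_apply]
    congr 1
    exact one_smul F X.one
  | succ n ih =>
    rw [crP_succ, basisP, Basis.reindex_apply, Basis.map_apply, LinearEquiv.trans_apply,
      homeoEquiv_apply, Basis.tensorProduct_apply', ih]
    congr 1

/-- a basis of the cohomology of a finite power -/
theorem basisP_coe (hU : KU H U) (b : Basis J F (H.h U)) (n : ℕ) :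
    ⇑(basisP X hU b n) = fun w => crP X U n (fun i => b (w i)) :=
  funext fun w => basisP_apply X hU b n w

end basis

/-! ### general index types -/

section pi

variable {ι : Type} [Finite ι] {n : ℕ}

/-- iterated cross product over an index type with an enumeration -/
noncomputable def crPi (e : Fin n ≃ ι) : MultilinearMap F (fun _ : ι => H.h U) (H.h (ι → U)) :=
  (H.map (PMap.ofHomeo (reixc U e))).compMultilinearMap ((crP X U n).domDomCongr e)

theorem crPi_apply (e : Fin n ≃ ι) (v : ι → H.h U) :
    crPi X e v = H.map (PMap.ofHomeo (reixc U e)) (crP X U n (fun i => v (e i))) := rfl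

theorem crPi_eps (e : Fin n ≃ ι) (v : ι → H.h U) :
    H.eps (ι → U) (crPi X e v) = crPi X e (fun i => H.eps U (v i)) := by
  rw [crPi_apply, crPi_apply, H.eps_map, crP_eps]

theorem crPi_pow (e : Fin n ≃ ι) (f : PMap U V) (v : ι → H.h V) :
    H.map (pow ι f) (crPi X e v) = crPi X e (fun i => H.map f (v i)) := by
  rw [crPi_apply, crPi_apply, ← crP_pow, ← H.map_comp, ← H.map_comp, reixc_pow]

/-- words of a basis, general index type -/
noncomputable def basisPi {J : Type*} (hU : KU H U) (b : Basis J F (H.h U)) (e : Fin n ≃ ι) :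
    Basis (ι → J) F (H.h (ι → U)) :=
  ((basisP X hU b n).map (homeoEquiv (reixc U e))).reindex (Equiv.arrowCongr e (Equiv.refl J))

theorem basisPi_apply {J : Type*} (hU : KU H U) (b : Basis J F (H.h U)) (e : Fin n ≃ ι)
    (w : ι → J) : basisPi X hU b e w = crPi X e (fun i => b (w i)) := by
  rw [basisPi, Basis.reindex_apply, Basis.map_apply, homeoEquiv_apply, crPi_apply, basisP_apply]
  rfl

end pi

end Crest.Agent.R090.Kun493
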