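import Crest.Agent.R090.Kun2_493
import Crest.Agent.R090.ATrace_253

/-!
# Row 90, block HOM/A-TRACE: helper285's `CohX` gives helper253's `Cross`; the trace formula for the
class `CC` (owner helper493)
-/

set_option autoImplicit false
set_option linter.unusedSectionVars false

namespace Crest.Agent.R090.Kun493

open Topology Set OnePoint TensorProduct Crest.Agent.R090.Sp962 Crest.Agent.R090.CohT253
open Crest.Agent.R090.HSt285 Crest.Agent.R090.QU389 Crest.Agent.R090.Orb389

variable {F : Type} [Field F] (H : CohX F)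

theorem comm_comm {U V : Type} [TopologicalSpace U] [TopologicalSpace V] (x : H.h (U × V)) :
    H.map (PMap.ofHomeo (Homeomorph.prodComm U V))
      (H.map (PMap.ofHomeo (Homeomorph.prodComm V U)) x) = x := by
  rw [← H.map_comp, PMap.ofHomeo_comp]
  have e : PMap.ofHomeo ((Homeomorph.prodComm U V).trans (Homeomorph.prodComm V U)) =
      PMap.id (U × V) := PMap.ext fun _ => rfl
  rw [e, H.map_id]

/-- the cross product of helper285 in the form of helper253 -/
noncomputable def toCross : Cross H.toCoh where
  x {U V} _ _ _ _ _ _ := H.cr U V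
  nat f g a b := H.cr_map f g a b
  assoc a b c := H.cr_assoc a b c
  eps_x a b := H.eps_cr a b
  comm_even {U V} _ _ _ _ _ _ a b ha := by
    have h := H.cr_comm_even a b ha
    exact (congrArg _ h.symm).trans (comm_comm H _)
  comm_odd {U V} _ _ _ _ _ _ a b ha := by
    have h := H.cr_comm_odd a (H.eps V b) ha
    rw [H.eps_eps] at h
    exact (congrArg _ h.symm).trans (comm_comm H _)

variable {H}

theorem kue {U : Type} [TopologicalSpace U] [T2Space U] [LocallyCompactSpace U] (hU : KU H U)
    (V : Type) [TopologicalSpace V] [T2Space V] [LocallyCompactSpace V] :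
    (toCross H).Kue U V := hU V

/-- **the trace formula** for a space of the class `CC` -/
theorem trace_formula_CC {q : ℕ} [Fact q.Prime] (h2 : (2 : F) ≠ 0) (hq0 : (q : F) ≠ 0)
    {U : Type} [TopologicalSpace U] [T2Space U] [LocallyCompactSpace U] (hU : CC H U)
    {E : Type} [TopologicalSpace E] [T2Space E] [LocallyCompactSpace E] [MulAction (Cq q) E]
    [ContinuousConstSMul (Cq q) E]
    (hQ : H.toCoh.QInv (actA (Cq q) E) (Orb.pr (Cq q) E)) (hE : H.Fin E)
    (π : PMap E (QU q U)) (s : PMap (QU q U) E)
    (hs : π.comp s = PMap.id _) (hπe : Equi (Cq q) π) (hse : Equi (Cq q) s) (φ : PMap U U)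
    (f' : PMap (Orb (Cq q) E) (Orb (Cq q) E))
    (hf' : f'.comp (Orb.pr (Cq q) E) = (Orb.pr (Cq q) E).comp (s.comp ((QU.map q φ).comp π))) :
    (q : F) * H.L f' = H.L φ ^ q + ((q : F) - 1) * H.L (Cross.iter φ q) - q * H.L φ :=
  trace_formula (toCross H) h2 hq0 (fun _ => hU.ku _) hU.fin hQ hE π s hs hπe hse φ f' hf'

end Crest.Agent.R090.Kun493
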