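import Crest.Agent.R090.AS2_58
import Crest.Agent.R090.AS1_412

/-!
# Row 90, HOM: the exact triangle of a closed pair on list cochains, part 1 (owner helper412)

Cochains are `List X → F` (58's complex).  `Spp F A` : cochains vanishing on small lists close to
`A`.  For `X` compact Hausdorff and `A` closed:

* `mem_Spp_loc` local characterisation;
* `Lr i x₀` : cochains in `Spp {x₀}` whose restriction along `i` is locally zero;
* `taut` : `H(Spp A / Z) → H(Lr / Z)` bijective (discontinuous nearest point retraction);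
* `res_bij` : restriction `H(Spp {x₀} / Lr) → H(Spp {k₀} / Z)` bijective (extension by zero);
* `col_bij` : `pull q : H(Spp {q₀} / Z) → H(Spp A / Z)` bijective for the collapse `q`.
-/

set_option autoImplicit false
set_option linter.unusedSectionVars false

open Topology Filter Set

namespace Crest.Agent.R090.Les412

open Crest.Agent.R090.AS58

/-! ## bijections of subquotient homology -/

section bij

variable {k : Type*} {E E' : Type*} [CommRing k] [AddCommGroup E] [Module k E] [AddCommGroup E']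
  [Module k E'] {d : E →ₗ[k] E} {M Z : Submodule k E} {d' : E' →ₗ[k] E'} {M' Z' : Submodule k E'}

/-- isomorphism of quotient complexes -/
theorem sq_bij (f : E →ₗ[k] E') (h : AS412.SQ.Ok d M Z d' M' Z' f)
    (hdM : ∀ x ∈ M, d x ∈ M) (hdZ : ∀ x ∈ Z', d' x ∈ Z')
    (hi : ∀ x ∈ M, f x ∈ Z' → x ∈ Z) (hs : ∀ y ∈ M', ∃ x ∈ M, y - f x ∈ Z') :
    Function.Bijective (AS412.SQ.map f h) := by
  constructor
  · rw [injective_iff_map_eq_zero]
    intro a ha
    obtain ⟨x, hM, hd, rfl⟩ := AS412.SQ.mk_surj a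
    obtain ⟨h1, h2, e1⟩ := AS412.SQ.map_mk f h x hM hd
    rw [e1, AS412.SQ.mk_eq_zero] at ha
    obtain ⟨y, hy, hxy⟩ := ha
    obtain ⟨w, hw, hyw⟩ := hs y hy
    rw [AS412.SQ.mk_eq_zero]
    refine ⟨w, hw, hi _ (sub_mem hM (hdM _ hw)) ?_⟩
    have h3 := hdZ _ hyw
    have h4 := h.hd _ hw
    have e : f (x - d w) = (f x - d' y) + (d' (y - f w)) - (f (d w) - d' (f w)) := by
      simp only [map_sub]; abel
    rw [e]
    exact sub_mem (add_mem hxy h3) h4
  · intro b
    obtain ⟨y, hM, hd, rfl⟩ := AS412.SQ.mk_surj b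
    obtain ⟨x, hx, hxy⟩ := hs y hM
    have h1 : f (d x) ∈ Z' := by
      have h3 := hdZ _ hxy
      have h4 := h.hd _ hx
      have e : f (d x) = (f (d x) - d' (f x)) + (d' y - d' (y - f x)) := by
        simp only [map_sub]; abel
      rw [e]
      exact add_mem h4 (sub_mem hd h3)
    refine ⟨AS412.SQ.mk x hx (hi _ (hdM _ hx) h1), ?_⟩
    obtain ⟨h5, h6, e1⟩ := AS412.SQ.map_mk f h x hx (hi _ (hdM _ hx) h1)
    rw [e1]
    refine AS412.SQ.mk_congr ?_
    have := neg_mem hxy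
    simpa using this

/-- inclusion of subcomplexes with acyclic quotient -/
theorem sq_incl_bij {L : Submodule k E} (hLM : L ≤ M) (hZL : Z ≤ L) (hdd : ∀ x, d (d x) = 0)
    (H : ∀ x ∈ M, d x ∈ L → ∃ y ∈ M, x - d y ∈ L) :
    Function.Bijective (AS412.SQ.incl d Z hLM) := by
  constructor
  · rw [injective_iff_map_eq_zero]
    intro a ha
    obtain ⟨x, hL, hd, rfl⟩ := AS412.SQ.mk_surj a
    change (AS412.SQ.mk x (hLM hL) hd : AS412.SQ d M Z) = 0 at ha
    rw [AS412.SQ.mk_eq_zero] at ha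
    obtain ⟨y, hy, hxy⟩ := ha
    have h1 : d y ∈ L := by
      have := sub_mem hL (hZL hxy)
      simpa using this
    obtain ⟨w, hw, hyw⟩ := H y hy h1
    rw [AS412.SQ.mk_eq_zero]
    refine ⟨y - d w, hyw, ?_⟩
    rw [map_sub, hdd, sub_zero]
    exact hxy
  · intro b
    obtain ⟨x, hM, hd, rfl⟩ := AS412.SQ.mk_surj b
    obtain ⟨y, hy, hxy⟩ := H x hM (hZL hd)
    have h1 : d (x - d y) ∈ Z := by rw [map_sub, hdd, sub_zero]; exact hd
    refine ⟨AS412.SQ.mk (x - d y) hxy h1, ?_⟩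
    change (AS412.SQ.mk (x - d y) (hLM hxy) h1 : AS412.SQ d M Z) = _
    rw [AS412.SQ.mk_eq_mk]
    exact ⟨-y, neg_mem hy, by simp⟩

end bij

/-! ## local characterisation of supports -/

section supports

variable {F : Type} [CommRing F] {X : Type} [TopologicalSpace X]

theorem LZ_eq_Sp : LZ F X = Sp F (univ : Set X) := by
  ext φ
  rw [mem_LZ, mem_Sp]
  constructor
  · rintro ⟨W, hW, h⟩
    exact ⟨univ, univ_mem, W, hW, fun l _ hl => h l hl⟩
  · rintro ⟨N, hN, W, hW, h⟩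
    refine ⟨W, hW, fun l hl => h l (fun x _ => ?_) hl⟩
    exact subset_of_mem_nhdsSet hN (mem_univ _)

theorem diag_nhds {W : Set (X × X)} (hW : W ∈ 𝓝ˢ (diagonal X)) (x : X) :
    ∃ N ∈ 𝓝 x, ∀ a ∈ N, ∀ b ∈ N, (a, b) ∈ W := by
  have h : W ∈ 𝓝 (x, x) := mem_nhdsSet_iff_forall.1 hW (x, x) rfl
  rw [nhds_prod_eq] at h
  obtain ⟨N, hN, N', hN', h⟩ := Filter.mem_prod_iff.1 h
  exact ⟨N ∩ N', inter_mem hN hN', fun a ha b hb => h ⟨ha.1, hb.2⟩⟩

theorem exists_lebesgue [CompactSpace X] [T2Space X] {A : Set X} (hA : IsClosed A)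
    (N : X → Set X) (hN : ∀ a ∈ A, N a ∈ 𝓝 a) :
    ∃ W ∈ 𝓝ˢ (diagonal X), ∃ M ∈ 𝓝ˢ A, ∀ x ∈ M, ∃ a ∈ A, ∀ y, (x, y) ∈ W → y ∈ N a :=
  AS412.exists_lebesgue hA N hN

/-- **local characterisation of supports** -/
theorem mem_Sp_loc [CompactSpace X] [T2Space X] {A : Set X} (hA : IsClosed A)
    {φ : List X → F} : φ ∈ Sp F A ↔ φ [] = 0 ∧
      ∀ a ∈ A, ∃ N ∈ 𝓝 a, ∀ l : List X, Inn N l → φ l = 0 := by
  constructor
  · intro h
    refine ⟨Sp_nil h, fun a ha => ?_⟩
    exact mem_Sp_singleton.1 (Sp_anti (singleton_subset_iff.2 ha) h)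
  · rintro ⟨h0, h⟩
    choose! N hN hN' using h
    obtain ⟨W, hW, M, hM, h⟩ := exists_lebesgue hA N hN
    refine ⟨M, hM, W, hW, fun t htM ht => ?_⟩
    rcases t with _ | ⟨x, t⟩
    · exact h0
    · obtain ⟨a, ha, h'⟩ := h x (htM x (by simp))
      exact hN' a ha _ fun i hi => h' _ (ht x (by simp) i hi)

theorem mem_LZ_loc [CompactSpace X] [T2Space X] {φ : List X → F} : φ ∈ LZ F X ↔ φ [] = 0 ∧
      ∀ a, ∃ N ∈ 𝓝 a, ∀ l : List X, Inn N l → φ l = 0 := by
  rw [LZ_eq_Sp, mem_Sp_loc isClosed_univ]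
  simp

end supports

/-! ## the cohomology of a closed set, a general closed pair -/

section pair

variable {F : Type} [CommRing F] {X K Q : Type} [TopologicalSpace X] [TopologicalSpace K]
  [TopologicalSpace Q]

/-- cochains supported off `x₀` whose restriction along `i` is locally zero -/
def Lr (F : Type) [CommRing F] (i : K → X) (x₀ : X) : Submodule F (List X → F) :=
  Sp F {x₀} ⊓ (LZ F K).comap (pull i)

theorem mem_Lr {i : K → X} {x₀ : X} {φ : List X → F} :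
    φ ∈ Lr F i x₀ ↔ φ ∈ Sp F {x₀} ∧ pull i φ ∈ LZ F K := Iff.rfl

theorem Lr_le {i : K → X} {x₀ : X} : Lr F i x₀ ≤ Sp F {x₀} := inf_le_left

theorem d_mem_Lr {i : K → X} {x₀ : X} {φ : List X → F} (h : φ ∈ Lr F i x₀) :
    d φ ∈ Lr F i x₀ := by
  refine ⟨d_mem_Sp h.1, ?_⟩
  change pull i (d φ) ∈ LZ F K
  rw [← d_pull]
  exact d_mem_LZ h.2

theorem ev_mem_Lr {i : K → X} {x₀ : X} {φ : List X → F} (h : φ ∈ Lr F i x₀) :
    ev φ ∈ Lr F i x₀ := by
  refine ⟨ev_mem_Sp h.1, ?_⟩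
  change pull i (ev φ) ∈ LZ F K
  rw [← ev_pull]
  exact ev_mem_LZ h.2

theorem Sp_range_le_Lr {i : K → X} (hi : Continuous i) {x₀ : X} (hx : x₀ ∈ range i) :
    Sp F (range i) ≤ Lr F i x₀ := fun φ h =>
  ⟨Sp_anti (singleton_subset_iff.2 hx) h, show pull i φ ∈ LZ F K by
    rw [LZ_eq_Sp]; exact pull_mem_Sp hi (fun x _ => mem_range_self x) h⟩

theorem LZ_le_Lr {i : K → X} (hi : Continuous i) {x₀ : X} (hx : x₀ ∈ range i) :
    LZ F X ≤ Lr F i x₀ := (LZ_le_Sp _).trans (Sp_range_le_Lr hi hx)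

open Classical in
/-- extension by zero -/
noncomputable def extz (i : K → X) (j : X → K) (ψ : List K → F) : List X → F :=
  fun l => if ∀ x ∈ l, x ∈ range i then ψ (l.map j) else 0

/-- **restriction is surjective on cochains** -/
theorem exists_ext {i : K → X} (hi : IsClosedEmbedding i) {k₀ : K} {ψ : List K → F}
    (h : ψ ∈ Sp F {k₀}) : ∃ φ ∈ Sp F {i k₀}, pull i φ = ψ := by
  classical
  have hne : Nonempty K := ⟨k₀⟩
  set j := Function.invFun i with hj
  have hji : ∀ x, j (i x) = x := Function.leftInverse_invFun hi.injective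
  refine ⟨extz i j ψ, ?_, ?_⟩
  · obtain ⟨N, hN, h⟩ := mem_Sp_singleton.1 h
    have h1 : N ∈ comap i (𝓝 (i k₀)) := by rw [← hi.isInducing.nhds_eq_comap]; exact hN
    obtain ⟨N', hN', h'⟩ := h1
    refine mem_Sp_singleton.2 ⟨N', hN', fun l hl => ?_⟩
    unfold extz
    split_ifs with hr
    · refine h _ fun x hx => ?_
      obtain ⟨y, hy, rfl⟩ := List.mem_map.1 hx
      obtain ⟨z, rfl⟩ := hr y hy
      rw [hji]
      exact h' (hl _ hy)
    · rfl
  · funext l
    simp only [pull_apply, extz]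
    rw [if_pos, List.map_map]
    · congr 1
      have : j ∘ i = id := funext hji
      rw [this, List.map_id]
    · intro x hx
      obtain ⟨y, _, rfl⟩ := List.mem_map.1 hx
      exact mem_range_self y

theorem ok_res {i : K → X} (hi : Continuous i) (k₀ : K) :
    AS412.SQ.Ok (d : (List X → F) →ₗ[F] _) (Sp F {i k₀}) (Lr F i (i k₀)) d (Sp F {k₀}) (LZ F K)
      (pull i) where
  hM φ h := pull_mem_Sp hi (by intro x hx; rw [mem_singleton_iff] at hx ⊢; rw [hx]) h
  hZ φ h := h.2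
  hd φ _ := by rw [d_pull, sub_self]; exact zero_mem _

/-- **restriction**: `H(Spp {x₀} / Lr) ≅ H(K)` -/
theorem res_bij {i : K → X} (hi : IsClosedEmbedding i) {k₀ : K} :
    Function.Bijective (AS412.SQ.map (pull (F := F) i) (ok_res (F := F) hi.continuous k₀)) := by
  refine sq_bij _ _ (fun _ h => d_mem_Sp h) (fun _ h => d_mem_LZ h) (fun _ h1 h2 => ⟨h1, h2⟩) ?_
  intro ψ h
  obtain ⟨φ, h1, h2⟩ := exists_ext hi h
  exact ⟨φ, h1, by rw [h2, sub_self]; exact zero_mem _⟩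

/-! ### tautness -/

/-- nearest point retraction -/
theorem exists_retract [CompactSpace X] [T2Space X] {A : Set X} {V : Set (X × X)}
    (hV : V ∈ 𝓝ˢ (diagonal X)) :
    ∃ (r : X → X) (N : Set X), N ∈ 𝓝ˢ A ∧ (∀ x ∈ N, r x ∈ A) ∧ (∀ x ∈ A, r x = x) ∧
      ∀ x, (x, r x) ∈ V := by
  classical
  set N : Set X := {x | ∃ a ∈ A, (x, a) ∈ V} with hN
  have hdiag : ∀ x, (x, x) ∈ V := fun x => subset_of_mem_nhdsSet hV rfl
  have hNA : N ∈ 𝓝ˢ A := by
    rw [mem_nhdsSet_iff_forall]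
    intro a ha
    obtain ⟨M, hM, h⟩ := diag_nhds hV a
    refine mem_of_superset hM fun x hx => ⟨a, ha, h x hx a (mem_of_mem_nhds hM)⟩
  have hch : ∀ x, ∃ y, (x, y) ∈ V ∧ (x ∈ N → y ∈ A) ∧ (x ∈ A → y = x) := by
    intro x
    by_cases hxA : x ∈ A
    · exact ⟨x, hdiag x, fun _ => hxA, fun _ => rfl⟩
    · by_cases hxN : x ∈ N
      · obtain ⟨a, ha, h⟩ := hxN
        exact ⟨a, h, fun _ => ha, fun h => absurd h hxA⟩
      · exact ⟨x, hdiag x, fun h => absurd h hxN, fun _ => rfl⟩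
  choose r h1 h2 h3 using hch
  exact ⟨r, N, hNA, h2, h3, h1⟩

/-- `V ∘ W ∘ V ⊆ W'` for small neighbourhoods of the diagonal -/
theorem exists_comp3 [CompactSpace X] [T2Space X] {W : Set (X × X)}
    (hW : W ∈ 𝓝ˢ (diagonal X)) :
    ∃ V ∈ 𝓝ˢ (diagonal X), (∀ x y, (x, y) ∈ V → (y, x) ∈ V) ∧
      ∀ x y z w, (x, y) ∈ V → (y, z) ∈ V → (z, w) ∈ V → (x, w) ∈ W := by
  let _ := uniformSpaceOfCompactR1 (γ := X)
  have hU : uniformity X = 𝓝ˢ (diagonal X) := nhdsSet_diagonal_eq_uniformity.symm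
  rw [← hU] at hW ⊢
  obtain ⟨V, hV, hs, hc⟩ := comp_comp_symm_mem_uniformity_sets hW
  refine ⟨V, hV, fun x y h => ?_, fun x y z w h1 h2 h3 => ?_⟩
  · exact hs.symm _ _ h
  · exact hc (SetRel.prodMk_mem_comp (SetRel.prodMk_mem_comp h1 h2) h3)

/-- smallness on a closed subspace -/
theorem exists_small [CompactSpace X] [T2Space X] {i : K → X} (hi : IsClosedEmbedding i)
    {φ : List X → F} (hr : pull i φ ∈ LZ F K) : ∃ W ∈ 𝓝ˢ (diagonal X), ∀ l : List X,
      (∀ x ∈ l, x ∈ range i) → Sm W l → φ l = 0 := by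
  have h0 : φ [] = 0 := by
    have := LZ_nil hr
    simpa using this
  obtain ⟨WK, hWK, hr⟩ := mem_LZ.1 hr
  have key : ∀ a ∈ range i, ∃ N ∈ 𝓝 a, ∀ l : List X, (∀ x ∈ l, x ∈ range i) →
      (∀ x ∈ l, x ∈ N) → φ l = 0 := by
    rintro _ ⟨k, rfl⟩
    obtain ⟨M, hM, h⟩ := diag_nhds hWK k
    have h1 : M ∈ comap i (𝓝 (i k)) := by rw [← hi.isInducing.nhds_eq_comap]; exact hM
    obtain ⟨N, hN, hNM⟩ := h1
    refine ⟨N, hN, fun l hl hlN => ?_⟩
    have h2 : ∃ m : List K, m.map i = l := by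
      clear hlN
      induction l with
      | nil => exact ⟨[], rfl⟩
      | cons x l ih =>
        obtain ⟨y, hy⟩ := hl x (by simp)
        obtain ⟨m, hm⟩ := ih fun z hz => hl z (by simp [hz])
        exact ⟨y :: m, by simp [hy, hm]⟩
    obtain ⟨m, rfl⟩ := h2
    refine hr m fun x hx y hy => h x ?_ y ?_
    · exact hNM (hlN _ (List.mem_map_of_mem hx))
    · exact hNM (hlN _ (List.mem_map_of_mem hy))
  choose! N hN hN' using key
  obtain ⟨W, hW, M, hM, h⟩ := exists_lebesgue hi.isClosed_range N hN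
  refine ⟨W, hW, fun l hl hs => ?_⟩
  rcases l with _ | ⟨x, l⟩
  · exact h0
  · have hx : x ∈ range i := hl x (by simp)
    obtain ⟨a, ha, h'⟩ := h x (subset_of_mem_nhdsSet hM hx)
    exact hN' a ha _ hl fun y hy => h' _ (hs x (by simp) y hy)

/-- **tautness** -/
theorem taut_aux [CompactSpace X] [T2Space X] {i : K → X} (hi : IsClosedEmbedding i)
    {x₀ : X} (φ : List X → F) (h : φ ∈ Lr F i x₀)
    (hd : d φ ∈ Sp F (range i)) : ∃ ψ ∈ Lr F i x₀, φ - d ψ ∈ Sp F (range i) := by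
  obtain ⟨hM, hr⟩ := h
  obtain ⟨N₀, hN₀, hM⟩ := mem_Sp_singleton.1 hM
  obtain ⟨W₁, hW₁, hr⟩ := exists_small hi hr
  obtain ⟨N₂, hN₂, W₂, hW₂, hd⟩ := hd
  obtain ⟨W₀, hW₀, M₀, hM₀, h₀⟩ := exists_lebesgue (isClosed_singleton (x := x₀)) (fun _ => N₀)
    (by rintro a rfl; exact hN₀)
  rw [nhdsSet_singleton] at hM₀
  obtain ⟨V, hV, hsym, hcomp⟩ := exists_comp3 (inter_mem hW₀ (inter_mem hW₁ hW₂))
  have hVd : ∀ x, (x, x) ∈ V := fun x => subset_of_mem_nhdsSet hV rfl
  obtain ⟨r, N, hN, hrA, hrid, hrV⟩ := exists_retract (A := range i) hV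
  -- mixed lists are small
  have hmix : ∀ l : List X, Sm V l → Sm (W₀ ∩ (W₁ ∩ W₂)) (l.map id ++ l.map r) := by
    intro l hl
    have hh : ∀ a ∈ l.map id ++ l.map r, ∃ x ∈ l, (x, a) ∈ V := by
      intro a ha
      rcases List.mem_append.1 ha with ha | ha
      · obtain ⟨x, hx, rfl⟩ := List.mem_map.1 ha
        exact ⟨x, hx, hVd _⟩
      · obtain ⟨x, hx, rfl⟩ := List.mem_map.1 ha
        exact ⟨x, hx, hrV _⟩
    intro a ha b hb
    obtain ⟨x, hx, hxa⟩ := hh a ha
    obtain ⟨y, hy, hyb⟩ := hh b hb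
    exact hcomp _ _ _ _ (hsym _ _ hxa) (hl x hx y hy) hyb
  refine ⟨-pr id r φ, ⟨?_, ?_⟩, ?_⟩
  · refine neg_mem (mem_Sp_singleton.2 ⟨M₀ ∩ N₀, inter_mem hM₀ hN₀, fun l hl => ?_⟩)
    refine pr_eq_zero fun m hm => hM m fun y hy => ?_
    rcases List.mem_append.1 (hm hy) with hy | hy
    · obtain ⟨x, hx, rfl⟩ := List.mem_map.1 hy
      exact (hl x hx).2
    · obtain ⟨x, hx, rfl⟩ := List.mem_map.1 hy
      obtain ⟨a, ha, h'⟩ := h₀ x (hl x hx).1
      exact h' _ (hcomp _ _ _ _ (hVd _) (hVd _) (hrV x)).1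
  · change pull i (-pr id r φ) ∈ LZ F K
    rw [map_neg]
    refine neg_mem (mem_LZ.2 ?_)
    have h1 : Tendsto (Prod.map i i) (𝓝ˢ (diagonal K)) (𝓝ˢ (diagonal X)) := by
      refine (hi.continuous.prodMap hi.continuous).tendsto_nhdsSet ?_
      rintro ⟨a, b⟩ hab
      simp only [mem_diagonal_iff] at hab ⊢
      simp [hab]
    refine ⟨_, h1 hV, fun l hl => ?_⟩
    have hl' : Sm V (l.map i) := by
      intro x hx y hy
      obtain ⟨x', hx', rfl⟩ := List.mem_map.1 hx
      obtain ⟨y', hy', rfl⟩ := List.mem_map.1 hy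
      exact hl x' hx' y' hy'
    rw [pull_apply]
    refine pr_eq_zero fun m hm => ?_
    refine hr m (fun y hy => ?_) (((hmix _ hl').sub hm).mono (fun p hp => hp.2.1))
    rcases List.mem_append.1 (hm hy) with hy | hy
    · obtain ⟨x, hx, rfl⟩ := List.mem_map.1 hy
      obtain ⟨z, _, rfl⟩ := List.mem_map.1 hx
      exact mem_range_self z
    · obtain ⟨x, hx, rfl⟩ := List.mem_map.1 hy
      obtain ⟨z, _, rfl⟩ := List.mem_map.1 hx
      rw [hrid _ (mem_range_self z)]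
      exact mem_range_self z
  · have e : φ - d (-pr id r φ) = pull r φ - pr id r (d φ) := by
      have h1 := prism id r φ
      rw [map_neg, sub_neg_eq_add]
      rw [pull_id] at h1
      have h2 : pull r φ = φ + (d (pr id r φ) + pr id r (d φ)) := by rw [← h1]; abel
      rw [h2]; abel
    rw [e]
    refine ⟨N ∩ N₂, inter_mem hN hN₂, V, hV, fun l hlN hl => ?_⟩
    rw [Pi.sub_apply, pull_apply, hr, pr_eq_zero, sub_zero]
    · intro m hm
      refine hd m (fun y hy => ?_) (((hmix _ hl).sub hm).mono fun p hp => hp.2.2)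
      rcases List.mem_append.1 (hm hy) with hy | hy
      · obtain ⟨x, hx, rfl⟩ := List.mem_map.1 hy
        exact (hlN x hx).2
      · obtain ⟨x, hx, rfl⟩ := List.mem_map.1 hy
        exact subset_of_mem_nhdsSet hN₂ (hrA _ (hlN x hx).1)
    · intro y hy
      obtain ⟨x, hx, rfl⟩ := List.mem_map.1 hy
      exact hrA _ (hlN x hx).1
    · refine ((hmix _ hl).sub ?_).mono (fun p hp => hp.2.1)
      intro y hy
      exact List.mem_append.2 (Or.inr hy)

/-- **tautness**: `H(Spp A / Z) ≅ H(Lr / Z)` -/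
theorem taut [CompactSpace X] [T2Space X] {i : K → X} (hi : IsClosedEmbedding i)
    {x₀ : X} (hx₀ : x₀ ∈ range i) :
    Function.Bijective (AS412.SQ.incl (d : (List X → F) →ₗ[F] _) (LZ F X)
      (Sp_range_le_Lr hi.continuous hx₀)) :=
  sq_incl_bij _ (LZ_le_Sp _) d_d fun φ h hd => taut_aux hi φ h hd

/-! ### collapse -/

theorem tube {q : X → Q} (hq : IsClosedMap q) {y : Q} {N : Set X} (hN : N ∈ 𝓝ˢ (q ⁻¹' {y})) :
    ∃ M ∈ 𝓝 y, ∀ x, q x ∈ M → x ∈ N := by
  rw [mem_nhdsSet_iff_exists] at hN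
  obtain ⟨O, hO, h1, h2⟩ := hN
  refine ⟨(q '' Oᶜ)ᶜ, (hq _ hO.isClosed_compl).isOpen_compl.mem_nhds ?_, ?_⟩
  · rintro ⟨x, hx, rfl⟩
    exact hx (h1 rfl)
  · intro x hx
    by_contra hxN
    exact hx ⟨x, fun hxO => hxN (h2 hxO), rfl⟩

theorem ok_col {q : X → Q} (hq : Continuous q) {A : Set X} {q₀ : Q} (hA : ∀ x ∈ A, q x = q₀) :
    AS412.SQ.Ok (d : (List Q → F) →ₗ[F] _) (Sp F {q₀}) (LZ F Q) d (Sp F A) (LZ F X)
      (pull q) where
  hM φ h := pull_mem_Sp (B := {q₀}) hq (fun x hx => hA x hx) h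
  hZ φ h := pull_mem_LZ hq h
  hd φ _ := by rw [d_pull, sub_self]; exact zero_mem _

/-- **collapse**: `H(Q) ≅ H(Spp A / Z)` -/
theorem col_bij [CompactSpace X] [T2Space X] [CompactSpace Q] [T2Space Q] {q : X → Q}
    (hq : Continuous q) (hs : Function.Surjective q) {A : Set X} {q₀ : Q}
    (hA : ∀ x, q x = q₀ ↔ x ∈ A) (hinj : ∀ x y, x ∉ A → q x = q y → x = y) :
    Function.Bijective (AS412.SQ.map (pull (F := F) q)
      (ok_col (F := F) hq (fun x hx => (hA x).2 hx))) := by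
  classical
  have hqc : IsClosedMap q := hq.isClosedMap
  have hAc : IsClosed A := by
    have : A = q ⁻¹' {q₀} := by ext x; rw [mem_preimage, mem_singleton_iff, hA]
    rw [this]
    exact isClosed_singleton.preimage hq
  have hpre : q ⁻¹' {q₀} = A := by ext x; rw [mem_preimage, mem_singleton_iff, hA]
  refine sq_bij _ _ (fun φ h => d_mem_Sp h) (fun φ h => d_mem_LZ h) ?_ ?_
  · intro φ hφ hφ'
    rw [mem_LZ_loc]
    refine ⟨Sp_nil hφ, fun y => ?_⟩
    by_cases hy : y = q₀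
    · subst hy
      exact mem_Sp_singleton.1 hφ
    · obtain ⟨x, rfl⟩ := hs y
      have hxA : x ∉ A := fun h => hy ((hA x).2 h)
      obtain ⟨N, hN, h⟩ := (mem_LZ_loc.1 hφ').2 x
      have hpre' : q ⁻¹' {q x} = {x} := by
        ext z
        simp only [mem_preimage, mem_singleton_iff]
        exact ⟨fun h => (hinj x z hxA h.symm).symm, fun h => by rw [h]⟩
      obtain ⟨M, hM, hMN⟩ := tube hqc (y := q x) (N := N) (by
        rw [hpre', nhdsSet_singleton]; exact hN)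
      refine ⟨M, hM, fun l hl => ?_⟩
      obtain ⟨m, rfl⟩ : ∃ m : List X, m.map q = l := by
        have := (List.map_surjective_iff.2 hs) l
        exact this
      exact h m fun z hz => hMN z (hl _ (List.mem_map_of_mem hz))
  · rintro φ hφ
    have h0 : φ [] = 0 := Sp_nil hφ
    obtain ⟨N, hN, W, hW, hφ⟩ := hφ
    set s := Function.surjInv hs with hsdef
    have hqs : ∀ y, q (s y) = y := Function.surjInv_eq hs
    set φ₁ : List X → F := fun l => if ∀ x ∈ l, x ∈ N then 0 else φ l with hφ₁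
    have hsq : ∀ x, x ∉ A → s (q x) = x := fun x hx => (hinj x _ hx (hqs _).symm).symm
    have hsqA : ∀ x, x ∈ A → s (q x) ∈ A := fun x hx => by
      rw [← hA, hqs, hA]; exact hx
    have hAN : A ⊆ N := subset_of_mem_nhdsSet hN
    refine ⟨pull s φ₁, ?_, ?_⟩
    · obtain ⟨M, hM, hMN⟩ := tube hqc (y := q₀) (N := N) (by rw [hpre]; exact hN)
      refine mem_Sp_singleton.2 ⟨M, hM, fun l hl => ?_⟩
      rw [pull_apply, hφ₁]
      simp only
      rw [if_pos]
      intro x hx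
      obtain ⟨y, hy, rfl⟩ := List.mem_map.1 hx
      exact hMN _ (by rw [hqs]; exact hl y hy)
    · rw [mem_LZ_loc]
      refine ⟨?_, fun x => ?_⟩
      · simp [hφ₁, h0]
      · obtain ⟨N', hN', hs'⟩ := diag_nhds hW x
        by_cases hx : x ∈ A
        · refine ⟨N' ∩ N, inter_mem hN' (mem_nhdsSet_iff_forall.1 hN x hx), fun l hl => ?_⟩
          rw [Pi.sub_apply, hφ l (fun a ha => (hl a ha).2)
            (fun a ha b hb => hs' a (hl a ha).1 b (hl b hb).1), pull_apply, pull_apply, hφ₁]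
          simp only
          rw [if_pos, sub_zero]
          intro a ha
          simp only [List.map_map, List.mem_map, Function.comp_apply] at ha
          obtain ⟨b, hb, rfl⟩ := ha
          by_cases hbA : b ∈ A
          · exact hAN (hsqA b hbA)
          · rw [hsq b hbA]; exact (hl b hb).2
        · refine ⟨N' ∩ Aᶜ, inter_mem hN' (hAc.isOpen_compl.mem_nhds hx), fun l hl => ?_⟩
          have e : (l.map q).map s = l := by
            rw [List.map_map]
            conv_rhs => rw [← List.map_id l]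
            refine List.map_congr_left fun a ha => ?_
            exact hsq a (hl a ha).2
          rw [Pi.sub_apply, pull_apply, pull_apply, e, hφ₁]
          simp only
          split_ifs with hlN
          · rw [hφ l hlN (fun a ha b hb => hs' a (hl a ha).1 b (hl b hb).1), sub_zero]
          · rw [sub_self]

end pair

end Crest.Agent.R090.Les412
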