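import Crest.Agent.R090.Les_412
import Crest.Agent.R090.Cross_965
import Crest.Agent.R090.CohY_811
import Crest.Agent.R090.OneCr_811

/-!
# Row 90, HOM: the connecting map and the cross product (owner helper412)

* `Cls.del_rep`, `Cls.del_mk` : the connecting map on representatives;
* `del_cross` : `δ x × y = δ (x × y)`;
* `cohY F : CohY811.CohY F` : the complete cohomology theory.
-/

set_option autoImplicit false
set_option linter.unusedSectionVars false

open Topology Filter Set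

namespace Crest.Agent.R090.Les412

open Crest.Agent.R090.AS58

namespace Cls

variable {F : Type} [CommRing F] {X K Q : Type} [TopologicalSpace X] [TopologicalSpace K]
  [TopologicalSpace Q] [CompactSpace X] [T2Space X] [CompactSpace Q] [T2Space Q]
  (C : Cls X K Q)

theorem pull_q_i {ω : List Q → F} (h : ω ∈ Sp F {C.q₀}) : pull C.i (pull C.q ω) = 0 := by
  obtain ⟨N, hN, h⟩ := mem_Sp_singleton.1 h
  funext l
  rw [pull_apply, pull_apply, h]
  · rfl
  · intro x hx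
    obtain ⟨y, hy, rfl⟩ := List.mem_map.1 hx
    obtain ⟨z, _, rfl⟩ := List.mem_map.1 hy
    rw [(C.hA _).2 (mem_range_self z)]
    exact mem_of_mem_nhds hN

theorem d_mem_L {φ : List X → F} {ω : List Q → F} (hω : ω ∈ Zc F {C.q₀}) (h : d φ - pull C.q ω ∈ LZ F X) : d φ ∈ C.L F := by
  have h1 := add_mem (LZ_le_Lr C.hi.continuous C.hx₀ h) (C.pull_q_mem (zc_l hω))
  simpa using h1

theorem rep_mem {φ : List X → F} {ω : List Q → F} (hφ : φ ∈ Sp F {C.x₀})
    (hω : ω ∈ Zc F {C.q₀}) (h : d φ - pull C.q ω ∈ LZ F X) : pull C.i φ ∈ Zc F {C.k₀} :=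
  C.pull_i_mem hφ (C.d_mem_L hω h)

/-- the connecting map on representatives -/
theorem del_mk {φ : List X → F} {ω : List Q → F} (hφ : φ ∈ Sp F {C.x₀})
    (hω : ω ∈ Zc F {C.q₀}) (h : d φ - pull C.q ω ∈ LZ F X) (h' : pull C.i φ ∈ Zc F {C.k₀}) :
    C.del F (Hc.mk (pull C.i φ) h') = Hc.mk ω hω := by
  have h1 := C.d_mem_L hω h
  have e : Hc.mk (pull C.i φ) h' = C.eI F (qk φ hφ h1) := (C.eI_mk φ hφ h1).symm
  rw [e]
  apply (C.eQ F).injective
  rw [C.eQ_del, C.eQ_mk, qk_eq_qk]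
  exact ⟨0, zero_mem _, by rw [map_zero, sub_zero]; exact h⟩

/-- representatives of a class and of its connecting class -/
theorem del_rep (x : Hc F {C.k₀}) : ∃ (φ : List X → F) (_ : φ ∈ Sp F {C.x₀}) (ω : List Q → F)
    (hω : ω ∈ Zc F {C.q₀}) (_ : d φ - pull C.q ω ∈ LZ F X) (h' : pull C.i φ ∈ Zc F {C.k₀}),
    x = Hc.mk (pull C.i φ) h' ∧ C.del F x = Hc.mk ω hω := by
  obtain ⟨φ, hφ, hd, rfl⟩ := C.eI_surj x
  obtain ⟨ω, hω, e⟩ := Hc.mk_surj (C.del F (C.eI F (qk φ hφ hd)))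
  have h1 := C.eQ_del φ hφ hd
  rw [e, C.eQ_mk, qk_eq_qk] at h1
  obtain ⟨w, hw, h2⟩ := h1
  have h3 : d (φ + w) - pull C.q ω ∈ LZ F X := by
    have := neg_mem h2
    have e' : d (φ + w) - pull C.q ω = -(pull C.q ω - d φ - d w) := by
      rw [map_add]; abel
    rw [e']
    exact this
  have h4 : φ + w ∈ Sp F {C.x₀} := add_mem hφ (Lr_le hw)
  have h5 := C.rep_mem h4 hω h3
  refine ⟨φ + w, h4, ω, hω, h3, h5, ?_, e⟩
  rw [C.eI_mk, Hc.mk_eq_mk]
  refine LZ_le_Bc _ ?_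
  have e'' : pull C.i φ - pull C.i (φ + w) = - pull C.i w := by rw [map_add]; abel
  rw [e'']
  exact neg_mem hw.2

end Cls

section cross

open OnePoint Crest.Agent.R090.Sp962 Crest.Agent.R090.CohT253 Crest.Agent.R090.Cross965
open Crest.Agent.R090.CohY811 (decX)

variable {F : Type} [Field F] {K U O V : Type} [TopologicalSpace K] [TopologicalSpace U]
  [TopologicalSpace O] [TopologicalSpace V] [T2Space K] [LocallyCompactSpace K] [T2Space U]
  [LocallyCompactSpace U] [T2Space O] [LocallyCompactSpace O] [T2Space V] [LocallyCompactSpace V]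

theorem smash_ofClosed (D : Dec K U O) :
    (PMap.ofClosed D.i D.hi).smash (PMap.id V) = PMap.ofClosed (decX D V).i (decX D V).hi :=
  PMap.ext fun x => by
    obtain ⟨a, b⟩ := x
    rfl

theorem smash_ofOpen (D : Dec K U O) :
    (PMap.ofOpen D.j D.hj).smash (PMap.id V) = PMap.ofOpen (decX D V).j (decX D V).hj := by
  refine PMap.ext fun x => ?_
  obtain ⟨a, b⟩ := x
  by_cases ha : a ∈ range D.j
  · obtain ⟨o, rfl⟩ := ha
    have h1 : ((D.j o, b) : U × V) = (decX D V).j (o, b) := rfl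
    rw [PMap.smash_coe, PMap.ofOpen_coe, PMap.id_apply, sm_coe, h1, PMap.ofOpen_coe]
  · have h1 : ((a, b) : U × V) ∉ range (decX D V).j := by
      rintro ⟨⟨o, c⟩, h⟩
      exact ha ⟨o, congrArg Prod.fst h⟩
    rw [PMap.smash_coe, PMap.ofOpen_of_notMem _ _ ha, PMap.ofOpen_of_notMem _ _ h1, sm_inf_left]

theorem del_cross (D : Dec K U O) (x : hU F K) (y : hU F V) :
    cross F O V ((ofDec D).del F x) y = (ofDec (decX D V)).del F (cross F K V x y) := by
  obtain ⟨φ, hφ, ω, hω, h, h', rfl, e⟩ := (ofDec D).del_rep x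
  obtain ⟨ψ, hψ, rfl⟩ := Hc.mk_surj y
  rw [e]
  have hφ' : φ ∈ Sp F {(∞ : OnePoint U)} := hφ
  have hω' : ω ∈ Zc F {(∞ : OnePoint O)} := hω
  obtain ⟨χ, hχ⟩ := exists_cr (mem_Sp_iff.1 hφ') (zc_iff.1 hψ).1
  obtain ⟨θ, hθ⟩ := exists_cr (zc_iff.1 hω').1 (zc_iff.1 hψ).1
  have h1 := d_cross hφ' hψ hω' (PMap.ofOpen D.j D.hj) h hχ hθ
  have h2 := hχ.smash (adm_cr (mem_Sp_iff.1 hφ') (zc_iff.1 hψ).1) (PMap.ofClosed D.i D.hi)
    (PMap.id V)
  have e2 : pull (Prod.map (PMap.ofClosed D.i D.hi) (PMap.id V)) (cr φ ψ) =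
      cr (pull (PMap.ofClosed D.i D.hi) φ) ψ := by
    rw [pull_cr']
    congr 1
    exact pull_id ψ
  rw [e2] at h2
  rw [smash_ofOpen] at h1
  rw [smash_ofClosed] at h2
  have hθz := isCr_zc hω' hψ hθ
  have hz : pull (PMap.ofClosed (decX D V).i (decX D V).hi) χ ∈ Zc F {(∞ : OnePoint (K × V))} :=
    isCr_zc h' hψ h2
  refine (cross_mk hω' hψ hθ).trans ?_
  have e3 : cross F K V (Hc.mk (pull (ofDec D).i φ) h') (Hc.mk ψ hψ) = Hc.mk _ hz :=
    cross_mk h' hψ h2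
  have e4 := (ofDec (decX D V)).del_mk (mem_Sp_iff.2 hχ.inf) hθz h1 hz
  exact (Eq.trans (congrArg ((ofDec (decX D V)).del F) e3) e4).symm

end cross

end Crest.Agent.R090.Les412
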