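import Crest.Agent.R090.LesA_412
import Crest.Agent.R090.ASCoh_149

/-!
# Row 90, HOM: the exact triangle of a closed pair (owner helper412)

`Cls` : a compact Hausdorff space `X`, a closed embedding `i : K → X`, the collapse `q : X → Q`.
`Cls.del : Hc F {k₀} → Hc F {q₀}`, exactness, naturality, parity; then `lesData : LesData F`.
-/

set_option autoImplicit false
set_option linter.unusedSectionVars false

open Topology Filter Set

namespace Crest.Agent.R090.Les412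

open Crest.Agent.R090.AS58

section toSQ

variable {F : Type} [CommRing F] {X : Type} [TopologicalSpace X]

variable (F X) in
/-- the differential -/
abbrev dX : (List X → F) →ₗ[F] (List X → F) := d

/-- relative cohomology in the notation of subquotients -/
abbrev HQ (M Z : Submodule F (List X → F)) : Type := AS412.SQ (dX F X) M Z

/-- class -/
def qk {M Z : Submodule F (List X → F)} (φ : List X → F) (h : φ ∈ M) (h' : d φ ∈ Z) : HQ M Z :=
  AS412.SQ.mk φ h h'

theorem qk_surj {M Z : Submodule F (List X → F)} (a : HQ M Z) :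
    ∃ (φ : List X → F) (h : φ ∈ M) (h' : d φ ∈ Z), a = qk φ h h' :=
  AS412.SQ.mk_surj a

theorem qk_eq_zero {M Z : Submodule F (List X → F)} {φ : List X → F} {h : φ ∈ M} {h' : d φ ∈ Z} :
    (qk φ h h' : HQ M Z) = 0 ↔ ∃ ψ ∈ M, φ - d ψ ∈ Z := AS412.SQ.mk_eq_zero

theorem qk_eq_qk {M Z : Submodule F (List X → F)} {φ ψ : List X → F} {h : φ ∈ M} {h' : d φ ∈ Z}
    {k : ψ ∈ M} {k' : d ψ ∈ Z} :
    (qk φ h h' : HQ M Z) = qk ψ k k' ↔ ∃ w ∈ M, φ - ψ - d w ∈ Z := AS412.SQ.mk_eq_mk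

theorem qk_congr {M Z : Submodule F (List X → F)} {φ ψ : List X → F} {h : φ ∈ M} {h' : d φ ∈ Z}
    {k : ψ ∈ M} {k' : d ψ ∈ Z} (e : φ = ψ) :
    (qk φ h h' : HQ M Z) = qk ψ k k' := by subst e; rfl

theorem qk_add {M Z : Submodule F (List X → F)} {φ ψ : List X → F} {h : φ ∈ M} {h' : d φ ∈ Z}
    {k : ψ ∈ M} {k' : d ψ ∈ Z} :
    (qk φ h h' : HQ M Z) + qk ψ k k' = qk (φ + ψ) (add_mem h k)
      (by rw [map_add]; exact add_mem h' k') := rfl

theorem mk_congr {A : Set X} {φ ψ : List X → F} {h : φ ∈ Zc F A} {h' : ψ ∈ Zc F A} (e : φ = ψ) :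
    Hc.mk φ h = Hc.mk ψ h' := by subst e; rfl

theorem zc_mk {A : Set X} {φ : List X → F} (h : φ ∈ Sp F A) (h' : d φ ∈ LZ F X) : φ ∈ Zc F A :=
  ⟨h, h'⟩

theorem zc_l {A : Set X} {φ : List X → F} (h : φ ∈ Zc F A) : φ ∈ Sp F A := h.1

theorem zc_r {A : Set X} {φ : List X → F} (h : φ ∈ Zc F A) : d φ ∈ LZ F X := h.2

variable (F) in
/-- `Hc` is a subquotient homology -/
def toSQL (A : Set X) : Hc F A →ₗ[F] HQ (Sp F A) (LZ F X) :=
  Submodule.liftQ _
    { toFun := fun x => qk (M := Sp F A) (Z := LZ F X) x.1 x.2.1 x.2.2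
      map_add' := fun _ _ => rfl
      map_smul' := fun _ _ => rfl }
    (by
      rintro ⟨x, hx⟩ hx'
      rw [LinearMap.mem_ker]
      change qk (M := Sp F A) (Z := LZ F X) x hx.1 hx.2 = 0
      rw [qk_eq_zero]
      exact mem_Bc.1 hx')

theorem toSQL_mk {A : Set X} (φ : List X → F) (h : φ ∈ Zc F A) :
    toSQL F A (Hc.mk φ h) = qk φ (zc_l h) (zc_r h) := rfl

theorem toSQL_bij (A : Set X) : Function.Bijective (toSQL F A) := by
  constructor
  · rw [injective_iff_map_eq_zero]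
    intro x hx
    obtain ⟨φ, h, rfl⟩ := Hc.mk_surj x
    rw [toSQL_mk, qk_eq_zero] at hx
    rw [Hc.mk_eq_zero, mem_Bc]
    exact hx
  · intro y
    obtain ⟨φ, h, h', rfl⟩ := qk_surj y
    exact ⟨Hc.mk φ (zc_mk h h'), toSQL_mk _ _⟩

variable (F) in
/-- `Hc` is a subquotient homology -/
noncomputable def toSQ (A : Set X) : Hc F A ≃ₗ[F] HQ (Sp F A) (LZ F X) :=
  LinearEquiv.ofBijective (toSQL F A) (toSQL_bij A)

theorem toSQ_mk {A : Set X} (φ : List X → F) (h : φ ∈ Zc F A) :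
    toSQ F A (Hc.mk φ h) = qk φ (zc_l h) (zc_r h) := rfl

theorem toSQ_symm_mk {A : Set X} (φ : List X → F) (h : φ ∈ Sp F A) (h' : d φ ∈ LZ F X) :
    (toSQ F A).symm (qk (Z := LZ F X) φ h h') = Hc.mk φ (zc_mk h h') := by
  rw [LinearEquiv.symm_apply_eq, toSQ_mk]

end toSQ

/-! ## closed pairs of compact Hausdorff spaces -/

/-- a closed pair `i : K → X` with base points and its collapse `q : X → Q = X/K` -/
structure Cls (X K Q : Type) [TopologicalSpace X] [TopologicalSpace K] [TopologicalSpace Q] where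
  i : K → X
  hi : IsClosedEmbedding i
  k₀ : K
  q : X → Q
  q₀ : Q
  hq : Continuous q
  hs : Function.Surjective q
  hA : ∀ x, q x = q₀ ↔ x ∈ range i
  hinj : ∀ x y, x ∉ range i → q x = q y → x = y

namespace Cls

variable {F : Type} [CommRing F] {X K Q : Type} [TopologicalSpace X] [TopologicalSpace K]
  [TopologicalSpace Q] [CompactSpace X] [T2Space X] [CompactSpace Q] [T2Space Q]
  (C : Cls X K Q)

/-- base point of `X` -/
abbrev x₀ : X := C.i C.k₀

theorem hx₀ : C.x₀ ∈ range C.i := mem_range_self _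

theorem qx₀ : C.q C.x₀ = C.q₀ := (C.hA _).2 C.hx₀

variable (F) in
/-- the intermediate complex -/
abbrev L : Submodule F (List X → F) := Lr F C.i C.x₀

theorem pull_i_mem {φ : List X → F} (h : φ ∈ Sp F {C.x₀}) (h' : d φ ∈ C.L F) :
    pull C.i φ ∈ Zc F {C.k₀} :=
  zc_mk ((ok_res (F := F) C.hi.continuous C.k₀).hM φ h) (by rw [d_pull]; exact h'.2)

variable (F) in
/-- restriction, as an isomorphism `H(X, x₀; Lr) ≅ H(K)` -/
noncomputable def eI : HQ (Sp F {C.x₀}) (C.L F) ≃ₗ[F] Hc F {C.k₀} :=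
  (LinearEquiv.ofBijective _ (res_bij (F := F) C.hi (k₀ := C.k₀))).trans (toSQ F {C.k₀}).symm

theorem eI_mk (φ : List X → F) (h : φ ∈ Sp F {C.x₀}) (h' : d φ ∈ C.L F) :
    C.eI F (qk φ h h') = Hc.mk (pull C.i φ) (C.pull_i_mem h h') := by
  rw [eI, LinearEquiv.trans_apply, LinearEquiv.symm_apply_eq]
  rfl

theorem eQ_aux : Function.Bijective ((AS412.SQ.incl (dX F X) (LZ F X)
      (Sp_range_le_Lr C.hi.continuous C.hx₀)) ∘ₗ (AS412.SQ.map (pull (F := F) C.q)
      (ok_col (F := F) C.hq (fun x hx => (C.hA x).2 hx)))) := by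
  rw [LinearMap.coe_comp]
  exact (taut C.hi C.hx₀).comp (col_bij C.hq C.hs C.hA C.hinj)

variable (F) in
/-- the collapse, as an isomorphism `H(Q) ≅ H(Lr / Z)` -/
noncomputable def eQ : Hc F {C.q₀} ≃ₗ[F] HQ (C.L F) (LZ F X) :=
  (toSQ F {C.q₀}).trans (LinearEquiv.ofBijective _ C.eQ_aux)

theorem pull_q_mem {φ : List Q → F} (h : φ ∈ Sp F {C.q₀}) : pull C.q φ ∈ C.L F :=
  Sp_range_le_Lr C.hi.continuous C.hx₀ ((ok_col (F := F) C.hq (fun x hx => (C.hA x).2 hx)).hM φ h)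

theorem d_pull_q_mem {φ : List Q → F} (h : d φ ∈ LZ F Q) : d (pull C.q φ) ∈ LZ F X := by
  rw [d_pull]; exact pull_mem_LZ C.hq h

theorem eQ_mk (φ : List Q → F) (h : φ ∈ Zc F {C.q₀}) :
    C.eQ F (Hc.mk φ h) = qk (pull C.q φ) (C.pull_q_mem (zc_l h)) (C.d_pull_q_mem (zc_r h)) := rfl

variable (F) in
/-- the connecting map of `LZ ≤ Lr ≤ Sp {x₀}` -/
noncomputable def cn : HQ (Sp F {C.x₀}) (C.L F) →ₗ[F] HQ (C.L F) (LZ F X) :=
  AS412.SQ.conn (dX F X) (Sp F {C.x₀}) (C.L F) (LZ F X) d_d (fun _ h => d_mem_Lr h)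

theorem dd_mem {φ : List X → F} : d (d φ) ∈ LZ F X := by rw [d_d]; exact zero_mem _

theorem cn_mk (φ : List X → F) (h : φ ∈ Sp F {C.x₀}) (h' : d φ ∈ C.L F) :
    C.cn F (qk φ h h') = qk (d φ) h' dd_mem := rfl

variable (F) in
/-- the connecting map -/
noncomputable def del : Hc F {C.k₀} →ₗ[F] Hc F {C.q₀} :=
  (C.eQ F).symm.toLinearMap ∘ₗ (C.cn F) ∘ₗ (C.eI F).symm.toLinearMap

theorem del_apply (x : Hc F {C.k₀}) : C.del F x = (C.eQ F).symm (C.cn F ((C.eI F).symm x)) := rfl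

/-- characterisation of the connecting map -/
theorem eQ_del (φ : List X → F) (h : φ ∈ Sp F {C.x₀}) (h' : d φ ∈ C.L F) :
    C.eQ F (C.del F (C.eI F (qk φ h h'))) = qk (d φ) h' dd_mem := by
  rw [del_apply, LinearEquiv.apply_symm_apply, LinearEquiv.symm_apply_apply, cn_mk]

theorem eI_surj (x : Hc F {C.k₀}) : ∃ (φ : List X → F) (h : φ ∈ Sp F {C.x₀})
    (h' : d φ ∈ C.L F), x = C.eI F (qk φ h h') := by
  obtain ⟨y, rfl⟩ := (C.eI F).surjective x
  obtain ⟨φ, h, h', rfl⟩ := qk_surj y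
  exact ⟨φ, h, h', rfl⟩

theorem maps_i : MapsTo C.i {C.k₀} {C.x₀} := by
  intro x hx; rw [mem_singleton_iff] at hx ⊢; rw [hx]

theorem maps_q : MapsTo C.q {C.x₀} {C.q₀} := by
  intro x hx; rw [mem_singleton_iff] at hx ⊢; rw [hx, C.qx₀]

variable (F) in
/-- `H(X) → H(K)` -/
noncomputable def res : Hc F {C.x₀} →ₗ[F] Hc F {C.k₀} :=
  Hc.map F C.i C.hi.continuous C.maps_i

variable (F) in
/-- `H(Q) → H(X)` -/
noncomputable def col : Hc F {C.q₀} →ₗ[F] Hc F {C.x₀} :=
  Hc.map F C.q C.hq C.maps_q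

theorem res_eq (x : Hc F {C.x₀}) : C.res F x = C.eI F (AS412.SQ.proj (dX F X) (Sp F {C.x₀})
    (LZ_le_Lr C.hi.continuous C.hx₀) (toSQ F _ x)) := by
  obtain ⟨φ, h, rfl⟩ := Hc.mk_surj x
  have h1 : d φ ∈ C.L F := LZ_le_Lr C.hi.continuous C.hx₀ (zc_r h)
  have h2 := C.eI_mk φ (zc_l h) h1
  rw [res, Hc.map_mk]
  exact h2.symm

theorem col_eq (x : Hc F {C.q₀}) : toSQ F _ (C.col F x) =
    AS412.SQ.incl (dX F X) (LZ F X) Lr_le (C.eQ F x) := by
  obtain ⟨φ, h, rfl⟩ := Hc.mk_surj x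
  rfl

theorem exact_col_res : Function.Exact (C.col F) (C.res F) := by
  intro x
  have h := AS412.SQ.exact_incl_proj (k := F) (d := dX F X) d_d
    (LZ_le_Lr (F := F) C.hi.continuous C.hx₀) (Lr_le (F := F) (i := C.i) (x₀ := C.x₀))
    (toSQ F _ x)
  rw [C.res_eq, LinearEquiv.map_eq_zero_iff, h]
  constructor
  · rintro ⟨y, hy⟩
    refine ⟨(C.eQ F).symm y, (toSQ F _).injective ?_⟩
    rw [col_eq, LinearEquiv.apply_symm_apply, hy]
  · rintro ⟨y, rfl⟩
    exact ⟨C.eQ F y, (C.col_eq y).symm⟩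

theorem exact_res_del : Function.Exact (C.res F) (C.del F) := by
  intro x
  have h := AS412.SQ.exact_proj_conn (k := F) (d := dX F X) d_d
    (LZ_le_Lr (F := F) C.hi.continuous C.hx₀) (Lr_le (F := F) (i := C.i) (x₀ := C.x₀))
    (fun _ h => d_mem_Lr h) ((C.eI F).symm x)
  rw [del_apply, LinearEquiv.map_eq_zero_iff]
  refine h.trans ?_
  constructor
  · rintro ⟨y, hy⟩
    refine ⟨(toSQ F _).symm y, ?_⟩
    rw [C.res_eq, LinearEquiv.apply_symm_apply, hy, LinearEquiv.apply_symm_apply]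
  · rintro ⟨y, rfl⟩
    refine ⟨toSQ F _ y, ?_⟩
    rw [C.res_eq, LinearEquiv.symm_apply_apply]

theorem exact_del_col : Function.Exact (C.del F) (C.col F) := by
  intro x
  have h := AS412.SQ.exact_conn_incl (k := F) (d := dX F X) d_d
    (LZ_le_Lr (F := F) C.hi.continuous C.hx₀) (Lr_le (F := F) (i := C.i) (x₀ := C.x₀))
    (fun _ h => d_mem_Lr h) (C.eQ F x)
  rw [← (toSQ F _).map_eq_zero_iff, C.col_eq, h]
  constructor
  · rintro ⟨y, hy⟩
    refine ⟨C.eI F y, ?_⟩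
    rw [del_apply, LinearEquiv.symm_apply_apply, LinearEquiv.symm_apply_eq]
    exact hy
  · rintro ⟨y, rfl⟩
    refine ⟨(C.eI F).symm y, ?_⟩
    rw [del_apply, LinearEquiv.apply_symm_apply]
    rfl

/-- parity -/
theorem ev_del (x : Hc F {C.k₀}) : Hc.ev F _ (C.del F x) = - C.del F (Hc.ev F _ x) := by
  obtain ⟨φ, h, h', rfl⟩ := C.eI_surj x
  have h1 : d (ev φ) ∈ C.L F := by rw [d_ev]; exact neg_mem (ev_mem_Lr h')
  have e1 : Hc.ev F _ (C.eI F (qk φ h h')) = C.eI F (qk (ev φ) (ev_mem_Sp h) h1) := by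
    rw [eI_mk, eI_mk, Hc.ev_mk]
    exact mk_congr (ev_pull _ _)
  -- parity on `H(Lr / Z)`
  have e2 : ∀ y : Hc F {C.q₀}, ∀ (ψ : List X → F) (h2 : ψ ∈ C.L F) (h3 : d ψ ∈ LZ F X),
      C.eQ F y = qk ψ h2 h3 → ∀ (h4 : ev ψ ∈ C.L F) (h5 : d (ev ψ) ∈ LZ F X),
      C.eQ F (Hc.ev F _ y) = qk (ev ψ) h4 h5 := by
    intro y ψ h2 h3 hy h4 h5
    obtain ⟨χ, hχ, rfl⟩ := Hc.mk_surj y
    rw [eQ_mk, qk_eq_qk] at hy
    obtain ⟨w, hw, hw'⟩ := hy
    rw [Hc.ev_mk, eQ_mk, qk_eq_qk]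
    refine ⟨-ev w, neg_mem (ev_mem_Lr hw), ?_⟩
    have := ev_mem_LZ hw'
    rw [map_sub, map_sub, ev_pull] at this
    rw [map_neg, d_ev, neg_neg]
    exact this
  rw [e1]
  apply (C.eQ F).injective
  rw [map_neg, C.eQ_del, e2 _ _ _ _ (C.eQ_del φ h h') (ev_mem_Lr h')
    (by rw [d_ev, d_d, map_zero, neg_zero]; exact zero_mem _), ← add_eq_zero_iff_eq_neg,
    qk_add, qk_eq_zero]
  refine ⟨0, zero_mem _, ?_⟩
  rw [d_ev, map_zero, sub_zero, add_neg_cancel]
  exact zero_mem _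

/-- naturality for strict maps of pairs -/
theorem del_nat {X' K' Q' : Type} [TopologicalSpace X'] [TopologicalSpace K']
    [TopologicalSpace Q'] [CompactSpace X'] [T2Space X'] [CompactSpace Q'] [T2Space Q']
    (C' : Cls X' K' Q') (fK : K → K') (fX : X → X') (fQ : Q → Q') (hfK : Continuous fK)
    (hfX : Continuous fX) (hfQ : Continuous fQ) (hK : MapsTo fK {C.k₀} {C'.k₀})
    (hQ : MapsTo fQ {C.q₀} {C'.q₀}) (h1 : ∀ x, fX (C.i x) = C'.i (fK x))
    (h2 : ∀ x, C'.q (fX x) = fQ (C.q x)) (x : Hc F {C'.k₀}) :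
    Hc.map F fQ hfQ hQ (C'.del F x) = C.del F (Hc.map F fK hfK hK x) := by
  obtain ⟨φ, h, h', rfl⟩ := C'.eI_surj x
  have hX : MapsTo fX {C.x₀} {C'.x₀} := by
    intro x hx
    rw [mem_singleton_iff] at hx ⊢
    rw [hx, h1, show fK C.k₀ = C'.k₀ from hK rfl]
  have hL : ∀ ψ : List X' → F, ψ ∈ C'.L F → pull fX ψ ∈ C.L F := by
    intro ψ hψ
    refine ⟨pull_mem_Sp hfX hX hψ.1, ?_⟩
    change pull C.i (pull fX ψ) ∈ LZ F K
    have e : fX ∘ C.i = C'.i ∘ fK := funext h1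
    rw [← pull_comp, e, pull_comp]
    exact pull_mem_LZ hfK hψ.2
  have h4 : d (pull fX φ) ∈ C.L F := by rw [d_pull]; exact hL _ h'
  have e1 : Hc.map F fK hfK hK (C'.eI F (qk φ h h')) =
      C.eI F (qk (pull fX φ) (pull_mem_Sp hfX hX h) h4) := by
    rw [eI_mk, eI_mk, Hc.map_mk]
    refine mk_congr ?_
    have e : fX ∘ C.i = C'.i ∘ fK := funext h1
    rw [← pull_comp, ← pull_comp, e]
  have e2 : ∀ y : Hc F {C'.q₀}, ∀ (ψ : List X' → F) (h2 : ψ ∈ C'.L F) (h3 : d ψ ∈ LZ F X'),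
      C'.eQ F y = qk ψ h2 h3 → ∀ (h4 : pull fX ψ ∈ C.L F) (h5 : d (pull fX ψ) ∈ LZ F X),
      C.eQ F (Hc.map F fQ hfQ hQ y) = qk (pull fX ψ) h4 h5 := by
    intro y ψ h2' h3 hy h4 h5
    obtain ⟨χ, hχ, rfl⟩ := Hc.mk_surj y
    rw [eQ_mk, qk_eq_qk] at hy
    obtain ⟨w, hw, hw'⟩ := hy
    rw [Hc.map_mk, eQ_mk, qk_eq_qk]
    refine ⟨pull fX w, hL _ hw, ?_⟩
    have e : fQ ∘ C.q = C'.q ∘ fX := funext fun x => (h2 x).symm
    have := pull_mem_LZ hfX hw'
    rw [map_sub, map_sub, ← pull_comp] at this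
    rw [d_pull, ← pull_comp, e]
    exact this
  rw [e1]
  apply (C.eQ F).injective
  rw [C.eQ_del, e2 _ _ _ _ (C'.eQ_del φ h h') (hL _ h')
    (by rw [d_pull, d_d, map_zero]; exact zero_mem _)]
  exact qk_congr (d_pull _ _).symm

end Cls

/-! ## closed subspaces of locally compact Hausdorff spaces -/

section dec

open OnePoint Crest.Agent.R090.Sp962 Crest.Agent.R090.CohT253

variable {K U O : Type} [TopologicalSpace K] [TopologicalSpace U] [TopologicalSpace O]
  [T2Space U] [LocallyCompactSpace U]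

/-- the closed pair of a decomposition -/
noncomputable def ofDec (D : Dec K U O) : Cls (OnePoint U) (OnePoint K) (OnePoint O) where
  i := PMap.ofClosed D.i D.hi
  hi := by
    refine Continuous.isClosedEmbedding (PMap.ofClosed D.i D.hi).cont ?_
    intro x y h
    exact Option.map_injective D.hi.injective h
  k₀ := ∞
  q := PMap.ofOpen D.j D.hj
  q₀ := ∞
  hq := (PMap.ofOpen D.j D.hj).cont
  hs := by
    intro y
    induction y using OnePoint.rec with
    | infty => exact ⟨∞, PMap.map_inf _⟩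
    | coe y => exact ⟨(D.j y : OnePoint U), PMap.ofOpen_coe _ _ _⟩
  hA := by
    intro x
    induction x using OnePoint.rec with
    | infty => exact ⟨fun _ => ⟨∞, rfl⟩, fun _ => PMap.map_inf _⟩
    | coe x =>
      constructor
      · intro h
        by_cases hx : x ∈ range D.i
        · obtain ⟨y, rfl⟩ := hx
          exact ⟨(y : OnePoint K), rfl⟩
        · have : x ∈ range D.j := by rw [D.compl]; exact hx
          obtain ⟨y, rfl⟩ := this
          rw [PMap.ofOpen_coe] at h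
          exact absurd h (coe_ne_infty _)
      · rintro ⟨y, hy⟩
        refine PMap.ofOpen_of_notMem _ _ ?_
        rw [D.compl]
        intro h
        apply h
        induction y using OnePoint.rec with
        | infty => exact absurd hy.symm (coe_ne_infty _)
        | coe y => exact ⟨y, coe_injective hy⟩
  hinj := by
    intro x y hx h
    induction x using OnePoint.rec with
    | infty => exact absurd ⟨∞, rfl⟩ hx
    | coe x =>
      have : x ∈ range D.j := by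
        rw [D.compl]
        rintro ⟨z, rfl⟩
        exact hx ⟨(z : OnePoint K), rfl⟩
      obtain ⟨z, rfl⟩ := this
      rw [PMap.ofOpen_coe] at h
      exact ((PMap.collapse_eq_coe _ D.hj).1 h.symm).symm

theorem dec_t2 (D : Dec K U O) : T2Space O := D.hj.toIsEmbedding.t2Space

theorem dec_lc (D : Dec K U O) : LocallyCompactSpace O := D.hj.locallyCompactSpace

variable (F : Type) [Field F]

/-- **the exact triangle of a closed subspace** -/
noncomputable def lesData : ASCoh_149.LesData F where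
  del D :=
    haveI := dec_t2 D
    haveI := dec_lc D
    (ofDec D).del F
  eps_del D x := by
    have := dec_t2 D
    have := dec_lc D
    exact (ofDec D).ev_del x
  exactU D := by
    have := dec_t2 D
    have := dec_lc D
    exact (ofDec D).exact_col_res (F := F)
  exactK D := by
    have := dec_t2 D
    have := dec_lc D
    exact (ofDec D).exact_res_del (F := F)
  exactO D := by
    have := dec_t2 D
    have := dec_lc D
    exact (ofDec D).exact_del_col (F := F)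
  del_nat D D' fK fU fO h1 h2 x := by
    have := dec_t2 D
    have := dec_lc D
    have := dec_t2 D'
    have := dec_lc D'
    exact (ofDec D).del_nat (ofDec D') fK fU fO fK.cont fU.cont fO.cont
      (ASQuotH_149.mapsTo_inf fK) (ASQuotH_149.mapsTo_inf fO)
      (fun x => congrFun (congrArg PMap.toFun h1) x)
      (fun x => congrFun (congrArg PMap.toFun h2) x) x

/-- Alexander-Spanier cohomology with compact supports, as a cohomology theory -/
noncomputable def coh : Coh.{0, 0, 0} F := ASCoh_149.asCoh (lesData F)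

end dec

end Crest.Agent.R090.Les412
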