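import Crest.Agent.R090.Ndr_255

/-!
# Row 90, F2 (D2): the homotopy extension of a strict NDR pair (owner helper255)
-/

set_option autoImplicit false

open Topology Filter Set

namespace Crest.Agent.R090.Dens255

open OnePoint Sp962
open scoped unitInterval

section hep

variable {M W Y : Type*} [TopologicalSpace M] [TopologicalSpace W] [TopologicalSpace Y]
  [T2Space M] [LocallyCompactSpace M] [T2Space W] [LocallyCompactSpace W]

omit [T2Space M] [LocallyCompactSpace M] in
theorem Ndr.h_zero' {Z : Set M} (N : Ndr M Z) (x : OnePoint M) : N.h (0, x) = x := by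
  induction x using OnePoint.rec with
  | infty => exact N.h.map_inf 0
  | coe x => exact N.h_zero x

/-- **(D2)(i)** if `F` is null on `Z × W`, then `F` is homotopic to a map which is `∞` on `Z × W` -/
theorem Ndr.hep {Z : Set M} (N : Ndr M Z) (hZ : IsClosed Z) (F : PMap (M × W) Y)
    (hF : (F.comp (PMap.ofClosed (jE Z W) (isClosedEmbedding_jE hZ))).Null) :
    ∃ F' : PMap (M × W) Y, F.Homotopic F' ∧ ∀ x ∈ Z, ∀ w : W, F' ((x, w) : M × W) = ∞ := by
  obtain ⟨G, G0, G1⟩ := HMap.exists_of_homotopic hF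
  -- first deformation
  let S : HMap (M × W) (M × W) := N.h.smash (HMap.const (PMap.id W))
  have hS0 : S.at' 0 = PMap.id (M × W) := by
    refine PMap.ext ?_
    rintro ⟨x, w⟩
    change sm (N.h (0, (x : OnePoint M))) ((w : OnePoint W)) = _
    rw [N.h_zero]; rfl
  let F1 : PMap (M × W) Y := F.comp (S.at' 1)
  have hF1 : F.Homotopic F1 := by
    have h1 := ((HMap.const F).comp S).homotopic
    have h2 : ((HMap.const F).comp S).at' 0 = F := by
      refine PMap.ext fun x => ?_
      have := congrArg (fun f : PMap (M × W) (M × W) => F (f x)) hS0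
      exact this
    rw [h2] at h1
    exact h1
  -- the two closed pieces
  have hc : Continuous (fun p : M × W => N.φ p.1) := N.cφ.comp continuous_fst
  let C₁ : Set (M × W) := {p | N.φ p.1 ≤ 1 / 2}
  let C₂ : Set (M × W) := {p | 1 / 2 ≤ N.φ p.1}
  have hC₁ : IsClosed C₁ := isClosed_le hc continuous_const
  have hC₂ : IsClosed C₂ := isClosed_le continuous_const hc
  have hcov : ∀ x, x ∈ C₁ ∨ x ∈ C₂ := fun x => le_total (N.φ x.1) (1 / 2)
  -- the lift of the first deformation on `C₁`
  obtain ⟨D, hD, hDe⟩ := exists_lift (isClosedEmbedding_jE (W := W) hZ)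
    (K := fun c : OnePoint C₁ => S.at' 1 (OnePoint.map Subtype.val c))
    ((S.at' 1).cont.comp (PMap.ofClosed (Subtype.val : C₁ → M × W)
      hC₁.isClosedEmbedding_subtypeVal).cont) (by
      intro c
      induction c using OnePoint.rec with
      | infty => exact Or.inl (S.map_inf 1)
      | coe c =>
        obtain ⟨⟨x, w⟩, hx⟩ := c
        have e : S.at' 1 (OnePoint.map (Subtype.val : C₁ → M × W)
            ((⟨(x, w), hx⟩ : C₁) : OnePoint C₁)) = sm (N.h (1, (x : OnePoint M))) (w : OnePoint W) :=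
          rfl
        rw [e]
        rcases N.h_one x hx with h | ⟨z, hz, h⟩
        · left; rw [h]; rfl
        · right; exact ⟨(⟨z, hz⟩, w), by rw [h]; rfl⟩)
  have hDinf : D ∞ = ∞ := by
    refine map_injective (isClosedEmbedding_jE (W := W) hZ) ?_
    rw [hDe]
    exact S.map_inf 1
  let D' : PMap C₁ (Z × W) := ⟨D, hD, hDinf⟩
  -- the time function
  let lam : I × C₁ → I := fun p => ⟨(p.1 : ℝ) * (1 - 2 * N.φ p.2.1.1), by
    have h1 := N.φ_nonneg p.2.1.1
    have h2 : N.φ p.2.1.1 ≤ 1 / 2 := p.2.2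
    have h3 := p.1.2.1
    have h4 := p.1.2.2
    constructor
    · exact mul_nonneg h3 (by linarith)
    · exact mul_le_one₀ h4 (by linarith) (by linarith)⟩
  have hlam : Continuous lam := by
    refine Continuous.subtype_mk ?_ _
    have := N.cφ
    fun_prop
  let G₁ : HMap C₁ Y := (G.comp (HMap.const D')).reparam lam hlam
  let G₂ : HMap C₂ Y := HMap.const (F1.comp (PMap.ofClosed (Subtype.val : C₂ → M × W)
    hC₂.isClosedEmbedding_subtypeVal))
  have hG0 : ∀ c : C₁, G (0, D (c : OnePoint C₁)) = F1 (c.1 : OnePoint (M × W)) := by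
    intro c
    have h1 := congrArg (fun f : PMap (Z × W) Y => f (D (c : OnePoint C₁))) G0
    change G (0, D (c : OnePoint C₁)) = F (OnePoint.map (jE Z W) (D (c : OnePoint C₁))) at h1
    rw [h1, hDe]
    rfl
  obtain ⟨P, P1, P2⟩ := HMap.paste hC₁ hC₂ hcov G₁ G₂ (by
    intro t x hx1 hx2
    have hx : N.φ x.1 = 1 / 2 := le_antisymm hx1 hx2
    have hl : lam (t, ⟨x, hx1⟩) = 0 := by
      refine Subtype.ext ?_
      change (t : ℝ) * (1 - 2 * N.φ x.1) = 0
      rw [hx]; ring
    rw [HMap.reparam_coe, hl]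
    exact hG0 ⟨x, hx1⟩)
  refine ⟨P.at' 1, ?_, ?_⟩
  · have h0 : P.at' 0 = F1 := by
      refine PMap.ext fun x => ?_
      rcases hcov x with hx | hx
      · rw [HMap.at'_apply, P1 0 x hx, HMap.reparam_coe]
        have hl : lam (0, ⟨x, hx⟩) = 0 := by
          refine Subtype.ext ?_
          change (0 : ℝ) * (1 - 2 * N.φ x.1) = 0
          ring
        rw [hl]
        exact hG0 ⟨x, hx⟩
      · rw [HMap.at'_apply, P2 0 x hx]
        rfl
    have := P.homotopic
    rw [h0] at this
    exact hF1.trans this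
  · intro x hx w
    have hx0 : N.φ x = 0 := (N.φ_zero x).2 hx
    have hx1 : ((x, w) : M × W) ∈ C₁ := by
      change N.φ x ≤ 1 / 2
      rw [hx0]; norm_num
    rw [HMap.at'_apply, P1 1 _ hx1, HMap.reparam_coe]
    have hl : lam (1, ⟨(x, w), hx1⟩) = 1 := by
      refine Subtype.ext ?_
      change (1 : ℝ) * (1 - 2 * N.φ x) = 1
      rw [hx0]; ring
    rw [hl]
    have h1 := congrArg (fun f : PMap (Z × W) Y => f (D (((⟨(x, w), hx1⟩ : C₁)) : OnePoint C₁))) G1
    exact h1

/-- the extension in the form used by `dens` -/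
theorem Ndr.exists_hmap {Z : Set M} (N : Ndr M Z) (hZ : IsClosed Z) (F : PMap (M × W) Y)
    (hF : (F.comp (PMap.ofClosed (jE Z W) (isClosedEmbedding_jE hZ))).Null) :
    ∃ A : HMap (M × W) Y, A.at' 0 = F ∧ ∀ x ∈ Z, ∀ w : W, A (1, ((x, w) : M × W)) = ∞ := by
  obtain ⟨F', h, h'⟩ := N.hep hZ F hF
  obtain ⟨A, A0, A1⟩ := HMap.exists_of_homotopic h
  refine ⟨A, A0, fun x hx w => ?_⟩
  have := congrArg (fun f : PMap (M × W) Y => f ((x, w) : M × W)) A1
  exact this.trans (h' x hx w)

instance instLcZ {M : Type*} [TopologicalSpace M] [T2Space M] [LocallyCompactSpace M]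
    {Z : Set M} [hZ : Fact (IsClosed Z)] : LocallyCompactSpace Z :=
  hZ.out.isClosedEmbedding_subtypeVal.locallyCompactSpace

/-- **density, with the homotopy extension built in**: if `inclusion ∧ a : Z × W → M × W` is null,
then `inclusion ∧ a^ι : P_s × W → P_{s'} × W` is null for all `s' < s`. -/
theorem Ndr.dens {Z : Set M} [hZ : Fact (IsClosed Z)] (N : Ndr M Z) (a : PMap W W)
    (ha : ((PMap.ofClosed (Subtype.val : Z → M) hZ.out.isClosedEmbedding_subtypeVal).smash a).Null)
    (ι : Type*) [Fintype ι] {s s' : ℕ} (hs : s' < s) :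
    ((inclS (isClosed_PP (ι := ι) hZ.out s) (PP_antitone Z hs.le)).smash
      (iter a (Fintype.card ι))).Null := by
  classical
  obtain ⟨A, A0, A1⟩ := N.exists_hmap hZ.out ((PMap.id M).smash a) (by
    refine (PMap.Homotopic.of_eq (PMap.ext ?_)).trans ha
    rintro ⟨x, w⟩
    rfl)
  exact Dens255.dens a A A0 A1 hs

end hep

/-- `Ndr` is stable under products with any space -/
def Ndr.prod {M : Type*} [TopologicalSpace M] [T2Space M] [LocallyCompactSpace M] {Z : Set M}
    (N : Ndr M Z) (W : Type*) [TopologicalSpace W] [T2Space W] [LocallyCompactSpace W] :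
    Ndr (M × W) {p | p.1 ∈ Z} where
  φ p := N.φ p.1
  cφ := N.cφ.comp continuous_fst
  φ_nonneg p := N.φ_nonneg p.1
  φ_zero p := N.φ_zero p.1
  h := N.h.smash (HMap.const (PMap.id W))
  h_zero := by
    rintro ⟨x, w⟩
    change sm (N.h (0, (x : OnePoint M))) ((w : OnePoint W)) = _
    rw [N.h_zero]; rfl
  h_mem := by
    rintro t ⟨x, w⟩ hx
    change sm (N.h (t, (x : OnePoint M))) ((w : OnePoint W)) = _ ∨ ∃ z ∈ _,
      sm (N.h (t, (x : OnePoint M))) ((w : OnePoint W)) = _
    rcases N.h_mem t x hx with h | ⟨z, hz, h⟩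
    · left; rw [h]; rfl
    · right; exact ⟨(z, w), hz, by rw [h]; rfl⟩
  h_one := by
    rintro ⟨x, w⟩ hx
    change sm (N.h (1, (x : OnePoint M))) ((w : OnePoint W)) = _ ∨ ∃ z ∈ _,
      sm (N.h (1, (x : OnePoint M))) ((w : OnePoint W)) = _
    rcases N.h_one x hx with h | ⟨z, hz, h⟩
    · left; rw [h]; rfl
    · right; exact ⟨(z, w), hz, by rw [h]; rfl⟩

end Crest.Agent.R090.Dens255
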