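import Crest.Agent.R090.AS3_58

/-!
# Row 90, block HOM (owner helper811): the unit class of the point in 58's theory

`one F : hU F Unit`, `heps_one`, `one_ne`, `one_gen`.
-/

set_option autoImplicit false

open Filter Topology Set Crest.Agent.R090.Sp962 Crest.Agent.R090.AS58

namespace Crest.Agent.R090.One811

open OnePoint

instance : Finite (OnePoint Unit) := inferInstanceAs (Finite (Option Unit))

/-- the finite point -/
abbrev pt : OnePoint Unit := ((() : Unit) : OnePoint Unit)

section lists

variable {F : Type} [CommRing F]

theorem mem_LZ_iff {φ : List (OnePoint Unit) → F} :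
    φ ∈ LZ F (OnePoint Unit) ↔ ∀ (n : ℕ) (x : OnePoint Unit), φ (List.replicate n x) = 0 := by
  constructor
  · rintro ⟨W, hW, h⟩ n x
    refine h _ fun a ha b hb => ?_
    rw [List.eq_of_mem_replicate ha, List.eq_of_mem_replicate hb]
    exact subset_of_mem_nhdsSet hW (mem_diagonal x)
  · intro h
    refine ⟨diagonal _, ?_, fun l hl => ?_⟩
    · have : IsOpen (diagonal (OnePoint Unit)) := isOpen_discrete _
      exact this.mem_nhdsSet_self
    · rcases l with _ | ⟨a, l⟩
      · exact h 0 ∞
      · have : a :: l = List.replicate (l.length + 1) a := by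
          rw [List.eq_replicate_iff]
          exact ⟨by simp, fun b hb => hl b hb a (by simp)⟩
        rw [this]
        exact h _ _

theorem mem_Sp_iff {φ : List (OnePoint Unit) → F} :
    φ ∈ Sp F ({(∞ : OnePoint Unit)} : Set (OnePoint Unit)) ↔
      ∀ n : ℕ, φ (List.replicate n ∞) = 0 := by
  rw [mem_Sp_singleton]
  constructor
  · rintro ⟨N, hN, h⟩ n
    refine h _ fun a ha => ?_
    rw [List.eq_of_mem_replicate ha]
    exact mem_of_mem_nhds hN
  · intro h
    refine ⟨{∞}, (isOpen_discrete _).mem_nhds rfl, fun l hl => ?_⟩
    have : l = List.replicate l.length ∞ := by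
      rw [List.eq_replicate_iff]
      exact ⟨rfl, fun b hb => hl b hb⟩
    rw [this]
    exact h _

theorem d_replicate {X : Type} (x : X) (n : ℕ) : ∀ φ : List X → F,
    d φ (List.replicate n x) = if Odd n then φ (List.replicate (n - 1) x) else 0 := by
  induction n with
  | zero => intro φ; simp
  | succ n ih =>
    intro φ
    rw [List.replicate_succ, d_cons, ih]
    by_cases h : Odd n
    · have h2 : ¬ Odd (n + 1) := by rw [Nat.odd_add_one]; exact not_not.2 h
      rw [if_pos h, if_neg h2, cs_apply, ← List.replicate_succ]
      have : n - 1 + 1 = n := Nat.succ_pred_eq_of_pos h.pos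
      rw [this, sub_self]
    · have h2 : Odd (n + 1) := by rw [Nat.odd_add_one]; exact h
      rw [if_neg h, if_pos h2, sub_zero]
      rfl

open scoped Classical in
variable (F) in
/-- the unit cochain -/
noncomputable def oneC : List (OnePoint Unit) → F := fun l => if l = [pt] then 1 else 0

open scoped Classical in
theorem oneC_replicate (n : ℕ) (x : OnePoint Unit) :
    oneC F (List.replicate n x) = if n = 1 ∧ x = pt then 1 else 0 := by
  have : List.replicate n x = [pt] ↔ n = 1 ∧ x = pt := by
    rw [show [pt] = List.replicate 1 pt from rfl]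
    constructor
    · intro h
      have h1 : n = 1 := by simpa using congrArg List.length h
      subst h1
      exact ⟨rfl, by simpa using h⟩
    · rintro ⟨rfl, rfl⟩; rfl
  simp only [oneC, this]

theorem oneC_mem : oneC F ∈ Zc F ({(∞ : OnePoint Unit)} : Set (OnePoint Unit)) := by
  refine ⟨mem_Sp_iff.2 fun n => ?_, ?_⟩
  · rw [oneC_replicate, if_neg]
    rintro ⟨_, h⟩
    exact OnePoint.infty_ne_coe _ h
  · simp only [SetLike.mem_coe, Submodule.mem_comap]
    rw [mem_LZ_iff]
    intro n x
    rw [d_replicate]
    split_ifs with h
    · rw [oneC_replicate, if_neg]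
      rintro ⟨h1, _⟩
      have : n = 2 := by omega
      subst this
      exact absurd h (by decide)
    · rfl

variable (F) in
/-- **the unit class** -/
noncomputable def one : hU F Unit := Hc.mk (oneC F) oneC_mem

theorem heps_one : heps F Unit (one F) = one F := by
  rw [one, heps, Hc.ev_mk]
  congr 1
  funext l
  rw [ev_apply]
  by_cases h : l = [pt]
  · subst h
    simp [oneC]
  · simp [oneC, h]

theorem one_ne [Nontrivial F] : one F ≠ 0 := by
  intro h
  rw [one, Hc.mk_eq_zero, mem_Bc] at h
  obtain ⟨η, hη, h⟩ := h
  have h1 := mem_LZ_iff.1 h 1 pt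
  rw [Pi.sub_apply, d_replicate, oneC_replicate] at h1
  have h2 : η [] = 0 := Sp_nil hη
  simp [h2] at h1

open scoped Classical in
theorem one_gen (x : hU F Unit) : ∃ r : F, x = r • one F := by
  obtain ⟨ψ, hψ, rfl⟩ := Hc.mk_surj x
  have hS := mem_Sp_iff.1 hψ.1
  have hd : ∀ (n : ℕ) (x : OnePoint Unit), d ψ (List.replicate n x) = 0 := mem_LZ_iff.1 hψ.2
  refine ⟨ψ [pt], ?_⟩
  rw [one, Hc.mk_smul, Hc.mk_eq_mk, mem_Bc]
  refine ⟨fun l => if Even l.length ∧ l ≠ [] ∧ l = List.replicate l.length pt then ψ (pt :: l) else 0,
    ?_, ?_⟩
  · rw [mem_Sp_iff]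
    intro n
    rw [if_neg]
    rintro ⟨_, h1, h2⟩
    rcases n with _ | n
    · exact h1 rfl
    · rw [List.length_replicate, List.replicate_succ, List.replicate_succ] at h2
      exact OnePoint.infty_ne_coe _ (List.cons.inj h2).1
  · rw [mem_LZ_iff]
    intro n x
    rw [Pi.sub_apply, Pi.sub_apply, Pi.smul_apply, d_replicate, oneC_replicate]
    induction x using OnePoint.rec with
    | infty =>
      rw [hS n, if_neg (fun h => OnePoint.infty_ne_coe _ h.2)]
      split_ifs with h1 h2
      · exfalso
        obtain ⟨_, h3, h4⟩ := h2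
        rw [List.length_replicate] at h4
        rcases hn : n - 1 with _ | m
        · rw [hn] at h3; exact h3 rfl
        · rw [hn, List.replicate_succ, List.replicate_succ] at h4
          exact OnePoint.infty_ne_coe _ (List.cons.inj h4).1
      · simp
      · simp
    | coe u =>
      obtain rfl : u = () := rfl
      by_cases hn : Odd n
      · rw [if_pos hn]
        by_cases h1 : n = 1
        · subst h1
          simp
        · have hp : 0 < n := hn.pos
          have h2 : n - 1 ≠ 0 := by omega
          rw [if_neg (fun h => h1 h.1), if_pos, ← List.replicate_succ,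
            Nat.sub_add_cancel hn.pos]
          · simp
          · refine ⟨?_, ?_, by simp⟩
            · rw [List.length_replicate]
              exact Nat.Odd.sub_odd hn odd_one
            · intro h
              exact h2 (by simpa using congrArg List.length h)
      · have h1 : n ≠ 1 := fun h => hn (h ▸ odd_one)
        rw [if_neg hn, if_neg (fun h => h1 h.1)]
        have h3 := hd (n + 1) (((() : Unit) : OnePoint Unit))
        rw [d_replicate, if_pos (Nat.odd_add_one.2 hn), Nat.add_sub_cancel] at h3
        rw [h3]
        simp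

end lists

end Crest.Agent.R090.One811
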