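import Crest.Agent.R090.Cyl_349
import Crest.Agent.R090.Puppe_962
import Crest.Agent.R090.HMap_255

/-!
# Row 90, leaf F1e / PAIR (owner helper663): the strict pair of doc 20 (F1')

For a closed `A ⊆ B`:
* `XH A = B × (0,1/2] ∪ A × [1/2,1) ⊆ B × Io`, `UH A = {x | 1/2 ≤ t}`;
* `eps : PMap (A × Io) (XH A)`, `coll : PMap (XH A) (A × Io)`, `coll_comp_eps`;
* `exists_pair` : from a null homotopy of `f ∧ incl : Z × A → E × B` a map of pairs
  `(Cyl f × (A × Io), Z × (A × Io)) → (E × XH A, E × UH A)` which becomes `ret f ∧ id` after `coll`.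
  No NDR / HEP is used: the map is defined by the universal property of the cylinder.
-/

set_option autoImplicit false
set_option linter.unusedSectionVars false

open Topology Filter Set

namespace Crest.Agent.R090.Pair663

open OnePoint Sp962 Cyl349 Dens255
open scoped unitInterval

universe u v w x

/-! ## the spaces -/

section spaces

variable {B : Type u} [TopologicalSpace B]

/-- `B × (0,1/2] ∪ A × (0,1)` -/
def XH (A : Set B) : Set (B × Io) := {p | (p.2 : ℝ) ≤ 1 / 2 ∨ p.1 ∈ A}

theorem mem_XH {A : Set B} {p : B × Io} : p ∈ XH A ↔ (p.2 : ℝ) ≤ 1 / 2 ∨ p.1 ∈ A := Iff.rfl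

/-- `B × {1/2} ∪ A × [1/2,1)` -/
def UH (A : Set B) : Set (XH A) := {x | 1 / 2 ≤ (x.1.2 : ℝ)}

theorem mem_UH {A : Set B} {x : XH A} : x ∈ UH A ↔ 1 / 2 ≤ (x.1.2 : ℝ) := Iff.rfl

theorem isClosed_XH {A : Set B} (hA : IsClosed A) : IsClosed (XH A) :=
  (isClosed_le (continuous_subtype_val.comp continuous_snd) continuous_const).union
    (hA.preimage continuous_fst)

theorem isClosed_UH (A : Set B) : IsClosed (UH A) :=
  isClosed_le continuous_const
    (continuous_subtype_val.comp (continuous_snd.comp continuous_subtype_val))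

instance instLCHA [LocallyCompactSpace B] (A : Set B) [hA : Fact (IsClosed A)] :
    LocallyCompactSpace A := hA.out.isClosedEmbedding_subtypeVal.locallyCompactSpace

instance instLCHXH [LocallyCompactSpace B] (A : Set B) [hA : Fact (IsClosed A)] :
    LocallyCompactSpace (XH A) :=
  (isClosed_XH hA.out).isClosedEmbedding_subtypeVal.locallyCompactSpace

/-! ### the inclusion `eps` -/

/-- the inclusion `A × Io → XH A` -/
def epsF (A : Set B) (p : A × Io) : XH A := ⟨(p.1, p.2), Or.inr p.1.2⟩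

@[simp] theorem epsF_val (A : Set B) (p : A × Io) : (epsF A p).1 = ((p.1 : B), p.2) := rfl

theorem continuous_epsF (A : Set B) : Continuous (epsF A) :=
  Continuous.subtype_mk (by fun_prop) _

theorem isClosedEmbedding_epsF (A : Set B) (hA : IsClosed A) : IsClosedEmbedding (epsF A) := by
  have h1 : IsClosedEmbedding ((Subtype.val : XH A → B × Io) ∘ epsF A) := by
    have : (Subtype.val : XH A → B × Io) ∘ epsF A = Prod.map (Subtype.val : A → B) id := rfl
    rw [this]
    exact hA.isClosedEmbedding_subtypeVal.prodMap IsClosedEmbedding.id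
  exact IsClosedEmbedding.of_comp IsEmbedding.subtypeVal h1

/-- the inclusion `A × Io → XH A` -/
def eps (A : Set B) [hA : Fact (IsClosed A)] : PMap (A × Io) (XH A) :=
  PMap.ofClosed (epsF A) (isClosedEmbedding_epsF A hA.out)

@[simp] theorem eps_coe (A : Set B) [Fact (IsClosed A)] (p : A × Io) :
    eps A (p : OnePoint (A × Io)) = ((epsF A p : XH A) : OnePoint (XH A)) := rfl

/-! ### the collapse `coll` -/

/-- `x ↦ (1+x)/2` -/
noncomputable def halfIo (x : Io) : Io :=
  ⟨(1 + x) / 2, by have := x.2.1; linarith, by have := x.2.2; linarith⟩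

theorem isOpenEmbedding_halfIo : IsOpenEmbedding halfIo := by
  have h1 : IsOpenEmbedding (((↑) : Io → ℝ) ∘ halfIo) := by
    have e : ((↑) : Io → ℝ) ∘ halfIo = (fun x : ℝ => (1 + x) / 2) ∘ ((↑) : Io → ℝ) := rfl
    rw [e]
    refine IsOpenEmbedding.comp ?_ isOpenEmbedding_Io
    have : (fun x : ℝ => (1 + x) / 2) =
        ((Homeomorph.addLeft (1 : ℝ)).trans (Homeomorph.mulRight₀ (2⁻¹ : ℝ) (by norm_num))) := by
      funext x
      simp [div_eq_mul_inv]
    rw [this]
    exact Homeomorph.isOpenEmbedding _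
  exact IsOpenEmbedding.of_comp halfIo isOpenEmbedding_Io h1

/-- the open embedding of `A × Io` onto `A × (1/2,1)` -/
noncomputable def collF (A : Set B) (p : A × Io) : XH A := ⟨(p.1, halfIo p.2), Or.inr p.1.2⟩

theorem continuous_collF (A : Set B) : Continuous (collF A) :=
  Continuous.subtype_mk ((continuous_subtype_val.comp continuous_fst).prodMk
    (isOpenEmbedding_halfIo.continuous.comp continuous_snd)) _

theorem range_collF (A : Set B) : range (collF A) = {x : XH A | 1 / 2 < (x.1.2 : ℝ)} := by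
  ext x
  constructor
  · rintro ⟨p, rfl⟩
    change 1 / 2 < (1 + (p.2 : ℝ)) / 2
    have := p.2.2.1
    linarith
  · intro hx
    have hx' : 1 / 2 < (x.1.2 : ℝ) := hx
    have hA : x.1.1 ∈ A := by
      rcases x.2 with h | h
      · exact absurd h (not_le.2 hx')
      · exact h
    have h2 : 2 * (x.1.2 : ℝ) - 1 ∈ Ioo (0 : ℝ) 1 := by
      have := x.1.2.2.2
      constructor <;> linarith
    refine ⟨(⟨x.1.1, hA⟩, ⟨2 * (x.1.2 : ℝ) - 1, h2⟩), ?_⟩
    refine Subtype.ext (Prod.ext rfl (Subtype.ext ?_))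
    change (1 + (2 * (x.1.2 : ℝ) - 1)) / 2 = x.1.2
    ring

theorem isOpenEmbedding_collF (A : Set B) : IsOpenEmbedding (collF A) := by
  refine ⟨?_, ?_⟩
  · have h1 : IsEmbedding ((Subtype.val : XH A → B × Io) ∘ collF A) := by
      have : (Subtype.val : XH A → B × Io) ∘ collF A = Prod.map (Subtype.val : A → B) halfIo := rfl
      rw [this]
      exact IsEmbedding.subtypeVal.prodMap isOpenEmbedding_halfIo.isEmbedding
    exact IsEmbedding.of_comp (continuous_collF A) continuous_subtype_val h1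
  · rw [range_collF]
    exact isOpen_lt continuous_const
      (continuous_subtype_val.comp (continuous_snd.comp continuous_subtype_val))

/-- the collapse `XH A → A × Io`, `(a,t) ↦ (a,2t-1)` for `t > 1/2` -/
noncomputable def coll [T2Space B] (A : Set B) : PMap (XH A) (A × Io) :=
  PMap.ofOpen (collF A) (isOpenEmbedding_collF A)

variable [T2Space B]

theorem coll_coe (A : Set B) (x : XH A) {a : A} (ha : x.1.1 = a) :
    coll A (x : OnePoint (XH A)) = sm (a : OnePoint A) (qI (2 * x.1.2 - 1)) := by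
  rcases lt_or_ge (1 / 2 : ℝ) (x.1.2 : ℝ) with h | h
  · have h2 : 2 * (x.1.2 : ℝ) - 1 ∈ Ioo (0 : ℝ) 1 := by
      have := x.1.2.2.2
      constructor <;> linarith
    have e : x = collF A (a, ⟨_, h2⟩) := by
      refine Subtype.ext (Prod.ext ha (Subtype.ext ?_))
      change (x.1.2 : ℝ) = (1 + (2 * (x.1.2 : ℝ) - 1)) / 2
      ring
    rw [qI_of_mem h2, sm_coe]
    conv_lhs => rw [e]
    exact PMap.ofOpen_coe _ _ _
  · rw [qI_of_le (by linarith), sm_inf_right]
    refine PMap.ofOpen_of_notMem _ _ ?_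
    rw [range_collF]
    exact not_lt.2 h

theorem coll_of_le (A : Set B) (x : XH A) (h : (x.1.2 : ℝ) ≤ 1 / 2) :
    coll A (x : OnePoint (XH A)) = ∞ := by
  refine PMap.ofOpen_of_notMem _ _ ?_
  rw [range_collF]
  exact not_lt.2 h

theorem coll_eps (A : Set B) [Fact (IsClosed A)] (a : OnePoint A) (t : ℝ) :
    coll A (eps A (sm a (qI t))) = sm a (qI (2 * t - 1)) := by
  induction a using OnePoint.rec with
  | infty => simp
  | coe a =>
    rcases le_or_gt t 0 with h0 | h0
    · rw [qI_of_le h0, qI_of_le (by linarith)]; simp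
    rcases le_or_gt 1 t with h1 | h1
    · rw [qI_of_ge h1, qI_of_ge (by linarith)]; simp
    rw [qI_of_mem (mem_Ioo.2 ⟨h0, h1⟩), sm_coe, eps_coe]
    exact coll_coe A _ rfl

theorem coll_comp_eps (A : Set B) [LocallyCompactSpace B] [Fact (IsClosed A)] :
    ((coll A).comp (eps A)).Homotopic (PMap.id (A × Io)) := by
  refine MC.homotopic_susp
    (fun s a t => sm a (qI ((2 - s) * t - (1 - s)))) ?_ ?_ ?_ ?_ ?_ ?_
  · exact Continuous.sm962 (by fun_prop) (continuous_qI.comp (by fun_prop))
  · intro s t; rfl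
  · intro s a
    have := s.2.2
    rw [qI_of_le (by linarith), sm_inf_right]
  · intro s a
    rw [qI_of_ge (by linarith), sm_inf_right]
  · intro a t
    rw [PMap.comp_apply]
    have := coll_eps A (a : OnePoint A) (t : ℝ)
    rw [qI_coe] at this
    rw [this]
    congr 2
    simp
  · intro a t
    rw [PMap.id_apply]
    have : ((2 - ((1 : I) : ℝ)) * (t : ℝ) - (1 - ((1 : I) : ℝ))) = t := by
      simp; ring
    simp only [this, qI_coe]

end spaces

/-! ## the map of pairs -/

section pair

variable {Z : Type u} {E : Type v} {B : Type w}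
variable [TopologicalSpace Z] [TopologicalSpace E] [TopologicalSpace B]
variable [T2Space Z] [LocallyCompactSpace Z] [T2Space E] [LocallyCompactSpace E]
  [T2Space B] [LocallyCompactSpace B]

/-- the inclusion `A → B` -/
def inc (A : Set B) [hA : Fact (IsClosed A)] : PMap A B :=
  PMap.ofClosed ((↑) : A → B) hA.out.isClosedEmbedding_subtypeVal

@[simp] theorem inc_coe (A : Set B) [Fact (IsClosed A)] (a : A) :
    inc A (a : OnePoint A) = ((a : B) : OnePoint B) := rfl

/-- the closed embedding `E × XH A → E × (B × Io)` -/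
def jX (E : Type v) (A : Set B) (p : E × XH A) : E × (B × Io) := (p.1, p.2.1)

theorem isClosedEmbedding_jX (A : Set B) [hA : Fact (IsClosed A)] :
    IsClosedEmbedding (jX E A) := by
  have : jX E A = Prod.map id (Subtype.val : XH A → B × Io) := rfl
  rw [this]
  exact IsClosedEmbedding.id.prodMap (isClosed_XH hA.out).isClosedEmbedding_subtypeVal

/-- time of the null homotopy -/
noncomputable def sig (r t : ℝ) : ℝ := min 1 (2 - 2 * r) * max 0 (1 - 2 * t)

/-- new suspension coordinate -/
noncomputable def tau (r t : ℝ) : ℝ := 1 / 2 - min 1 (2 * r) * max 0 (1 - 2 * t) / 2 + max 0 (t - 1 / 2)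

theorem sig_of_ge {r t : ℝ} (h : 1 / 2 ≤ t) : sig r t = 0 := by
  rw [sig, max_eq_left (by linarith), mul_zero]

theorem tau_of_ge {r t : ℝ} (h : 1 / 2 ≤ t) : tau r t = t := by
  rw [tau, max_eq_left (by linarith), max_eq_right (by linarith)]; ring

theorem tau_of_le {r t : ℝ} (hr : 0 ≤ r) (h : t ≤ 1 / 2) : tau r t ≤ 1 / 2 := by
  rw [tau, max_eq_right (a := (0 : ℝ)) (b := 1 - 2 * t) (by linarith),
    max_eq_left (a := (0 : ℝ)) (b := t - 1 / 2) (by linarith)]
  have h1 : 0 ≤ min 1 (2 * r) := le_min zero_le_one (by linarith)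
  have h2 : 0 ≤ min 1 (2 * r) * (1 - 2 * t) := mul_nonneg h1 (by linarith)
  linarith

theorem sig_one {t : ℝ} : sig 1 t = 0 := by
  rw [sig]; norm_num

theorem tau_one {t : ℝ} : tau 1 t = t := by
  rw [tau, min_eq_left (by norm_num)]
  rcases le_total t (1 / 2) with h | h
  · rw [max_eq_right (a := (0 : ℝ)) (b := 1 - 2 * t) (by linarith),
      max_eq_left (a := (0 : ℝ)) (b := t - 1 / 2) (by linarith)]
    ring
  · rw [max_eq_left (a := (0 : ℝ)) (b := 1 - 2 * t) (by linarith),
      max_eq_right (a := (0 : ℝ)) (b := t - 1 / 2) (by linarith)]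
    ring

theorem le_tau_zero (t : ℝ) : 1 / 2 ≤ tau 0 t := by
  rw [tau, mul_zero, min_eq_right (by norm_num : (0 : ℝ) ≤ 1)]
  have := le_max_left (0 : ℝ) (t - 1 / 2)
  linarith

theorem sig_zero_or {r : ℝ} (hr : r ∈ Icc (0 : ℝ) 1) : sig r 0 = 1 ∨ tau r 0 = 0 := by
  rcases le_total r (1 / 2) with h | h
  · left
    rw [sig, min_eq_left (by linarith)]
    norm_num
  · right
    rw [tau, min_eq_left (by linarith)]
    norm_num

theorem tau_t_one {r : ℝ} : tau r 1 = 1 := tau_of_ge (by norm_num)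

@[fun_prop] theorem continuous_sig : Continuous (fun p : ℝ × ℝ => sig p.1 p.2) := by
  unfold sig; fun_prop

@[fun_prop] theorem continuous_tau : Continuous (fun p : ℝ × ℝ => tau p.1 p.2) := by
  unfold tau; fun_prop

/-- the basic formula, in `(E × (B × Io))⁺` -/
noncomputable def FF (A : Set B) [Fact (IsClosed A)] (H : I × OnePoint (Z × A) → OnePoint (E × B))
    (z : OnePoint Z) (r : ℝ) (a : OnePoint A) (t : ℝ) : OnePoint (E × (B × Io)) :=
  PMap.ofHomeo (Homeomorph.prodAssoc E B Io) (sm (H (cl (sig r t), sm z a)) (qI (tau r t)))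

variable {A : Set B} [hA : Fact (IsClosed A)] {H : I × OnePoint (Z × A) → OnePoint (E × B)}

theorem FF_inf_right (Hi : ∀ s, H (s, ∞) = ∞) (z : OnePoint Z) (r t : ℝ) :
    FF A H z r ∞ t = ∞ := by
  rw [FF, sm_inf_right, Hi, sm_inf_left, PMap.map_inf]

theorem FF_inf_left (Hi : ∀ s, H (s, ∞) = ∞) (r : ℝ) (a : OnePoint A) (t : ℝ) :
    FF A H ∞ r a t = ∞ := by
  rw [FF, sm_inf_left, Hi, sm_inf_left, PMap.map_inf]

theorem FF_zero (H1 : ∀ x, H (1, x) = ∞) (z : OnePoint Z) {r : ℝ} (hr : r ∈ Icc (0 : ℝ) 1)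
    (a : OnePoint A) : FF A H z r a 0 = ∞ := by
  rcases sig_zero_or hr with h | h
  · rw [FF, h, cl_one, H1, sm_inf_left, PMap.map_inf]
  · rw [FF, h, qI_zero, sm_inf_right, PMap.map_inf]

theorem FF_t_one (z : OnePoint Z) (r : ℝ) (a : OnePoint A) : FF A H z r a 1 = ∞ := by
  rw [FF, tau_t_one, qI_one, sm_inf_right, PMap.map_inf]

theorem continuous_FF (hH : Continuous H) :
    Continuous (fun p : (OnePoint Z × I) × (OnePoint A × I) => FF A H p.1.1 p.1.2 p.2.1 p.2.2) := by
  unfold FF
  refine (PMap.ofHomeo (Homeomorph.prodAssoc E B Io)).cont.comp ?_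
  refine Continuous.sm962 (hH.comp (Continuous.prodMk ?_ ?_)) (continuous_qI.comp ?_)
  · exact continuous_cl.comp (continuous_sig.comp
      (Continuous.prodMk (continuous_subtype_val.comp (continuous_snd.comp continuous_fst))
        (continuous_subtype_val.comp (continuous_snd.comp continuous_snd))))
  · exact Continuous.sm962 (by fun_prop) (by fun_prop)
  · exact continuous_tau.comp
      (Continuous.prodMk (continuous_subtype_val.comp (continuous_snd.comp continuous_fst))
        (continuous_subtype_val.comp (continuous_snd.comp continuous_snd)))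

/-- `FF` as a function of the point of `(A × Io)⁺` -/
noncomputable def GG (A : Set B) [Fact (IsClosed A)] (H : I × OnePoint (Z × A) → OnePoint (E × B))
    (z : OnePoint Z) (r : ℝ) (y : OnePoint (A × Io)) : OnePoint (E × (B × Io)) :=
  MC.sus ∞ (fun a t => FF A H z r a t) y

theorem GG_sm (Hi : ∀ s, H (s, ∞) = ∞) (H1 : ∀ x, H (1, x) = ∞) (z : OnePoint Z) {r : ℝ}
    (hr : r ∈ Icc (0 : ℝ) 1) (a : OnePoint A) {t : ℝ} (ht : t ∈ Icc (0 : ℝ) 1) :
    GG A H z r (sm a (qI t)) = FF A H z r a t :=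
  MC.sus_sm ∞ (fun a t => FF A H z r a t) (fun t => FF_inf_right Hi z r t)
    (fun a => FF_zero H1 z hr a) (fun a => FF_t_one z r a) a ht

theorem continuous_GG (hH : Continuous H) (Hi : ∀ s, H (s, ∞) = ∞) (H1 : ∀ x, H (1, x) = ∞) :
    Continuous (fun p : (OnePoint Z × I) × OnePoint (A × Io) => GG A H p.1.1 p.1.2 p.2) := by
  refine MC.continuous_of_susp ?_
  have : (fun p : (OnePoint Z × I) × (OnePoint A × I) => GG A H p.1.1 p.1.2 (sm p.2.1 (qI p.2.2)))
      = fun p => FF A H p.1.1 p.1.2 p.2.1 p.2.2 := by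
    funext p
    exact GG_sm Hi H1 p.1.1 p.1.2.2 p.2.1 p.2.2.2
  simp only
  rw [this]
  exact continuous_FF hH

/-- the `E`-end -/
def endP (E : Type v) [TopologicalSpace E] [T2Space E] [LocallyCompactSpace E] (A : Set B)
    [Fact (IsClosed A)] : PMap (E × (A × Io)) (E × (B × Io)) :=
  (PMap.id E).smash ((inc A).smash (PMap.id Io))

theorem GG_one (f : PMap Z E) (Hi : ∀ s, H (s, ∞) = ∞) (H1 : ∀ x, H (1, x) = ∞)
    (H0 : ∀ x, H (0, x) = (f.smash (inc A)) x) (z : OnePoint Z) (y : OnePoint (A × Io)) :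
    GG A H z 1 y = endP E A (sm (f z) y) := by
  obtain ⟨⟨a, s⟩, rfl⟩ := sm_surjective y
  obtain ⟨t, rfl⟩ := qI_surjective s
  simp only
  rw [GG_sm Hi H1 z ⟨zero_le_one, le_rfl⟩ a t.2, FF, sig_one, cl_zero, tau_one, H0, PMap.smash_sm,
    endP, PMap.smash_sm, PMap.smash_sm, PMap.id_apply, PMap.id_apply]
  generalize f z = e
  generalize inc A a = b
  generalize qI (t : ℝ) = s
  induction e using OnePoint.rec with
  | infty => rfl
  | coe e =>
    induction b using OnePoint.rec with
    | infty => rfl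
    | coe b =>
      induction s using OnePoint.rec with
      | infty => rfl
      | coe s => rfl

theorem GG_inf_left (Hi : ∀ s, H (s, ∞) = ∞) (r : ℝ) (y : OnePoint (A × Io)) :
    GG A H ∞ r y = ∞ := by
  induction y using OnePoint.rec with
  | infty => rfl
  | coe y => exact FF_inf_left Hi r _ _

/-- all values lie in `E × XH A` -/
theorem FF_mem (f : PMap Z E) (H0 : ∀ x, H (0, x) = (f.smash (inc A)) x) (z : OnePoint Z) {r : ℝ}
    (hr : 0 ≤ r) (a : OnePoint A) (t : ℝ) :
    FF A H z r a t = ∞ ∨ ∃ q : E × XH A, FF A H z r a t = (jX E A q : OnePoint (E × (B × Io))) ∧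
      (q.2.1.2 : ℝ) = tau r t := by
  rw [FF]
  rcases hx : H (cl (sig r t), sm z a) with _ | ⟨e, b⟩
  · left; rfl
  · rcases hy : qI (tau r t) with _ | s
    · left; rfl
    · right
      have hs : tau r t = s := qI_eq_coe.1 hy
      have hmem : (s : ℝ) ≤ 1 / 2 ∨ b ∈ A := by
        rcases le_total t (1 / 2) with h | h
        · left; rw [← hs]; exact tau_of_le hr h
        · right
          rw [sig_of_ge h, cl_zero, H0, PMap.smash_sm] at hx
          have h3 : sm (f z) (inc A a) = (((e, b) : E × B) : OnePoint (E × B)) := hx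
          have h4 := (sm_eq_coe.1 h3).2
          induction a using OnePoint.rec with
          | infty => exact absurd h4 (infty_ne_coe _)
          | coe a =>
            have : (a : B) = b := coe_injective h4
            rw [← this]; exact a.2
      exact ⟨(e, ⟨(b, s), hmem⟩), rfl, hs.symm⟩

/-! ### the map out of the cylinder -/

variable (f : PMap Z E)

/-- the raw map on `(Cyl f)⁺ × (A × Io)⁺` -/
noncomputable def LL (A : Set B) [Fact (IsClosed A)] (H : I × OnePoint (Z × A) → OnePoint (E × B))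
    (c : OnePoint (Cyl f)) (y : OnePoint (A × Io)) : OnePoint (E × (B × Io)) :=
  Cyl.lift f (fun z r => GG A H z r y) (fun e => endP E A (sm e y)) c

theorem LL_i (e : OnePoint E) (y : OnePoint (A × Io)) :
    LL f A H (Cyl.i f e) y = endP E A (sm e y) := Cyl.lift_i f _ _ e

theorem LL_q (Hi : ∀ s, H (s, ∞) = ∞) (H1 : ∀ x, H (1, x) = ∞)
    (H0 : ∀ x, H (0, x) = (f.smash (inc A)) x) (z : OnePoint Z) {r : ℝ} (hr : r ∈ Icc (0 : ℝ) 1)
    (y : OnePoint (A × Io)) : LL f A H (Cyl.q f z r) y = GG A H z r y := by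
  refine Cyl.lift_q f (fun z r => GG A H z r y) (fun e => endP E A (sm e y)) ?_ ?_ z hr
  · intro t
    rw [GG_inf_left Hi, sm_inf_left, PMap.map_inf]
  · intro a
    exact GG_one f Hi H1 H0 a y

theorem LL_inf_left (y : OnePoint (A × Io)) : LL f A H ∞ y = ∞ := by
  change endP E A (sm ∞ y) = ∞
  rw [sm_inf_left, PMap.map_inf]

theorem LL_inf_right (Hi : ∀ s, H (s, ∞) = ∞) (H1 : ∀ x, H (1, x) = ∞)
    (H0 : ∀ x, H (0, x) = (f.smash (inc A)) x) (c : OnePoint (Cyl f)) : LL f A H c ∞ = ∞ := by
  revert c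
  refine Cyl.cases f ?_ ?_
  · intro z r hr
    rw [LL_q f Hi H1 H0 z hr]; rfl
  · intro e
    rw [LL_i, sm_inf_right, PMap.map_inf]

theorem continuous_LL (hH : Continuous H) (Hi : ∀ s, H (s, ∞) = ∞) (H1 : ∀ x, H (1, x) = ∞)
    (H0 : ∀ x, H (0, x) = (f.smash (inc A)) x) :
    Continuous (fun p : OnePoint (Cyl f) × OnePoint (A × Io) => LL f A H p.1 p.2) := by
  have key : Continuous (fun p : OnePoint (A × Io) × OnePoint (Cyl f) => LL f A H p.2 p.1) := by
    refine Cyl.continuous_of f ?_ ?_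
    · have : (fun p : OnePoint (A × Io) × (OnePoint Z × I) =>
          LL f A H (Cyl.q f p.2.1 p.2.2) p.1) = fun p => GG A H p.2.1 p.2.2 p.1 := by
        funext p
        exact LL_q f Hi H1 H0 p.2.1 p.2.2.2 p.1
      simp only
      rw [this]
      exact (continuous_GG hH Hi H1).comp (continuous_snd.prodMk continuous_fst)
    · have : (fun p : OnePoint (A × Io) × OnePoint E => LL f A H (Cyl.i f p.2) p.1) =
          fun p => endP E A (sm p.2 p.1) := by
        funext p
        exact LL_i f p.2 p.1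
      simp only
      rw [this]
      exact (endP E A).cont.comp (Continuous.sm962 (by fun_prop) (by fun_prop))
  exact key.comp (continuous_snd.prodMk continuous_fst)

theorem LL_mem (Hi : ∀ s, H (s, ∞) = ∞) (H1 : ∀ x, H (1, x) = ∞)
    (H0 : ∀ x, H (0, x) = (f.smash (inc A)) x) (c : OnePoint (Cyl f)) (y : OnePoint (A × Io)) :
    LL f A H c y = ∞ ∨ ∃ q : E × XH A, LL f A H c y = (jX E A q : OnePoint (E × (B × Io))) := by
  revert c
  refine Cyl.cases f ?_ ?_
  · intro z r hr
    rw [LL_q f Hi H1 H0 z hr]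
    obtain ⟨⟨a, s⟩, rfl⟩ := sm_surjective y
    obtain ⟨t, rfl⟩ := qI_surjective s
    simp only
    rw [GG_sm Hi H1 z hr a t.2]
    rcases FF_mem f H0 z hr.1 a t with h | ⟨q, h, _⟩
    · exact Or.inl h
    · exact Or.inr ⟨q, h⟩
  · intro e
    rw [LL_i]
    induction e using OnePoint.rec with
    | infty => left; rw [sm_inf_left, PMap.map_inf]
    | coe e =>
      induction y using OnePoint.rec with
      | infty => left; rw [sm_inf_right, PMap.map_inf]
      | coe y =>
        right
        exact ⟨(e, epsF A y), rfl⟩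

/-- the map into `(E × (B × Io))⁺` -/
noncomputable def LP (A : Set B) [Fact (IsClosed A)] (H : I × OnePoint (Z × A) → OnePoint (E × B))
    (hH : Continuous H) (Hi : ∀ s, H (s, ∞) = ∞) (H1 : ∀ x, H (1, x) = ∞)
    (H0 : ∀ x, H (0, x) = (f.smash (inc A)) x) : PMap (Cyl f × (A × Io)) (E × (B × Io)) where
  toFun x := x.elim ∞ fun p => LL f A H p.1 p.2
  cont := by
    refine continuous_of_sm ?_
    have : (fun p : OnePoint (Cyl f) × OnePoint (A × Io) =>
        (sm p.1 p.2).elim ∞ fun p => LL f A H p.1 p.2) = fun p => LL f A H p.1 p.2 := by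
      funext p
      obtain ⟨c, y⟩ := p
      induction c using OnePoint.rec with
      | infty => exact (LL_inf_left f y).symm
      | coe c =>
        induction y using OnePoint.rec with
        | infty => exact (LL_inf_right f Hi H1 H0 _).symm
        | coe y => rfl
    rw [this]
    exact continuous_LL f hH Hi H1 H0
  map_inf := rfl

theorem LP_sm (hH : Continuous H) (Hi : ∀ s, H (s, ∞) = ∞) (H1 : ∀ x, H (1, x) = ∞)
    (H0 : ∀ x, H (0, x) = (f.smash (inc A)) x) (c : OnePoint (Cyl f)) (y : OnePoint (A × Io)) :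
    LP f A H hH Hi H1 H0 (sm c y) = LL f A H c y := by
  induction c using OnePoint.rec with
  | infty => exact (LL_inf_left f y).symm
  | coe c =>
    induction y using OnePoint.rec with
    | infty => exact (LL_inf_right f Hi H1 H0 _).symm
    | coe y => rfl

/-- **the strict map of pairs** -/
theorem exists_pair (h : (f.smash (inc A)).Null) :
    ∃ L : PMap (Cyl f × (A × Io)) (E × XH A),
      (∀ (z : Z) (y : A × Io), L ((Cyl.iU f z, y) : Cyl f × (A × Io)) = ∞ ∨
        ∃ (e : E) (x : XH A), x ∈ UH A ∧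
          L ((Cyl.iU f z, y) : Cyl f × (A × Io)) = (((e, x) : E × XH A) : OnePoint (E × XH A))) ∧
      (∀ (e : OnePoint E) (y : OnePoint (A × Io)), L (sm (Cyl.i f e) y) = sm e (eps A y)) ∧
      (((PMap.id E).smash (coll A)).comp L).Homotopic ((Cyl.ret f).smash (PMap.id (A × Io))) := by
  obtain ⟨H, hH, H0, H1, Hi⟩ := h.exists
  have H1' : ∀ x, H (1, x) = ∞ := H1
  have hmem : ∀ x : OnePoint (Cyl f × (A × Io)), LP f A H hH Hi H1' H0 x = ∞ ∨
      ∃ q : E × XH A, LP f A H hH Hi H1' H0 x = (jX E A q : OnePoint (E × (B × Io))) := by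
    intro x
    obtain ⟨⟨c, y⟩, rfl⟩ := sm_surjective x
    simp only
    rw [LP_sm]
    exact LL_mem f Hi H1' H0 c y
  have hj : IsClosedEmbedding (jX E A) := isClosedEmbedding_jX A
  obtain ⟨K, hK, hKe⟩ := exists_lift hj (LP f A H hH Hi H1' H0).cont hmem
  have hinj : Function.Injective (OnePoint.map (jX E A)) := map_injective hj
  have hK0 : K ∞ = ∞ := by
    refine hinj ?_
    rw [hKe, PMap.map_inf]; rfl
  let L : PMap (Cyl f × (A × Io)) (E × XH A) := ⟨K, hK, hK0⟩
  have hL : ∀ x, OnePoint.map (jX E A) (L x) = LP f A H hH Hi H1' H0 x := hKe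
  have hLi : ∀ (e : OnePoint E) (y : OnePoint (A × Io)), L (sm (Cyl.i f e) y) = sm e (eps A y) := by
    intro e y
    refine hinj ?_
    rw [hL, LP_sm, LL_i]
    induction e using OnePoint.rec with
    | infty => rw [sm_inf_left, sm_inf_left, PMap.map_inf]; rfl
    | coe e =>
      induction y using OnePoint.rec with
      | infty => rw [sm_inf_right, PMap.map_inf, PMap.map_inf, sm_inf_right]; rfl
      | coe y => rfl
  refine ⟨L, ?_, hLi, ?_⟩
  · intro z y
    have h1 : OnePoint.map (jX E A) (L ((Cyl.iU f z, y) : Cyl f × (A × Io))) =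
        FF A H z 0 (y.1 : OnePoint A) y.2 := by
      rw [hL]
      have e1 : (((Cyl.iU f z, y) : Cyl f × (A × Io)) : OnePoint (Cyl f × (A × Io))) =
          sm (Cyl.q f (z : OnePoint Z) 0) (y : OnePoint (A × Io)) := by
        rw [← Cyl.top_apply, Cyl.top_coe]; rfl
      rw [e1, LP_sm, LL_q f Hi H1' H0 _ ⟨le_rfl, zero_le_one⟩]
      rfl
    rcases FF_mem f H0 (z : OnePoint Z) le_rfl (y.1 : OnePoint A) (y.2 : ℝ) with h2 | ⟨q, h2, h3⟩
    · left
      refine hinj ?_
      rw [h1, h2]; rfl
    · right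
      refine ⟨q.1, q.2, ?_, ?_⟩
      · rw [mem_UH, h3]; exact le_tau_zero _
      · refine hinj ?_
        rw [h1, h2]; rfl
  · have s1 : L.Homotopic (((PMap.id E).smash (eps A)).comp
        ((Cyl.ret f).smash (PMap.id (A × Io)))) := by
      have s2 : (L.comp (((Cyl.i f).comp (Cyl.ret f)).smash (PMap.id (A × Io)))).Homotopic L := by
        have := PMap.Homotopic.comp_left L ((Cyl.i_comp_ret f).smash
          (PMap.Homotopic.refl (PMap.id (A × Io))))
        rw [PMap.smash_id, PMap.comp_id] at this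
        exact this
      refine s2.symm.trans (.of_eq (PMap.ext fun x => ?_))
      obtain ⟨c, y⟩ := x
      rw [PMap.comp_apply, PMap.comp_apply, PMap.smash_coe, PMap.smash_coe, PMap.comp_apply,
        PMap.id_apply, hLi, PMap.smash_sm, PMap.id_apply]
    refine (PMap.Homotopic.comp_left _ s1).trans ?_
    have s3 : ((PMap.id E).smash (coll A)).comp (((PMap.id E).smash (eps A)).comp
        ((Cyl.ret f).smash (PMap.id (A × Io)))) =
        ((PMap.id E).smash ((coll A).comp (eps A))).comp
          ((Cyl.ret f).smash (PMap.id (A × Io))) := by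
      rw [← PMap.comp_assoc, PMap.smash_comp, PMap.id_comp]
    rw [s3]
    have s4 := PMap.Homotopic.comp_right ((PMap.Homotopic.refl (PMap.id E)).smash
      (coll_comp_eps A)) ((Cyl.ret f).smash (PMap.id (A × Io)))
    rw [PMap.smash_id, PMap.id_comp] at s4
    exact s4

end pair

end Crest.Agent.R090.Pair663
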