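import Mathlib

/-!
# Row 90, block (A): counting fixed orbits of non-constant `q`-tuples

`S` a finite set (the non-base `n`-simplices), `φ : S → Option S` a partial self-map (`none` = base
point).  We count the `C_q`-orbits of non-constant `q`-tuples fixed by `φ`.
-/

set_option autoImplicit false

namespace Crest.Agent.R090.PowCount253

open Function

variable {S : Type*} (q : ℕ) [Fact q.Prime]

/-- rotation of tuples -/
def rot (g : ZMod q) (x : ZMod q → S) : ZMod q → S := fun i => x (i + g)

variable {q}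

@[simp] theorem rot_apply (g : ZMod q) (x : ZMod q → S) (i : ZMod q) : rot q g x i = x (i + g) := rfl

@[simp] theorem rot_zero (x : ZMod q → S) : rot q 0 x = x := by ext i; simp

theorem rot_rot (g h : ZMod q) (x : ZMod q → S) : rot q g (rot q h x) = rot q (g + h) x := by
  ext i; simp [add_assoc]

/-- non-constant tuples -/
def NC (x : ZMod q → S) : Prop := ¬ ∃ c, ∀ i, x i = c

theorem NC.rot {x : ZMod q → S} (h : NC x) (g : ZMod q) : NC (rot q g x) := by
  rintro ⟨c, hc⟩
  exact h ⟨c, fun i => by simpa using hc (i - g)⟩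

/-- the rotation action is free on non-constant tuples -/
theorem NC.free {x : ZMod q → S} (h : NC x) {g : ZMod q} (hg : PowCount253.rot q g x = x) : g = 0 := by
  by_contra hne
  apply h
  refine ⟨x 0, fun i => ?_⟩
  have key : ∀ n : ℕ, x (n * g) = x 0 := by
    intro n
    induction n with
    | zero => simp
    | succ n ih =>
      have := congrFun hg (n * g)
      rw [rot_apply] at this
      rw [← ih, ← this]
      congr 1
      push_cast
      ring
  have := key (i / g).val
  rw [ZMod.natCast_zmod_val, div_mul_cancel₀ _ hne] at this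
  exact this

theorem NC.rot_inj {x : ZMod q → S} (h : NC x) {g g' : ZMod q}
    (hg : PowCount253.rot q g x = PowCount253.rot q g' x) : g = g' := by
  have h1 : PowCount253.rot q (g - g') (PowCount253.rot q g' x) = PowCount253.rot q g' x := by
    rw [rot_rot]; simpa using hg
  have := (h.rot g').free h1
  exact sub_eq_zero.1 this

variable (q) in
/-- orbit equivalence on non-constant tuples -/
def orb (S : Type*) : Setoid {x : ZMod q → S // NC x} where
  r x y := ∃ g, PowCount253.rot q g x.1 = y.1
  iseqv :=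
    ⟨fun x => ⟨0, rot_zero _⟩,
     fun {x y} ⟨g, hg⟩ => ⟨-g, by rw [← hg, rot_rot]; simp⟩,
     fun {x y z} ⟨g, hg⟩ ⟨h, hh⟩ => ⟨h + g, by rw [← hh, ← hg, rot_rot]⟩⟩

/-- `φ x = rot g x` -/
def FixBy (φ : S → Option S) (g : ZMod q) (x : ZMod q → S) : Prop := ∀ i, φ (x i) = some (x (i + g))

theorem FixBy.rot {φ : S → Option S} {g : ZMod q} {x : ZMod q → S} (h : FixBy φ g x) (k : ZMod q) :
    FixBy φ g (PowCount253.rot q k x) := fun i => by
  rw [rot_apply, rot_apply, h]; congr 2; ring

/-- an orbit is fixed by `φ` -/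
def OFix (φ : S → Option S) (o : Quotient (orb q S)) : Prop :=
  ∃ x : {x : ZMod q → S // NC x}, Quotient.mk (orb q S) x = o ∧ ∃ g, FixBy φ g x.1

variable (q) in
/-- fixed tuples up to rotation -/
abbrev AA (φ : S → Option S) := {p : ZMod q × (ZMod q → S) // NC p.2 ∧ FixBy φ p.1 p.2}

theorem OFix.out {φ : S → Option S} {o : Quotient (orb q S)} (h : OFix φ o) :
    ∃ g, FixBy φ g (Quotient.out o).1 := by
  obtain ⟨x, hx, g, hg⟩ := h
  have : (orb q S).r x (Quotient.out o) := by
    apply Quotient.exact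
    rw [hx, Quotient.out_eq]
  obtain ⟨k, hk⟩ := this
  exact ⟨g, by rw [← hk]; exact hg.rot k⟩

/-- pairs (fixed orbit, rotation) ≃ fixed tuples -/
noncomputable def equivA (φ : S → Option S) :
    {o : Quotient (orb q S) // OFix φ o} × ZMod q ≃ AA q φ := by
  refine Equiv.ofBijective
    (fun p => ⟨((OFix.out p.1.2).choose, rot q p.2 (Quotient.out p.1.1).1),
      (Quotient.out p.1.1).2.rot _, (OFix.out p.1.2).choose_spec.rot _⟩) ⟨?_, ?_⟩
  · rintro ⟨⟨o, ho⟩, k⟩ ⟨⟨o', ho'⟩, k'⟩ h
    have h2 : rot q k (Quotient.out o).1 = rot q k' (Quotient.out o').1 :=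
      congrArg (fun a => a.1.2) h
    have e : o = o' := by
      rw [← Quotient.out_eq o, ← Quotient.out_eq o']
      apply Quotient.sound
      refine ⟨-k' + k, ?_⟩
      rw [← rot_rot, h2, rot_rot]; simp
    subst e
    have := (Quotient.out o).2.rot_inj h2
    subst this
    rfl
  · rintro ⟨⟨g, x⟩, hx, hg⟩
    let x' : {x : ZMod q → S // NC x} := ⟨x, hx⟩
    have ho : OFix φ (Quotient.mk (orb q S) x') := ⟨x', rfl, g, hg⟩
    have : (orb q S).r (Quotient.out (Quotient.mk (orb q S) x')) x' := by
      apply Quotient.exact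
      rw [Quotient.out_eq]
    obtain ⟨k, hk⟩ := this
    refine ⟨⟨⟨_, ho⟩, k⟩, ?_⟩
    have hk' : rot q k (Quotient.out (Quotient.mk (orb q S) x')).1 = x := hk
    apply Subtype.ext
    apply Prod.ext
    · change (OFix.out ho).choose = g
      have h1 := ((OFix.out ho).choose_spec.rot k)
      rw [hk'] at h1
      apply hx.rot_inj
      ext i
      have a := h1 i
      have b := hg i
      rw [a] at b
      simpa using Option.some_injective _ b
    · exact hk'

/-- iterate of a partial map -/
def it (φ : S → Option S) : ℕ → S → Option S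
  | 0, s => some s
  | n + 1, s => (it φ n s).bind φ

/-- number of fixed elements -/
noncomputable def fx (φ : S → Option S) : ℕ := Nat.card {s : S // φ s = some s}

theorem it_add (φ : S → Option S) (m n : ℕ) (s : S) : it φ (m + n) s = (it φ m s).bind (it φ n) := by
  induction n with
  | zero =>
    change it φ m s = (it φ m s).bind (fun s => some s)
    cases it φ m s <;> rfl
  | succ n ih =>
    change (it φ (m + n) s).bind φ = _
    rw [ih, Option.bind_assoc]
    rfl

theorem it_mul_of {φ : S → Option S} {n : ℕ} {s : S} (h : it φ n s = some s) (k : ℕ) :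
    it φ (n * k) s = some s := by
  induction k with
  | zero => rfl
  | succ k ih => rw [Nat.mul_succ, it_add, ih]; exact h

theorem it_mod {φ : S → Option S} {n : ℕ} {s : S} (h : it φ n s = some s) (m : ℕ) :
    it φ (m % n) s = it φ m s := by
  conv_rhs => rw [← Nat.mod_add_div m n, add_comm, it_add, it_mul_of h]
  rfl

/-- tuples with `φ (x i) = x (i + g)`, `g ≠ 0`, correspond to `q`-periodic elements -/
noncomputable def equivG (φ : S → Option S) {g : ZMod q} (hg : g ≠ 0) :
    {x : ZMod q → S // FixBy φ g x} ≃ {s : S // it φ q s = some s} := by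
  have hit : ∀ x : ZMod q → S, FixBy φ g x → ∀ n : ℕ, ∀ i, it φ n (x i) = some (x (i + n * g)) := by
    intro x hx n
    induction n with
    | zero => intro i; simp [it]
    | succ n ih =>
      intro i
      change (it φ n (x i)).bind φ = _
      rw [ih, Option.bind_some, hx]
      congr 2
      push_cast
      ring
  refine Equiv.ofBijective (fun x => ⟨x.1 0, ?_⟩) ⟨?_, ?_⟩
  · rw [hit x.1 x.2]; simp
  · rintro ⟨x, hx⟩ ⟨y, hy⟩ h
    have h0 : x 0 = y 0 := congrArg Subtype.val h
    apply Subtype.ext
    ext i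
    have a := hit x hx (i / g).val 0
    have b := hit y hy (i / g).val 0
    rw [ZMod.natCast_zmod_val, div_mul_cancel₀ _ hg, zero_add] at a b
    rw [h0, b] at a
    exact (Option.some_injective _ a).symm
  · rintro ⟨s, hs⟩
    have hdef : ∀ n : ℕ, (it φ n s).isSome := by
      intro n
      have h1 : it φ (q * (n + 1)) s = some s := it_mul_of hs _
      have hle : n ≤ q * (n + 1) := by
        have := (Fact.out : q.Prime).pos
        nlinarith
      obtain ⟨m, hm⟩ := Nat.exists_eq_add_of_le hle
      rw [hm, it_add] at h1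
      cases h2 : it φ n s with
      | none => rw [h2] at h1; simp at h1
      | some t => simp
    refine ⟨⟨fun i => (it φ (i / g).val s).get (hdef _), fun i => ?_⟩, ?_⟩
    · have e : φ ((it φ (i / g).val s).get (hdef _)) = it φ ((i / g).val + 1) s := by
        change _ = (it φ (i / g).val s).bind φ
        conv_rhs => rw [← Option.some_get (hdef (i / g).val)]
        rfl
      rw [e, Option.some_get, ← it_mod hs ((i / g).val + 1)]
      congr 1
      have : (i + g) / g = ((i / g).val + 1 : ℕ) := by
        push_cast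
        rw [ZMod.natCast_zmod_val, add_div, div_self hg]
      rw [this, ZMod.val_natCast]
    · apply Subtype.ext
      simp [it]

/-- constant tuples fixed by `(φ, g)` -/
noncomputable def equivC (φ : S → Option S) (g : ZMod q) :
    {x : ZMod q → S // FixBy φ g x ∧ ¬ NC x} ≃ {s : S // φ s = some s} := by
  refine Equiv.ofBijective (fun x => ⟨x.1 0, ?_⟩) ⟨?_, ?_⟩
  · obtain ⟨x, hx, hc⟩ := x
    obtain ⟨c, hc⟩ := not_not.1 hc
    have := hx 0
    rw [hc, hc] at this
    change φ (x 0) = some (x 0)
    rw [hc]; exact this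
  · rintro ⟨x, hx, hc⟩ ⟨y, hy, hd⟩ h
    obtain ⟨c, hc⟩ := not_not.1 hc
    obtain ⟨d, hd⟩ := not_not.1 hd
    have h0 : x 0 = y 0 := congrArg Subtype.val h
    apply Subtype.ext
    ext i
    change x i = y i
    rw [hc i, hd i, ← hc 0, ← hd 0, h0]
  · rintro ⟨s, hs⟩
    exact ⟨⟨fun _ => s, fun _ => hs, not_not.2 ⟨s, fun _ => rfl⟩⟩, rfl⟩

variable [Finite S]

theorem card_split (φ : S → Option S) (g : ZMod q) :
    Nat.card {x : ZMod q → S // NC x ∧ FixBy φ g x} + fx φ
      = Nat.card {x : ZMod q → S // FixBy φ g x} := by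
  classical
  rw [fx, ← Nat.card_congr (equivC φ g)]
  have e : {x : ZMod q → S // FixBy φ g x} ≃
      {x : ZMod q → S // NC x ∧ FixBy φ g x} ⊕ {x : ZMod q → S // FixBy φ g x ∧ ¬ NC x} := by
    refine (Equiv.sumCompl (fun x : {x : ZMod q → S // FixBy φ g x} => NC x.1)).symm.trans ?_
    refine Equiv.sumCongr ?_ ?_
    · exact (Equiv.subtypeSubtypeEquivSubtypeInter (fun x => FixBy φ g x) (fun x => NC x)).trans
        (Equiv.subtypeEquivRight fun x => and_comm)
    · exact Equiv.subtypeSubtypeEquivSubtypeInter (fun x => FixBy φ g x) (fun x => ¬ NC x)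
  rw [Nat.card_congr e, Nat.card_sum]

omit [Finite S] in
theorem card_zero (φ : S → Option S) :
    Nat.card {x : ZMod q → S // FixBy φ 0 x} = fx φ ^ q := by
  have e : {x : ZMod q → S // FixBy φ 0 x} ≃ (ZMod q → {s : S // φ s = some s}) :=
    { toFun := fun x i => ⟨x.1 i, by have := x.2 i; simpa using this⟩
      invFun := fun x => ⟨fun i => (x i).1, fun i => by simpa using (x i).2⟩
      left_inv := fun x => rfl
      right_inv := fun x => rfl }
  rw [Nat.card_congr e, Nat.card_fun, Nat.card_zmod, fx]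

omit [Finite S] in
theorem card_ne (φ : S → Option S) {g : ZMod q} (hg : g ≠ 0) :
    Nat.card {x : ZMod q → S // FixBy φ g x} = fx (it φ q) := by
  rw [Nat.card_congr (equivG φ hg), fx]

/-- **Count.** `q · #{fixed orbits of non-constant tuples} + q · fix φ = fix φ ^ q + (q-1) fix (φ^q)` -/
theorem count (φ : S → Option S) :
    q * Nat.card {o : Quotient (orb q S) // OFix φ o} + q * fx φ
      = fx φ ^ q + (q - 1) * fx (it φ q) := by
  classical
  have hq := (Fact.out : q.Prime)
  have h1 : Nat.card {o : Quotient (orb q S) // OFix φ o} * q = Nat.card (AA q φ) := by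
    rw [← Nat.card_congr (equivA φ), Nat.card_prod, Nat.card_zmod]
  have h2 : Nat.card (AA q φ) = ∑ g : ZMod q, Nat.card {x : ZMod q → S // NC x ∧ FixBy φ g x} := by
    have e : AA q φ ≃ (g : ZMod q) × {x : ZMod q → S // NC x ∧ FixBy φ g x} :=
      { toFun := fun p => ⟨p.1.1, p.1.2, p.2⟩
        invFun := fun p => ⟨(p.1, p.2.1), p.2.2⟩
        left_inv := fun _ => rfl
        right_inv := fun _ => rfl }
    rw [Nat.card_congr e, Nat.card_sigma]
  have h3 : ∑ g : ZMod q, (Nat.card {x : ZMod q → S // NC x ∧ FixBy φ g x} + fx φ)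
      = fx φ ^ q + (q - 1) * fx (it φ q) := by
    simp_rw [card_split]
    rw [← Finset.add_sum_erase _ _ (Finset.mem_univ (0 : ZMod q)), card_zero,
      Finset.sum_congr rfl (fun g hg => card_ne φ (Finset.ne_of_mem_erase hg)),
      Finset.sum_const, Finset.card_erase_of_mem (Finset.mem_univ _), Finset.card_univ, ZMod.card,
      smul_eq_mul]
  rw [Finset.sum_add_distrib, Finset.sum_const, Finset.card_univ, ZMod.card, smul_eq_mul, ← h2,
    ← h1] at h3
  rw [← h3]; ring

/-! ## Reciprocity: from counting all simplices to the Lefschetz number -/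

open Polynomial in
/-- the polynomial `n ↦ C(n, m)` -/
noncomputable def bin (m : ℕ) : ℚ[X] := C ((m.factorial : ℚ)⁻¹) * descPochhammer ℚ m

theorem bin_nat (m n : ℕ) : (bin m).eval (n : ℚ) = (n.choose m : ℚ) := by
  rw [bin, Polynomial.eval_mul, Polynomial.eval_C, descPochhammer_eval_eq_descFactorial,
    Nat.descFactorial_eq_factorial_mul_choose]
  push_cast
  rw [← mul_assoc, inv_mul_cancel₀ (by exact_mod_cast m.factorial_ne_zero), one_mul]

theorem bin_neg_one (m : ℕ) : (bin m).eval (-1 : ℚ) = (-1) ^ m := by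
  have h : ∀ m : ℕ, (descPochhammer ℚ m).eval (-1 : ℚ) = (-1) ^ m * m.factorial := by
    intro m
    induction m with
    | zero => simp
    | succ m ih =>
      rw [descPochhammer_succ_right, Polynomial.eval_mul, ih]
      simp only [Polynomial.eval_sub, Polynomial.eval_X, Polynomial.eval_natCast]
      rw [Nat.factorial_succ]
      push_cast
      ring
  rw [bin, Polynomial.eval_mul, Polynomial.eval_C, h, mul_comm ((-1 : ℚ) ^ m), ← mul_assoc,
    inv_mul_cancel₀ (by exact_mod_cast m.factorial_ne_zero), one_mul]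

/-- `Σ_m (-1)^m f m` -/
def alt (d : ℕ) (f : ℕ → ℤ) : ℤ := ∑ m ∈ Finset.range d, (-1) ^ m * f m

/-- `Σ_m f m · C(n, m)` : the number of all `n`-simplices, if `f m` is the number of
nondegenerate `m`-simplices -/
def tot (d : ℕ) (f : ℕ → ℤ) (n : ℕ) : ℤ := ∑ m ∈ Finset.range d, f m * (n.choose m : ℤ)

/-- **Reciprocity.** A polynomial identity between the numbers of all fixed `n`-simplices
(`n ≥ 0`) implies the same identity between the Lefschetz numbers. -/
theorem recip {d₁ d₂ d₃ : ℕ} {f₁ f₂ f₃ : ℕ → ℤ} {r : ℕ}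
    (h : ∀ n, (r : ℤ) * tot d₃ f₃ n + r * tot d₁ f₁ n
      = tot d₁ f₁ n ^ r + ((r : ℤ) - 1) * tot d₂ f₂ n) :
    (r : ℤ) * alt d₃ f₃ + r * alt d₁ f₁ = alt d₁ f₁ ^ r + ((r : ℤ) - 1) * alt d₂ f₂ := by
  let P : ℕ → (ℕ → ℤ) → Polynomial ℚ := fun d f =>
    ∑ m ∈ Finset.range d, Polynomial.C (f m : ℚ) * bin m
  have hP : ∀ (d : ℕ) (f : ℕ → ℤ) (n : ℕ), (P d f).eval (n : ℚ) = (tot d f n : ℚ) := by
    intro d f n
    simp [P, tot, Polynomial.eval_finsetSum, bin_nat]
  have hP' : ∀ (d : ℕ) (f : ℕ → ℤ), (P d f).eval (-1 : ℚ) = (alt d f : ℚ) := by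
    intro d f
    simp [P, alt, Polynomial.eval_finsetSum, bin_neg_one, mul_comm]
  have key : (r : Polynomial ℚ) * P d₃ f₃ + r * P d₁ f₁
      = P d₁ f₁ ^ r + ((r : Polynomial ℚ) - 1) * P d₂ f₂ := by
    apply Polynomial.eq_of_infinite_eval_eq
    refine Set.Infinite.mono (s := Set.range (fun n : ℕ => (n : ℚ))) ?_
      (Set.infinite_range_of_injective Nat.cast_injective)
    rintro _ ⟨n, rfl⟩
    simp only [Set.mem_ofPred_eq, Polynomial.eval_add, Polynomial.eval_mul, Polynomial.eval_natCast,
      Polynomial.eval_pow, Polynomial.eval_sub, Polynomial.eval_one, hP]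
    exact_mod_cast h n
  have := congrArg (fun p => Polynomial.eval (-1 : ℚ) p) key
  simp only [Polynomial.eval_add, Polynomial.eval_mul, Polynomial.eval_natCast,
      Polynomial.eval_pow, Polynomial.eval_sub, Polynomial.eval_one, hP'] at this
  exact_mod_cast this

end Crest.Agent.R090.PowCount253
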