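/-
Row 90 (S0119), block (A), (TR3): super trace of (cyclic permutation) ∘ φ^{⊗q}   (helper673).

* `walk`             : weighted sums of entries of a power of a matrix as sums over walks;
* `sum_cycle`        : `∑_w D (w i₀) ∏_i A (w (g i)) (w i) = ∑_j D j (A^q) j j` for a full cycle `g`;
* `super_cyclic`     : with signs: `∑_w (-1)^{|w|} ks(w) ∏_i A (w (g i)) (w i) = ∑_j (-1)^{|j|} (A^q) j j`
                       whenever `A` preserves parity and `ks w = 1` on all-even words,
                       `ks w = (-1)^(q-1)` on all-odd words (`= sign g`);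
* `isCycle_rot`      : the powers `(finRotate q)^k`, `0 < k < q`, `q` prime, are full cycles.
-/
import Mathlib

set_option autoImplicit false
set_option linter.unusedSectionVars false

namespace Crest.Agent.R090.TrCyc673

open Finset Equiv

variable {R : Type*} [CommRing R] {J : Type*} [Fintype J] [DecidableEq J]

/-- sums over walks with `n` steps -/
theorem walk (A : Matrix J J R) (n : ℕ) (F : J → J → R) :
    ∑ a, ∑ b, F a b * (A ^ n) a b = ∑ w : Fin (n + 1) → J,
      F (w (Fin.last n)) (w 0) * ∏ i : Fin n, A (w i.succ) (w i.castSucc) := by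
  induction n generalizing F with
  | zero =>
    rw [← (Equiv.funUnique (Fin 1) J).symm.sum_comp]
    apply Finset.sum_congr rfl
    intro a _
    rw [Finset.sum_eq_single a]
    · simp
    · intro b _ hb
      rw [pow_zero, Matrix.one_apply_ne (Ne.symm hb), mul_zero]
    · simp
  | succ n ih =>
    have h1 : ∑ a, ∑ b, F a b * (A ^ (n + 1)) a b =
        ∑ a, ∑ c, (∑ b, F a b * A c b) * (A ^ n) a c := by
      apply Finset.sum_congr rfl
      intro a _
      simp only [pow_succ, Matrix.mul_apply, Finset.mul_sum, Finset.sum_mul]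
      rw [Finset.sum_comm]
      apply Finset.sum_congr rfl
      intro c _
      apply Finset.sum_congr rfl
      intro b _
      ring
    rw [h1, ih, ← (Fin.consEquiv (fun _ : Fin (n + 2) => J)).sum_comp, Fintype.sum_prod_type,
      Finset.sum_comm]
    apply Finset.sum_congr rfl
    intro w _
    rw [Finset.sum_mul]
    apply Finset.sum_congr rfl
    intro b _
    have e1 : (Fin.consEquiv (fun _ : Fin (n + 2) => J)) (b, w) = Fin.cons b w := rfl
    rw [e1, Fin.prod_univ_succ]
    have e2 : (Fin.cons b w : Fin (n + 2) → J) (Fin.last (n + 1)) = w (Fin.last n) := by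
      rw [← Fin.succ_last, Fin.cons_succ]
    have e3 : (Fin.cons b w : Fin (n + 2) → J) 0 = b := rfl
    rw [e2, e3]
    have e4 : ∀ i : Fin n, A ((Fin.cons b w : Fin (n + 2) → J) i.succ.succ)
        ((Fin.cons b w : Fin (n + 2) → J) i.succ.castSucc) = A (w i.succ) (w i.castSucc) := by
      intro i
      rw [Fin.cons_succ, ← Fin.succ_castSucc, Fin.cons_succ]
    have e5 : A ((Fin.cons b w : Fin (n + 2) → J) (Fin.succ 0))
        ((Fin.cons b w : Fin (n + 2) → J) (Fin.castSucc 0)) = A (w 0) b := by
      rw [Fin.cons_succ, Fin.castSucc_zero]; rfl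
    rw [e5]
    simp only [e4]
    ring

/-- cyclic words, standard rotation -/
theorem sum_rot (A : Matrix J J R) (n : ℕ) (D : J → R) :
    ∑ w : Fin (n + 1) → J, D (w 0) * ∏ i, A (w (finRotate (n + 1) i)) (w i) =
      ∑ j, D j * (A ^ (n + 1)) j j := by
  have h := walk A n (fun a b => D b * A b a)
  have h1 : ∑ j, D j * (A ^ (n + 1)) j j =
      ∑ a, ∑ b, (D b * A b a) * (A ^ n) a b := by
    rw [Finset.sum_comm]
    apply Finset.sum_congr rfl
    intro b _
    rw [pow_succ', Matrix.mul_apply, Finset.mul_sum]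
    apply Finset.sum_congr rfl
    intro a _
    ring
  rw [h1, h]
  apply Finset.sum_congr rfl
  intro w _
  rw [Fin.prod_univ_castSucc, finRotate_last]
  have : ∀ i : Fin n, finRotate (n + 1) i.castSucc = i.succ := by
    intro i
    rw [finRotate_of_lt]
    · rfl
    · simp
  simp only [this]
  ring

section cycle

variable {ι : Type*} [Fintype ι] [DecidableEq ι]

/-- a full cycle on `ι` is conjugate to the standard rotation, with any base point -/
theorem exists_conj (g : Perm ι) (hg : g.IsCycleOn ((univ : Finset ι) : Set ι)) {n : ℕ}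
    (hn : Fintype.card ι = n + 1) (i₀ : ι) :
    ∃ τ : Fin (n + 1) ≃ ι, τ 0 = i₀ ∧ ∀ i, g (τ i) = τ (finRotate (n + 1) i) := by
  have hcard : #(univ : Finset ι) = n + 1 := by rw [Finset.card_univ, hn]
  let f : Fin (n + 1) → ι := fun k => (g ^ (k : ℕ)) i₀
  have hinj : Function.Injective f := by
    intro a b hab
    have h1 : (a : ℕ) ≡ (b : ℕ) [MOD #(univ : Finset ι)] :=
      (hg.pow_apply_eq_pow_apply (mem_univ i₀)).1 hab
    rw [hcard] at h1
    have h2 := h1.eq_of_lt_of_lt a.2 b.2
    exact Fin.ext h2
  have hbij : Function.Bijective f := by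
    rw [Fintype.bijective_iff_injective_and_card]
    exact ⟨hinj, by simp [hn]⟩
  refine ⟨Equiv.ofBijective f hbij, ?_, ?_⟩
  · show (g ^ ((0 : Fin (n + 1)) : ℕ)) i₀ = i₀
    simp
  · intro i
    show g ((g ^ (i : ℕ)) i₀) = (g ^ ((finRotate (n + 1) i : Fin (n + 1)) : ℕ)) i₀
    rw [← Perm.mul_apply, ← pow_succ']
    rw [hg.pow_apply_eq_pow_apply (mem_univ i₀), hcard]
    rcases Fin.eq_castSucc_or_eq_last i with ⟨j, rfl⟩ | rfl
    · rw [coe_finRotate_of_ne_last (Fin.castSucc_lt_last j).ne]
    · rw [finRotate_last]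
      simp [Nat.ModEq]

/-- **cyclic words**: a full cycle `g` -/
theorem sum_cycle (A : Matrix J J R) (g : Perm ι) (hg : g.IsCycleOn ((univ : Finset ι) : Set ι))
    (i₀ : ι) (D : J → R) :
    ∑ w : ι → J, D (w i₀) * ∏ i, A (w (g i)) (w i) =
      ∑ j, D j * (A ^ Fintype.card ι) j j := by
  obtain ⟨n, hn⟩ : ∃ n, Fintype.card ι = n + 1 := ⟨Fintype.card ι - 1, by
    have : 0 < Fintype.card ι := Fintype.card_pos_iff.2 ⟨i₀⟩
    omega⟩
  obtain ⟨τ, h0, hτ⟩ := exists_conj g hg hn i₀
  rw [hn, ← sum_rot A n D, ← (Equiv.arrowCongr τ (Equiv.refl J)).sum_comp]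
  apply Finset.sum_congr rfl
  intro w _
  have h1 : ∀ x, (Equiv.arrowCongr τ (Equiv.refl J)) w x = w (τ.symm x) := fun x => rfl
  have h2 : τ.symm i₀ = 0 := by rw [← h0, Equiv.symm_apply_apply]
  rw [h1, h2]
  congr 1
  rw [← τ.prod_comp]
  apply Finset.prod_congr rfl
  intro i _
  rw [h1, h1, hτ, Equiv.symm_apply_apply, Equiv.symm_apply_apply]

/-- parity is constant along words with non zero weight -/
theorem parity_const (A : Matrix J J R) (odd : J → Bool)
    (hA : ∀ i j, odd i ≠ odd j → A i j = 0) (g : Perm ι)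
    (hg : g.IsCycleOn ((univ : Finset ι) : Set ι)) (w : ι → J)
    (hw : ∏ i, A (w (g i)) (w i) ≠ 0) (i₀ i : ι) : odd (w i) = odd (w i₀) := by
  have h1 : ∀ i, odd (w (g i)) = odd (w i) := by
    intro i
    by_contra h
    apply hw
    exact Finset.prod_eq_zero (mem_univ i) (hA _ _ h)
  have h2 : ∀ (n : ℕ) (i : ι), odd (w ((g ^ n) i)) = odd (w i) := by
    intro n
    induction n with
    | zero => intro i; simp
    | succ n ih =>
      intro i
      rw [pow_succ', Perm.mul_apply, h1, ih]
  obtain ⟨n, hn⟩ := hg.exists_pow_eq (mem_univ i₀) (mem_univ i)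
  rw [← hn.2, h2]

/-- **super trace of (full cycle) ∘ `A^{⊗ι}`**.  `odd` is the parity of the basis vectors, `A` an
even matrix, `ks w` the Koszul sign with which `g` acts on the word `w` (only its values on
pure words are used). -/
theorem super_cyclic (A : Matrix J J R) (odd : J → Bool)
    (hA : ∀ i j, odd i ≠ odd j → A i j = 0) (g : Perm ι)
    (hg : g.IsCycleOn ((univ : Finset ι) : Set ι)) (hne : Nonempty ι) (ks : (ι → J) → R)
    (h0 : ∀ w, (∀ i, odd (w i) = false) → ks w = 1)
    (h1 : ∀ w, (∀ i, odd (w i) = true) → ks w = (-1) ^ (Fintype.card ι + 1)) :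
    ∑ w : ι → J, (-1) ^ #{i | odd (w i) = true} * ks w * ∏ i, A (w (g i)) (w i) =
      ∑ j, (if odd j then -1 else 1) * (A ^ Fintype.card ι) j j := by
  obtain ⟨i₀⟩ := hne
  rw [← sum_cycle A g hg i₀ (fun j => if odd j then -1 else 1)]
  apply Finset.sum_congr rfl
  intro w _
  by_cases hw : ∏ i, A (w (g i)) (w i) = 0
  · rw [hw, mul_zero, mul_zero]
  · have hp := parity_const A odd hA g hg w hw i₀
    congr 1
    cases h : odd (w i₀) with
    | false =>
      have hall : ∀ i, odd (w i) = false := fun i => (hp i).trans h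
      rw [h0 w hall]
      have : #{i | odd (w i) = true} = 0 := by
        rw [Finset.card_eq_zero, Finset.filter_eq_empty_iff]
        intro i _
        rw [hall i]
        decide
      rw [this]
      simp
    | true =>
      have hall : ∀ i, odd (w i) = true := fun i => (hp i).trans h
      rw [h1 w hall]
      have : #{i | odd (w i) = true} = Fintype.card ι := by
        rw [Finset.filter_true_of_mem (fun i _ => hall i), Finset.card_univ]
      rw [this, ← pow_add]
      have : (-1 : R) ^ (Fintype.card ι + (Fintype.card ι + 1)) = -1 := by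
        rw [← add_assoc, ← two_mul, pow_succ, pow_mul]
        simp
      rw [this]
      simp

/-- super trace of `A^{⊗ι}` itself -/
theorem super_pow (A : Matrix J J R) (odd : J → Bool) :
    ∑ w : ι → J, (-1) ^ #{i | odd (w i) = true} * ∏ i, A (w i) (w i) =
      (∑ j, (if odd j then -1 else 1) * A j j) ^ Fintype.card ι := by
  rw [← Finset.card_univ (α := ι), ← Finset.prod_const, Finset.prod_univ_sum]
  have : (Fintype.piFinset fun _ : ι => (univ : Finset J)) = univ := by
    ext w; simp
  rw [this]
  apply Finset.sum_congr rfl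
  intro w _
  rw [Finset.prod_mul_distrib]
  congr 1
  rw [Finset.prod_ite]
  simp

/-- sign of a full cycle -/
theorem sign_full (g : Perm ι) (hg : g.IsCycle) (hs : g.support = univ) :
    ((Perm.sign g : ℤˣ) : R) = (-1) ^ (Fintype.card ι + 1) := by
  rw [hg.sign, hs, Finset.card_univ, pow_succ]
  push_cast
  ring

theorem isCycleOn_of_isCycle (g : Perm ι) (hg : g.IsCycle) (hs : g.support = univ) :
    g.IsCycleOn ((univ : Finset ι) : Set ι) := by
  have h := hg.isCycleOn
  have h2 : {x | g x ≠ x} = ((univ : Finset ι) : Set ι) := by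
    ext x
    have : x ∈ g.support := by rw [hs]; exact mem_univ x
    rw [Perm.mem_support] at this
    simpa using this
  rw [h2] at h
  exact h

end cycle

/-- the nontrivial rotations of `q` letters, `q` prime, are full cycles -/
theorem isCycle_rot {q : ℕ} (hq : q.Prime) {k : ℕ} (hk : 0 < k) (hkq : k < q) :
    ((finRotate q) ^ k).IsCycle ∧ ((finRotate q) ^ k).support = univ := by
  obtain ⟨m, rfl⟩ : ∃ m, q = m + 2 := ⟨q - 2, by have := hq.two_le; omega⟩
  have h1 : (finRotate (m + 2)).IsCycle := isCycle_finRotate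
  have h2 : (finRotate (m + 2)).support = univ := support_finRotate
  have h3 : orderOf (finRotate (m + 2)) = m + 2 := by
    rw [h1.orderOf, h2, Finset.card_univ, Fintype.card_fin]
  refine ⟨h1.isCycle_pow_pos_of_lt_prime_order (by rw [h3]; exact hq) k hk (by rw [h3]; exact hkq), ?_⟩
  rw [h1.support_pow_of_pos_of_lt_orderOf hk (by rw [h3]; exact hkq), h2]

/-- the nontrivial translations of `ZMod q`, `q` prime, are full cycles -/
theorem isCycleOn_add {q : ℕ} [Fact q.Prime] (k : ZMod q) (hk : k ≠ 0) :
    (Equiv.addRight k : Perm (ZMod q)).IsCycleOn ((univ : Finset (ZMod q)) : Set (ZMod q)) := by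
  refine ⟨?_, ?_⟩
  · rw [Finset.coe_univ]
    exact (Equiv.bijective _).bijOn_univ
  · intro x _ y _
    refine ⟨(((y - x) * k⁻¹).val : ℤ), ?_⟩
    have h : ∀ (n : ℕ) (z : ZMod q), ((Equiv.addRight k : Perm (ZMod q)) ^ n) z = z + n * k := by
      intro n
      induction n with
      | zero => intro z; simp
      | succ n ih =>
        intro z
        rw [pow_succ', Perm.mul_apply, ih]
        simp only [Equiv.coe_addRight]
        push_cast
        ring
    rw [zpow_natCast, h, ZMod.natCast_val, ZMod.cast_id', id, mul_assoc, inv_mul_cancel₀ hk]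
    ring

end Crest.Agent.R090.TrCyc673
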