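/-
Row 90 (S0119), block (A): traces in the form used with Alexander–Spanier cohomology, where the
grading is remembered only through a sign involution `sg` and `L(φ) = trace (sg ∘ φ^*)`  (helper673).

* `tri_trace`          : exact triangle `A → B → C → A`, the third map anticommutes;
* `exists_homog_basis` : an involution has a basis of eigenvectors (`2 ≠ 0`);
* `super_cyclic_mul`   : super trace of `φ^{⊗ι}` composed with a signed full cycle, for a
                         multilinear map whose values on basis words form a basis;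
* `super_pow_mul`      : super trace of `φ^{⊗ι}`.
-/
import Crest.Agent.R090.TrAlg_673
import Crest.Agent.R090.TrCyc_673

set_option autoImplicit false
set_option linter.unusedSectionVars false

namespace Crest.Agent.R090.TrMul673

open Module Finset
open Crest.Agent.R090.TrAlg673 Crest.Agent.R090.TrCyc673

section tri

variable {K : Type*} [Field K] {A B C : Type*} [AddCommGroup A] [Module K A]
  [FiniteDimensional K A] [AddCommGroup B] [Module K B] [FiniteDimensional K B]
  [AddCommGroup C] [Module K C] [FiniteDimensional K C]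

theorem trr_neg {V : Type*} [AddCommGroup V] [Module K V] (f : Module.End K V)
    (S : Submodule K V) (h : ∀ x ∈ S, f x ∈ S) : trr (-f) S = - trr f S := by
  rw [trr_eq f S h, trr_eq (-f) S (fun x hx => by
    rw [LinearMap.neg_apply]; exact S.neg_mem (h x hx)), ← map_neg]
  congr 1

/-- **trace in an exact triangle**: `a, b, c` are the signed maps (`sg ∘ φ^*`), so they commute
with `i, p` and anticommute with the connecting map. -/
theorem tri_trace (i : A →ₗ[K] B) (p : B →ₗ[K] C) (δ : C →ₗ[K] A)
    (hA : Function.Exact δ i) (hB : Function.Exact i p) (hC : Function.Exact p δ)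
    (a : Module.End K A) (b : Module.End K B) (c : Module.End K C)
    (hi : ∀ x, i (a x) = b (i x)) (hp : ∀ x, p (b x) = c (p x))
    (hδ : ∀ x, δ (c x) = - a (δ x)) :
    LinearMap.trace K B b = LinearMap.trace K A a + LinearMap.trace K C c := by
  have eA := trace_split δ i hA (-c) a b (fun x => by
    rw [LinearMap.neg_apply, map_neg, hδ, neg_neg]) hi
  have eB := trace_split i p hB a b c hi hp
  have eC := trace_split p δ hC b c (-a) hp (fun x => by rw [hδ, LinearMap.neg_apply])
  have hn : trr (-a) (LinearMap.range δ) = - trr a (LinearMap.range δ) := by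
    apply trr_neg
    rintro _ ⟨x, rfl⟩
    refine ⟨-(c x), ?_⟩
    rw [map_neg, hδ, neg_neg]
  rw [eA, eB, eC, hn]
  ring

/-- the same with all three squares commuting and traces weighted by involutions. -/
theorem tri_trace' (i : A →ₗ[K] B) (p : B →ₗ[K] C) (δ : C →ₗ[K] A)
    (hA : Function.Exact δ i) (hB : Function.Exact i p) (hC : Function.Exact p δ)
    (sA : Module.End K A) (sB : Module.End K B) (sC : Module.End K C)
    (hsi : ∀ x, i (sA x) = sB (i x)) (hsp : ∀ x, p (sB x) = sC (p x))
    (hsδ : ∀ x, δ (sC x) = - sA (δ x))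
    (a : Module.End K A) (b : Module.End K B) (c : Module.End K C)
    (hi : ∀ x, i (a x) = b (i x)) (hp : ∀ x, p (b x) = c (p x))
    (hδ : ∀ x, δ (c x) = a (δ x)) :
    LinearMap.trace K B (sB * b) = LinearMap.trace K A (sA * a) + LinearMap.trace K C (sC * c) := by
  apply tri_trace i p δ hA hB hC
  · intro x; rw [Module.End.mul_apply, hsi, hi, Module.End.mul_apply]
  · intro x; rw [Module.End.mul_apply, hsp, hp, Module.End.mul_apply]
  · intro x; rw [Module.End.mul_apply, hsδ, hδ, Module.End.mul_apply]

end tri

section homog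

variable {K : Type*} [Field K] {V : Type*} [AddCommGroup V] [Module K V] [FiniteDimensional K V]

/-- an involution has a basis of eigenvectors -/
theorem exists_homog_basis (h2 : (2 : K) ≠ 0) (s : Module.End K V) (hs : ∀ x, s (s x) = x) :
    ∃ (odd : Fin (finrank K V) → Bool) (b : Basis (Fin (finrank K V)) K V),
      ∀ j, s (b j) = (if odd j then (-1 : K) else 1) • b j := by
  classical
  let P : Submodule K V := LinearMap.ker (s - 1)
  let M : Submodule K V := LinearMap.ker (s + 1)
  have hP : ∀ x, x ∈ P ↔ s x = x := by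
    intro x
    rw [LinearMap.mem_ker, LinearMap.sub_apply, Module.End.one_apply, sub_eq_zero]
  have hM : ∀ x, x ∈ M ↔ s x = -x := by
    intro x
    rw [LinearMap.mem_ker, LinearMap.add_apply, Module.End.one_apply, add_eq_zero_iff_eq_neg]
  have hc : IsCompl P M := by
    constructor
    · rw [Submodule.disjoint_def]
      intro x h1 h3
      rw [hP] at h1
      rw [hM] at h3
      have : x = -x := h1.symm.trans h3
      have h4 : (2 : K) • x = 0 := by
        rw [two_smul]
        nth_rewrite 1 [this]
        exact neg_add_cancel x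
      exact (smul_eq_zero.1 h4).resolve_left h2
    · rw [codisjoint_iff, eq_top_iff]
      intro x _
      rw [Submodule.mem_sup]
      refine ⟨(2 : K)⁻¹ • (x + s x), ?_, (2 : K)⁻¹ • (x - s x), ?_, ?_⟩
      · rw [hP, map_smul, map_add, hs, add_comm]
      · rw [hM, map_smul, map_sub, hs, ← smul_neg, neg_sub]
      · rw [← smul_add, add_add_sub_cancel, ← two_smul K, smul_smul, inv_mul_cancel₀ h2, one_smul]
  let bP := finBasis K P
  let bM := finBasis K M
  let e : (P × M) ≃ₗ[K] V := Submodule.prodEquivOfIsCompl P M hc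
  let b0 : Basis (Fin (finrank K P) ⊕ Fin (finrank K M)) K V := (bP.prod bM).map e
  have hcard : Fintype.card (Fin (finrank K P) ⊕ Fin (finrank K M)) = finrank K V := by
    rw [Module.finrank_eq_card_basis b0]
  let f : (Fin (finrank K P) ⊕ Fin (finrank K M)) ≃ Fin (finrank K V) :=
    Fintype.equivFinOfCardEq hcard
  refine ⟨fun j => (f.symm j).isRight, b0.reindex f, ?_⟩
  intro j
  rw [Basis.reindex_apply]
  show s (b0 (f.symm j)) = (if (f.symm j).isRight = true then (-1 : K) else 1) • b0 (f.symm j)
  rcases f.symm j with x | x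
  · have h1 : b0 (Sum.inl x) = (bP x : V) := by
      simp [b0, e]
    rw [h1]
    simp only [Sum.isRight_inl, Bool.false_eq_true, if_false, one_smul]
    exact (hP _).1 (bP x).2
  · have h1 : b0 (Sum.inr x) = (bM x : V) := by
      simp [b0, e]
    rw [h1]
    simp only [Sum.isRight_inr, if_true, neg_smul, one_smul]
    exact (hM _).1 (bM x).2

/-- the matrix of an endomorphism commuting with the involution is even -/
theorem toMatrix_even {J : Type*} [Fintype J] [DecidableEq J] (h2 : (2 : K) ≠ 0)
    (s : Module.End K V) (odd : J → Bool)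
    (b : Basis J K V) (hb : ∀ j, s (b j) = (if odd j then (-1 : K) else 1) • b j)
    (φ : Module.End K V) (hφ : ∀ x, φ (s x) = s (φ x)) (i j : J) (hij : odd i ≠ odd j) :
    LinearMap.toMatrix b b φ i j = 0 := by
  have hr : ∀ x i, b.repr (s x) i = (if odd i then (-1 : K) else 1) * b.repr x i := by
    intro x i
    have h3 : s x = ∑ k, ((if odd k then (-1 : K) else 1) * b.repr x k) • b k := by
      conv_lhs => rw [← b.sum_repr x]
      rw [map_sum]
      apply Finset.sum_congr rfl
      intro k _
      rw [map_smul, hb, smul_smul, mul_comm]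
    rw [h3, map_sum, Finsupp.finsetSum_apply]
    rw [Finset.sum_eq_single i]
    · rw [map_smul, Finsupp.smul_apply, b.repr_self, Finsupp.single_eq_same, smul_eq_mul, mul_one]
    · intro k _ hk
      rw [map_smul, Finsupp.smul_apply, b.repr_self, Finsupp.single_eq_of_ne (Ne.symm hk),
        smul_eq_mul, mul_zero]
    · intro h
      exact absurd (mem_univ i) h
  rw [LinearMap.toMatrix_apply]
  have h4 := hr (φ (b j)) i
  rw [← hφ, hb, map_smul, map_smul, Finsupp.smul_apply, smul_eq_mul] at h4
  have h5 : ((if odd j then (-1 : K) else 1) - (if odd i then (-1 : K) else 1)) *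
      b.repr (φ (b j)) i = 0 := by rw [sub_mul, h4, sub_self]
  rcases mul_eq_zero.1 h5 with h6 | h6
  · exfalso
    cases hi : odd i <;> cases hj : odd j <;> simp [hi, hj] at hij h6
    · apply h2
      have : (-1 : K) - 1 = -2 := by norm_num
      rw [this] at h6
      exact neg_eq_zero.1 h6
    · apply h2
      have : (1 : K) + 1 = 2 := by norm_num
      rw [← this]
      exact h6
  · exact h6

end homog

section mul

variable {K : Type*} [Field K] {V W : Type*} [AddCommGroup V] [Module K V]
  [FiniteDimensional K V] [AddCommGroup W] [Module K W]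
  {ι : Type*} [Fintype ι] [DecidableEq ι] {J : Type*} [Fintype J] [DecidableEq J]

/-- the values of `m` on words of a basis -/
theorem trace_word (b : Basis J K V) (m : MultilinearMap K (fun _ : ι => V) W)
    (B : Basis (ι → J) K W) (hB : ∀ w, B w = m (fun i => b (w i)))
    (φ : Module.End K V) (g : Equiv.Perm ι) (ks : (ι → J) → K) (sg : (ι → J) → K)
    (S T : Module.End K W)
    (hT : ∀ w, T (B w) = ks w • m (fun i => φ (b (w (g i)))))
    (hS : ∀ w, S (B w) = sg w • B w) :
    LinearMap.trace K W (S * T) =
      ∑ w : ι → J, sg w * ks w * ∏ i, LinearMap.toMatrix b b φ (w i) (w (g i)) := by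
  rw [LinearMap.trace_eq_matrix_trace K B, Matrix.trace]
  apply Finset.sum_congr rfl
  intro w _
  rw [Matrix.diag_apply, LinearMap.toMatrix_apply, Module.End.mul_apply, hT]
  have h1 : m (fun i => φ (b (w (g i)))) =
      ∑ v : ι → J, (∏ i, LinearMap.toMatrix b b φ (v i) (w (g i))) • B v := by
    have h2 : ∀ i, φ (b (w (g i))) = ∑ j, LinearMap.toMatrix b b φ j (w (g i)) • b j := by
      intro i
      conv_lhs => rw [← b.sum_repr (φ (b (w (g i))))]
      apply Finset.sum_congr rfl
      intro j _
      rw [LinearMap.toMatrix_apply]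
    simp only [h2]
    rw [m.map_sum]
    apply Finset.sum_congr rfl
    intro v _
    rw [m.map_smul_univ, hB]
  have h3 : S (ks w • ∑ v : ι → J, (∏ i, LinearMap.toMatrix b b φ (v i) (w (g i))) • B v) =
      ∑ v : ι → J, (ks w * ((∏ i, LinearMap.toMatrix b b φ (v i) (w (g i))) * sg v)) • B v := by
    rw [map_smul, map_sum, Finset.smul_sum]
    apply Finset.sum_congr rfl
    intro v _
    rw [map_smul, hS, smul_smul, smul_smul, mul_assoc]
  rw [h1, h3, map_sum, Finsupp.finsetSum_apply, Finset.sum_eq_single w]
  · rw [map_smul, Finsupp.smul_apply, B.repr_self, Finsupp.single_eq_same, smul_eq_mul, mul_one]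
    ring
  · intro v _ hv
    rw [map_smul, Finsupp.smul_apply, B.repr_self, Finsupp.single_eq_of_ne (Ne.symm hv),
      smul_eq_mul, mul_zero]
  · intro h
    exact absurd (mem_univ w) h

/-- **super trace of `φ^{⊗ι}` composed with a signed full cycle.** -/
theorem super_cyclic_mul (h2 : (2 : K) ≠ 0) (s : Module.End K V) (odd : J → Bool)
    (b : Basis J K V) (hb : ∀ j, s (b j) = (if odd j then (-1 : K) else 1) • b j)
    (φ : Module.End K V) (hφ : ∀ x, φ (s x) = s (φ x))
    (m : MultilinearMap K (fun _ : ι => V) W)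
    (B : Basis (ι → J) K W) (hB : ∀ w, B w = m (fun i => b (w i)))
    (g : Equiv.Perm ι) (hg : g.IsCycleOn ((univ : Finset ι) : Set ι)) (hne : Nonempty ι)
    (ks : (ι → J) → K) (h0 : ∀ w, (∀ i, odd (w i) = false) → ks w = 1)
    (h1 : ∀ w, (∀ i, odd (w i) = true) → ks w = (-1) ^ (Fintype.card ι + 1))
    (S T : Module.End K W)
    (hT : ∀ w, T (B w) = ks w • m (fun i => φ (b (w (g i)))))
    (hS : ∀ v, S (m v) = m (fun i => s (v i))) :
    LinearMap.trace K W (S * T) =
      LinearMap.trace K V (s * φ ^ Fintype.card ι) := by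
  have hSB : ∀ w, S (B w) = ((-1 : K) ^ #{i | odd (w i) = true}) • B w := by
    intro w
    rw [hB, hS]
    simp only [hb]
    rw [m.map_smul_univ]
    congr 1
    rw [Finset.prod_ite]
    simp
  rw [trace_word b m B hB φ g ks _ S T hT hSB]
  have hA : ∀ i j, odd i ≠ odd j → LinearMap.toMatrix b b φ i j = 0 :=
    toMatrix_even h2 s odd b hb φ hφ
  have hg' : (g⁻¹).IsCycleOn ((univ : Finset ι) : Set ι) := hg.inv
  have h3 := super_cyclic (LinearMap.toMatrix b b φ) odd hA g⁻¹ hg' hne ks h0 h1
  have h4 : ∀ w : ι → J, ∏ i, LinearMap.toMatrix b b φ (w i) (w (g i)) =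
      ∏ i, LinearMap.toMatrix b b φ (w (g⁻¹ i)) (w i) := by
    intro w
    rw [← Equiv.prod_comp g (fun i => LinearMap.toMatrix b b φ (w (g⁻¹ i)) (w i))]
    apply Finset.prod_congr rfl
    intro i _
    rw [← Equiv.Perm.mul_apply, inv_mul_cancel, Equiv.Perm.one_apply]
  simp only [h4]
  rw [h3, LinearMap.trace_eq_matrix_trace K b, LinearMap.toMatrix_mul, LinearMap.toMatrix_pow,
    Matrix.trace]
  apply Finset.sum_congr rfl
  intro j _
  rw [Matrix.diag_apply, Matrix.mul_apply, Finset.sum_eq_single j]
  · congr 1
    rw [LinearMap.toMatrix_apply, hb, map_smul, Finsupp.smul_apply, b.repr_self,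
      Finsupp.single_eq_same, smul_eq_mul, mul_one]
  · intro k _ hk
    rw [LinearMap.toMatrix_apply, hb, map_smul, Finsupp.smul_apply, b.repr_self,
      Finsupp.single_eq_of_ne (Ne.symm hk), smul_eq_mul, mul_zero, zero_mul]
  · intro h
    exact absurd (mem_univ j) h

/-- **super trace of `φ^{⊗ι}`.** -/
theorem super_pow_mul (s : Module.End K V) (odd : J → Bool)
    (b : Basis J K V) (hb : ∀ j, s (b j) = (if odd j then (-1 : K) else 1) • b j)
    (φ : Module.End K V) (m : MultilinearMap K (fun _ : ι => V) W)
    (B : Basis (ι → J) K W) (hB : ∀ w, B w = m (fun i => b (w i)))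
    (S T : Module.End K W) (hT : ∀ v, T (m v) = m (fun i => φ (v i)))
    (hS : ∀ v, S (m v) = m (fun i => s (v i))) :
    LinearMap.trace K W (S * T) = LinearMap.trace K V (s * φ) ^ Fintype.card ι := by
  have hSB : ∀ w, S (B w) = ((-1 : K) ^ #{i | odd (w i) = true}) • B w := by
    intro w
    rw [hB, hS]
    simp only [hb]
    rw [m.map_smul_univ]
    congr 1
    rw [Finset.prod_ite]
    simp
  rw [trace_word b m B hB φ 1 (fun _ => 1) _ S T (by
    intro w
    rw [one_smul, hB, hT]
    rfl) hSB]
  have h3 := super_pow (ι := ι) (LinearMap.toMatrix b b φ) odd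
  simp only [Equiv.Perm.one_apply, mul_one]
  rw [h3]
  congr 1
  rw [LinearMap.trace_eq_matrix_trace K b, LinearMap.toMatrix_mul, Matrix.trace]
  apply Finset.sum_congr rfl
  intro j _
  rw [Matrix.diag_apply, Matrix.mul_apply, Finset.sum_eq_single j]
  · congr 1
    rw [LinearMap.toMatrix_apply, hb, map_smul, Finsupp.smul_apply, b.repr_self,
      Finsupp.single_eq_same, smul_eq_mul, mul_one]
  · intro k _ hk
    rw [LinearMap.toMatrix_apply, hb, map_smul, Finsupp.smul_apply, b.repr_self,
      Finsupp.single_eq_of_ne (Ne.symm hk), smul_eq_mul, mul_zero, zero_mul]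
  · intro h
    exact absurd (mem_univ j) h

end mul

end Crest.Agent.R090.TrMul673
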