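import Crest.Agent.R090.CohT_253
import Crest.Agent.R090.PiNat_568
import Crest.Agent.R090.TrMul_673

/-!
# Row 90, block (A): Lefschetz numbers of smash powers (owner helper253)

* `Cross H` : the axioms of the cross product (58's Koszul form);
* `Cross.cm n` : iterated cross product `h(U)^{⊗(n+1)} → h(U^{n+1})`, its naturality, the snoc form,
  the rotation law;
* `Cross.L_pow`, `Cross.L_rot`: `L(φ^{∧q}) = L(φ)^q`, `L(φ^{∧q} ∘ rot) = tr(ε φ^q)`.
-/

set_option autoImplicit false
set_option linter.unusedSectionVars false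
set_option linter.checkUnivs false

namespace Crest.Agent.R090.CohT253

open Topology Set Crest.Agent.R090.Sp962 Crest.Agent.R090.TrAlg673 Crest.Agent.R090.Pi568
open Crest.Agent.R090.TrMul673 Crest.Agent.R090.TrCyc673

universe u v w

/-- axioms of a cross product on a cohomology theory -/
structure Cross {F : Type w} [Field F] (H : Coh.{u, v, w} F) where
  x : ∀ {U V : Type u} [TopologicalSpace U] [TopologicalSpace V] [T2Space U]
    [LocallyCompactSpace U] [T2Space V] [LocallyCompactSpace V],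
    H.h U →ₗ[F] H.h V →ₗ[F] H.h (U × V)
  nat : ∀ {U V U' V' : Type u} [TopologicalSpace U] [TopologicalSpace V] [TopologicalSpace U']
    [TopologicalSpace V'] [T2Space U] [LocallyCompactSpace U] [T2Space V] [LocallyCompactSpace V]
    [T2Space U'] [LocallyCompactSpace U'] [T2Space V'] [LocallyCompactSpace V']
    (f : PMap U U') (g : PMap V V') (a : H.h U') (b : H.h V'),
    H.map (f.smash g) (x a b) = x (H.map f a) (H.map g b)
  assoc : ∀ {U V W : Type u} [TopologicalSpace U] [TopologicalSpace V] [TopologicalSpace W]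
    [T2Space U] [LocallyCompactSpace U] [T2Space V] [LocallyCompactSpace V] [T2Space W]
    [LocallyCompactSpace W] (a : H.h U) (b : H.h V) (c : H.h W),
    H.map (PMap.ofHomeo (Homeomorph.prodAssoc U V W)) (x a (x b c)) = x (x a b) c
  eps_x : ∀ {U V : Type u} [TopologicalSpace U] [TopologicalSpace V] [T2Space U]
    [LocallyCompactSpace U] [T2Space V] [LocallyCompactSpace V] (a : H.h U) (b : H.h V),
    H.eps (U × V) (x a b) = x (H.eps U a) (H.eps V b)
  comm_even : ∀ {U V : Type u} [TopologicalSpace U] [TopologicalSpace V] [T2Space U]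
    [LocallyCompactSpace U] [T2Space V] [LocallyCompactSpace V] (a : H.h U) (b : H.h V),
    H.eps U a = a → H.map (PMap.ofHomeo (Homeomorph.prodComm U V)) (x b a) = x a b
  comm_odd : ∀ {U V : Type u} [TopologicalSpace U] [TopologicalSpace V] [T2Space U]
    [LocallyCompactSpace U] [T2Space V] [LocallyCompactSpace V] (a : H.h U) (b : H.h V),
    H.eps U a = -a → H.map (PMap.ofHomeo (Homeomorph.prodComm U V)) (x b a) = x a (H.eps V b)

namespace Coh

variable {F : Type w} [Field F] (H : Coh.{u, v, w} F)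

/-- linear equivalence of a homeomorphism -/
noncomputable def equivH {U V : Type u} [TopologicalSpace U] [TopologicalSpace V] (e : U ≃ₜ V) :
    H.h V ≃ₗ[F] H.h U :=
  LinearEquiv.ofLinearMap (H.map (PMap.ofHomeo e)) (H.map (PMap.ofHomeo e.symm))
    (by
      ext x
      rw [LinearMap.comp_apply, ← H.map_comp, PMap.ofHomeo_symm_comp, H.map_id]
      rfl)
    (by
      ext x
      rw [LinearMap.comp_apply, ← H.map_comp, PMap.ofHomeo_comp_symm, H.map_id]
      rfl)

@[simp] theorem equivH_apply {U V : Type u} [TopologicalSpace U] [TopologicalSpace V] (e : U ≃ₜ V)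
    (x : H.h V) : H.equivH e x = H.map (PMap.ofHomeo e) x := rfl

theorem map_homeo_comp {U V W : Type u} [TopologicalSpace U] [TopologicalSpace V]
    [TopologicalSpace W] (e : U ≃ₜ V) (e' : V ≃ₜ W) (x : H.h W) :
    H.map (PMap.ofHomeo e) (H.map (PMap.ofHomeo e') x) = H.map (PMap.ofHomeo (e.trans e')) x := by
  rw [← H.map_comp, PMap.ofHomeo_comp]

end Coh

namespace Cross

variable {F : Type w} [Field F] {H : Coh.{u, v, w} F} (X : Cross H)

theorem nat_homeo {U V U' V' : Type u} [TopologicalSpace U] [TopologicalSpace V]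
    [TopologicalSpace U'] [TopologicalSpace V'] [T2Space U] [LocallyCompactSpace U] [T2Space V]
    [LocallyCompactSpace V] [T2Space U'] [LocallyCompactSpace U'] [T2Space V']
    [LocallyCompactSpace V'] (e : U ≃ₜ U') (e' : V ≃ₜ V') (a : H.h U') (b : H.h V') :
    H.map (PMap.ofHomeo (e.prodCongr e')) (X.x a b) =
      X.x (H.map (PMap.ofHomeo e) a) (H.map (PMap.ofHomeo e') b) := by
  rw [← PMap.smash_ofHomeo, X.nat]

variable {U : Type u} [TopologicalSpace U] [T2Space U] [LocallyCompactSpace U]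

variable (U) in
/-- one step of the iterated cross product -/
noncomputable def cmSucc {n : ℕ}
    (m : MultilinearMap F (fun _ : Fin (n + 1) => H.h U) (H.h (Fin (n + 1) → U))) :
    MultilinearMap F (fun _ : Fin (n + 2) => H.h U) (H.h (Fin (n + 2) → U)) :=
  LinearMap.uncurryLeft (M := fun _ : Fin (n + 2) => H.h U)
    { toFun := fun a =>
        ((H.map (PMap.ofHomeo (finSucc (fun _ : Fin (n + 2) => U)))) ∘ₗ
          (X.x a)).compMultilinearMap m
      map_add' := fun a b => by
        ext v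
        simp
      map_smul' := fun c a => by
        ext v
        simp }

variable (U) in
/-- the iterated cross product -/
noncomputable def cm : ∀ n : ℕ,
    MultilinearMap F (fun _ : Fin (n + 1) => H.h U) (H.h (Fin (n + 1) → U))
  | 0 => (H.map (PMap.ofHomeo (Homeomorph.funUnique (Fin 1) U))).compMultilinearMap
      (MultilinearMap.ofSubsingleton F (H.h U) (H.h U) (0 : Fin 1) LinearMap.id)
  | n + 1 => X.cmSucc U (cm n)

theorem cm_zero (v : Fin 1 → H.h U) :
    X.cm U 0 v = H.map (PMap.ofHomeo (Homeomorph.funUnique (Fin 1) U)) (v 0) := rfl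

theorem cm_succ {n : ℕ} (v : Fin (n + 2) → H.h U) :
    X.cm U (n + 1) v = H.map (PMap.ofHomeo (finSucc (fun _ : Fin (n + 2) => U)))
      (X.x (v 0) (X.cm U n (fun i => v i.succ))) := rfl

/-- naturality -/
theorem map_cm {V : Type u} [TopologicalSpace V] [T2Space V] [LocallyCompactSpace V] (n : ℕ)
    (f : PMap U V) (v : Fin (n + 1) → H.h V) :
    H.map (pow (Fin (n + 1)) f) (X.cm V n v) = X.cm U n (fun i => H.map f (v i)) := by
  induction n with
  | zero =>
    rw [cm_zero, cm_zero, ← H.map_comp, ← H.map_comp]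
    congr 1
    congr 1
    refine PMap.ext fun p => ?_
    rw [PMap.comp_apply, PMap.comp_apply, PMap.ofHomeo_coe, pow_coe]
    by_cases h : f (p 0 : OnePoint U) = OnePoint.infty
    · rw [smPi_of_inf (0 : Fin 1) h, PMap.map_inf]
      exact h.symm
    · obtain ⟨y, hy⟩ := OnePoint.ne_infty_iff_exists.1 h
      have : smPi (fun i : Fin 1 => f (p i : OnePoint U)) =
          ((fun _ => y : Fin 1 → V) : OnePoint (Fin 1 → V)) := smPi_eq_coe.2 fun i => by
        rw [Subsingleton.elim i 0, hy]
      rw [this, PMap.ofHomeo_coe]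
      exact hy
  | succ n ih =>
    rw [cm_succ, cm_succ, ← H.map_comp]
    have h := finSucc_pi (U := fun _ : Fin (n + 2) => U) (V := fun _ : Fin (n + 2) => V)
      (fun _ => f)
    change H.map ((PMap.ofHomeo (finSucc (fun _ : Fin (n + 2) => V))).comp
      (PMap.pi (fun _ : Fin (n + 2) => f))) _ = _
    rw [h, H.map_comp, X.nat]
    congr 1
    congr 1
    exact ih _

/-- parity -/
theorem eps_cm (n : ℕ) (v : Fin (n + 1) → H.h U) :
    H.eps _ (X.cm U n v) = X.cm U n (fun i => H.eps U (v i)) := by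
  induction n with
  | zero => rw [cm_zero, cm_zero, H.eps_map]
  | succ n ih => rw [cm_succ, cm_succ, H.eps_map, X.eps_x, ih]

/-! ### bases -/

/-- Künneth for one pair -/
def Kue (U V : Type u) [TopologicalSpace U] [T2Space U] [LocallyCompactSpace U]
    [TopologicalSpace V] [T2Space V] [LocallyCompactSpace V] : Prop :=
  Function.Bijective (TensorProduct.lift (X.x (U := U) (V := V)))

theorem exists_basis {J : Type*} [Fintype J] (b : Module.Basis J F (H.h U))
    (hK : ∀ n : ℕ, X.Kue U (Fin (n + 1) → U)) (n : ℕ) :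
    ∃ B : Module.Basis (Fin (n + 1) → J) F (H.h (Fin (n + 1) → U)),
      ∀ w, B w = X.cm U n (fun i => b (w i)) := by
  induction n with
  | zero =>
    refine ⟨(b.map (H.equivH (Homeomorph.funUnique (Fin 1) U))).reindex
      (Equiv.funUnique (Fin 1) J).symm, fun w => ?_⟩
    rw [Module.Basis.reindex_apply, Module.Basis.map_apply, cm_zero, Coh.equivH_apply]
    rfl
  | succ n ih =>
    obtain ⟨B, hB⟩ := ih
    refine ⟨(((b.tensorProduct B).map (LinearEquiv.ofBijective _ (hK n))).map
      (H.equivH (finSucc (fun _ : Fin (n + 2) => U)))).reindex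
        (Fin.consEquiv (fun _ : Fin (n + 2) => J)), fun w => ?_⟩
    rw [Module.Basis.reindex_apply, Module.Basis.map_apply, Module.Basis.map_apply, cm_succ,
      Coh.equivH_apply, Module.Basis.tensorProduct_apply']
    change H.map _ (TensorProduct.lift X.x (b (w 0) ⊗ₜ[F] B (fun i => w i.succ))) = _
    rw [TensorProduct.lift.tmul, hB]

/-! ### the last factor -/

variable (U) in
/-- initial part and last coordinate -/
def snocH (n : ℕ) : (Fin (n + 2) → U) ≃ₜ (Fin (n + 1) → U) × U where
  toFun x := (fun i => x i.castSucc, x (Fin.last (n + 1)))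
  invFun p := Fin.snoc (α := fun _ => U) p.1 p.2
  left_inv x := by
    funext i
    refine Fin.lastCases ?_ (fun i => ?_) i
    · simp
    · simp
  right_inv p := by
    refine Prod.ext ?_ ?_
    · funext i; simp
    · simp
  continuous_toFun := by fun_prop
  continuous_invFun := by
    refine continuous_pi fun i => ?_
    refine Fin.lastCases ?_ (fun i => ?_) i
    · simp only [Fin.snoc_last]; exact continuous_snd
    · simp only [Fin.snoc_castSucc]; exact (continuous_apply i).comp continuous_fst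

@[simp] theorem snocH_apply (n : ℕ) (x : Fin (n + 2) → U) :
    snocH U n x = (fun i => x i.castSucc, x (Fin.last (n + 1))) := rfl

theorem cm_snoc (n : ℕ) (v : Fin (n + 2) → H.h U) :
    X.cm U (n + 1) v = H.map (PMap.ofHomeo (snocH U n))
      (X.x (X.cm U n (fun i => v i.castSucc)) (v (Fin.last (n + 1)))) := by
  induction n with
  | zero =>
    have e1 : v 0 = H.map (PMap.ofHomeo (Homeomorph.refl U)) (v 0) := by
      rw [PMap.ofHomeo_refl, H.map_id]
    have e2 : v (Fin.last 1) = H.map (PMap.ofHomeo (Homeomorph.refl U)) (v (Fin.last 1)) := by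
      rw [PMap.ofHomeo_refl, H.map_id]
    rw [cm_succ, cm_zero, cm_zero]
    conv_lhs => rw [e1]
    conv_rhs => rw [e2]
    rw [← X.nat_homeo, ← X.nat_homeo, H.map_homeo_comp, H.map_homeo_comp]
    rfl
  | succ n ih =>
    have e1 : v 0 = H.map (PMap.ofHomeo (Homeomorph.refl U)) (v 0) := by
      rw [PMap.ofHomeo_refl, H.map_id]
    have e2 : v (Fin.last (n + 2)) =
        H.map (PMap.ofHomeo (Homeomorph.refl U)) (v (Fin.last (n + 2))) := by
      rw [PMap.ofHomeo_refl, H.map_id]
    rw [cm_succ, ih, cm_succ]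
    conv_lhs => rw [e1]
    conv_rhs => rw [e2]
    rw [← X.nat_homeo, ← X.nat_homeo, H.map_homeo_comp, H.map_homeo_comp, ← X.assoc,
      H.map_homeo_comp]
    rfl

/-! ### rotation -/

/-- the sign of a parity -/
def sgn (F : Type*) [Field F] (o : Bool) : F := if o then -1 else 1

variable (F) in
/-- the sign of one rotation -/
def ks1 {n : ℕ} (o : Fin (n + 2) → Bool) : F :=
  if o (Fin.last (n + 1)) then ∏ i : Fin (n + 1), sgn F (o i.castSucc) else 1

theorem finRotate_castSucc' {n : ℕ} (i : Fin (n + 1)) : finRotate (n + 2) i.castSucc = i.succ := by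
  rw [finRotate_apply, Fin.coeSucc_eq_succ]

theorem finRotate_last' {n : ℕ} : finRotate (n + 2) (Fin.last (n + 1)) = 0 := by
  rw [finRotate_apply, Fin.last_add_one]

theorem map_rot1 {n : ℕ} (o : Fin (n + 2) → Bool) (v : Fin (n + 2) → H.h U)
    (hv : ∀ i, H.eps U (v i) = sgn F (o i) • v i) :
    H.map (PMap.ofHomeo (reixc U (finRotate (n + 2)))) (X.cm U (n + 1) v) =
      ks1 F o • X.cm U (n + 1) (fun i => v ((finRotate (n + 2)).symm i)) := by
  have hh : (reixc U (finRotate (n + 2))).trans (snocH U n) =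
      (finSucc (fun _ : Fin (n + 2) => U)).trans (Homeomorph.prodComm U (Fin (n + 1) → U)) := by
    refine Homeomorph.ext fun x => ?_
    refine Prod.ext ?_ ?_
    · funext i
      change x (finRotate (n + 2) i.castSucc) = x i.succ
      rw [finRotate_castSucc']
    · change x (finRotate (n + 2) (Fin.last (n + 1))) = x 0
      rw [finRotate_last']
  have h0 : (finRotate (n + 2)).symm 0 = Fin.last (n + 1) := by
    rw [Equiv.symm_apply_eq, finRotate_last']
  have hs : ∀ i : Fin (n + 1), (finRotate (n + 2)).symm i.succ = i.castSucc := by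
    intro i
    rw [Equiv.symm_apply_eq, finRotate_castSucc']
  rw [cm_snoc, H.map_homeo_comp, hh, ← H.map_homeo_comp, cm_succ, h0]
  simp only [hs]
  rw [ks1]
  by_cases ho : o (Fin.last (n + 1)) = true
  · have hl : H.eps U (v (Fin.last (n + 1))) = - v (Fin.last (n + 1)) := by
      rw [hv, ho, sgn, if_pos rfl, neg_one_smul]
    have hl' : H.eps _ (X.cm U n (fun i => v i.castSucc)) =
        (∏ i : Fin (n + 1), sgn F (o i.castSucc)) • X.cm U n (fun i => v i.castSucc) := by
      rw [eps_cm]
      simp only [hv]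
      rw [(X.cm U n).map_smul_univ]
    rw [X.comm_odd _ _ hl, hl', if_pos ho, map_smul, map_smul]
  · have hl : H.eps U (v (Fin.last (n + 1))) = v (Fin.last (n + 1)) := by
      rw [hv, sgn, if_neg ho, one_smul]
    rw [X.comm_even _ _ hl, if_neg ho, one_smul]

variable (F) in
/-- the sign of `k` rotations -/
def ksR {n : ℕ} : ℕ → (Fin (n + 2) → Bool) → F
  | 0, _ => 1
  | k + 1, o => ks1 F o * ksR k (fun i => o ((finRotate (n + 2)).symm i))

theorem ks1_even {n : ℕ} (o : Fin (n + 2) → Bool) (ho : ∀ i, o i = false) : ks1 F o = 1 := by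
  rw [ks1, if_neg (by rw [ho]; decide)]

theorem ks1_odd {n : ℕ} (o : Fin (n + 2) → Bool) (ho : ∀ i, o i = true) :
    ks1 F o = (-1) ^ (n + 1) := by
  rw [ks1, if_pos (ho _)]
  simp [ho, sgn]

theorem ksR_even {n : ℕ} (k : ℕ) (o : Fin (n + 2) → Bool) (ho : ∀ i, o i = false) :
    ksR F k o = 1 := by
  induction k generalizing o with
  | zero => rfl
  | succ k ih => rw [ksR, ks1_even o ho, ih _ (fun i => ho _), one_mul]

theorem ksR_odd {n : ℕ} (k : ℕ) (o : Fin (n + 2) → Bool) (ho : ∀ i, o i = true) :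
    ksR F k o = ((-1) ^ (n + 1)) ^ k := by
  induction k generalizing o with
  | zero => rw [ksR, pow_zero]
  | succ k ih => rw [ksR, ks1_odd o ho, ih _ (fun i => ho _), ← pow_succ' ((-1 : F) ^ (n + 1)) k]

theorem map_rotk {n : ℕ} (k : ℕ) (o : Fin (n + 2) → Bool) (v : Fin (n + 2) → H.h U)
    (hv : ∀ i, H.eps U (v i) = sgn F (o i) • v i) :
    H.map (PMap.ofHomeo (reixc U ((finRotate (n + 2)) ^ k))) (X.cm U (n + 1) v) =
      ksR F k o • X.cm U (n + 1) (fun i => v (((finRotate (n + 2)) ^ k).symm i)) := by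
  induction k generalizing o v with
  | zero =>
    rw [pow_zero, ksR, one_smul]
    change H.map (PMap.ofHomeo (reixc U (Equiv.refl _))) _ = _
    rw [reixc_refl, PMap.ofHomeo_refl, H.map_id]
    rfl
  | succ k ih =>
    have e : ((finRotate (n + 2)) ^ (k + 1)) =
        (finRotate (n + 2)).trans ((finRotate (n + 2)) ^ k) := by
      rw [pow_succ]; rfl
    rw [e, ← reixc_trans, ← H.map_homeo_comp, X.map_rot1 o v hv, map_smul,
      ih (fun i => o ((finRotate (n + 2)).symm i)) _ (fun i => hv _), smul_smul, ksR]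
    rfl

/-! ### Lefschetz numbers of powers -/

/-- iterates of a pointed self map -/
def iter (φ : PMap U U) : ℕ → PMap U U
  | 0 => PMap.id U
  | k + 1 => (iter φ k).comp φ

theorem map_iter (φ : PMap U U) (k : ℕ) : H.map (iter φ k) = (H.map φ) ^ k := by
  induction k with
  | zero =>
    ext x
    rw [pow_zero]
    exact H.map_id U x
  | succ k ih =>
    ext x
    rw [iter, H.map_comp, ih, pow_succ']
    rfl

theorem L_iter (φ : PMap U U) (k : ℕ) :
    H.L (iter φ k) = LinearMap.trace F (H.h U) (H.eps U * H.map φ ^ k) := by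
  rw [Coh.L, ← map_iter]
  rfl

theorem L_pow (h2 : (2 : F) ≠ 0) (hK : ∀ n : ℕ, X.Kue U (Fin (n + 1) → U)) (hU : H.Fin U) (n : ℕ)
    (φ : PMap U U) : H.L (pow (Fin (n + 2)) φ) = H.L φ ^ (n + 2) := by
  have : FiniteDimensional F (H.h U) := hU
  obtain ⟨odd, b, hb⟩ := exists_homog_basis h2 (H.eps U) (H.eps_eps U)
  obtain ⟨B, hB⟩ := X.exists_basis b hK (n + 1)
  have h := super_pow_mul (H.eps U) odd b hb (H.map φ) (X.cm U (n + 1)) B hB
    (H.eps (Fin (n + 2) → U)) (H.map (pow (Fin (n + 2)) φ)) (fun v => X.map_cm (n + 1) φ v)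
    (fun v => X.eps_cm (n + 1) v)
  rw [Fintype.card_fin] at h
  exact h

theorem L_rotk (h2 : (2 : F) ≠ 0) (hK : ∀ n : ℕ, X.Kue U (Fin (n + 1) → U)) (hU : H.Fin U)
    {n : ℕ} (hq : (n + 2).Prime) {k : ℕ} (hk : 0 < k) (hkq : k < n + 2) (φ : PMap U U) :
    H.L ((pow (Fin (n + 2)) φ).comp (PMap.ofHomeo (reixc U ((finRotate (n + 2)) ^ k)))) =
      H.L (iter φ (n + 2)) := by
  have : FiniteDimensional F (H.h U) := hU
  obtain ⟨odd, b, hb⟩ := exists_homog_basis h2 (H.eps U) (H.eps_eps U)
  obtain ⟨B, hB⟩ := X.exists_basis b hK (n + 1)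
  have hcyc := isCycle_rot hq hk hkq
  have hg := (isCycleOn_of_isCycle _ hcyc.1 hcyc.2).inv
  have hb' : ∀ j, H.eps U (H.map φ (b j)) = sgn F (odd j) • H.map φ (b j) := by
    intro j
    rw [H.eps_map, hb, map_smul]
    rfl
  have h := super_cyclic_mul h2 (H.eps U) odd b hb (H.map φ)
    (fun x => (H.eps_map φ x).symm) (X.cm U (n + 1)) B hB ((finRotate (n + 2)) ^ k)⁻¹ hg ⟨0⟩
    (fun w => ksR F k (fun i => odd (w i)))
    (fun w hw => ksR_even k _ hw)
    (fun w hw => by
      rw [ksR_odd k _ hw, Fintype.card_fin]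
      rcases hq.eq_two_or_odd' with h2' | hodd
      · have hn : n = 0 := by omega
        subst hn
        have hk1 : k = 1 := by omega
        subst hk1
        norm_num
      · have e1 : Even (n + 1) := by
          have h3 : n + 2 = n + 1 + 1 := rfl
          rw [h3, Nat.odd_add_one, Nat.not_odd_iff_even] at hodd
          exact hodd
        have e2 : Even (n + 2 + 1) := by
          have h3 : n + 2 + 1 = (n + 1) + 2 := by omega
          rw [h3]
          exact e1.add even_two
        rw [e1.neg_one_pow, e2.neg_one_pow, one_pow])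
    (H.eps (Fin (n + 2) → U))
    (H.map (PMap.ofHomeo (reixc U ((finRotate (n + 2)) ^ k))) ∘ₗ H.map (pow (Fin (n + 2)) φ))
    (fun w => by
      rw [LinearMap.comp_apply, hB, X.map_cm, X.map_rotk k (fun i => odd (w i)) _
        (fun i => hb' (w i))]
      rfl)
    (fun v => X.eps_cm (n + 1) v)
  rw [Fintype.card_fin] at h
  rw [L_iter, ← h, Coh.L]
  congr 1
  ext x
  rw [Coh.T_apply, H.map_comp]
  rfl

theorem finRotate_pow_eq (n k : ℕ) :
    ((finRotate (n + 2)) ^ k : Equiv.Perm (Fin (n + 2))) =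
      (Equiv.addRight (k : ZMod (n + 2)) : Equiv.Perm (ZMod (n + 2))) := by
  induction k with
  | zero =>
    refine Equiv.ext fun i => ?_
    let j : ZMod (n + 2) := i
    change j = j + ((0 : ℕ) : ZMod (n + 2))
    rw [Nat.cast_zero, add_zero]
  | succ k ih =>
    refine Equiv.ext fun i => ?_
    rw [pow_succ, Equiv.Perm.mul_apply, ih, finRotate_apply]
    let j : ZMod (n + 2) := i
    change (j + 1) + (k : ZMod (n + 2)) = j + ((k + 1 : ℕ) : ZMod (n + 2))
    push_cast
    ring

/-- `L(φ^{∧q}) = L(φ)^q` -/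
theorem L_powZ (h2 : (2 : F) ≠ 0) (hK : ∀ n : ℕ, X.Kue U (Fin (n + 1) → U)) (hU : H.Fin U)
    {q : ℕ} [hq : Fact q.Prime] (φ : PMap U U) : H.L (pow (ZMod q) φ) = H.L φ ^ q := by
  obtain ⟨n, rfl⟩ : ∃ n, q = n + 2 := ⟨q - 2, by have := hq.out.two_le; omega⟩
  exact X.L_pow h2 hK hU n φ

/-- `L(φ^{∧q} ∘ rotation) = L(φ^q)` -/
theorem L_rotZ (h2 : (2 : F) ≠ 0) (hK : ∀ n : ℕ, X.Kue U (Fin (n + 1) → U)) (hU : H.Fin U)
    {q : ℕ} [hq : Fact q.Prime] (a : ZMod q) (ha : a ≠ 0) (φ : PMap U U) :
    H.L ((pow (ZMod q) φ).comp (PMap.ofHomeo (reixc U (Equiv.addRight a)))) = H.L (iter φ q) := by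
  obtain ⟨n, rfl⟩ : ∃ n, q = n + 2 := ⟨q - 2, by have := hq.out.two_le; omega⟩
  have hv : 0 < a.val := by
    rw [Nat.pos_iff_ne_zero]
    intro h
    exact ha ((ZMod.val_eq_zero a).1 h)
  have h := X.L_rotk h2 hK hU hq.out hv (ZMod.val_lt a) φ
  rw [finRotate_pow_eq, ZMod.natCast_val, ZMod.cast_id', id] at h
  exact h

end Cross

end Crest.Agent.R090.CohT253
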