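import Crest.Agent.R090.MCSm_962

/-!
# Row 90, T1: rotation of a cone sequence (owner helper962)

For `f : PMap U V`:
* `MC.pi f : PMap (MC (MC.i f)) (U × Io)`, `pi_i : pi ∘ i (i f) = p f`;
* `MC.rho f : PMap (U × Io) (MC (MC.i f))`, homotopy inverse (`rho_pi`, `pi_rho`);
* `MC.smash_flip_pi : (f ∧ flip) ∘ pi ~ p (i f)`;
* `MC.exists_equiv` : cones of homotopic maps are equivalent.
-/

set_option autoImplicit false
set_option linter.unusedSectionVars false

open Topology Filter Set

namespace Crest.Agent.R090.Sp962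

open OnePoint
open scoped unitInterval

universe u v w x u' v'

namespace MC

variable {U : Type u} {V : Type v} {W : Type w} {X : Type x}
variable [TopologicalSpace U] [TopologicalSpace V] [TopologicalSpace W] [TopologicalSpace X]
variable [T2Space U] [T2Space V] [LocallyCompactSpace U] [LocallyCompactSpace V]

/-- extensionality on the cone -/
theorem ext_q {Z : Type*} {f : PMap U V} {g h : OnePoint (MC f) → Z}
    (h1 : ∀ (a : OnePoint U) (t : ℝ), t ∈ Icc (0 : ℝ) 1 → g (q f a t) = h (q f a t))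
    (h2 : ∀ y, g (i f y) = h (i f y)) (z : OnePoint (MC f)) : g z = h z :=
  MC.cases f (P := fun z => g z = h z) h1 h2 z

/-- the collapse of the second cone -/
noncomputable def pi (f : PMap U V) : PMap (MC (i f)) (U × Io) :=
  desc (i f) (p f) (fun _ _ => ∞) continuous_const (fun _ => rfl) (fun _ => rfl)
    (fun y => (p_i f y).symm)

@[simp] theorem pi_i_apply (f : PMap U V) (z : OnePoint (MC f)) : pi f (i (i f) z) = p f z := by
  rw [pi, desc_i]

theorem pi_i (f : PMap U V) : (pi f).comp (i (i f)) = p f :=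
  PMap.ext fun z => pi_i_apply f z

theorem pi_q (f : PMap U V) (y : OnePoint V) {t : ℝ} (ht : t ∈ Icc (0 : ℝ) 1) :
    pi f (q (i f) y t) = ∞ := by
  rw [pi, desc_q _ _ _ _ _ _ _ _ ht]

theorem continuous_rho_aux (f : PMap U V) : Continuous (fun p : OnePoint U × I =>
    if (p.2 : ℝ) ≤ 1 / 2 then i (i f) (q f p.1 (2 * p.2)) else q (i f) (f p.1) (2 - 2 * p.2)) := by
  refine Continuous.if_le ?_ ?_ (by fun_prop) (by fun_prop) ?_
  · exact (i (i f)).cont.comp ((continuous_q f).comp (by fun_prop : Continuous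
      (fun p : OnePoint U × I => (p.1, 2 * (p.2 : ℝ)))))
  · exact (continuous_q (i f)).comp ((f.cont.comp continuous_fst).prodMk (by fun_prop))
  · intro p hp
    rw [hp, q_of_ge _ _ (by norm_num), q_of_ge _ _ (by norm_num)]

/-- the homotopy inverse of `pi` -/
noncomputable def rho (f : PMap U V) : PMap (U × Io) (MC (i f)) :=
  susMap (fun a t => if t ≤ 1 / 2 then i (i f) (q f a (2 * t)) else q (i f) (f a) (2 - 2 * t))
    (continuous_rho_aux f)
    (fun t => by
      split_ifs
      · rw [q_inf, PMap.map_inf]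
      · rw [PMap.map_inf, q_inf])
    (fun a => by rw [if_pos (by norm_num), mul_zero, q_zero, PMap.map_inf])
    (fun a => by rw [if_neg (by norm_num), q_of_le _ _ (by norm_num)])

theorem rho_sm (f : PMap U V) (a : OnePoint U) {t : ℝ} (ht : t ∈ Icc (0 : ℝ) 1) :
    rho f (sm a (qI t)) =
      if t ≤ 1 / 2 then i (i f) (q f a (2 * t)) else q (i f) (f a) (2 - 2 * t) := by
  rw [rho, susMap_sm _ _ _ _ _ _ ht]

/-- `pi ∘ rho ~ id` -/
theorem pi_rho (f : PMap U V) : ((pi f).comp (rho f)).Homotopic (PMap.id (U × Io)) := by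
  refine PMap.Homotopic.symm ?_
  refine homotopic_susp (fun s a t => sm a (qI ((1 + (s : ℝ)) * t))) ?_ ?_ ?_ ?_ ?_ ?_
  · exact (by fun_prop : Continuous (fun p : I × (OnePoint U × I) => p.2.1)).sm962
      (continuous_qI.comp (by fun_prop))
  · intro s t; rw [sm_inf_left]
  · intro s a; simp
  · intro s a; rw [mul_one, qI_of_ge (by linarith [s.2.1]), sm_inf_right]
  · intro a t
    rw [Set.Icc.coe_zero, add_zero, one_mul, qI_coe, PMap.id_apply]
  · intro a t
    have ht : (t : ℝ) ∈ Icc (0 : ℝ) 1 := ⟨t.2.1.le, t.2.2.le⟩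
    have h : ((1 : ℝ) + ((1 : I) : ℝ)) * (t : ℝ) = 2 * t := by
      rw [Set.Icc.coe_one]; ring
    rw [h, PMap.comp_apply, ← qI_coe t, rho_sm f _ ht]
    split_ifs with h'
    · rw [pi_i_apply, p_q]
    · push Not at h'
      rw [pi_q f _ ⟨by linarith [ht.2], by linarith⟩, qI_of_ge (by linarith), sm_inf_right]

/-- `rho ∘ pi ~ id` -/
theorem rho_pi (f : PMap U V) : ((rho f).comp (pi f)).Homotopic (PMap.id (MC (i f))) := by
  refine PMap.Homotopic.symm ?_
  let G : I → OnePoint U → ℝ → OnePoint (MC (i f)) := fun s a t =>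
    if t ≤ 1 - (s : ℝ) / 2 then i (i f) (q f a (t / (1 - (s : ℝ) / 2)))
    else q (i f) (f a) (3 - (s : ℝ) - 2 * t)
  have hpos : ∀ s : I, (0 : ℝ) < 1 - (s : ℝ) / 2 := fun s => by
    have := s.2.2; linarith
  have hG : Continuous (fun p : I × (OnePoint U × I) => G p.1 p.2.1 p.2.2) := by
    refine Continuous.if_le ?_ ?_ (by fun_prop) (by fun_prop) ?_
    · refine (i (i f)).cont.comp ((continuous_q f).comp (Continuous.prodMk (by fun_prop) ?_))
      exact Continuous.div (by fun_prop) (by fun_prop) fun p => (hpos p.1).ne'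
    · exact (continuous_q (i f)).comp (Continuous.prodMk (f.cont.comp (by fun_prop)) (by fun_prop))
    · intro p hp
      rw [hp, div_self (hpos p.1).ne', q_one, q_of_ge _ _ (by linarith)]
  have Ginf : ∀ s t, G s ∞ t = q (i f) ∞ (1 - (s : ℝ)) := by
    intro s t
    simp only [G]
    split_ifs
    · rw [q_inf, q_inf, PMap.map_inf]
    · rw [PMap.map_inf, q_inf, q_inf]
  have G0 : ∀ s a, G s a 0 = q (i f) ∞ (1 - (s : ℝ)) := by
    intro s a
    simp only [G]
    rw [if_pos (hpos s).le, zero_div, q_zero, q_inf, PMap.map_inf]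
  have G1 : ∀ s a, G s a 1 = q (i f) (f a) (1 - (s : ℝ)) := by
    intro s a
    simp only [G]
    rcases eq_or_lt_of_le s.2.1 with hs | hs
    · rw [if_pos (by linarith), ← hs, zero_div, sub_zero, div_one, q_one, q_one]
    · rw [if_neg (by simp only [not_le]; linarith)]
      congr 1
      ring
  let L : I → OnePoint (MC f) → OnePoint (MC (i f)) := fun s =>
    lift f (G s) (fun y => q (i f) y (1 - (s : ℝ)))
  have Lq : ∀ s a t, t ∈ Icc (0 : ℝ) 1 → L s (q f a t) = G s a t := fun s a t ht =>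
    lift_q f (G s) (fun y => q (i f) y (1 - (s : ℝ))) (Ginf s) (G0 s) (G1 s) a ht
  have Li : ∀ s y, L s (i f y) = q (i f) y (1 - (s : ℝ)) := fun s y => lift_i f _ _ y
  have Linf : ∀ s, L s ∞ = ∞ := fun s => by
    rw [← (i f).map_inf, Li, q_inf]
  have hL : Continuous (fun p : I × OnePoint (MC f) => L p.1 p.2) := by
    refine continuous_of f ?_ ?_
    · have : (fun p : I × (OnePoint U × I) => L p.1 (q f p.2.1 p.2.2)) =
          fun p => G p.1 p.2.1 p.2.2 := funext fun p => Lq p.1 p.2.1 p.2.2 p.2.2.2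
      simp only
      rw [this]; exact hG
    · have : (fun p : I × OnePoint V => L p.1 (i f p.2)) =
          fun p => q (i f) p.2 (1 - (p.1 : ℝ)) := funext fun p => Li p.1 p.2
      simp only
      rw [this]
      exact (continuous_q (i f)).comp (by fun_prop : Continuous
        (fun p : I × OnePoint V => (p.2, 1 - (p.1 : ℝ))))
  let K : I → OnePoint (MC (i f)) → OnePoint (MC (i f)) := fun s =>
    lift (i f) (fun y t => q (i f) y ((1 - (s : ℝ)) * t)) (L s)
  have Kq : ∀ s y t, t ∈ Icc (0 : ℝ) 1 → K s (q (i f) y t) = q (i f) y ((1 - (s : ℝ)) * t) :=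
    fun s y t ht => lift_q (i f) (fun y t => q (i f) y ((1 - (s : ℝ)) * t)) (L s)
      (fun t => by rw [q_inf, Linf]) (fun y => by rw [mul_zero, q_zero, Linf])
      (fun y => by rw [mul_one, Li]) y ht
  have Ki : ∀ s z, K s (i (i f) z) = L s z := fun s z => lift_i (i f) _ _ z
  refine PMap.Homotopic.of (fun p => K p.1 p.2) ?_ ?_ ?_ ?_
  · refine continuous_of (i f) ?_ ?_
    · have : (fun p : I × (OnePoint V × I) => K p.1 (q (i f) p.2.1 p.2.2)) =
          fun p => q (i f) p.2.1 ((1 - (p.1 : ℝ)) * p.2.2) :=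
        funext fun p => Kq p.1 p.2.1 p.2.2 p.2.2.2
      simp only
      rw [this]
      exact (continuous_q (i f)).comp (by fun_prop : Continuous
        (fun p : I × (OnePoint V × I) => (p.2.1, (1 - (p.1 : ℝ)) * (p.2.2 : ℝ))))
    · have : (fun p : I × OnePoint (MC f) => K p.1 (i (i f) p.2)) =
          fun p => L p.1 p.2 := funext fun p => Ki p.1 p.2
      simp only
      rw [this]; exact hL
  · intro z
    change K 0 (z : OnePoint (MC (i f))) = (z : OnePoint (MC (i f)))
    refine ext_q (g := K 0) (h := fun z => z) ?_ ?_ z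
    · intro y t ht
      rw [Kq 0 y t ht, Set.Icc.coe_zero, sub_zero, one_mul]
    · intro c
      rw [Ki]
      refine ext_q (g := L 0) (h := fun c => i (i f) c) ?_ ?_ c
      · intro a t ht
        rw [Lq 0 a t ht]
        simp only [G]
        rw [if_pos (by simpa using ht.2), Set.Icc.coe_zero, zero_div, sub_zero, div_one]
      · intro y
        rw [Li, Set.Icc.coe_zero, sub_zero, q_one]
  · intro z
    change K 1 (z : OnePoint (MC (i f))) = rho f (pi f z)
    refine ext_q (g := K 1) (h := fun z => rho f (pi f z)) ?_ ?_ z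
    · intro y t ht
      rw [Kq 1 y t ht, Set.Icc.coe_one, sub_self, zero_mul, q_zero, pi_q f y ht, PMap.map_inf]
    · intro c
      rw [Ki, pi_i_apply]
      refine ext_q (g := L 1) (h := fun c => rho f (p f c)) ?_ ?_ c
      · intro a t ht
        rw [Lq 1 a t ht, p_q, rho_sm f a ht]
        simp only [G, Set.Icc.coe_one]
        have e1 : (1 : ℝ) - 1 / 2 = 1 / 2 := by norm_num
        have e2 : t / (1 / 2) = 2 * t := by ring
        have e3 : (3 : ℝ) - 1 - 2 * t = 2 - 2 * t := by ring
        rw [e1, e2, e3]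
      · intro y
        rw [Li, Set.Icc.coe_one, sub_self, q_zero, p_i, PMap.map_inf]
  · intro s
    change K s ∞ = ∞
    rw [← (i (i f)).map_inf, Ki, Linf, PMap.map_inf]

/-- `p (i f) ∘ rho ~ f ∧ flip` -/
theorem p_rho (f : PMap U V) :
    ((p (i f)).comp (rho f)).Homotopic (f.smash (PMap.ofHomeo flipIo)) := by
  refine PMap.Homotopic.symm ?_
  refine homotopic_susp (fun s a t => sm (f a) (qI ((1 + (s : ℝ)) * (1 - t)))) ?_ ?_ ?_ ?_ ?_ ?_
  · exact (f.cont.comp (by fun_prop : Continuous (fun p : I × (OnePoint U × I) => p.2.1))).sm962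
      (continuous_qI.comp (by fun_prop))
  · intro s t; rw [PMap.map_inf, sm_inf_left]
  · intro s a
    rw [sub_zero, mul_one, qI_of_ge (by linarith [s.2.1]), sm_inf_right]
  · intro s a; simp
  · intro a t
    rw [Set.Icc.coe_zero, add_zero, one_mul, PMap.smash_sm, PMap.ofHomeo_coe]
    congr 1
    exact qI_of_mem (flipIo t).2
  · intro a t
    have ht : (t : ℝ) ∈ Icc (0 : ℝ) 1 := ⟨t.2.1.le, t.2.2.le⟩
    have h : ((1 : ℝ) + ((1 : I) : ℝ)) * (1 - (t : ℝ)) = 2 - 2 * t := by
      rw [Set.Icc.coe_one]; ring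
    rw [h, PMap.comp_apply, ← qI_coe t, rho_sm f _ ht]
    split_ifs with h'
    · rw [p_i, qI_of_ge (by linarith), sm_inf_right]
    · rw [p_q]

/-- `(f ∧ flip) ∘ pi ~ p (i f)` -/
theorem smash_flip_pi (f : PMap U V) :
    ((f.smash (PMap.ofHomeo flipIo)).comp (pi f)).Homotopic (p (i f)) := by
  have h1 : (((p (i f)).comp (rho f)).comp (pi f)).Homotopic
      ((f.smash (PMap.ofHomeo flipIo)).comp (pi f)) :=
    PMap.Homotopic.comp (p_rho f) (PMap.Homotopic.refl (pi f))
  have h2 : ((p (i f)).comp ((rho f).comp (pi f))).Homotopic ((p (i f)).comp (PMap.id _)) :=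
    PMap.Homotopic.comp (PMap.Homotopic.refl _) (rho_pi f)
  exact h1.symm.trans h2

/-- `rho ∘ p ~ i (i f)` -/
theorem rho_p (f : PMap U V) : ((rho f).comp (p f)).Homotopic (i (i f)) := by
  have h : (((rho f).comp (pi f)).comp (i (i f))).Homotopic ((PMap.id _).comp (i (i f))) :=
    PMap.Homotopic.comp (rho_pi f) (PMap.Homotopic.refl _)
  rw [PMap.comp_assoc, pi_i] at h
  exact h

/-! ## cones of homotopic maps -/

section fillH

/-- the map of cones given by a homotopy -/
noncomputable def fillH (f f' : PMap U V) (H : I × OnePoint U → OnePoint V) (hH : Continuous H)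
    (H0 : ∀ x, H (0, x) = f x) (H1 : ∀ x, H (1, x) = f' x) (Hi : ∀ t, H (t, ∞) = ∞) :
    PMap (MC f) (MC f') :=
  desc f (i f') (fun a t => if t ≤ 1 / 2 then q f' a (2 * t) else i f' (H (cl (2 - 2 * t), a)))
    (by
      refine Continuous.if_le ?_ ?_ (by fun_prop) (by fun_prop) ?_
      · exact (continuous_q f').comp (by fun_prop : Continuous
          (fun p : OnePoint U × I => (p.1, 2 * (p.2 : ℝ))))
      · exact (i f').cont.comp (hH.comp (Continuous.prodMk (by fun_prop) continuous_fst))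
      · intro p hp
        rw [hp, cl_of_ge (by norm_num), H1, q_of_ge _ _ (by norm_num)])
    (fun t => by
      split_ifs
      · rw [q_inf]
      · rw [Hi, PMap.map_inf])
    (fun x => by rw [if_pos (by norm_num), mul_zero, q_zero])
    (fun x => by rw [if_neg (by norm_num), cl_of_le (by norm_num), H0])

variable {f f' : PMap U V} {H : I × OnePoint U → OnePoint V} (hH : Continuous H)
    (H0 : ∀ x, H (0, x) = f x) (H1 : ∀ x, H (1, x) = f' x) (Hi : ∀ t, H (t, ∞) = ∞)

@[simp] theorem fillH_i_apply (y : OnePoint V) : fillH f f' H hH H0 H1 Hi (i f y) = i f' y := by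
  rw [fillH, desc_i]

theorem fillH_i : (fillH f f' H hH H0 H1 Hi).comp (i f) = i f' :=
  PMap.ext fun y => fillH_i_apply hH H0 H1 Hi y

theorem fillH_q (a : OnePoint U) {t : ℝ} (ht : t ∈ Icc (0 : ℝ) 1) :
    fillH f f' H hH H0 H1 Hi (q f a t) =
      if t ≤ 1 / 2 then q f' a (2 * t) else i f' (H (cl (2 - 2 * t), a)) := by
  rw [fillH, desc_q _ _ _ _ _ _ _ _ ht]

theorem p_fillH : ((p f').comp (fillH f f' H hH H0 H1 Hi)).Homotopic (p f) := by
  have hc : Continuous (fun p : OnePoint U × I => sm p.1 (qI (2 * (p.2 : ℝ)))) :=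
    continuous_fst.sm962 (continuous_qI.comp (by fun_prop))
  let r : PMap (U × Io) (U × Io) := susMap (fun a t => sm a (qI (2 * t))) hc
    (fun t => sm_inf_left _) (fun a => by simp) (fun a => by
      rw [qI_of_ge (by norm_num), sm_inf_right])
  have hr : ∀ a t, t ∈ Icc (0 : ℝ) 1 → r (sm a (qI t)) = sm a (qI (2 * t)) := fun a t ht =>
    susMap_sm _ _ _ _ _ a ht
  have e1 : (p f').comp (fillH f f' H hH H0 H1 Hi) = r.comp (p f) := by
    refine PMap.ext fun z => ?_
    refine ext_q (g := fun z => p f' (fillH f f' H hH H0 H1 Hi z)) (h := fun z => r (p f z)) ?_ ?_ z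
    · intro a t ht
      rw [p_q, hr a t ht, fillH_q hH H0 H1 Hi a ht]
      split_ifs with h
      · rw [p_q]
      · rw [p_i, qI_of_ge (by linarith), sm_inf_right]
    · intro y
      rw [fillH_i_apply, p_i, p_i, PMap.map_inf]
  have e2 : r.Homotopic (PMap.id _) := by
    refine PMap.Homotopic.symm ?_
    refine homotopic_susp (fun s a t => sm a (qI ((1 + (s : ℝ)) * t))) ?_ ?_ ?_ ?_ ?_ ?_
    · exact (by fun_prop : Continuous (fun p : I × (OnePoint U × I) => p.2.1)).sm962
        (continuous_qI.comp (by fun_prop))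
    · intro s t; rw [sm_inf_left]
    · intro s a; simp
    · intro s a; rw [mul_one, qI_of_ge (by linarith [s.2.1]), sm_inf_right]
    · intro a t
      rw [Set.Icc.coe_zero, add_zero, one_mul, qI_coe, PMap.id_apply]
    · intro a t
      have ht : (t : ℝ) ∈ Icc (0 : ℝ) 1 := ⟨t.2.1.le, t.2.2.le⟩
      have h : ((1 : ℝ) + ((1 : I) : ℝ)) * (t : ℝ) = 2 * t := by
        rw [Set.Icc.coe_one]; ring
      rw [h, ← qI_coe t, hr _ _ ht]
  rw [e1]
  exact PMap.Homotopic.comp_right e2 (p f)

theorem fillH_comp {H' : I × OnePoint U → OnePoint V} (hH' : Continuous H')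
    (H0' : ∀ x, H' (0, x) = f' x) (H1' : ∀ x, H' (1, x) = f x) (Hi' : ∀ t, H' (t, ∞) = ∞)
    (hrev : ∀ t ∈ Icc (0 : ℝ) 1, ∀ x, H' (cl t, x) = H (cl (1 - t), x)) :
    ((fillH f' f H' hH' H0' H1' Hi').comp (fillH f f' H hH H0 H1 Hi)).Homotopic (PMap.id _) := by
  refine PMap.Homotopic.symm ?_
  let G : I → OnePoint U → ℝ → OnePoint (MC f) := fun s a t =>
    if t ≤ 1 - 3 * (s : ℝ) / 4 then q f a (t / (1 - 3 * (s : ℝ) / 4))
    else i f (H (cl (min (4 * (t - (1 - 3 * (s : ℝ) / 4))) (2 - 2 * t)), a))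
  have hpos : ∀ s : I, (0 : ℝ) < 1 - 3 * (s : ℝ) / 4 := fun s => by
    have := s.2.2; linarith
  have hG : Continuous (fun p : I × (OnePoint U × I) => G p.1 p.2.1 p.2.2) := by
    refine Continuous.if_le ?_ ?_ (by fun_prop) (by fun_prop) ?_
    · refine (continuous_q f).comp (Continuous.prodMk (by fun_prop) ?_)
      exact Continuous.div (by fun_prop) (by fun_prop) fun p => (hpos p.1).ne'
    · exact (i f).cont.comp (hH.comp (Continuous.prodMk (by fun_prop) (by fun_prop)))
    · intro p hp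
      rw [hp, div_self (hpos p.1).ne', q_one, sub_self, mul_zero,
        cl_of_le (min_le_left _ _), H0]
  have Ginf : ∀ s t, G s ∞ t = i f ∞ := by
    intro s t
    simp only [G]
    split_ifs
    · rw [q_inf, PMap.map_inf]
    · rw [Hi]
  have G0 : ∀ s a, G s a 0 = i f ∞ := by
    intro s a
    simp only [G]
    rw [if_pos (hpos s).le, zero_div, q_zero, PMap.map_inf]
  have G1 : ∀ s a, G s a 1 = i f (f a) := by
    intro s a
    simp only [G]
    split_ifs with h
    · have hs : 1 - 3 * (s : ℝ) / 4 = 1 := le_antisymm (by linarith [s.2.1]) h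
      rw [hs, div_one, q_one]
    · rw [cl_of_le ((min_le_right _ _).trans (by norm_num)), H0]
  let K : I → OnePoint (MC f) → OnePoint (MC f) := fun s => lift f (G s) (i f)
  have Kq : ∀ s a t, t ∈ Icc (0 : ℝ) 1 → K s (q f a t) = G s a t := fun s a t ht =>
    lift_q f (G s) (i f) (Ginf s) (G0 s) (G1 s) a ht
  have Ki : ∀ s y, K s (i f y) = i f y := fun s y => lift_i f _ _ y
  refine PMap.Homotopic.of (fun p => K p.1 p.2) ?_ ?_ ?_ ?_
  · refine continuous_of f ?_ ?_
    · have : (fun p : I × (OnePoint U × I) => K p.1 (q f p.2.1 p.2.2)) =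
          fun p => G p.1 p.2.1 p.2.2 := funext fun p => Kq p.1 p.2.1 p.2.2 p.2.2.2
      simp only
      rw [this]; exact hG
    · have : (fun p : I × OnePoint V => K p.1 (i f p.2)) =
          fun p => i f p.2 := funext fun p => Ki p.1 p.2
      simp only
      rw [this]
      exact (i f).cont.comp continuous_snd
  · intro z
    change K 0 (z : OnePoint (MC f)) = (z : OnePoint (MC f))
    refine ext_q (g := K 0) (h := fun z => z) ?_ ?_ z
    · intro a t ht
      rw [Kq 0 a t ht]
      simp only [G, Set.Icc.coe_zero, mul_zero, zero_div, sub_zero, div_one]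
      rw [if_pos ht.2]
    · intro y
      rw [Ki]
  · intro z
    change K 1 (z : OnePoint (MC f)) = fillH f' f H' hH' H0' H1' Hi' (fillH f f' H hH H0 H1 Hi z)
    refine ext_q (g := K 1)
      (h := fun z => fillH f' f H' hH' H0' H1' Hi' (fillH f f' H hH H0 H1 Hi z)) ?_ ?_ z
    · intro a t ht
      rw [Kq 1 a t ht, fillH_q hH H0 H1 Hi a ht]
      simp only [G, Set.Icc.coe_one]
      have e1 : (1 : ℝ) - 3 * 1 / 4 = 1 / 4 := by norm_num
      rw [e1]
      split_ifs with h1 h2 h2
      · rw [fillH_q hH' H0' H1' Hi' a ⟨by linarith [ht.1], by linarith⟩, if_pos (by linarith)]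
        congr 1
        ring
      · exact absurd (h1.trans (by norm_num)) h2
      · rw [fillH_q hH' H0' H1' Hi' a ⟨by linarith [ht.1], by linarith⟩,
          if_neg (by push Not at h1 ⊢; linarith)]
        push Not at h1
        rw [min_eq_left (by linarith), hrev _ ⟨by linarith, by linarith⟩]
        congr 4
        ring
      · push Not at h2
        rw [fillH_i_apply, min_eq_right (by linarith)]
    · intro y
      rw [Ki, fillH_i_apply, fillH_i_apply]
  · intro s
    change K s ∞ = ∞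
    rw [← (i f).map_inf, Ki]

/-- **cones of homotopic maps are equivalent** (under the target, over the suspended source) -/
theorem exists_equiv {f f' : PMap U V} (h : f.Homotopic f') :
    ∃ (e : PMap (MC f) (MC f')) (e' : PMap (MC f') (MC f)),
      e.comp (i f) = i f' ∧ e'.comp (i f') = i f ∧
      ((p f').comp e).Homotopic (p f) ∧ ((p f).comp e').Homotopic (p f') ∧
      (e'.comp e).Homotopic (PMap.id _) ∧ (e.comp e').Homotopic (PMap.id _) := by
  obtain ⟨H, hH, H0, H1, Hi⟩ := h.exists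
  have hH' : Continuous (fun p : I × OnePoint U => H (σ p.1, p.2)) := hH.comp (by fun_prop)
  have H0' : ∀ x, H (σ 0, x) = f' x := fun x => by rw [unitInterval.symm_zero]; exact H1 x
  have H1' : ∀ x, H (σ 1, x) = f x := fun x => by rw [unitInterval.symm_one]; exact H0 x
  have Hi' : ∀ t, H (σ t, ∞) = ∞ := fun t => Hi _
  have hcl : ∀ t ∈ Icc (0 : ℝ) 1, σ (cl t) = cl (1 - t) := by
    intro t ht
    apply Subtype.ext
    rw [unitInterval.coe_symm_eq, cl_of_mem ht, cl_of_mem ⟨by linarith [ht.2], by linarith [ht.1]⟩]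
  refine ⟨fillH f f' H hH H0 H1 Hi, fillH f' f _ hH' H0' H1' Hi', fillH_i _ _ _ _, fillH_i _ _ _ _,
    p_fillH _ _ _ _, p_fillH _ _ _ _, ?_, ?_⟩
  · refine fillH_comp _ _ _ _ _ _ _ _ ?_
    intro t ht x
    change H (σ (cl t), x) = _
    rw [hcl t ht]
  · refine fillH_comp _ _ _ _ _ _ _ _ ?_
    intro t ht x
    change H (cl t, x) = H (σ (cl (1 - t)), x)
    rw [hcl _ ⟨by linarith [ht.2], by linarith [ht.1]⟩, sub_sub_cancel]

end fillH

end MC

end Crest.Agent.R090.Sp962
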