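import Crest.Agent.R090.Sm_202

/-!
# Row 90: two more rules for `St.smR` (owner helper669)

* `interchange_map`, `interchange_ofP` : `(a ∧ 1) ∘ (1 ∧ k) = (1 ∧ k) ∘ (a ∧ 1)` for an unstable `k`;
* `smR_smR` : associativity.
-/

set_option autoImplicit false
set_option linter.unusedSectionVars false

open Topology Filter Set

noncomputable section

namespace Crest.Agent.R090.SmX669

open OnePoint Crest.Agent.R090.Sp962 Crest.Agent.R090.Grp528 Crest.Agent.R090.St528
  Crest.Agent.R090.Sm202

universe u v w x

variable {X : Type u} {Y : Type v} {W : Type w} {W' : Type x}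
variable [TopologicalSpace X] [TopologicalSpace Y] [TopologicalSpace W] [TopologicalSpace W']
variable [T2Space X] [T2Space Y] [T2Space W] [T2Space W']
variable [LocallyCompactSpace X] [LocallyCompactSpace Y] [LocallyCompactSpace W]
variable [LocallyCompactSpace W']

theorem interchange_map (a : St X Y) (k : HC W W') :
    (a.smR W').comp (St.map ((h1 X).smash k)) = (St.map ((h1 Y).smash k)).comp (a.smR W) := by
  obtain ⟨n, -, a, rfl⟩ := a.exists_of_ge 0
  rw [smR_of, smR_of, St.map_eq_of _ n, St.map_eq_of _ n, St.of_comp_of, St.of_comp_of,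
    ← conj_swR (h1 X) (h1 (Fin n → ℂ)) k, ← conj_swR (h1 Y) (h1 (Fin n → ℂ)) k, levR, levR,
    conj_comp_conj, conj_comp_conj, h1_smash_h1, h1_smash_h1, HC.smash_comp, HC.smash_comp,
    comp_h1, h1_comp, comp_h1, h1_comp]

theorem interchange_ofP (a : St X Y) (k : PMap W W') :
    (a.smR W').comp (St.ofP ((PMap.id X).smash k)) =
      (St.ofP ((PMap.id Y).smash k)).comp (a.smR W) := interchange_map a (HC.mk k)

theorem smR_smR (a : St X Y) (W : Type w) [TopologicalSpace W] [T2Space W]
    [LocallyCompactSpace W] (W' : Type x) [TopologicalSpace W'] [T2Space W']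
    [LocallyCompactSpace W'] :
    (sh (Homeomorph.prodAssoc Y W W')).comp ((a.smR W).smR W') =
      (a.smR (W × W')).comp (sh (Homeomorph.prodAssoc X W W')) := by
  obtain ⟨n, -, a, rfl⟩ := a.exists_of_ge 0
  have key : levR (W × W') a = (levR W' (levR W a)).conj
      ((Homeomorph.prodAssoc X W W').prodCongr (Homeomorph.refl (Fin n → ℂ)))
      ((Homeomorph.prodAssoc Y W W').prodCongr (Homeomorph.refl (Fin n → ℂ))) := by
    rw [levR, levR, levR, conj_smash_h1, conj_conj, conj_conj, ← h1_smash_h1, ← conj_asC,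
      conj_conj]
    exact conj_ext (fun _ => rfl) (fun _ => rfl) _
  rw [smR_of, smR_of, smR_of, sh_eq, sh_eq, St.map_eq_of _ n, St.map_eq_of _ n, St.of_comp_of,
    St.of_comp_of, hh_smash_h1, hh_smash_h1, key, hh_comp_eq_conj]

end Crest.Agent.R090.SmX669
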