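import Crest.Agent.R090.HStX_285

/-!
# Row 90, leaf AS6 (helper285): cohomology of spheres from the unit and one real suspension class

`RSusp H` = unit class `one : h Unit` and real suspension class `sr : h ℝ` for `H : CohX F`;
`RSusp.sph n : h (Fin n → ℝ)`, one dimensional, of parity `(-1)^n`, `x ↦ x × sph n` bijective.
-/

set_option autoImplicit false
set_option linter.unusedSectionVars false
set_option linter.style.haveILetI false

namespace Crest.Agent.R090.HSt285

open Topology Set Crest.Agent.R090.Sp962 Crest.Agent.R090.Grp528 Crest.Agent.R090.St528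
open Crest.Agent.R090.CohT253 Crest.Agent.R090.Sm202

/-- unit and real suspension class -/
structure RSusp {F : Type} [Field F] (H : CohX F) where
  one : H.h Unit
  one_ne : one ≠ 0
  one_span : ∀ s : H.h Unit, ∃ c : F, s = c • one
  eps_one : H.eps Unit one = one
  cr_one : ∀ (U : Type) [TopologicalSpace U] [T2Space U] [LocallyCompactSpace U] (x : H.h U),
    H.cr U Unit x one = H.map (PMap.ofHomeo (Homeomorph.prodPUnit U)) x
  sr : H.h ℝ
  eps_sr : H.eps ℝ sr = -sr
  suspR : ∀ (U : Type) [TopologicalSpace U] [T2Space U] [LocallyCompactSpace U],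
    Function.Bijective (fun x : H.h U => H.cr U ℝ x sr)

namespace RSusp

variable {F : Type} [Field F] {H : CohX F} (R : RSusp H)

variable {X : Type} [TopologicalSpace X] [T2Space X] [LocallyCompactSpace X]

/-- `(Fin 0 → ℝ) ≃ Unit` -/
def f0 : (Fin 0 → ℝ) ≃ₜ Unit where
  toFun _ := ()
  invFun _ := fun i => i.elim0
  left_inv _ := Subsingleton.elim _ _
  right_inv _ := rfl
  continuous_toFun := continuous_const
  continuous_invFun := continuous_const

/-- `(Fin (n+1) → ℝ) ≃ (Fin n → ℝ) × ℝ` -/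
def fS (n : ℕ) : (Fin (n + 1) → ℝ) ≃ₜ (Fin n → ℝ) × ℝ where
  toFun v := (fun i => v i.castSucc, v (Fin.last n))
  invFun q := Fin.snoc (α := fun _ => ℝ) q.1 q.2
  left_inv v := Fin.snoc_init_self v
  right_inv q := by
    obtain ⟨v, c⟩ := q
    simp
  continuous_toFun := by fun_prop
  continuous_invFun := Continuous.finSnoc (A := fun _ => ℝ) continuous_fst continuous_snd

/-- the class of the sphere `ℝ^n` -/
noncomputable def sph (R : RSusp H) : ∀ n : ℕ, H.h (Fin n → ℝ)
  | 0 => H.hc (hh f0) R.one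
  | n + 1 => H.hc (hh (fS n)) (H.cr (Fin n → ℝ) ℝ (sph R n) R.sr)

theorem sph_succ (n : ℕ) :
    R.sph (n + 1) = H.hc (hh (fS n)) (H.cr (Fin n → ℝ) ℝ (R.sph n) R.sr) := rfl

theorem sph_ne (n : ℕ) : R.sph n ≠ 0 := by
  induction n with
  | zero =>
    intro h
    refine R.one_ne ((H.hc_hh_bijective f0).1 ?_)
    rw [map_zero]; exact h
  | succ n ih =>
    intro h
    have h1 : H.cr (Fin n → ℝ) ℝ (R.sph n) R.sr = 0 := by
      refine (H.hc_hh_bijective (fS n)).1 ?_
      rw [map_zero]; exact h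
    refine ih ((R.suspR (Fin n → ℝ)).1 ?_)
    change H.cr _ _ _ _ = H.cr _ _ _ _
    rw [h1, map_zero, LinearMap.zero_apply]

theorem sph_span (n : ℕ) (s : H.h (Fin n → ℝ)) : ∃ c : F, s = c • R.sph n := by
  induction n with
  | zero =>
    obtain ⟨t, rfl⟩ := (H.hc_hh_bijective f0).2 s
    obtain ⟨c, rfl⟩ := R.one_span t
    exact ⟨c, map_smul _ _ _⟩
  | succ n ih =>
    obtain ⟨t, rfl⟩ := (H.hc_hh_bijective (fS n)).2 s
    obtain ⟨r, rfl⟩ := (R.suspR (Fin n → ℝ)).2 t
    obtain ⟨c, rfl⟩ := ih r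
    refine ⟨c, ?_⟩
    change H.hc (hh (fS n)) (H.cr _ _ (c • R.sph n) R.sr) = _
    rw [map_smul, LinearMap.smul_apply, map_smul, sph_succ]

theorem eps_sph (n : ℕ) : H.eps _ (R.sph n) = (-1 : F) ^ n • R.sph n := by
  induction n with
  | zero => rw [pow_zero, one_smul, sph, H.eps_hc, R.eps_one]
  | succ n ih =>
    rw [sph_succ, H.eps_hc, H.eps_cr, ih, R.eps_sr, map_neg, map_smul, LinearMap.smul_apply,
      map_neg, map_smul, pow_succ, mul_neg_one, neg_smul]

theorem eps_sph_or (n : ℕ) : H.eps _ (R.sph n) = R.sph n ∨ H.eps _ (R.sph n) = -R.sph n := by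
  rw [eps_sph]
  rcases neg_one_pow_eq_or F n with h | h
  · left; rw [h, one_smul]
  · right; rw [h, neg_one_smul]

/-- `x ↦ x × sph n` is bijective -/
theorem cr_sph_bijective (n : ℕ) :
    Function.Bijective (fun x : H.h X => H.cr X (Fin n → ℝ) x (R.sph n)) := by
  induction n with
  | zero =>
    have e : (fun x : H.h X => H.cr X (Fin 0 → ℝ) x (R.sph 0)) =
        H.hc (hh (((Homeomorph.refl X).prodCongr f0).trans (Homeomorph.prodPUnit X))) := by
      funext x
      have h1' : H.cr X Unit x R.one = H.hc (hh (Homeomorph.prodPUnit X)) x := R.cr_one X x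
      change H.cr X (Fin 0 → ℝ) x (H.hc (hh f0) R.one) = _
      rw [← H.hc_h1_smash, h1', hh_trans, H.hc_comp, ← hh_smash, hh_refl]
    rw [e]
    exact H.hc_hh_bijective _
  | succ n ih =>
    have e : (fun x : H.h X => H.cr X (Fin (n + 1) → ℝ) x (R.sph (n + 1))) =
        (H.hc (hh (((Homeomorph.refl X).prodCongr (fS n)).trans
          (Homeomorph.prodAssoc X (Fin n → ℝ) ℝ).symm))) ∘
        (fun y : H.h (X × (Fin n → ℝ)) => H.cr _ ℝ y R.sr) ∘
        (fun x : H.h X => H.cr X (Fin n → ℝ) x (R.sph n)) := by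
      funext x
      simp only [Function.comp_apply]
      rw [sph_succ, ← H.hc_h1_smash, ← H.cr_assoc_symm, hh_trans, H.hc_comp, ← hh_smash, hh_refl]
    rw [e]
    exact (H.hc_hh_bijective _).comp ((R.suspR _).comp ih)

theorem cr_sph_inj (n : ℕ) (x : H.h X) (h : H.cr X (Fin n → ℝ) x (R.sph n) = 0) : x = 0 := by
  refine (R.cr_sph_bijective n).1 ?_
  change H.cr _ _ _ _ = H.cr _ _ _ _
  rw [h, map_zero, LinearMap.zero_apply]

include R in
theorem fin_sph (n : ℕ) : H.toCoh.Fin (Fin n → ℝ) := by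
  refine ⟨⟨{R.sph n}, ?_⟩⟩
  rw [eq_top_iff]
  rintro s -
  obtain ⟨c, rfl⟩ := R.sph_span n s
  exact Submodule.smul_mem _ _ (Submodule.subset_span (by simp))

/-- **AS6 for real spheres**: the duality datum computes `L(φ)` -/
theorem Lst_eq {M B : Type} [TopologicalSpace M] [TopologicalSpace B]
    [T2Space M] [LocallyCompactSpace M] [T2Space B] [LocallyCompactSpace B]
    (h2 : (2 : F) ≠ 0) (k : ℕ) (g : St (Fin k → ℝ) (B × M)) (u : St (M × B) (Fin k → ℝ))
    (tri : (u.smR M).comp ((sh (Homeomorph.prodAssoc M B M).symm).comp (g.smL M)) =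
      sh (Homeomorph.prodComm M (Fin k → ℝ)))
    (hK : ∃ (n : ℕ) (a : Fin n → H.h M) (b : Fin n → H.h B),
      H.hst u (R.sph k) = ∑ i, H.cr M B (a i) (b i)) (φ : St M M) (m : ℤ)
    (hm : u.comp ((φ.smR B).comp ((sh (Homeomorph.prodComm B M)).comp g)) =
      m • St.id (Fin k → ℝ)) :
    H.Lst φ = (m : F) :=
  H.Lst_eq_of_theta h2 (R.sph k) (R.sph_ne k) (R.sph_span k) (R.eps_sph_or k)
    (fun x hx => R.cr_sph_inj k x hx) g u tri hK φ m hm

/-- Künneth surjectivity supplies the class `u^* σ` -/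
theorem exists_sum {M B : Type} [TopologicalSpace M] [TopologicalSpace B]
    [T2Space M] [LocallyCompactSpace M] [T2Space B] [LocallyCompactSpace B]
    (hs : Function.Surjective (TensorProduct.lift (H.cr M B))) (z : H.h (M × B)) :
    ∃ (n : ℕ) (a : Fin n → H.h M) (b : Fin n → H.h B), z = ∑ i, H.cr M B (a i) (b i) := by
  obtain ⟨t, rfl⟩ := hs z
  induction t using TensorProduct.induction_on with
  | zero => exact ⟨0, fun i => i.elim0, fun i => i.elim0, by simp⟩
  | tmul x y => exact ⟨1, fun _ => x, fun _ => y, by simp⟩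
  | add s t hs' ht' =>
    obtain ⟨n, a, b, h⟩ := hs'
    obtain ⟨n', a', b', h'⟩ := ht'
    refine ⟨n + n', Fin.append a a', Fin.append b b', ?_⟩
    rw [map_add, h, h', Fin.sum_univ_add]
    simp

end RSusp

end Crest.Agent.R090.HSt285
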