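import Crest.Agent.R090.GSp_389
import Crest.Agent.R090.QU_389

/-!
# Row 90, leaf A-POW (4): the free spheres `Sph q m w` and the induction principle (helper389)
-/

set_option autoImplicit false
set_option linter.unusedSectionVars false

open Topology Filter Set

namespace Crest.Agent.R090.Sph389

open OnePoint Crest.Agent.R090.Sp962 Crest.Agent.R090.Orb389 Crest.Agent.R090.GSp389
open Crest.Agent.R090.QU389 (Cq)

/-! ## the standard character -/

section chi

variable {q : ℕ} [NeZero q]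

/-- `χ_a(g) = e^{2 π i a g / q}` -/
noncomputable def chi (a : ZMod q) (g : Cq q) : Circle := ZMod.toCircle (a * Multiplicative.toAdd g)

@[simp] theorem chi_one (a : ZMod q) : chi a 1 = 1 := by
  rw [chi, toAdd_one, mul_zero, AddChar.map_zero_eq_one]

theorem chi_mul (a : ZMod q) (g h : Cq q) : chi a (g * h) = chi a g * chi a h := by
  rw [chi, toAdd_mul, mul_add, AddChar.map_add_eq_mul]; rfl

theorem chi_inj [Fact q.Prime] {a : ZMod q} (ha : a ≠ 0) {g h : Cq q} (hgh : chi a g = chi a h) :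
    g = h := by
  have := ZMod.injective_toCircle hgh
  exact Multiplicative.toAdd.injective (mul_left_cancel₀ ha this)

theorem chi_eq_one [Fact q.Prime] {a : ZMod q} (ha : a ≠ 0) {g : Cq q} (h : chi a g = 1) :
    g = 1 := chi_inj ha (h.trans (chi_one a).symm)

theorem exists_chi [Fact q.Prime] {a : ZMod q} (ha : a ≠ 0) (b : ZMod q) :
    ∃ g : Cq q, chi a g = ZMod.toCircle b :=
  ⟨Multiplicative.ofAdd (b / a), by rw [chi, toAdd_ofAdd, mul_div_cancel₀ _ ha]⟩

/-- the arc parametrisation -/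
noncomputable def arc (q : ℕ) (t : ℝ) : Circle := Circle.exp (2 * Real.pi * (t / q))

theorem toCircle_mul_arc (a : ZMod q) (t : ℝ) :
    ZMod.toCircle a * arc q t = Circle.exp (2 * Real.pi * ((a.val + t) / q)) := by
  rw [ZMod.toCircle_eq_circleExp, arc, ← Circle.exp_add, ← mul_add, add_div]

theorem toCircle_mul_arc_inj {a b : ZMod q} {t s : ℝ} (ht : t ∈ Ico (0 : ℝ) 1)
    (hs : s ∈ Ico (0 : ℝ) 1) (h : ZMod.toCircle a * arc q t = ZMod.toCircle b * arc q s) :
    a = b ∧ t = s := by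
  rw [toCircle_mul_arc, toCircle_mul_arc, Circle.exp_eq_exp] at h
  obtain ⟨m, hm⟩ := h
  have hq : (0 : ℝ) < q := by exact_mod_cast Nat.pos_of_ne_zero (NeZero.ne q)
  have hpi := Real.pi_pos
  have h1 : (a.val + t : ℝ) = (b.val + s) + m * q := by
    field_simp at hm
    linarith
  have hav : (a.val : ℝ) + 1 ≤ q := by exact_mod_cast ZMod.val_lt a
  have hbv : (b.val : ℝ) + 1 ≤ q := by exact_mod_cast ZMod.val_lt b
  have ha0 : (0 : ℝ) ≤ a.val := Nat.cast_nonneg _
  have hb0 : (0 : ℝ) ≤ b.val := Nat.cast_nonneg _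
  obtain ⟨ht0, ht1⟩ := ht
  obtain ⟨hs0, hs1⟩ := hs
  have hm0 : m = 0 := by
    have l1 : (m : ℝ) * q < 1 * q := by linarith
    have l2 : (-1 : ℝ) * q < m * q := by linarith
    have k1 : (m : ℝ) < 1 := lt_of_mul_lt_mul_right l1 hq.le
    have k2 : (-1 : ℝ) < m := lt_of_mul_lt_mul_right l2 hq.le
    have k1' : m < 1 := by exact_mod_cast k1
    have k2' : -1 < m := by exact_mod_cast k2
    omega
  rw [hm0, Int.cast_zero, zero_mul, add_zero] at h1
  have hval : a.val = b.val := by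
    have l1 : (a.val : ℝ) < b.val + 1 := by linarith
    have l2 : (b.val : ℝ) < a.val + 1 := by linarith
    have l1' : a.val < b.val + 1 := by exact_mod_cast l1
    have l2' : b.val < a.val + 1 := by exact_mod_cast l2
    omega
  refine ⟨ZMod.val_injective q hval, ?_⟩
  rw [hval] at h1
  linarith

theorem exists_toCircle_mul_arc (z : Circle) :
    ∃ (a : ZMod q) (t : ℝ), t ∈ Ico (0 : ℝ) 1 ∧ ZMod.toCircle a * arc q t = z := by
  have hq : (0 : ℝ) < q := by exact_mod_cast Nat.pos_of_ne_zero (NeZero.ne q)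
  have hpi := Real.pi_pos
  set x : ℝ := Int.fract (Complex.arg z / (2 * Real.pi)) with hx
  have hx0 : 0 ≤ x := Int.fract_nonneg _
  have hx1 : x < 1 := Int.fract_lt_one _
  have hz : Circle.exp (2 * Real.pi * x) = z := by
    have h1 : Circle.exp (2 * Real.pi * x) = Circle.exp (Complex.arg z) := by
      rw [Circle.exp_eq_exp]
      refine ⟨-⌊Complex.arg z / (2 * Real.pi)⌋, ?_⟩
      rw [hx, Int.fract]
      push_cast
      field_simp
      ring
    rw [h1, Circle.exp_arg]
  have hqx : 0 ≤ (q : ℝ) * x := by positivity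
  refine ⟨(⌊(q : ℝ) * x⌋₊ : ZMod q), (q : ℝ) * x - ⌊(q : ℝ) * x⌋₊, ⟨?_, ?_⟩, ?_⟩
  · linarith [Nat.floor_le hqx]
  · linarith [Nat.lt_floor_add_one ((q : ℝ) * x)]
  · have hlt : ⌊(q : ℝ) * x⌋₊ < q := by
      rw [Nat.floor_lt hqx]
      nlinarith
    rw [toCircle_mul_arc, ZMod.val_natCast, Nat.mod_eq_of_lt hlt, ← hz]
    congr 1
    field_simp
    ring

theorem isOpenEmbedding_arc (hq : 1 ≤ q) : IsOpenEmbedding (fun t : Io => arc q (t : ℝ)) := by
  have hq' : (0 : ℝ) < q := by exact_mod_cast hq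
  have hpi := Real.pi_pos
  have hc : Continuous (fun t : ℝ => arc q t) := by
    unfold arc
    fun_prop
  refine .of_continuous_injective_isOpenMap (hc.comp continuous_subtype_val) ?_ ?_
  · intro s t h
    have h' : ZMod.toCircle (0 : ZMod q) * arc q s = ZMod.toCircle (0 : ZMod q) * arc q t :=
      congrArg _ h
    exact Subtype.ext (toCircle_mul_arc_inj ⟨s.2.1.le, s.2.2⟩ ⟨t.2.1.le, t.2.2⟩ h').2
  · have h1 : IsOpenMap (fun t : Io => (t : ℝ)) := isOpen_Ioo.isOpenMap_subtype_val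
    have h2 : IsOpenMap (fun t : ℝ => (2 * Real.pi / q) * t) :=
      (Homeomorph.mulLeft₀ (2 * Real.pi / q) (by positivity)).isOpenMap
    have h3 : IsOpenMap (Circle.exp : ℝ → Circle) := isLocalHomeomorph_circleExp.isOpenMap
    have e : (fun t : Io => arc q (t : ℝ)) =
        (Circle.exp : ℝ → Circle) ∘ (fun t : ℝ => (2 * Real.pi / q) * t) ∘ (fun t : Io => (t : ℝ)) := by
      funext t
      simp only [Function.comp, arc]
      congr 1
      ring
    rw [e]
    exact h3.comp (h2.comp h1)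

end chi

/-! ## `Tub = ℂ^m × S¹` -/

/-- `ℂ^m × S¹` with weights -/
def Tub (q m : ℕ) (_a : ZMod q) (_w : Fin m → ZMod q) : Type := (Fin m → ℂ) × Circle

namespace Tub

variable {q m : ℕ} {a : ZMod q} {w : Fin m → ZMod q}

/-- constructor -/
def mk (y : Fin m → ℂ) (z : Circle) : Tub q m a w := (y, z)

noncomputable instance : TopologicalSpace (Tub q m a w) := inferInstanceAs (TopologicalSpace ((Fin m → ℂ) × Circle))
instance : T2Space (Tub q m a w) := inferInstanceAs (T2Space ((Fin m → ℂ) × Circle))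
instance : LocallyCompactSpace (Tub q m a w) :=
  inferInstanceAs (LocallyCompactSpace ((Fin m → ℂ) × Circle))

variable [NeZero q]

noncomputable instance : SMul (Cq q) (Tub q m a w) :=
  ⟨fun g p => (fun i => (chi (w i) g : ℂ) * p.1 i, chi a g * p.2)⟩

theorem smul_fst (g : Cq q) (p : Tub q m a w) (i : Fin m) :
    (g • p).1 i = (chi (w i) g : ℂ) * p.1 i := rfl

theorem smul_snd (g : Cq q) (p : Tub q m a w) : (g • p).2 = chi a g * p.2 := rfl

noncomputable instance : MulAction (Cq q) (Tub q m a w) where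
  one_smul p := by
    refine Prod.ext (funext fun i => ?_) ?_
    · rw [smul_fst, chi_one, Circle.coe_one, one_mul]
    · rw [smul_snd, chi_one, one_mul]
  mul_smul g h p := by
    refine Prod.ext (funext fun i => ?_) ?_
    · rw [smul_fst, smul_fst, smul_fst, chi_mul, Circle.coe_mul, mul_assoc]
    · rw [smul_snd, smul_snd, smul_snd, chi_mul, mul_assoc]

instance : ContinuousConstSMul (Cq q) (Tub q m a w) where
  continuous_const_smul g := by
    change Continuous (fun p : (Fin m → ℂ) × Circle =>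
      ((fun i => (chi (w i) g : ℂ) * p.1 i, chi a g * p.2) : (Fin m → ℂ) × Circle))
    fun_prop

end Tub

/-- `Tub` as a free `G`-space -/
noncomputable abbrev tubG (q : ℕ) [Fact q.Prime] (m : ℕ) (a : ZMod q) (ha : a ≠ 0)
    (w : Fin m → ZMod q) : GSp (Cq q) where
  X := Tub q m a w
  free g x h := by
    have h1 : chi a g * x.2 = x.2 := congrArg Prod.snd h
    exact chi_eq_one ha (mul_eq_right.1 h1)

/-- the closed cell of `Tub` -/
noncomputable def tubPair (q : ℕ) [Fact q.Prime] (m : ℕ) (a : ZMod q) (ha : a ≠ 0)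
    (w : Fin m → ZMod q) :
    GPair (cellG (Cq q) (Fin m → ℂ)) (tubG q m a ha w) (cellG (Cq q) ((Fin m → ℂ) × Io)) where
  i := cellMap (T := tubG q m a ha w) (fun y => Tub.mk y 1)
  j := cellMap (T := tubG q m a ha w) (fun p : (Fin m → ℂ) × Io => Tub.mk p.1 (arc q p.2))
  ic := by
    refine isClosedEmbedding_cellMap (T := tubG q m a ha w) ?_ ?_
    · have h : Function.LeftInverse (Prod.fst : (Fin m → ℂ) × Circle → (Fin m → ℂ))
          (fun y => (y, 1)) := fun y => rfl
      exact h.isClosedEmbedding continuous_fst (continuous_id.prodMk continuous_const)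
    · intro g x y h
      have h1 : chi a g * 1 = 1 := congrArg Prod.snd h
      rw [mul_one] at h1
      exact chi_eq_one ha h1
  jo := by
    refine isOpenEmbedding_cellMap (T := tubG q m a ha w) ?_ ?_
    · exact IsOpenEmbedding.id.prodMap (isOpenEmbedding_arc (Nat.pos_of_ne_zero (NeZero.ne q)))
    · intro g x y h
      have h1 : chi a g * arc q x.2 = arc q y.2 := congrArg Prod.snd h
      have h2 : ZMod.toCircle (a * Multiplicative.toAdd g) * arc q x.2 =
          ZMod.toCircle (0 : ZMod q) * arc q y.2 := by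
        rw [AddChar.map_zero_eq_one, one_mul]; exact h1
      have h3 := (toCircle_mul_arc_inj ⟨x.2.2.1.le, x.2.2.2⟩ ⟨y.2.2.1.le, y.2.2.2⟩ h2).1
      have h4 : Multiplicative.toAdd g = 0 := (mul_eq_zero.1 h3).resolve_left ha
      exact Multiplicative.toAdd.injective h4
  ie g x := cellMap_smul _ g x
  je g x := cellMap_smul _ g x
  compl := by
    ext (p : Tub q m a w)
    rw [mem_compl_iff, range_cellMap, range_cellMap]
    constructor
    · rintro ⟨g, ⟨y, t⟩, rfl⟩ ⟨h, y', hy'⟩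
      have h1 : chi a h * 1 = chi a g * arc q t := congrArg Prod.snd hy'
      have h0 : arc q 0 = 1 := by
        rw [arc, zero_div, mul_zero, Circle.exp_zero]
      rw [← h0] at h1
      have h2 := (toCircle_mul_arc_inj ⟨le_rfl, one_pos⟩ ⟨t.2.1.le, t.2.2⟩ h1).2
      exact absurd h2 (ne_of_lt t.2.1)
    · intro hn
      obtain ⟨b, t, ht, hb⟩ := exists_toCircle_mul_arc (q := q) p.2
      obtain ⟨g, hg⟩ := exists_chi ha b
      have hmem : ∀ z : Circle, chi a g * z = p.2 →
          ∃ y : Fin m → ℂ, g • (Tub.mk y z : Tub q m a w) = p := by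
        intro z hz
        refine ⟨(g⁻¹ • p).1, ?_⟩
        have e : (Tub.mk (g⁻¹ • p).1 z : Tub q m a w) = g⁻¹ • p := by
          refine Prod.ext rfl ?_
          change z = (g⁻¹ • p).2
          rw [Tub.smul_snd, ← hz, ← mul_assoc, ← chi_mul, inv_mul_cancel, chi_one, one_mul]
        rw [e]
        exact smul_inv_smul g p
      rcases eq_or_lt_of_le ht.1 with h0 | h0
      · exfalso
        apply hn
        obtain ⟨y, hy⟩ := hmem 1 (by
          rw [hg, ← hb, ← h0, arc, zero_div, mul_zero, Circle.exp_zero])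
        exact ⟨g, y, hy⟩
      · obtain ⟨y, hy⟩ := hmem (arc q t) (by rw [hg, hb])
        exact ⟨g, (y, ⟨t, h0, ht.2⟩), hy⟩

/-! ## spheres -/

/-- the unit sphere of `ℂ^m` with weights `w` -/
def Sph (q m : ℕ) (_w : Fin m → ZMod q) : Type := {v : Fin m → ℂ // ∑ i, ‖v i‖ ^ 2 = 1}

namespace Sph

variable {q m : ℕ} {w : Fin m → ZMod q}

noncomputable instance : TopologicalSpace (Sph q m w) :=
  inferInstanceAs (TopologicalSpace {v : Fin m → ℂ // ∑ i, ‖v i‖ ^ 2 = 1})
instance : T2Space (Sph q m w) := inferInstanceAs (T2Space {v : Fin m → ℂ // ∑ i, ‖v i‖ ^ 2 = 1})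

theorem isCompact_aux (m : ℕ) : IsCompact {v : Fin m → ℂ | ∑ i, ‖v i‖ ^ 2 = 1} := by
  refine Metric.isCompact_of_isClosed_isBounded ?_ ?_
  · exact isClosed_eq (by fun_prop) continuous_const
  · refine (Metric.isBounded_closedBall (x := (0 : Fin m → ℂ)) (r := 1)).subset ?_
    intro v hv
    rw [mem_closedBall_zero_iff, pi_norm_le_iff_of_nonneg zero_le_one]
    intro i
    have h1 : ‖v i‖ ^ 2 ≤ ∑ i, ‖v i‖ ^ 2 :=
      Finset.single_le_sum (f := fun i => ‖v i‖ ^ 2) (fun _ _ => by positivity) (Finset.mem_univ i)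
    rw [show ∑ i, ‖v i‖ ^ 2 = 1 from hv] at h1
    nlinarith [norm_nonneg (v i)]

instance : CompactSpace (Sph q m w) := isCompact_iff_compactSpace.1 (isCompact_aux m)

@[fun_prop] theorem continuous_val : Continuous (fun v : Sph q m w => v.1) :=
  continuous_subtype_val

theorem isEmbedding_val : IsEmbedding (fun v : Sph q m w => v.1) := IsEmbedding.subtypeVal

theorem continuous_coord (i : Fin m) : Continuous (fun v : Sph q m w => v.1 i) :=
  (continuous_apply i).comp continuous_val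

variable [NeZero q]

noncomputable instance : SMul (Cq q) (Sph q m w) :=
  ⟨fun g v => ⟨fun i => (chi (w i) g : ℂ) * v.1 i, by
    have : ∀ i, ‖(chi (w i) g : ℂ) * v.1 i‖ = ‖v.1 i‖ := fun i => by
      rw [norm_mul, Circle.norm_coe, one_mul]
    simp only [this]
    exact v.2⟩⟩

theorem smul_val (g : Cq q) (v : Sph q m w) (i : Fin m) :
    (g • v).1 i = (chi (w i) g : ℂ) * v.1 i := rfl

noncomputable instance : MulAction (Cq q) (Sph q m w) where
  one_smul v := by
    refine Subtype.ext (funext fun i => ?_)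
    rw [smul_val, chi_one, Circle.coe_one, one_mul]
  mul_smul g h v := by
    refine Subtype.ext (funext fun i => ?_)
    rw [smul_val, smul_val, smul_val, chi_mul, Circle.coe_mul, mul_assoc]

instance : ContinuousConstSMul (Cq q) (Sph q m w) where
  continuous_const_smul g := by
    rw [isEmbedding_val.continuous_iff]
    refine continuous_pi fun i => ?_
    change Continuous (fun v : Sph q m w => (chi (w i) g : ℂ) * v.1 i)
    exact continuous_const.mul (continuous_coord i)

end Sph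

/-- the sphere as a free `G`-space -/
noncomputable abbrev sphG (q : ℕ) [Fact q.Prime] (m : ℕ) (w : Fin m → ZMod q)
    (hw : ∀ i, w i ≠ 0) : GSp (Cq q) where
  X := Sph q m w
  free g x h := by
    have h0 : ∃ i, x.1 i ≠ 0 := by
      by_contra hn
      push Not at hn
      have := x.2
      simp [hn] at this
    obtain ⟨i, hi⟩ := h0
    have h1 : (chi (w i) g : ℂ) * x.1 i = x.1 i := congrArg (fun v : Sph q m w => v.1 i) h
    have h2 : (chi (w i) g : ℂ) = 1 := by
      have h3 : (chi (w i) g : ℂ) * x.1 i = 1 * x.1 i := by rw [h1, one_mul]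
      exact mul_right_cancel₀ hi h3
    exact chi_eq_one (hw i) (Circle.ext (by rw [h2, Circle.coe_one]))

section tub

variable {q m : ℕ} {w : Fin (m + 1) → ZMod q}

/-- the radius -/
noncomputable def rad (y : Fin m → ℂ) : ℝ := Real.sqrt (1 + ∑ i, ‖y i‖ ^ 2)

theorem rad_sq (y : Fin m → ℂ) : rad y ^ 2 = 1 + ∑ i, ‖y i‖ ^ 2 :=
  Real.sq_sqrt (by positivity)

theorem rad_pos (y : Fin m → ℂ) : 0 < rad y := Real.sqrt_pos.2 (by positivity)

@[fun_prop] theorem continuous_rad : Continuous (rad : (Fin m → ℂ) → ℝ) := by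
  unfold rad
  fun_prop

/-- open cell of the sphere -/
noncomputable def tubTo (w : Fin (m + 1) → ZMod q) (p : Tub q m (w 0) (fun i => w i.succ)) :
    Sph q (m + 1) w :=
  ⟨Fin.cons (((rad p.1)⁻¹ : ℝ) * (p.2 : ℂ)) (fun i => ((rad p.1)⁻¹ : ℝ) * p.1 i), by
    have hr := rad_pos p.1
    rw [Fin.sum_univ_succ]
    simp only [Fin.cons_zero, Fin.cons_succ, norm_mul, Complex.norm_real, norm_inv,
      Real.norm_of_nonneg hr.le, Circle.norm_coe, mul_one, mul_pow]
    rw [← Finset.mul_sum, ← mul_one_add, ← rad_sq, inv_pow, inv_mul_cancel₀ (by positivity)]⟩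

theorem tubTo_zero (p : Tub q m (w 0) (fun i => w i.succ)) :
    (tubTo w p).1 0 = ((rad p.1)⁻¹ : ℝ) * (p.2 : ℂ) := rfl

theorem tubTo_succ (p : Tub q m (w 0) (fun i => w i.succ)) (i : Fin m) :
    (tubTo w p).1 i.succ = ((rad p.1)⁻¹ : ℝ) * p.1 i := rfl

theorem tubTo_ne (p : Tub q m (w 0) (fun i => w i.succ)) : (tubTo w p).1 0 ≠ 0 := by
  rw [tubTo_zero]
  have hr := rad_pos p.1
  refine mul_ne_zero ?_ (Circle.coe_ne_zero _)
  exact_mod_cast (inv_pos.2 hr).ne'

/-- inverse of `tubTo` -/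
noncomputable def tubInv (w : Fin (m + 1) → ZMod q) (v : {v : Sph q (m + 1) w // v.1 0 ≠ 0}) :
    Tub q m (w 0) (fun i => w i.succ) :=
  Tub.mk (fun i => ((‖v.1.1 0‖⁻¹ : ℝ) : ℂ) * v.1.1 i.succ)
    ⟨((‖v.1.1 0‖⁻¹ : ℝ) : ℂ) * v.1.1 0, by
      change _ ∈ Metric.sphere (0 : ℂ) 1
      rw [mem_sphere_zero_iff_norm, norm_mul, Complex.norm_real, norm_inv, norm_norm]
      exact inv_mul_cancel₀ (norm_ne_zero_iff.2 v.2)⟩

theorem rad_tubInv (v : {v : Sph q (m + 1) w // v.1 0 ≠ 0}) :
    rad (tubInv w v).1 = ‖v.1.1 0‖⁻¹ := by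
  have h0 : 0 < ‖v.1.1 0‖ := norm_pos_iff.2 v.2
  have h1 := v.1.2
  rw [Fin.sum_univ_succ] at h1
  have h2 : rad (tubInv w v).1 ^ 2 = (‖v.1.1 0‖⁻¹) ^ 2 := by
    rw [rad_sq]
    have : ∀ i, ‖(tubInv w v).1 i‖ ^ 2 = (‖v.1.1 0‖⁻¹) ^ 2 * ‖v.1.1 i.succ‖ ^ 2 := fun i => by
      change ‖((‖v.1.1 0‖⁻¹ : ℝ) : ℂ) * v.1.1 i.succ‖ ^ 2 = _
      rw [norm_mul, Complex.norm_real, norm_inv, norm_norm, mul_pow]
    simp only [this]
    rw [← Finset.mul_sum]
    have h3 : ∑ i : Fin m, ‖v.1.1 i.succ‖ ^ 2 = 1 - ‖v.1.1 0‖ ^ 2 := by linarith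
    rw [h3]
    field_simp
    ring
  exact (pow_left_inj₀ (rad_pos _).le (inv_nonneg.2 h0.le) two_ne_zero).1 h2

/-- the open cell -/
noncomputable def tubHomeo (w : Fin (m + 1) → ZMod q) :
    Tub q m (w 0) (fun i => w i.succ) ≃ₜ {v : Sph q (m + 1) w // v.1 0 ≠ 0} where
  toFun p := ⟨tubTo w p, tubTo_ne p⟩
  invFun := tubInv w
  left_inv p := by
    have hr := rad_pos p.1
    have h0 : ‖(tubTo w p).1 0‖⁻¹ = rad p.1 := by
      rw [tubTo_zero, norm_mul, Complex.norm_real, norm_inv, Real.norm_of_nonneg hr.le,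
        Circle.norm_coe, mul_one, inv_inv]
    have hc : ((rad p.1 : ℝ) : ℂ) * (((rad p.1)⁻¹ : ℝ) : ℂ) = 1 := by
      rw [← Complex.ofReal_mul, mul_inv_cancel₀ hr.ne', Complex.ofReal_one]
    refine Prod.ext (funext fun i => ?_) (Circle.ext ?_)
    · change ((‖(tubTo w p).1 0‖⁻¹ : ℝ) : ℂ) * (tubTo w p).1 i.succ = p.1 i
      rw [h0, tubTo_succ, ← mul_assoc, hc, one_mul]
    · change ((‖(tubTo w p).1 0‖⁻¹ : ℝ) : ℂ) * (tubTo w p).1 0 = p.2
      rw [h0, tubTo_zero, ← mul_assoc, hc, one_mul]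
  right_inv v := by
    have h0 : ‖v.1.1 0‖ ≠ 0 := norm_ne_zero_iff.2 v.2
    have hc : ((‖v.1.1 0‖ : ℝ) : ℂ) * ((‖v.1.1 0‖⁻¹ : ℝ) : ℂ) = 1 := by
      rw [← Complex.ofReal_mul, mul_inv_cancel₀ h0, Complex.ofReal_one]
    refine Subtype.ext (Subtype.ext (funext fun i => ?_))
    refine Fin.cases ?_ (fun i => ?_) i
    · change (((rad (tubInv w v).1)⁻¹ : ℝ) : ℂ) * (((‖v.1.1 0‖⁻¹ : ℝ) : ℂ) * v.1.1 0) = v.1.1 0
      rw [rad_tubInv, inv_inv, ← mul_assoc, hc, one_mul]
    · change (((rad (tubInv w v).1)⁻¹ : ℝ) : ℂ) * (((‖v.1.1 0‖⁻¹ : ℝ) : ℂ) * v.1.1 i.succ) = _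
      rw [rad_tubInv, inv_inv, ← mul_assoc, hc, one_mul]
  continuous_toFun := by
    refine Continuous.subtype_mk ?_ _
    rw [Sph.isEmbedding_val.continuous_iff]
    refine continuous_pi fun i => ?_
    have hr : Continuous (fun p : Tub q m (w 0) (fun i => w i.succ) =>
        (((rad p.1)⁻¹ : ℝ) : ℂ)) := by
      have h1 : Continuous (fun p : (Fin m → ℂ) × Circle => rad p.1) := by fun_prop
      exact Complex.continuous_ofReal.comp (h1.inv₀ fun p => (rad_pos _).ne')
    refine Fin.cases ?_ (fun i => ?_) i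
    · exact hr.mul (continuous_subtype_val.comp continuous_snd)
    · exact hr.mul ((continuous_apply i).comp continuous_fst)
  continuous_invFun := by
    have h0 : Continuous (fun v : {v : Sph q (m + 1) w // v.1 0 ≠ 0} =>
        ((‖v.1.1 0‖⁻¹ : ℝ) : ℂ)) := by
      have h1 : Continuous (fun v : {v : Sph q (m + 1) w // v.1 0 ≠ 0} => ‖v.1.1 0‖) :=
        ((Sph.continuous_coord 0).comp continuous_subtype_val).norm
      exact Complex.continuous_ofReal.comp (h1.inv₀ fun v => norm_ne_zero_iff.2 v.2)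
    refine Continuous.prodMk (continuous_pi fun i => ?_) (Continuous.subtype_mk ?_ _)
    · exact h0.mul ((Sph.continuous_coord i.succ).comp continuous_subtype_val)
    · exact h0.mul ((Sph.continuous_coord 0).comp continuous_subtype_val)

theorem isOpenEmbedding_tubTo : IsOpenEmbedding (tubTo w) := by
  have h1 : IsOpen {v : Sph q (m + 1) w | v.1 0 ≠ 0} :=
    isOpen_ne_fun (Sph.continuous_coord 0) continuous_const
  exact h1.isOpenEmbedding_subtypeVal.comp (tubHomeo w).isOpenEmbedding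

theorem range_tubTo : range (tubTo w) = {v | v.1 0 ≠ 0} := by
  ext v
  constructor
  · rintro ⟨p, rfl⟩
    exact tubTo_ne p
  · intro hv
    exact ⟨(tubHomeo w).symm ⟨v, hv⟩, congrArg Subtype.val ((tubHomeo w).apply_symm_apply ⟨v, hv⟩)⟩

/-- the equatorial sphere -/
def eq0 (w : Fin (m + 1) → ZMod q) (v : Sph q m (fun i => w i.succ)) : Sph q (m + 1) w :=
  ⟨Fin.cons 0 v.1, by
    rw [Fin.sum_univ_succ]
    simp only [Fin.cons_zero, Fin.cons_succ, norm_zero, ne_eq, OfNat.ofNat_ne_zero,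
      not_false_eq_true, zero_pow, zero_add]
    exact v.2⟩

theorem eq0_zero (v : Sph q m (fun i => w i.succ)) : (eq0 w v).1 0 = 0 := rfl
theorem eq0_succ (v : Sph q m (fun i => w i.succ)) (i : Fin m) : (eq0 w v).1 i.succ = v.1 i := rfl

theorem isClosedEmbedding_eq0 : IsClosedEmbedding (eq0 w) := by
  refine Continuous.isClosedEmbedding ?_ ?_
  · rw [Sph.isEmbedding_val.continuous_iff]
    refine continuous_pi fun i => ?_
    refine Fin.cases ?_ (fun i => ?_) i
    · exact continuous_const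
    · exact (continuous_apply i).comp Sph.continuous_val
  · intro v v' h
    refine Subtype.ext (funext fun i => ?_)
    exact congrArg (fun u : Sph q (m + 1) w => u.1 i.succ) h

theorem range_eq0 : range (eq0 w) = {v | v.1 0 = 0} := by
  ext v
  constructor
  · rintro ⟨u, rfl⟩
    exact eq0_zero u
  · intro hv
    have hv' : v.1 0 = 0 := hv
    refine ⟨⟨fun i => v.1 i.succ, ?_⟩, ?_⟩
    · have := v.2
      rw [Fin.sum_univ_succ, hv'] at this
      simpa using this
    · refine Subtype.ext (funext fun i => ?_)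
      refine Fin.cases ?_ (fun i => rfl) i
      exact hv'.symm

end tub

/-- the sphere of `ℂ^(m+1)`: closed equator, open complement `Tub` -/
noncomputable def sphPair (q : ℕ) [Fact q.Prime] (m : ℕ) (w : Fin (m + 1) → ZMod q)
    (hw : ∀ i, w i ≠ 0) :
    GPair (sphG q m (fun i => w i.succ) (fun i => hw i.succ)) (sphG q (m + 1) w hw)
      (tubG q m (w 0) (hw 0) (fun i => w i.succ)) where
  i := eq0 w
  j := tubTo w
  ic := isClosedEmbedding_eq0
  jo := isOpenEmbedding_tubTo
  ie g v := by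
    refine Subtype.ext (funext fun i => ?_)
    refine Fin.cases ?_ (fun i => ?_) i
    · rw [Sph.smul_val, eq0_zero, eq0_zero, mul_zero]
    · rfl
  je g p := by
    have hr : rad (g • p : Tub q m (w 0) (fun i => w i.succ)).1 = rad p.1 := by
      unfold rad
      congr 2
      refine Finset.sum_congr rfl fun i _ => ?_
      rw [Tub.smul_fst, norm_mul, Circle.norm_coe, one_mul]
    refine Subtype.ext (funext fun i => ?_)
    refine Fin.cases ?_ (fun i => ?_) i
    · rw [Sph.smul_val, tubTo_zero, tubTo_zero, hr, Tub.smul_snd, Circle.coe_mul]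
      ring
    · rw [Sph.smul_val, tubTo_succ, tubTo_succ, hr, Tub.smul_fst]
      ring
  compl := by
    rw [range_tubTo, range_eq0]
    rfl

/-- **INDUCTION PRINCIPLE** over the free strata of the sphere -/
theorem sph_induction (q : ℕ) [Fact q.Prime] (P : GSp (Cq q) → Prop)
    (hempty : ∀ T : GSp (Cq q), IsEmpty T.X → P T)
    (hcell : ∀ m : ℕ, P (cellG (Cq q) (Fin m → ℂ)))
    (hcell' : ∀ m : ℕ, P (cellG (Cq q) ((Fin m → ℂ) × Io)))
    (hpair : ∀ {F T O : GSp (Cq q)}, GPair F T O → P F → P O → P T)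
    (m : ℕ) (w : Fin m → ZMod q) (hw : ∀ i, w i ≠ 0) : P (sphG q m w hw) := by
  induction m with
  | zero =>
    refine hempty _ ⟨fun v => ?_⟩
    have := v.2
    simp at this
  | succ m ih =>
    exact hpair (sphPair q m w hw) (ih _ _)
      (hpair (tubPair q m (w 0) (hw 0) (fun i => w i.succ)) (hcell m) (hcell' m))

end Crest.Agent.R090.Sph389
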