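import Crest.Agent.R090.SpineDefs_796
import Crest.Agent.R090.GlueB_264

/-!
# Row 90, the spine: S0119 from the literal block statements
-/

set_option autoImplicit false
set_option linter.unusedSectionVars false

open Topology Filter Set

namespace Crest.Agent.R090.Spine

open OnePoint Crest.Agent.R090.Sp962 Crest.Agent.R090.St528 Crest.Agent.R090.Dens255
open Crest.Agent.R090.Young152

/-- the number of cells of the staircase -/
theorem two_mul_yr (D c : ℕ) : 2 * yr D c = c * (D * (D + 1)) := by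
  have h1 : yr D c = (∑ i : Fin D, (D - (i : ℕ))) * c := by
    rw [yr, Fintype.card_prod, Fintype.card_fin]
    congr 1
    rw [Fintype.card_subtype]
    have h2 : (Finset.univ.filter fun p : Fin D × Fin D => (p.1 : ℕ) + (p.2 : ℕ) < D).card =
        ∑ i : Fin D, (Finset.univ.filter fun j : Fin D => (i : ℕ) + (j : ℕ) < D).card := by
      rw [Finset.card_filter, Fintype.sum_prod_type]
      simp only [Finset.card_filter]
    rw [h2]
    refine Finset.sum_congr rfl fun i _ => ?_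
    have h3 : (Finset.univ.filter fun j : Fin D => (i : ℕ) + (j : ℕ) < D).card =
        ((Finset.range (D - i))).card := by
      refine Finset.card_bij (fun j _ => (j : ℕ)) ?_ ?_ ?_
      · intro j hj
        simp only [Finset.mem_filter, Finset.mem_univ, true_and] at hj
        simp only [Finset.mem_range]; omega
      · intro j _ j' _ h
        exact Fin.ext h
      · intro b hb
        simp only [Finset.mem_range] at hb
        exact ⟨⟨b, by omega⟩, by simp only [Finset.mem_filter, Finset.mem_univ, true_and]; omega, rfl⟩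
    rw [h3, Finset.card_range]
  have h4 : 2 * (∑ i : Fin D, (D - (i : ℕ))) = D * (D + 1) := by
    rw [Fin.sum_univ_eq_sum_range (fun i => D - i) D]
    have h5 := Finset.sum_range_reflect (fun i => i + 1) D
    have h6 : ∑ i ∈ Finset.range D, (D - i) = ∑ i ∈ Finset.range D, (i + 1) := by
      rw [← h5]
      refine Finset.sum_congr rfl fun i hi => ?_
      have := Finset.mem_range.1 hi
      omega
    rw [h6]
    clear h6 h5 h1
    induction D with
    | zero => simp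
    | succ D ih => rw [Finset.sum_range_succ, mul_add, ih]; ring
  rw [h1]
  calc 2 * ((∑ i : Fin D, (D - (i : ℕ))) * c) = (2 * (∑ i : Fin D, (D - (i : ℕ)))) * c := by ring
    _ = _ := by rw [h4]; ring

theorem ratio {D u c : ℕ} (hc : 1 ≤ c) (hD : 0 < D) (h : 8 * u ≤ D) :
    4 * (D * u + 1 - 1) < yr D c := by
  have h1 := two_mul_yr D c
  have h2 : 8 * (D * u) ≤ D * D := by
    calc 8 * (D * u) = D * (8 * u) := by ring
      _ ≤ D * D := Nat.mul_le_mul_left _ h
  have h3 : 1 * (D * (D + 1)) ≤ c * (D * (D + 1)) := Nat.mul_le_mul_right _ hc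
  have h4 : D * (D + 1) = D * D + D := by ring
  have h5 : D * u + 1 - 1 = D * u := by omega
  rw [h5]
  omega

/-- **for one map**: the blocks F1, E-IN-I, A, KILL give `PrimeKill` for every prime -/
theorem primeKill_of_blocks (hF1 : F1Stmt) (hE : EInIStmt) (hA : AStmt)
    (hK : KillStmt) {α : Type} [Fintype α] [DecidableEq α] {Z : Type} [TopologicalSpace Z]
    [T2Space Z] [LocallyCompactSpace Z] (f : PMap Z (α → ℂ)) {D u : ℕ} (hD : 0 < D)
    (hu : 8 * u ≤ D) (h0 : F0Out f D u) (q : ℕ) (hq : q.Prime) : PrimeKill q f := by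
  obtain ⟨c, rfl⟩ : ∃ c, q = c + 1 := ⟨q - 1, by have := hq.one_lt; omega⟩
  have hc : 1 ≤ c := by have := hq.one_lt; omega
  have h1 := hF1 α Z f c D u (D * u + 1) hc hD h0 (Nat.lt_succ_self _)
  obtain ⟨V, iV1, iV2, iV3, hV, hI⟩ := hE Z (α → ℂ) f c D (D * u + 1) hq hD h1
  have h2 := @hA c D hq hD V iV1 iV2 iV3 hV (Fin (yr D c) → Cyl349.Cyl f) _ _ _
    (PP (range (Cyl349.Cyl.iU f)) (Fin (yr D c)) (D * u + 1)) _ hI
  exact hK α Z f (c + 1) (yr D c) (D * u + 1) (by omega) (ratio hc hD hu) h2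

/-- **`SI` from the blocks** -/
theorem si_of_blocks (hF0 : F0Stmt) (hF1 : F1Stmt) (hE : EInIStmt) (hA : AStmt)
    (hK : KillStmt) (hG : GlueStmt) (p n : ℕ) (hp : 1 ≤ p) (hn : 1 ≤ n) (a : ℝ)
    (Y : Type) [TopologicalSpace Y] [CompactSpace Y] [TopologicalSpace.MetrizableSpace Y]
    (f : Y → Fin n → Fin (2 * p + 1) → ℝ) (K : ℕ)
    (Φ : Y × (Fin n → Fin (2 * p) → Circle) → Matrix (Fin K) ((Fin 2 × Fin p) × Fin n) ℂ)
    (h : Univ639.Hyp p n a f K Φ) : T5.SI p n a f := by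
  obtain ⟨Z, Φ₀, hZ, hTZ, hΦ₀, -, hmono⟩ := Nbhd264.exists_nbhd h.cont h.contΦ h.mono
  have : Fact (IsClosed Z) := ⟨hZ⟩
  have : CompactSpace Z := isCompact_iff_compactSpace.1 hZ.isCompact
  obtain ⟨D, u, hD, hu, h0⟩ := hF0 p n hp hn Y Z K Φ₀ h.lt hΦ₀ hmono
  exact hG p n hp hn a Y f h.cont Z hTZ
    fun q hq => primeKill_of_blocks hF1 hE hA hK (Glue264.fC Z) hD hu h0 q hq

/-- **S0119 from the blocks** -/
theorem result_of_blocks (hF0 : F0Stmt) (hF1 : F1Stmt) (hE : EInIStmt)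
    (hA : AStmt) (hK : KillStmt) (hG : GlueStmt)
    (p n : ℕ) (hp : 1 ≤ p) (hn : 1 ≤ n) (a : ℝ) (ha : 0 < a) (ha' : a < 1 / 16)
    (Y : Type*) [TopologicalSpace Y] [CompactSpace Y] [TopologicalSpace.MetrizableSpace Y]
    (f : Y → Fin n → Fin (2 * p + 1) → ℝ) (hf : Continuous f)
    (hfC : ∀ y, f y ∈ Crest.OpAlg.cube (2 * p + 1) n)
    (K : ℕ) (hK' : K < 2 * p * n)
    (Φ : Y × (Fin n → Fin (2 * p) → Circle) → Matrix (Fin K) ((Fin 2 × Fin p) × Fin n) ℂ)
    (hΦ : ContinuousOn Φ (Crest.OpAlg.torusLocus p n (a * n) f))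
    (hmono : ∀ q ∈ Crest.OpAlg.torusLocus p n (a * n) f, ∀ v : (Fin 2 × Fin p) × Fin n → ℂ,
      (Crest.OpAlg.totalProj p n q.2).mulVec v = v → (Φ q).mulVec v = 0 → v = 0)
    (U : ℕ) (_hU : 1 ≤ U) :
    ∃ u : ℕ, U ≤ u ∧ ∃ G : (Fin u → Y) → (Fin u × Fin n → Fin (2 * p + 1) → ℝ),
      Continuous G ∧ (∀ y s k, |G y s k| ≤ 1) ∧
      (∀ y, a / 8 * (u * n : ℝ) ≤
        (({s | Crest.OpAlg.IsBoundarySlot (G y s)} : Set (Fin u × Fin n)).ncard : ℝ)) ∧
      ∀ y (b : Fin u) (j : Fin n), Crest.OpAlg.IsBoundarySlot (f (y b) j) →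
        G y (b, j) = f (y b) j :=
  Univ639.result_of_SI_small (fun p n hp hn a _ _ Y _ _ _ f K Φ h =>
      si_of_blocks hF0 hF1 hE hA hK hG p n hp hn a Y f K Φ h)
    p n hp hn a ha ha' Y f hf hfC K hK' Φ hΦ hmono U

end Crest.Agent.R090.Spine
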