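import Crest.Agent.R090.T5Defs_758

/-!
# Row 90, T5-5: from a self map of `E⁺` homotopic to the identity to a vector field on `E × ℝ`
(owner helper758)
-/

set_option autoImplicit false

open Topology Filter Set

namespace Crest.Agent.R090.T5

open OnePoint Crest.Agent.R090.Sp962

section field

variable {E : Type*} [NormedAddCommGroup E] [NormedSpace ℝ E]

/-- an embedding of `E⁺` in `(E × ℝ) \ 0` with `∞ ↦ (0,-1)`, `0 ↦ (0,1)` -/
noncomputable def sig : OnePoint E → E × ℝ := fun x =>
  x.elim (0, -1) fun v => ((1 / (1 + ‖v‖ ^ 2)) • v, (1 - ‖v‖ ^ 2) / (1 + ‖v‖ ^ 2))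

@[simp] theorem sig_inf : sig (∞ : OnePoint E) = (0, -1) := rfl

@[simp] theorem sig_coe (v : E) : sig (v : OnePoint E) =
    ((1 / (1 + ‖v‖ ^ 2)) • v, (1 - ‖v‖ ^ 2) / (1 + ‖v‖ ^ 2)) := rfl

theorem one_add_pos (v : E) : 0 < 1 + ‖v‖ ^ 2 := by positivity

theorem sig_ne_zero (x : OnePoint E) : sig x ≠ 0 := by
  induction x using OnePoint.rec with
  | infty =>
    intro h
    have := congrArg Prod.snd h
    simp at this
  | coe v =>
    intro h
    have h1 := congrArg Prod.fst h
    have h2 := congrArg Prod.snd h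
    simp only [sig_coe, Prod.fst_zero, Prod.snd_zero, smul_eq_zero] at h1 h2
    have hp := one_add_pos v
    rcases h1 with h1 | h1
    · exact absurd h1 (by positivity)
    · subst h1
      simp at h2

theorem sig_continuous [ProperSpace E] : Continuous (sig : OnePoint E → E × ℝ) := by
  rw [OnePoint.continuous_iff]
  constructor
  · rw [coclosedCompact_eq_cocompact]
    change Tendsto (fun v : E => ((1 / (1 + ‖v‖ ^ 2)) • v, (1 - ‖v‖ ^ 2) / (1 + ‖v‖ ^ 2)))
      (cocompact E) (𝓝 ((0 : E), (-1 : ℝ)))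
    have hn : Tendsto (fun v : E => ‖v‖) (cocompact E) atTop := tendsto_norm_cocompact_atTop
    refine Tendsto.prodMk_nhds ?_ ?_
    · rw [tendsto_zero_iff_norm_tendsto_zero]
      have : (fun v : E => ‖(1 / (1 + ‖v‖ ^ 2)) • v‖) = (fun r : ℝ => r / (1 + r ^ 2)) ∘
          (fun v : E => ‖v‖) := by
        funext v
        have := one_add_pos v
        simp only [norm_smul, Function.comp_apply, norm_div, norm_one, Real.norm_eq_abs,
          abs_of_pos this]
        ring
      rw [this]
      refine Tendsto.comp ?_ hn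
      refine squeeze_zero' (g := fun r : ℝ => 1 / r) ?_ ?_ ?_
      · filter_upwards [eventually_ge_atTop (0 : ℝ)] with r hr
        positivity
      · filter_upwards [eventually_gt_atTop (0 : ℝ)] with r hr
        rw [div_le_div_iff₀ (by positivity) hr]
        nlinarith
      · simpa using tendsto_inv_atTop_zero (𝕜 := ℝ)
    · have : (fun v : E => (1 - ‖v‖ ^ 2) / (1 + ‖v‖ ^ 2)) = (fun r : ℝ => 2 / (1 + r ^ 2) - 1) ∘
          (fun v : E => ‖v‖) := by
        funext v
        have := one_add_pos v
        simp only [Function.comp_apply]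
        field_simp
        ring
      rw [this]
      refine Tendsto.comp ?_ hn
      have h2 : Tendsto (fun r : ℝ => 2 / (1 + r ^ 2)) atTop (𝓝 0) := by
        refine Tendsto.div_atTop tendsto_const_nhds ?_
        exact tendsto_atTop_add_const_left _ _ (tendsto_pow_atTop (by norm_num))
      simpa using h2.sub_const 1
  · change Continuous (fun v : E => ((1 / (1 + ‖v‖ ^ 2)) • v, (1 - ‖v‖ ^ 2) / (1 + ‖v‖ ^ 2)))
    have h0 : Continuous (fun v : E => 1 + ‖v‖ ^ 2) :=
      continuous_const.add (continuous_norm.pow 2)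
    refine Continuous.prodMk ?_ ?_
    · exact (continuous_const.div h0 fun v => (one_add_pos v).ne').smul continuous_id
    · exact (continuous_const.sub (continuous_norm.pow 2)).div h0 fun v => (one_add_pos v).ne'

variable {P : Type*}

/-- clamp to `[0,1]` -/
noncomputable def cl (r : ℝ) : ℝ := max 0 (min 1 r)

theorem cl_continuous : Continuous cl := continuous_const.max (continuous_const.min continuous_id)

theorem cl_mem (r : ℝ) : cl r ∈ unitInterval :=
  ⟨le_max_left _ _, max_le zero_le_one (min_le_left _ _)⟩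

theorem cl_of_nonpos {r : ℝ} (h : r ≤ 0) : cl r = 0 := by
  rw [cl, max_eq_left]; exact (min_le_right _ _).trans h

theorem cl_of_ge_one {r : ℝ} (h : 1 ≤ r) : cl r = 1 := by
  rw [cl, min_eq_left h]; exact max_eq_right zero_le_one

theorem cl_pos {r : ℝ} (h : 0 < r) : 0 < cl r := lt_max_of_lt_right (lt_min one_pos h)

/-- radial variable -/
noncomputable def qv (R0 : ℝ) (v : E × ℝ) : ℝ := max (‖v.1‖ / R0) |v.2|

/-- clamp to `[-1,1]` -/
noncomputable def tb (t : ℝ) : ℝ := max (-1) (min 1 t)

theorem tb_of_abs {t : ℝ} (h : |t| ≤ 1) : tb t = t := by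
  rw [abs_le] at h
  rw [tb, min_eq_right h.2, max_eq_right h.1]

theorem tb_of_le {t : ℝ} (h : t ≤ -1) : tb t = -1 := by
  rw [tb, max_eq_left]; exact (min_le_right _ _).trans h

theorem tb_of_ge {t : ℝ} (h : 1 ≤ t) : tb t = 1 := by
  rw [tb, min_eq_left h]; exact max_eq_right (by norm_num)

/-- the vector field -/
noncomputable def fld (H : P × unitInterval × OnePoint E → OnePoint E) (R0 : ℝ) :
    P × (E × ℝ) → E × ℝ := fun z =>
  (1 - cl (qv R0 z.2 - 2)) •
      (((1 + tb z.2.2) / 2) •
        sig (H (z.1, ⟨cl (qv R0 z.2 - 1), cl_mem _⟩, (z.2.1 : OnePoint E))) -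
        ((1 - tb z.2.2) / 2) • ((0 : E), (1 : ℝ))) +
    cl (qv R0 z.2 - 2) • z.2

theorem fld_continuous [TopologicalSpace P] [ProperSpace E]
    {H : P × unitInterval × OnePoint E → OnePoint E} (hH : Continuous H) (R0 : ℝ) :
    Continuous (fld H R0) := by
  have hq : Continuous (fun z : P × (E × ℝ) => qv R0 z.2) := by
    unfold qv
    exact ((continuous_norm.comp (continuous_fst.comp continuous_snd)).div_const _).max
      (continuous_abs.comp (continuous_snd.comp continuous_snd))
  have ht : Continuous (fun z : P × (E × ℝ) => tb z.2.2) := by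
    unfold tb
    exact continuous_const.max (continuous_const.min (continuous_snd.comp continuous_snd))
  have h2 : Continuous (fun z : P × (E × ℝ) => cl (qv R0 z.2 - 2)) :=
    cl_continuous.comp (hq.sub continuous_const)
  have h1 : Continuous (fun z : P × (E × ℝ) =>
      (⟨cl (qv R0 z.2 - 1), cl_mem _⟩ : unitInterval)) :=
    Continuous.subtype_mk (cl_continuous.comp (hq.sub continuous_const)) _
  have hs : Continuous (fun z : P × (E × ℝ) =>
      sig (H (z.1, ⟨cl (qv R0 z.2 - 1), cl_mem _⟩, (z.2.1 : OnePoint E)))) :=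
    sig_continuous.comp (hH.comp (continuous_fst.prodMk (h1.prodMk
      (continuous_coe.comp (continuous_fst.comp continuous_snd)))))
  unfold fld
  refine ((continuous_const.sub h2).smul ((((continuous_const.add ht).div_const _).smul hs).sub
    (((continuous_const.sub ht).div_const _).smul continuous_const))).add
    (h2.smul continuous_snd)

theorem fld_eq_of_ge {H : P × unitInterval × OnePoint E → OnePoint E} {R0 : ℝ} (p : P)
    {v : E × ℝ} (hv : 3 ≤ qv R0 v) : fld H R0 (p, v) = v := by
  have h2 : cl (qv R0 v - 2) = 1 := cl_of_ge_one (by linarith)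
  simp only [fld, h2]
  simp

/-- key algebraic step -/
theorem key_zero {t : ℝ} (ht : -1 ≤ t) {x : OnePoint E}
    (h : ((1 + t) / 2) • sig x - ((1 - t) / 2) • ((0 : E), (1 : ℝ)) = 0) :
    x = ((0 : E) : OnePoint E) := by
  have h1 := congrArg Prod.fst h
  have h2 := congrArg Prod.snd h
  induction x using OnePoint.rec with
  | infty =>
    simp only [sig_inf, Prod.snd_sub, Prod.smul_snd, smul_eq_mul, Prod.snd_zero] at h2
    exfalso; linarith
  | coe v =>
    simp only [sig_coe, Prod.fst_sub, Prod.smul_fst, smul_zero, sub_zero, Prod.fst_zero,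
      smul_eq_zero, Prod.snd_sub, Prod.smul_snd, smul_eq_mul, Prod.snd_zero] at h1 h2
    rcases h1 with h1 | h1 | h1
    · have : t = -1 := by linarith
      subst this
      norm_num at h2
    · have := one_add_pos v
      exact absurd h1 (by positivity)
    · rw [h1]

theorem fld_zero {H : P × unitInterval × OnePoint E → OnePoint E} {R0 : ℝ} (hR0 : 0 < R0)
    (h1 : ∀ p x, H (p, 1, x) = x)
    (hR : ∀ p τ (x : E), R0 ≤ ‖x‖ → H (p, τ, (x : OnePoint E)) ≠ ((0 : E) : OnePoint E))
    {p : P} {v : E × ℝ} (h : fld H R0 (p, v) = 0) :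
    H (p, 0, (v.1 : OnePoint E)) = ((0 : E) : OnePoint E) := by
  obtain ⟨x, t⟩ := v
  have hq1 : ‖x‖ / R0 ≤ qv R0 (x, t) := le_max_left _ _
  have hq2 : |t| ≤ qv R0 (x, t) := le_max_right _ _
  by_cases hq : qv R0 (x, t) ≤ 1
  · -- inner region
    have e1 : cl (qv R0 (x, t) - 1) = 0 := cl_of_nonpos (by linarith)
    have e2 : cl (qv R0 (x, t) - 2) = 0 := cl_of_nonpos (by linarith)
    have e3 : tb t = t := tb_of_abs (hq2.trans hq)
    have e4 : (⟨cl (qv R0 (x, t) - 1), cl_mem _⟩ : unitInterval) = 0 := Subtype.ext e1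
    simp only [fld, e2, e3, e4, sub_zero, one_smul, zero_smul, add_zero] at h
    exact key_zero (abs_le.1 (hq2.trans hq)).1 h
  · exfalso
    push Not at hq
    -- value of `H` when `τ₂ > 0`
    have hτ : 0 < cl (qv R0 (x, t) - 2) →
        (⟨cl (qv R0 (x, t) - 1), cl_mem _⟩ : unitInterval) = 1 := by
      intro h0
      have : 2 < qv R0 (x, t) := by
        by_contra h'
        rw [cl_of_nonpos (by linarith)] at h0
        exact lt_irrefl _ h0
      exact Subtype.ext (cl_of_ge_one (by linarith))
    have hc2 := cl_mem (qv R0 (x, t) - 2)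
    set c2 := cl (qv R0 (x, t) - 2) with hc2def
    rcases le_or_gt t (-1) with ht | ht
    · -- t ≤ -1
      have e3 : tb t = -1 := tb_of_le ht
      have h2 := congrArg Prod.snd h
      simp only [fld, e3, ← hc2def] at h2
      norm_num at h2
      have := hc2.1
      have := hc2.2
      nlinarith
    rcases le_or_gt 1 t with ht' | ht'
    · -- t ≥ 1
      have e3 : tb t = 1 := tb_of_ge ht'
      rcases hc2.1.eq_or_lt with h0 | h0
      · simp only [fld, e3, ← hc2def, ← h0] at h
        norm_num at h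
        exact sig_ne_zero _ h
      · have e4 := hτ h0
        have hx := congrArg Prod.fst h
        have hy := congrArg Prod.snd h
        simp only [fld, e3, ← hc2def, e4, h1, sig_coe] at hx hy
        norm_num at hx hy
        rw [smul_smul, ← add_smul, smul_eq_zero] at hx
        have hp := one_add_pos x
        have h5 : 0 ≤ (1 - c2) * (1 + ‖x‖ ^ 2)⁻¹ :=
          mul_nonneg (by linarith [hc2.2]) (by positivity)
        rcases hx with hx | hx
        · linarith
        · subst hx
          norm_num at hy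
          nlinarith [hc2.2]
    · -- |t| < 1
      have hxR : R0 < ‖x‖ := by
        have : 1 < ‖x‖ / R0 := by
          rcases lt_max_iff.1 hq with h' | h'
          · exact h'
          · exact absurd h' (by rw [not_lt]; exact abs_le.2 ⟨by linarith, ht'.le⟩)
        rwa [lt_div_iff₀ hR0, one_mul] at this
      have e3 : tb t = t := tb_of_abs (abs_le.2 ⟨by linarith, ht'.le⟩)
      rcases hc2.1.eq_or_lt with h0 | h0
      · simp only [fld, e3, ← hc2def, ← h0, sub_zero, one_smul, zero_smul, add_zero] at h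
        exact hR _ _ _ hxR.le (key_zero ht.le h)
      · have e4 := hτ h0
        have hx := congrArg Prod.fst h
        simp only [fld, e3, ← hc2def, e4, h1, sig_coe] at hx
        simp only [Prod.fst_add, Prod.smul_fst, Prod.fst_sub, smul_zero, sub_zero,
          Prod.fst_zero, smul_smul, ← add_smul, smul_eq_zero] at hx
        have hp := one_add_pos x
        have h5 : 0 ≤ (1 - c2) * ((1 + t) / 2 * (1 / (1 + ‖x‖ ^ 2))) :=
          mul_nonneg (by linarith [hc2.2]) (mul_nonneg (by linarith) (by positivity))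
        rcases hx with hx | hx
        · linarith
        · rw [hx, norm_zero] at hxR
          linarith

theorem exists_R0 [TopologicalSpace P] [CompactSpace P]
    {H : P × unitInterval × OnePoint E → OnePoint E} (hH : Continuous H)
    (hi : ∀ p τ, H (p, τ, ∞) = ∞) : ∃ R0 : ℝ, 0 < R0 ∧
      ∀ p τ (x : E), R0 ≤ ‖x‖ → H (p, τ, (x : OnePoint E)) ≠ ((0 : E) : OnePoint E) := by
  have hcl : IsClosed (H ⁻¹' {((0 : E) : OnePoint E)}) := by
    have : IsClosed ({((0 : E) : OnePoint E)} : Set (OnePoint E)) := by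
      rw [← image_singleton]
      exact isClosed_image_coe.2 ⟨isClosed_singleton, isCompact_singleton⟩
    exact this.preimage hH
  have hco : IsCompact (H ⁻¹' {((0 : E) : OnePoint E)}) := hcl.isCompact
  have h2 : IsCompact ((fun z : P × unitInterval × OnePoint E => z.2.2) ''
      (H ⁻¹' {((0 : E) : OnePoint E)})) := hco.image (continuous_snd.comp continuous_snd)
  have h3 : (fun z : P × unitInterval × OnePoint E => z.2.2) ''
      (H ⁻¹' {((0 : E) : OnePoint E)}) ⊆ range ((↑) : E → OnePoint E) := by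
    rintro _ ⟨⟨p, τ, x⟩, hz, rfl⟩
    induction x using OnePoint.rec with
    | infty =>
      simp only [mem_preimage, hi, mem_singleton_iff] at hz
      exact absurd hz (infty_ne_coe _)
    | coe x => exact ⟨x, rfl⟩
  have h4 : IsCompact (((↑) : E → OnePoint E) ⁻¹' ((fun z : P × unitInterval × OnePoint E =>
      z.2.2) '' (H ⁻¹' {((0 : E) : OnePoint E)}))) :=
    (isOpenEmbedding_coe.isInducing.isCompact_preimage_iff h3).2 h2
  obtain ⟨R, hR⟩ := h4.isBounded.exists_norm_le
  refine ⟨max R 0 + 1, by positivity, fun p τ x hx h => ?_⟩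
  have : ‖x‖ ≤ R := hR x ⟨(p, τ, (x : OnePoint E)), h, rfl⟩
  have := le_max_left R 0
  linarith

/-- **T5-5** -/
theorem exists_field [TopologicalSpace P] [CompactSpace P] [ProperSpace E]
    {H : P × unitInterval × OnePoint E → OnePoint E} (hH : Continuous H)
    (hi : ∀ p τ, H (p, τ, ∞) = ∞) (h1 : ∀ p x, H (p, 1, x) = x) :
    ∃ g : P × (E × ℝ) → E × ℝ, Continuous g ∧ (∃ R : ℝ, 0 < R ∧ ∀ p v, R ≤ ‖v‖ → g (p, v) = v) ∧
      (∀ p v, g (p, v) = 0 → H (p, 0, (v.1 : OnePoint E)) = ((0 : E) : OnePoint E)) ∧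
      ∃ δ : ℝ, 0 < δ ∧ ∀ p v, ‖g (p, v)‖ < δ → H (p, 0, (v.1 : OnePoint E)) ≠ ∞ := by
  obtain ⟨R0, hR0, hR⟩ := exists_R0 hH hi
  have hg := fld_continuous hH R0
  have hz : ∀ p v, fld H R0 (p, v) = 0 → H (p, 0, (v.1 : OnePoint E)) = ((0 : E) : OnePoint E) :=
    fun p v h => fld_zero hR0 h1 hR h
  have hbig : ∀ p (v : E × ℝ), 3 * (R0 + 1) ≤ ‖v‖ → fld H R0 (p, v) = v := by
    intro p v hv
    refine fld_eq_of_ge p ?_
    rw [Prod.norm_def] at hv
    rcases le_max_iff.1 hv with h | h
    · refine le_trans ?_ (le_max_left _ _)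
      rw [le_div_iff₀ hR0]
      linarith
    · refine le_trans ?_ (le_max_right _ _)
      rw [Real.norm_eq_abs] at h
      linarith
  refine ⟨fld H R0, hg, ⟨3 * (R0 + 1), by positivity, hbig⟩, hz, ?_⟩
  -- compactness
  set K : Set (P × (E × ℝ)) := {z | z.2 ∈ Metric.closedBall (0 : E × ℝ) (3 * (R0 + 1)) ∧
    H (z.1, 0, (z.2.1 : OnePoint E)) = ∞} with hK
  have hKc : IsCompact K := by
    have hA : IsCompact ((univ : Set P) ×ˢ (Metric.closedBall (0 : E × ℝ) (3 * (R0 + 1)))) :=
      isCompact_univ.prod (isCompact_closedBall _ _)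
    refine hA.of_isClosed_subset ?_ (fun z hz => ⟨mem_univ _, hz.1⟩)
    refine (Metric.isClosed_closedBall.preimage continuous_snd).inter ?_
    have hc : Continuous (fun z : P × (E × ℝ) => H (z.1, 0, (z.2.1 : OnePoint E))) :=
      hH.comp (continuous_fst.prodMk (continuous_const.prodMk
        (continuous_coe.comp (continuous_fst.comp continuous_snd))))
    exact (isClosed_singleton (x := (∞ : OnePoint E))).preimage hc
  have hne : ∀ z ∈ K, fld H R0 z ≠ 0 := by
    rintro ⟨p, v⟩ ⟨-, h⟩ h0
    have := hz p v h0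
    rw [h] at this
    exact infty_ne_coe _ this
  rcases K.eq_empty_or_nonempty with hemp | hnon
  · refine ⟨3 * (R0 + 1), by positivity, fun p v h hinf => ?_⟩
    rcases le_or_gt (3 * (R0 + 1)) ‖v‖ with hv | hv
    · rw [hbig p v hv] at h
      linarith
    · have : (p, v) ∈ K := ⟨by rw [mem_closedBall_zero_iff]; exact hv.le, hinf⟩
      rw [hemp] at this
      exact this
  · obtain ⟨z0, hz0, hmin⟩ := hKc.exists_isMinOn hnon (hg.norm.continuousOn)
    have hpos : 0 < ‖fld H R0 z0‖ := norm_pos_iff.2 (hne z0 hz0)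
    refine ⟨min (3 * (R0 + 1)) ‖fld H R0 z0‖, lt_min (by positivity) hpos,
      fun p v h hinf => ?_⟩
    rcases le_or_gt (3 * (R0 + 1)) ‖v‖ with hv | hv
    · rw [hbig p v hv] at h
      exact absurd (h.trans_le (min_le_left _ _)) (not_lt.2 hv)
    · have hm : (p, v) ∈ K := ⟨by rw [mem_closedBall_zero_iff]; exact hv.le, hinf⟩
      have := hmin hm
      simp only [mem_setOf_eq] at this
      exact absurd (h.trans_le (min_le_right _ _)) (not_lt.2 this)

end field

end Crest.Agent.R090.T5
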