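import Crest.Agent.R090.T5Comp_758
import Crest.Agent.R090.T5Field_758

/-!
# Row 90, T5-6: `GroupMap → UnstableInput` (owner helper758)
-/

set_option autoImplicit false

open Topology Filter Set

namespace Crest.Agent.R090.T5

open OnePoint Crest.Agent.R090.Sp962 Crest.OpAlg

theorem ncard_prod_le {R u m : ℕ} (Q : Fin R → Fin u → Prop)
    (h : ∀ i, ({b | Q i b} : Set (Fin u)).ncard ≤ m) :
    ({β : Fin (R * u) | Q (finProdFinEquiv.symm β).1 (finProdFinEquiv.symm β).2} :
      Set (Fin (R * u))).ncard ≤ R * m := by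
  classical
  have e1 : ({β : Fin (R * u) | Q (finProdFinEquiv.symm β).1 (finProdFinEquiv.symm β).2} :
      Set (Fin (R * u))) = finProdFinEquiv '' {q : Fin R × Fin u | Q q.1 q.2} := by
    ext β
    simp only [mem_setOf_eq, mem_image]
    constructor
    · intro hβ
      exact ⟨finProdFinEquiv.symm β, hβ, finProdFinEquiv.apply_symm_apply β⟩
    · rintro ⟨q, hq, rfl⟩
      rw [Equiv.symm_apply_apply]
      exact hq
  rw [e1, Set.ncard_image_of_injective _ finProdFinEquiv.injective]
  have e2 : ({q : Fin R × Fin u | Q q.1 q.2} : Set (Fin R × Fin u)) =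
      ((Finset.univ.filter fun q : Fin R × Fin u => Q q.1 q.2 : Finset (Fin R × Fin u)) :
        Set (Fin R × Fin u)) := by ext; simp
  rw [e2, Set.ncard_coe_finset, Finset.card_filter, ← Finset.univ_product_univ,
    Finset.sum_product]
  calc ∑ i : Fin R, ∑ b : Fin u, (if Q i b then 1 else 0)
      ≤ ∑ _i : Fin R, m := by
        refine Finset.sum_le_sum fun i _ => ?_
        rw [← Finset.card_filter]
        have := h i
        have e3 : ({b | Q i b} : Set (Fin u)) =
          ((Finset.univ.filter fun b : Fin u => Q i b : Finset (Fin u)) : Set (Fin u)) := by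
          ext; simp
        rwa [e3, Set.ncard_coe_finset] at this
    _ = R * m := by simp

/-- **T5-4/5/6** -/
theorem unstableInput_of_groupMap {p n : ℕ} {a : ℝ} {Y : Type*} [TopologicalSpace Y]
    [CompactSpace Y] {f : Y → Fin n → Fin (2 * p + 1) → ℝ} {u m l : ℕ} (hu : 0 < u)
    (hm : 2 * m ≤ u) (h : GroupMap p n a f u m l) : UnstableInput p n a f := by
  obtain ⟨H, hH, hi, h1, hG⟩ := h
  -- coordinates
  set F : Type := EE p n u l × ℝ with hF
  let k : ℕ := Module.finrank ℝ F
  have hk : Module.finrank ℝ (Fin k → ℝ) = Module.finrank ℝ F := by simp [k]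
  let e : (Fin k → ℝ) ≃L[ℝ] F := ContinuousLinearEquiv.ofFinrankEq hk
  refine ⟨k, fun U => ⟨U * u, Nat.le_mul_of_pos_right U hu, k, Nat.le_add_left _ _, ?_⟩⟩
  have : Inhabited (Fin u → TT p n) := ⟨fun _ _ _ => 1⟩
  set P : Type _ := Fin U → (Fin u → Y) with hP
  have hHR := HR_continuous hH U
  obtain ⟨g, hg, ⟨R, hR, hgR⟩, hg0, δ, hδ, hgδ⟩ :=
    exists_field (P := P) (E := EE p n u l) (H := HR H U) hHR
      (fun y τ => HR_inf hi U y τ) (fun y x => HR_one h1 U y x)
  -- reindexing
  let yy : (Fin (U * u) → Y) → P := fun y i b => y (finProdFinEquiv (i, b))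
  have hyy : Continuous yy :=
    continuous_pi fun i => continuous_pi fun b => continuous_apply _
  let c : (Fin (U * u) → Y) × (Fin k → ℝ) → (Fin (U * u) → Fin n → Fin (2 * p) → Circle) :=
    fun q β => cR H (wpt : EE p n u l → Fin u → TT p n) U
      (yy q.1, ((e q.2).1 : OnePoint (EE p n u l))) (finProdFinEquiv.symm β).1
        (finProdFinEquiv.symm β).2
  have hmap : Continuous (fun q : (Fin (U * u) → Y) × (Fin k → ℝ) => (yy q.1, e q.2)) :=
    (hyy.comp continuous_fst).prodMk (e.continuous.comp continuous_snd)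
  refine ⟨fun q => e.symm (g (yy q.1, e q.2)), c, ?_, ?_, ?_, ?_⟩
  · exact e.symm.continuous.comp (hg.comp hmap)
  · refine ⟨(‖(e.symm : F →L[ℝ] (Fin k → ℝ))‖ + 1) * R, fun y x hx => ?_⟩
    have : R ≤ ‖e x‖ := by
      by_contra hlt
      push Not at hlt
      have h2 : ‖x‖ ≤ ‖(e.symm : F →L[ℝ] (Fin k → ℝ))‖ * ‖e x‖ := by
        have := (e.symm : F →L[ℝ] (Fin k → ℝ)).le_opNorm (e x)
        simpa using this
      have h3 : ‖(e.symm : F →L[ℝ] (Fin k → ℝ))‖ * ‖e x‖ ≤
          ‖(e.symm : F →L[ℝ] (Fin k → ℝ))‖ * R :=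
        mul_le_mul_of_nonneg_left hlt.le (norm_nonneg _)
      linarith
    simp only [hgR _ _ this]
    simp
  · refine ⟨δ / (‖(e : (Fin k → ℝ) →L[ℝ] F)‖ + 1), by positivity, ?_⟩
    intro q hq
    refine ContinuousAt.continuousWithinAt ?_
    have hlt : ‖g (yy q.1, e q.2)‖ < δ := by
      have h2 : ‖g (yy q.1, e q.2)‖ ≤ ‖(e : (Fin k → ℝ) →L[ℝ] F)‖ *
          ‖e.symm (g (yy q.1, e q.2))‖ := by
        have := (e : (Fin k → ℝ) →L[ℝ] F).le_opNorm (e.symm (g (yy q.1, e q.2)))
        simpa using this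
      have h3 : ‖e.symm (g (yy q.1, e q.2))‖ < δ / (‖(e : (Fin k → ℝ) →L[ℝ] F)‖ + 1) := hq
      rw [lt_div_iff₀ (by positivity)] at h3
      nlinarith [norm_nonneg (e.symm (g (yy q.1, e q.2))),
        norm_nonneg (e : (Fin k → ℝ) →L[ℝ] F)]
    have hne := hgδ _ _ hlt
    have hc : ContinuousAt (cR H (wpt : EE p n u l → Fin u → TT p n) U)
        (yy q.1, ((e q.2).1 : OnePoint (EE p n u l))) :=
      cR_continuousAt hH hi isOpen_dom wpt_continuousOn (fun y x hx => (hG y x hx).1) U _ hne
    have hc2 : ContinuousAt (fun q : (Fin (U * u) → Y) × (Fin k → ℝ) =>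
        cR H (wpt : EE p n u l → Fin u → TT p n) U
          (yy q.1, ((e q.2).1 : OnePoint (EE p n u l)))) q := by
      refine ContinuousAt.comp (g := cR H (wpt : EE p n u l → Fin u → TT p n) U)
        (f := fun q : (Fin (U * u) → Y) × (Fin k → ℝ) =>
          (yy q.1, ((e q.2).1 : OnePoint (EE p n u l)))) hc ?_
      exact ((hyy.comp continuous_fst).prodMk (continuous_coe.comp
        (continuous_fst.comp (e.continuous.comp continuous_snd)))).continuousAt
    refine continuousAt_pi.2 fun β => ?_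
    exact continuousAt_pi.1 (continuousAt_pi.1 hc2 (finProdFinEquiv.symm β).1)
      (finProdFinEquiv.symm β).2
  · intro y x hx
    have h0 : g (yy y, e x) = 0 := by
      have := congrArg e hx
      simpa using this
    have hfin : HR H U (yy y, 0, ((e x).1 : OnePoint (EE p n u l))) ≠ ∞ := by
      rw [hg0 _ _ h0]
      exact coe_ne_infty _
    have hgood : ∀ i, ({b | (yy y i b, cR H (wpt : EE p n u l → Fin u → TT p n) U
        (yy y, ((e x).1 : OnePoint (EE p n u l))) i b) ∈ torusLocus p n (a * n) f} :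
          Set (Fin u)).ncard ≤ m := fun i =>
      (cR_good hi (Good := fun (y : Fin u → Y) (w : Fin u → TT p n) =>
        ({b | (y b, w b) ∈ torusLocus p n (a * n) f} : Set (Fin u)).ncard < m)
        (fun y x hx => (hG y x hx).2) U _ _ hfin i).le
    have hbad := ncard_prod_le (fun i b => (yy y i b, cR H (wpt : EE p n u l → Fin u → TT p n) U
        (yy y, ((e x).1 : OnePoint (EE p n u l))) i b) ∈ torusLocus p n (a * n) f) hgood
    have hset : ({β | (y β, c (y, x) β) ∉ torusLocus p n (a * n) f} : Set (Fin (U * u))) =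
        ({β : Fin (U * u) | (yy y (finProdFinEquiv.symm β).1 (finProdFinEquiv.symm β).2,
          cR H (wpt : EE p n u l → Fin u → TT p n) U
            (yy y, ((e x).1 : OnePoint (EE p n u l))) (finProdFinEquiv.symm β).1
              (finProdFinEquiv.symm β).2) ∈ torusLocus p n (a * n) f} : Set (Fin (U * u)))ᶜ := by
      ext β
      have : yy y (finProdFinEquiv.symm β).1 (finProdFinEquiv.symm β).2 = y β :=
        congrArg y (finProdFinEquiv.apply_symm_apply β)
      simp only [mem_compl_iff, mem_setOf_eq, this, c]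
    rw [hset]
    set B := ({β : Fin (U * u) | (yy y (finProdFinEquiv.symm β).1 (finProdFinEquiv.symm β).2,
          cR H (wpt : EE p n u l → Fin u → TT p n) U
            (yy y, ((e x).1 : OnePoint (EE p n u l))) (finProdFinEquiv.symm β).1
              (finProdFinEquiv.symm β).2) ∈ torusLocus p n (a * n) f} : Set (Fin (U * u)))
    have hsum : B.ncard + Bᶜ.ncard = U * u := by
      rw [Set.ncard_add_ncard_compl]
      simp
    have h5 : B.ncard ≤ U * m := hbad
    have h6 : (B.ncard : ℝ) + (Bᶜ.ncard : ℝ) = U * u := by exact_mod_cast hsum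
    have h7 : (B.ncard : ℝ) ≤ U * m := by exact_mod_cast h5
    have h8 : 2 * (m : ℝ) ≤ u := by exact_mod_cast hm
    have h9 : (U : ℝ) * (2 * m) ≤ U * u := mul_le_mul_of_nonneg_left h8 (Nat.cast_nonneg _)
    push_cast
    linarith

end Crest.Agent.R090.T5
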