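import Crest.Agent.R090.T5Defs_758

/-!
# Row 90, T5-2: `ThetaInput → PhiInput` (typed by helper758)
-/

set_option autoImplicit false

open Topology Filter Set

namespace Crest.Agent.R090.T5

open OnePoint Crest.Agent.R090.Sp962 Crest.OpAlg

/-- extension of a family `K × U → V⁺`, tending to `∞` at infinity, to `K × U⁺` -/
def pext {K U V : Type*} (f : K × U → OnePoint V) : K × OnePoint U → OnePoint V :=
  fun q => q.2.elim ∞ fun x => f (q.1, x)

theorem pext_continuous {K U V : Type*} [TopologicalSpace K] [TopologicalSpace U]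
    [TopologicalSpace V] [T2Space U] {f : K × U → OnePoint V} (hf : Continuous f)
    (h : Tendsto f (cocompact (K × U)) (𝓝 ∞)) : Continuous (pext f) := by
  rw [continuous_iff_continuousAt]
  rintro ⟨k, x⟩
  induction x using OnePoint.rec with
  | infty =>
    change Tendsto (pext f) (𝓝 (k, ∞)) (𝓝 ∞)
    intro N hN
    have h1 := h hN
    rw [mem_map, mem_cocompact] at h1
    obtain ⟨C, hC, hC2⟩ := h1
    have hC3 : IsCompact (Prod.snd '' C) := hC.image continuous_snd
    have ho : IsOpen ((↑) '' (Prod.snd '' C) : Set (OnePoint U))ᶜ :=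
      isOpen_compl_image_coe.2 ⟨hC3.isClosed, hC3⟩
    have hm : (∞ : OnePoint U) ∈ ((↑) '' (Prod.snd '' C) : Set (OnePoint U))ᶜ :=
      infty_notMem_image_coe
    rw [mem_map]
    filter_upwards [(ho.preimage (continuous_snd (X := K))).mem_nhds (x := (k, (∞ : OnePoint U))) hm]
      with q hq
    obtain ⟨k', x'⟩ := q
    induction x' using OnePoint.rec with
    | infty =>
      change (∞ : OnePoint V) ∈ N
      exact mem_of_mem_nhds hN
    | coe x' =>
      have : (k', x') ∉ C := fun hc => hq ⟨x', ⟨(k', x'), hc, rfl⟩, rfl⟩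
      exact hC2 this
  | coe x =>
    have he : IsOpenEmbedding (Prod.map (id : K → K) ((↑) : U → OnePoint U)) :=
      IsOpenEmbedding.id.prodMap isOpenEmbedding_coe
    have : ContinuousAt (pext f ∘ (Prod.map (id : K → K) ((↑) : U → OnePoint U))) (k, x) :=
      hf.continuousAt
    exact he.continuousAt_iff.1 this

/-- the homeomorphism `((ℝ^ι × L) × ℝ^ι) ≃ ℂ^ι × L` -/
def hJ (ι L : Type*) [TopologicalSpace L] : ((ι → ℝ) × L) × (ι → ℝ) ≃ₜ (ι → ℂ) × L where
  toFun q := (fun i => ⟨q.2 i, q.1.1 i⟩, q.1.2)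
  invFun v := ((fun i => (v.1 i).im, v.2), fun i => (v.1 i).re)
  left_inv q := rfl
  right_inv v := rfl
  continuous_toFun := by
    refine Continuous.prodMk (continuous_pi fun i => ?_) (by fun_prop)
    have : (fun q : ((ι → ℝ) × L) × (ι → ℝ) => (⟨q.2 i, q.1.1 i⟩ : ℂ)) =
        fun q => Complex.equivRealProdCLM.symm (q.2 i, q.1.1 i) := rfl
    rw [this]
    exact Complex.equivRealProdCLM.symm.continuous.comp (by fun_prop)
  continuous_invFun := by
    refine Continuous.prodMk (Continuous.prodMk (continuous_pi fun i => ?_) (by fun_prop))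
      (continuous_pi fun i => ?_)
    · exact Complex.continuous_im.comp (by fun_prop)
    · exact Complex.continuous_re.comp (by fun_prop)

/-- the pairing `(θ, z'), s ↦ (s + i θ, z')` -/
def JJ {ι L : Type*} (t : OnePoint ((ι → ℝ) × L)) (s : ι → ℝ) : OnePoint ((ι → ℂ) × L) :=
  t.elim ∞ fun q => (((fun i => ⟨s i, q.1 i⟩ : ι → ℂ), q.2) : (ι → ℂ) × L)

theorem JJ_continuous {ι L : Type*} [Finite ι] [TopologicalSpace L] [T2Space L]
    {Z : Type*} [TopologicalSpace Z] {t : Z → OnePoint ((ι → ℝ) × L)} {s : Z → (ι → ℝ)} {z : Z}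
    (ht : ContinuousAt t z) (hs : ContinuousAt s z) : ContinuousAt (fun z => JJ (t z) (s z)) z := by
  have h1 : ContinuousAt (fun z => sm (t z) ((s z : ι → ℝ) : OnePoint (ι → ℝ))) z :=
    ContinuousAt.comp (g := fun p : OnePoint ((ι → ℝ) × L) × OnePoint (ι → ℝ) => sm p.1 p.2)
      (f := fun z => (t z, ((s z : ι → ℝ) : OnePoint (ι → ℝ)))) continuous_sm.continuousAt
      (ht.prodMk (continuous_coe.continuousAt.comp hs))
  have h2 : ContinuousAt (fun z => PMap.ofHomeo (hJ ι L)
      (sm (t z) ((s z : ι → ℝ) : OnePoint (ι → ℝ)))) z :=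
    ContinuousAt.comp (g := PMap.ofHomeo (hJ ι L)) (PMap.ofHomeo (hJ ι L)).cont.continuousAt h1
  refine h2.congr (Eventually.of_forall fun z => ?_)
  change PMap.ofHomeo (hJ ι L) (sm (t z) ((s z : ι → ℝ) : OnePoint (ι → ℝ))) = JJ (t z) (s z)
  induction t z using OnePoint.rec with
  | infty => rfl
  | coe q => rfl

section phi

variable {p n u l : ℕ} {Y : Type*} [TopologicalSpace Y]

/-- the finite part of the group map -/
noncomputable def phf (Θ : (Fin u → Y) × (Idx p n u → Circle) × (Fin l → ℝ) × unitInterval →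
    OnePoint ((Idx p n u → ℝ) × (Fin l → ℝ))) :
    ((Fin u → Y) × unitInterval) × EE p n u l → OnePoint (EE p n u l) := fun q =>
  open Classical in
  if ∃ i, q.2.1 i = 0 then ∞ else
    JJ (Θ (q.1.1, (fun i => rad (q.2.1 i)), q.2.2, q.1.2)) (fun i => Real.log ‖q.2.1 i‖)

theorem rad_cont : ContinuousOn rad {w : ℂ | w ≠ 0} := by
  rw [continuousOn_iff_continuous_restrict]
  have hr : ∀ {w : ℂ} (_ : w ≠ 0), (rad w : ℂ) = w / (‖w‖ : ℂ) := fun {w} h => by
    rw [rad, dif_neg h]
  refine Continuous.subtype_mk (p := fun x : ℂ => x ∈ Submonoid.unitSphere ℂ)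
    (f := fun w : {w : ℂ | w ≠ 0} => (w : ℂ) / (‖(w : ℂ)‖ : ℂ)) ?_ ?_ |>.congr ?_
  · refine Continuous.div continuous_subtype_val
      (Complex.continuous_ofReal.comp (continuous_norm.comp continuous_subtype_val)) ?_
    rintro ⟨w, hw⟩
    simpa using hw
  · rintro ⟨w, hw⟩
    rw [← hr hw]
    exact (rad w).2
  · rintro ⟨w, hw⟩
    apply Subtype.ext
    exact (hr hw).symm

/-- a compact set of values forces bounds -/
theorem phf_bound {Θ : (Fin u → Y) × (Idx p n u → Circle) × (Fin l → ℝ) × unitInterval →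
    OnePoint ((Idx p n u → ℝ) × (Fin l → ℝ))} {C : Set (EE p n u l)} {B : ℝ}
    (hB : ∀ v ∈ C, ‖v‖ ≤ B) {q : ((Fin u → Y) × unitInterval) × EE p n u l}
    (hq : phf Θ q ∈ ((↑) '' C : Set (OnePoint (EE p n u l)))) :
    (∀ i, q.2.1 i ≠ 0) ∧ (∀ i, |Real.log ‖q.2.1 i‖| ≤ B) ∧
      Θ (q.1.1, (fun i => rad (q.2.1 i)), q.2.2, q.1.2) ∈
        ((↑) '' (Metric.closedBall (0 : (Idx p n u → ℝ) × (Fin l → ℝ)) B) :
          Set (OnePoint ((Idx p n u → ℝ) × (Fin l → ℝ)))) := by
  obtain ⟨v, hv, hvq⟩ := hq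
  unfold phf at hvq
  split_ifs at hvq with h
  · exact absurd hvq (coe_ne_infty _)
  · push Not at h
    generalize hT : Θ (q.1.1, (fun i => rad (q.2.1 i)), q.2.2, q.1.2) = t at hvq ⊢
    induction t using OnePoint.rec with
    | infty => exact absurd hvq (coe_ne_infty _)
    | coe t =>
      have hv2 : v = ((fun i => ⟨Real.log ‖q.2.1 i‖, t.1 i⟩, t.2) : EE p n u l) :=
        coe_injective hvq
      have hvB := hB v hv
      rw [hv2, Prod.norm_def] at hvB
      have hv1 := (le_max_left _ _).trans hvB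
      have hv3 := (le_max_right _ _).trans hvB
      have hB0 : 0 ≤ B := (norm_nonneg _).trans hv3
      have hcoord : ∀ i, ‖(⟨Real.log ‖q.2.1 i‖, t.1 i⟩ : ℂ)‖ ≤ B := fun i =>
        (norm_le_pi_norm (fun i => (⟨Real.log ‖q.2.1 i‖, t.1 i⟩ : ℂ)) i).trans hv1
      refine ⟨h, fun i => (Complex.abs_re_le_norm _).trans (hcoord i), ⟨t, ?_, rfl⟩⟩
      rw [mem_closedBall_zero_iff, Prod.norm_def]
      refine max_le ?_ hv3
      rw [pi_norm_le_iff_of_nonneg hB0]
      intro i
      exact (Complex.abs_im_le_norm _).trans (hcoord i)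

theorem phf_continuous {Θ : (Fin u → Y) × (Idx p n u → Circle) × (Fin l → ℝ) × unitInterval →
    OnePoint ((Idx p n u → ℝ) × (Fin l → ℝ))} (hΘ : Continuous Θ) : Continuous (phf Θ) := by
  rw [continuous_iff_continuousAt]
  intro q
  have hproj : ∀ i, Continuous (fun q : ((Fin u → Y) × unitInterval) × EE p n u l => q.2.1 i) :=
    fun i => by fun_prop
  by_cases h : ∃ i, q.2.1 i = 0
  · obtain ⟨i, hi⟩ := h
    have hval : phf Θ q = ∞ := by
      unfold phf; rw [if_pos ⟨i, hi⟩]
    rw [ContinuousAt, hval, hasBasis_nhds_infty.tendsto_right_iff]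
    rintro C ⟨_, hC⟩
    obtain ⟨B, hB⟩ := hC.isBounded.exists_norm_le
    have hev : ∀ᶠ q' in 𝓝 q, ‖q'.2.1 i‖ < Real.exp (-B) := by
      have hc : ContinuousAt (fun q : ((Fin u → Y) × unitInterval) × EE p n u l => ‖q.2.1 i‖) q :=
        (hproj i).norm.continuousAt
      refine hc.eventually_lt continuousAt_const ?_
      rw [hi, norm_zero]
      exact Real.exp_pos _
    filter_upwards [hev] with q' hq'
    by_contra hcon
    have hin : phf Θ q' ∈ ((↑) '' C : Set (OnePoint (EE p n u l))) := by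
      by_contra hno
      apply hcon
      generalize phf Θ q' = t at hno ⊢
      induction t using OnePoint.rec with
      | infty => right; rfl
      | coe t => left; exact ⟨t, fun ht => hno ⟨t, ht, rfl⟩, rfl⟩
    obtain ⟨h1, h2, -⟩ := phf_bound hB hin
    have h3 := (abs_le.1 (h2 i)).1
    have h4 : Real.exp (-B) ≤ ‖q'.2.1 i‖ := by
      rw [← Real.exp_log (norm_pos_iff.2 (h1 i))]
      exact Real.exp_le_exp.2 h3
    exact absurd hq' (not_lt.2 h4)
  · push Not at h
    have hopen : ∀ᶠ q' in 𝓝 q, ∀ i, q'.2.1 i ≠ 0 := by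
      rw [eventually_all]
      intro i
      exact (hproj i).continuousAt.eventually_ne (h i)
    have hcongr : (fun q' : ((Fin u → Y) × unitInterval) × EE p n u l =>
        JJ (Θ (q'.1.1, (fun i => rad (q'.2.1 i)), q'.2.2, q'.1.2))
          (fun i => Real.log ‖q'.2.1 i‖)) =ᶠ[𝓝 q] phf Θ := by
      filter_upwards [hopen] with q' hq'
      unfold phf
      rw [if_neg (by push Not; exact hq')]
    refine ContinuousAt.congr ?_ hcongr
    refine JJ_continuous ?_ ?_
    · refine ContinuousAt.comp (g := Θ) (f := fun q' : ((Fin u → Y) × unitInterval) ×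
        EE p n u l => (q'.1.1, (fun i => rad (q'.2.1 i)), q'.2.2, q'.1.2)) hΘ.continuousAt ?_
      refine ContinuousAt.prodMk (by fun_prop) (ContinuousAt.prodMk ?_
        (ContinuousAt.prodMk (by fun_prop) (by fun_prop)))
      refine continuousAt_pi.2 fun i => ?_
      have hr : ContinuousAt rad (q.2.1 i) :=
        rad_cont.continuousAt (isOpen_ne.mem_nhds (h i))
      exact ContinuousAt.comp (g := rad) (f := fun q' : ((Fin u → Y) × unitInterval) ×
        EE p n u l => q'.2.1 i) hr (hproj i).continuousAt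
    · refine continuousAt_pi.2 fun i => ?_
      exact (hproj i).norm.continuousAt.log (norm_ne_zero_iff.2 (h i))

theorem phf_tendsto [CompactSpace Y]
    {Θ : (Fin u → Y) × (Idx p n u → Circle) × (Fin l → ℝ) × unitInterval →
    OnePoint ((Idx p n u → ℝ) × (Fin l → ℝ))} (hT : Tendsto Θ (cocompact _) (𝓝 ∞)) :
    Tendsto (phf Θ) (cocompact _) (𝓝 ∞) := by
  rw [hasBasis_nhds_infty.tendsto_right_iff]
  rintro C ⟨_, hC⟩
  obtain ⟨B, hB⟩ := hC.isBounded.exists_norm_le
  have hball : IsCompact (Metric.closedBall (0 : (Idx p n u → ℝ) × (Fin l → ℝ)) B) :=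
    isCompact_closedBall _ _
  have h1 := (hasBasis_nhds_infty.tendsto_right_iff.1 hT) _ ⟨hball.isClosed, hball⟩
  rw [Filter.Eventually, mem_cocompact] at h1
  obtain ⟨D, hD, hD2⟩ := h1
  have hD3 : IsCompact ((fun z : (Fin u → Y) × (Idx p n u → Circle) × (Fin l → ℝ) ×
      unitInterval => z.2.2.1) '' D) := hD.image (by fun_prop)
  rw [Filter.Eventually, mem_cocompact]
  refine ⟨(univ : Set ((Fin u → Y) × unitInterval)) ×ˢ
    ((Metric.closedBall (0 : Idx p n u → ℂ) (Real.exp B)) ×ˢ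
      ((fun z : (Fin u → Y) × (Idx p n u → Circle) × (Fin l → ℝ) ×
        unitInterval => z.2.2.1) '' D)), isCompact_univ.prod
        ((isCompact_closedBall _ _).prod hD3), ?_⟩
  intro q hq
  rw [mem_setOf_eq]
  by_contra hcon
  apply hq
  have hin : phf Θ q ∈ ((↑) '' C : Set (OnePoint (EE p n u l))) := by
    by_contra hno
    apply hcon
    generalize phf Θ q = t at hno ⊢
    induction t using OnePoint.rec with
    | infty => right; rfl
    | coe t => left; exact ⟨t, fun ht => hno ⟨t, ht, rfl⟩, rfl⟩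
  obtain ⟨h1, h2, h3⟩ := phf_bound hB hin
  refine ⟨mem_univ _, ?_, ?_⟩
  · rw [mem_closedBall_zero_iff, pi_norm_le_iff_of_nonneg (Real.exp_pos _).le]
    intro i
    rw [← Real.exp_log (norm_pos_iff.2 (h1 i))]
    exact Real.exp_le_exp.2 (abs_le.1 (h2 i)).2
  · by_contra hno
    have : (q.1.1, (fun i => rad (q.2.1 i)), q.2.2, q.1.2) ∉ D := fun hd =>
      hno ⟨_, hd, rfl⟩
    have h5 := hD2 this
    obtain ⟨t, ht, ht2⟩ := h3
    rw [mem_setOf_eq, ← ht2] at h5
    rcases h5 with ⟨t', ht', h6⟩ | h6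
    · rw [coe_injective h6] at ht'
      exact ht' ht
    · exact coe_ne_infty _ h6

end phi

/-- **T5-2** -/
theorem phiInput_of_thetaInput {p n : ℕ} {a : ℝ} {Y : Type*} [TopologicalSpace Y]
    [CompactSpace Y] {f : Y → Fin n → Fin (2 * p + 1) → ℝ} {u m l : ℕ}
    (h : ThetaInput p n a f u m l) : PhiInput p n a f u m l := by
  obtain ⟨Θ, hΘ, hT, h0, h1⟩ := h
  have hc := pext_continuous (phf_continuous hΘ) (phf_tendsto hT)
  refine ⟨fun q => pext (phf Θ) ((q.1, q.2.1), q.2.2), ?_, ?_, ?_, ?_⟩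
  · exact hc.comp (by fun_prop)
  · intro y τ; rfl
  · intro y x
    change phf Θ ((y, 0), x) = _
    unfold phf
    by_cases hz : ∃ i, x.1 i = 0
    · rw [if_pos hz, if_pos]
      obtain ⟨i, hi⟩ := hz
      exact ⟨i, Or.inl hi⟩
    · rw [if_neg hz, h0]
      unfold tc
      by_cases hm : ∃ i, (rad (x.1 i) : ℂ) = -1
      · rw [if_pos hm, if_pos]
        · rfl
        · obtain ⟨i, hi⟩ := hm
          exact ⟨i, Or.inr hi⟩
      · rw [if_neg hm, if_neg]
        · rfl
        · rintro ⟨i, hi | hi⟩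
          · exact hz ⟨i, hi⟩
          · exact hm ⟨i, hi⟩
  · intro y x hx
    have hx' : phf Θ ((y, 1), x) ≠ ∞ := hx
    by_cases hz : ∃ i, x.1 i = 0
    · exfalso; apply hx'
      unfold phf
      rw [if_pos hz]
    · refine ⟨by push Not at hz; exact hz, ?_⟩
      by_contra hlt
      push Not at hlt
      apply hx'
      unfold phf
      rw [if_neg hz]
      have := h1 y (fun i => rad (x.1 i)) x.2 hlt
      simp only at this ⊢
      rw [this]
      rfl

end Crest.Agent.R090.T5
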