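import Crest.Agent.R090.T5Defs_758
import Crest.Agent.R090.Deg_513

/-!
# Row 90, leaf T5-3 (helper513): `PhiInput → GroupMap`

`φ₀` (logarithm / tangent in each coordinate) has the single zero `(1, 0)` and has the same signs
as `x - (1, 0)` near it, so it is based-homotopic to the identity of `E⁺`.
-/

set_option autoImplicit false

open Topology Filter Set

namespace Crest.Agent.R090.T5

open OnePoint Crest.Agent.R090.Sp962 Crest.OpAlg Crest.Agent.R090.Deg513

theorem coe_rad {w : ℂ} (hw : w ≠ 0) : (rad w : ℂ) = w / (‖w‖ : ℂ) := by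
  have h : rad w = (⟨w / (‖w‖ : ℂ), by
      change w / (‖w‖ : ℂ) ∈ Metric.sphere (0 : ℂ) 1
      rw [mem_sphere_zero_iff_norm, norm_div, Complex.norm_real, norm_norm]
      exact div_self (norm_ne_zero_iff.2 hw)⟩ : Circle) := dif_neg hw
  rw [h]

theorem rad_re {w : ℂ} (hw : w ≠ 0) : (rad w : ℂ).re = w.re / ‖w‖ := by
  rw [coe_rad hw, Complex.div_ofReal_re]

theorem rad_im {w : ℂ} (hw : w ≠ 0) : (rad w : ℂ).im = w.im / ‖w‖ := by
  rw [coe_rad hw, Complex.div_ofReal_im]

theorem circle_eq_neg_one {z : Circle} (h : (z : ℂ).re = -1) : (z : ℂ) = -1 := by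
  have h1 : ‖(z : ℂ)‖ = 1 := Circle.norm_coe z
  have h2 := Complex.sq_norm (z : ℂ)
  rw [h1, Complex.normSq_apply, h] at h2
  have h3 : (z : ℂ).im = 0 := by nlinarith
  exact Complex.ext (by simpa using h) (by simpa using h3)

theorem one_add_re_pos {z : Circle} (h : (z : ℂ) ≠ -1) : 0 < 1 + (z : ℂ).re := by
  have h1 : ‖(z : ℂ)‖ = 1 := Circle.norm_coe z
  have h2 := Complex.abs_re_le_norm (z : ℂ)
  rw [h1] at h2
  have h3 := (abs_le.1 h2).1
  rcases eq_or_lt_of_le h3 with h4 | h4
  · exact absurd (circle_eq_neg_one h4.symm) h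
  · linarith

/-- the finite part of `φ₀` -/
noncomputable def gPhi {ι κ : Type*} (x : (ι → ℂ) × (κ → ℝ)) : (ι → ℂ) × (κ → ℝ) :=
  ((fun i => ⟨Real.log ‖x.1 i‖, (rad (x.1 i) : ℂ).im / (1 + (rad (x.1 i) : ℂ).re)⟩), x.2)

theorem norm_eq_one_of_log {w : ℂ} (hw : w ≠ 0) (h : Real.log ‖w‖ = 0) : ‖w‖ = 1 := by
  have h0 := norm_pos_iff.2 hw
  exact Real.eq_one_of_pos_of_log_eq_zero h0 h

theorem eq_one_of_gPhi {w : ℂ} (hw : w ≠ 0) (hr : (rad w : ℂ) ≠ -1) (h1 : Real.log ‖w‖ = 0)
    (h2 : (rad w : ℂ).im / (1 + (rad w : ℂ).re) = 0) : w = 1 := by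
  have hn := norm_eq_one_of_log hw h1
  have hp := one_add_re_pos hr
  have him : (rad w : ℂ).im = 0 := by
    rcases div_eq_zero_iff.1 h2 with h | h
    · exact h
    · exact absurd h hp.ne'
  rw [rad_im hw, hn, div_one] at him
  have h3 : ‖w‖ ^ 2 = 1 := by rw [hn]; norm_num
  rw [Complex.sq_norm, Complex.normSq_apply, him] at h3
  have h4 : w.re = 1 := by
    rw [rad_re hw, hn, div_one] at hp
    nlinarith
  exact Complex.ext (by simpa using h4) (by simpa using him)

theorem eq_one_of_seg {w : ℂ} (hre : 0 < w.re) {t : ℝ} (ht : t ∈ Icc (0 : ℝ) 1)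
    (h1 : (1 - t) * Real.log ‖w‖ + t * (w.re - 1) = 0)
    (h2 : (1 - t) * ((rad w : ℂ).im / (1 + (rad w : ℂ).re)) + t * w.im = 0) : w = 1 := by
  have hw : w ≠ 0 := by rintro rfl; simp at hre
  have hn := norm_pos_iff.2 hw
  have hr : (rad w : ℂ) ≠ -1 := by
    intro h
    have : (rad w : ℂ).re = -1 := by rw [h]; simp
    rw [rad_re hw] at this
    have h3 : 0 < w.re / ‖w‖ := by positivity
    linarith
  have hp := one_add_re_pos hr
  have him : w.im = 0 := by
    rw [rad_im hw] at h2
    have h3 : w.im * ((1 - t) / (‖w‖ * (1 + (rad w : ℂ).re)) + t) = 0 := by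
      rw [← h2]
      field_simp
    rcases mul_eq_zero.1 h3 with h | h
    · exact h
    · exfalso
      have h4 : 0 ≤ (1 - t) / (‖w‖ * (1 + (rad w : ℂ).re)) :=
        div_nonneg (by linarith [ht.2]) (by positivity)
      have h5 : t = 0 := le_antisymm (by linarith) ht.1
      rw [h5] at h
      have h6 : 0 < (1 - (0 : ℝ)) / (‖w‖ * (1 + (rad w : ℂ).re)) := by
        rw [sub_zero]; positivity
      linarith
  have hnr : ‖w‖ = w.re := by
    have : w = (w.re : ℂ) := Complex.ext (by simp) (by simpa using him)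
    rw [this, Complex.norm_real, Real.norm_eq_abs, abs_of_pos hre]
    simp
  rw [hnr] at h1
  have hone : w.re = 1 := by
    rcases lt_trichotomy w.re 1 with h | h | h
    · exfalso
      have h3 : Real.log w.re < 0 := Real.log_neg hre h
      have h4 : (1 - t) * Real.log w.re ≤ 0 :=
        mul_nonpos_of_nonneg_of_nonpos (by linarith [ht.2]) h3.le
      have h5 : t * (w.re - 1) ≤ 0 := mul_nonpos_of_nonneg_of_nonpos ht.1 (by linarith)
      have h6 : t * (w.re - 1) = 0 := by linarith
      have h7 : (1 - t) * Real.log w.re = 0 := by linarith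
      rcases mul_eq_zero.1 h6 with h8 | h8
      · rw [h8] at h7; linarith
      · linarith
    · exact h
    · exfalso
      have h3 : 0 < Real.log w.re := Real.log_pos h
      have h4 : 0 ≤ (1 - t) * Real.log w.re := mul_nonneg (by linarith [ht.2]) h3.le
      have h5 : 0 ≤ t * (w.re - 1) := mul_nonneg ht.1 (by linarith)
      have h6 : t * (w.re - 1) = 0 := by linarith
      have h7 : (1 - t) * Real.log w.re = 0 := by linarith
      rcases mul_eq_zero.1 h6 with h8 | h8
      · rw [h8] at h7; linarith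
      · linarith
  exact Complex.ext (by simpa using hone) (by simpa using him)

/-- `φ₀` is based-homotopic to the identity. -/
theorem phi0_homotopic {ι κ : Type*} [Fintype ι] [Fintype κ]
    (f : C(OnePoint ((ι → ℂ) × (κ → ℝ)), OnePoint ((ι → ℂ) × (κ → ℝ)))) (hinf : f ∞ = ∞)
    (h1 : ∀ x : (ι → ℂ) × (κ → ℝ), (∃ i, x.1 i = 0 ∨ (rad (x.1 i) : ℂ) = -1) → f x = ∞)
    (h2 : ∀ x : (ι → ℂ) × (κ → ℝ), (¬ ∃ i, x.1 i = 0 ∨ (rad (x.1 i) : ℂ) = -1) →
      f x = (gPhi x : (ι → ℂ) × (κ → ℝ))) :
    f.HomotopicRel (ContinuousMap.id _) {∞} := by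
  set x0 : (ι → ℂ) × (κ → ℝ) := (fun _ => 1, 0) with hx0
  have hball : ∀ v : (ι → ℂ) × (κ → ℝ), ‖v - x0‖ ≤ 1 / 2 → ∀ i, 0 < (v.1 i).re := by
    intro v hv i
    have h3 : ‖v.1 i - 1‖ ≤ 1 / 2 := by
      calc ‖v.1 i - 1‖ = ‖(v - x0).1 i‖ := by simp [hx0]
        _ ≤ ‖(v - x0).1‖ := norm_le_pi_norm _ i
        _ ≤ ‖v - x0‖ := norm_fst_le _
        _ ≤ 1 / 2 := hv
    have h4 := (abs_le.1 ((Complex.abs_re_le_norm (v.1 i - 1)).trans h3)).1
    simp at h4
    linarith
  have hgood : ∀ v : (ι → ℂ) × (κ → ℝ), (∀ i, 0 < (v.1 i).re) →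
      ¬ ∃ i, v.1 i = 0 ∨ (rad (v.1 i) : ℂ) = -1 := by
    rintro v hv ⟨i, h | h⟩
    · have := hv i
      rw [h] at this
      simp at this
    · have h0 : v.1 i ≠ 0 := by
        intro h0
        have := hv i
        rw [h0] at this
        simp at this
      have h3 : (rad (v.1 i) : ℂ).re = -1 := by rw [h]; simp
      rw [rad_re h0] at h3
      have h4 : 0 < (v.1 i).re / ‖v.1 i‖ := div_pos (hv i) (norm_pos_iff.2 h0)
      linarith
  have huniq : ∀ x, f x = ((0 : (ι → ℂ) × (κ → ℝ)) : OnePoint ((ι → ℂ) × (κ → ℝ))) →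
      x = (x0 : OnePoint ((ι → ℂ) × (κ → ℝ))) := by
    intro x hx
    induction x using OnePoint.rec with
    | infty => rw [hinf] at hx; exact absurd hx (OnePoint.infty_ne_coe _)
    | coe v =>
      by_cases hv : ∃ i, v.1 i = 0 ∨ (rad (v.1 i) : ℂ) = -1
      · rw [h1 v hv] at hx; exact absurd hx (OnePoint.infty_ne_coe _)
      · rw [h2 v hv, OnePoint.coe_eq_coe] at hx
        rw [OnePoint.coe_eq_coe]
        push Not at hv
        refine Prod.ext (funext fun i => ?_) ?_
        · have h3 : (gPhi v).1 i = 0 := by rw [hx]; rfl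
          have h4 := congrArg Complex.re h3
          have h5 := congrArg Complex.im h3
          exact eq_one_of_gPhi (hv i).1 (hv i).2 (by simpa [gPhi] using h4) (by
            simpa only [gPhi, Complex.zero_im] using h5)
        · have h3 : (gPhi v).2 = 0 := by rw [hx]; rfl
          exact h3
  have key := deg_homotopic f hinf x0 huniq (ContinuousLinearEquiv.refl ℝ ((ι → ℂ) × (κ → ℝ)))
    (δ := 1 / 2) (by norm_num) gPhi (fun v hv => h2 v (hgood v (hball v hv))) ?_
  · have : affC (ContinuousLinearEquiv.refl ℝ ((ι → ℂ) × (κ → ℝ))) 0 = ContinuousMap.id _ := by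
      ext x
      have h3 : (fun v : (ι → ℂ) × (κ → ℝ) =>
        (ContinuousLinearEquiv.refl ℝ ((ι → ℂ) × (κ → ℝ))) (v - 0)) = id := by
        funext v; simp
      rw [affC_apply, h3, OnePoint.map_id]
      rfl
    rw [this] at key
    exact key
  · intro v hvne hv t ht h0
    apply hvne
    have hre := hball v hv
    refine Prod.ext (funext fun i => ?_) (funext fun j => ?_)
    · have h3 := congrFun (congrArg Prod.fst h0) i
      have h4 := congrArg Complex.re h3
      have h5 := congrArg Complex.im h3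
      simp only [gPhi, hx0, ContinuousLinearEquiv.refl_apply, Prod.fst_add, Prod.smul_fst,
        Prod.fst_sub, Pi.add_apply, Pi.smul_apply, Pi.sub_apply, Complex.add_re, Complex.add_im,
        Complex.real_smul, Complex.re_ofReal_mul, Complex.im_ofReal_mul, Complex.sub_re,
        Complex.sub_im, Complex.one_re, Complex.one_im, Prod.fst_zero, Pi.zero_apply,
        Complex.zero_re, Complex.zero_im, sub_zero] at h4 h5
      exact eq_one_of_seg (hre i) ht h4 h5
    · have h3 := congrFun (congrArg Prod.snd h0) j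
      simp only [gPhi, hx0, ContinuousLinearEquiv.refl_apply, Prod.snd_add, Prod.smul_snd,
        Prod.snd_sub, Pi.add_apply, Pi.smul_apply, smul_eq_mul, Prod.snd_zero,
        Pi.zero_apply, sub_zero] at h3
      have : v.2 j = 0 := by linarith
      simpa [hx0] using this

/-- **Leaf T5-3.** -/
theorem groupMap_of_phiInput {p n : ℕ} {a : ℝ} {Y : Type*} [TopologicalSpace Y]
    {f : Y → Fin n → Fin (2 * p + 1) → ℝ} {u m l : ℕ} (h : PhiInput p n a f u m l) :
    GroupMap p n a f u m l := by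
  obtain ⟨φ, hφ, hφinf, hφ0, hφ1⟩ := h
  rcases isEmpty_or_nonempty (Fin u → Y) with hP | ⟨⟨y0⟩⟩
  · refine ⟨fun q => q.2.2, by fun_prop, fun y => (hP.false y).elim, fun y => (hP.false y).elim,
      fun y => (hP.false y).elim⟩
  · classical
    let F : C(OnePoint (EE p n u l), OnePoint (EE p n u l)) :=
      ⟨fun x => φ (y0, 0, x), by fun_prop⟩
    have hF : F.HomotopicRel (ContinuousMap.id _) {∞} := by
      refine phi0_homotopic F (hφinf y0 0) (fun x hx => ?_) (fun x hx => ?_)
      · show φ (y0, 0, (x : OnePoint (EE p n u l))) = ∞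
        rw [hφ0]
        exact if_pos hx
      · show φ (y0, 0, (x : OnePoint (EE p n u l))) = _
        rw [hφ0]
        exact if_neg hx
    obtain ⟨K⟩ := hF
    have hφ0' : ∀ y x, φ (y, 0, x) = F x := by
      intro y x
      induction x using OnePoint.rec with
      | infty => exact (hφinf y 0).trans (hφinf y0 0).symm
      | coe x =>
        show φ (y, 0, (x : OnePoint (EE p n u l))) = φ (y0, 0, (x : OnePoint (EE p n u l)))
        rw [hφ0, hφ0]
    refine ⟨fun q => if (q.2.1 : ℝ) ≤ 1 / 2 then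
        φ (q.1, Set.projIcc 0 1 zero_le_one (1 - 2 * (q.2.1 : ℝ)), q.2.2)
      else K (Set.projIcc 0 1 zero_le_one (2 * (q.2.1 : ℝ) - 1), q.2.2), ?_, ?_, ?_, ?_⟩
    · refine Continuous.if_le ?_ ?_ (by fun_prop) continuous_const ?_
      · refine hφ.comp (continuous_fst.prodMk (Continuous.prodMk ?_ (by fun_prop)))
        exact continuous_projIcc.comp (by fun_prop)
      · refine K.continuous.comp (Continuous.prodMk ?_ (by fun_prop))
        exact continuous_projIcc.comp (by fun_prop)
      · rintro ⟨y, τ, x⟩ hτ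
        simp only at hτ ⊢
        rw [hτ]
        have e1 : (1 - 2 * (1 / 2) : ℝ) = 0 := by norm_num
        have e2 : (2 * (1 / 2) - 1 : ℝ) = 0 := by norm_num
        rw [e1, e2, Set.projIcc_left]
        have := K.apply_zero x
        exact (hφ0' y x).trans this.symm
    · intro y τ
      simp only
      split_ifs
      · exact hφinf _ _
      · have h1 := K.eq_fst (Set.projIcc 0 1 zero_le_one (2 * (τ : ℝ) - 1))
          (x := (∞ : OnePoint (EE p n u l))) (by simp)
        rw [h1]
        exact hφinf y0 0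
    · intro y x
      simp only
      rw [if_neg (by norm_num)]
      have e2 : (2 * ((1 : unitInterval) : ℝ) - 1 : ℝ) = 1 := by norm_num
      rw [e2, Set.projIcc_right]
      exact K.apply_one x
    · intro y x hx
      simp only at hx
      rw [if_pos (by norm_num)] at hx
      have e1 : (1 - 2 * ((0 : unitInterval) : ℝ) : ℝ) = 1 := by norm_num
      rw [e1, Set.projIcc_right] at hx
      exact hφ1 y x hx

end Crest.Agent.R090.T5
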