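import Crest.Agent.R090.HepCut_865
import Crest.Agent.R090.T5Phi_758
import Crest.Agent.R090.T5c_513
import Crest.Agent.R090.T5Out_758
import Crest.Agent.R090.Asm_843

/-!
# Row 90, the spine (owner helper796): literal Props of the blocks and the glue between them

Part 1 : the conclusion of S0119 from the stable input `T5.SI`.
-/

set_option autoImplicit false

open Topology Filter Set

namespace Crest.Agent.R090.Spine796

open OnePoint Crest.Agent.R090.Sp962 Crest.Agent.R090.T5 Crest.OpAlg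

/-- **S0119 from the stable input.** -/
theorem result_of_SI (p n : ℕ) (hp : 1 ≤ p) (hn : 1 ≤ n) (a : ℝ) (ha : 0 < a)
    (ha' : a < 1 / 16) {Y : Type*} [TopologicalSpace Y] [CompactSpace Y] [T2Space Y]
    (f : Y → Fin n → Fin (2 * p + 1) → ℝ) (hf : Continuous f)
    (hfC : ∀ y, f y ∈ Crest.OpAlg.cube (2 * p + 1) n)
    (hSI : SI p n a f) (U : ℕ) :
    ∃ u : ℕ, U ≤ u ∧ ∃ G : (Fin u → Y) → (Fin u × Fin n → Fin (2 * p + 1) → ℝ),
      Continuous G ∧ (∀ y s k, |G y s k| ≤ 1) ∧
      (∀ y, a / 8 * (u * n : ℝ) ≤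
        (({s | Crest.OpAlg.IsBoundarySlot (G y s)} : Set (Fin u × Fin n)).ncard : ℝ)) ∧
      ∀ y (b : Fin u) (j : Fin n), Crest.OpAlg.IsBoundarySlot (f (y b) j) →
        G y (b, j) = f (y b) j := by
  obtain ⟨u, m, l, hu, hm, hΘ⟩ := HepCut865.thetaInput_of_SI hf hSI
  exact Asm_843.result_of_unstableInput p n hp hn a ha ha' f hf hfC
    (unstableInput_of_groupMap hu hm (groupMap_of_phiInput (phiInput_of_thetaInput hΘ))) U

end Crest.Agent.R090.Spine796
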