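import Crest.Agent.R090.StCat_865
import Crest.Agent.R090.F1d_541

/-!
# Row 90: the stable category: sums and the swap of two circles (helper865)
-/

set_option autoImplicit false
set_option linter.unusedSectionVars false

open Topology Filter Set CategoryTheory MonoidalCategory

noncomputable section

namespace Crest.Agent.R090.StCat865

open OnePoint Crest.Agent.R090.Sp962 Crest.Agent.R090.Grp528 Crest.Agent.R090.St528
  Crest.Agent.R090.Sm202

/-! ## sums -/

instance {A B : Type} [TopologicalSpace A] [TopologicalSpace B] [LocallyCompactSpace A]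
    [LocallyCompactSpace B] : LocallyCompactSpace (A ⊕ B) := by
  constructor
  rintro (x | x) n hn
  · have h1 : Sum.inl ⁻¹' n ∈ 𝓝 x := IsOpenEmbedding.inl.continuous.continuousAt hn
    obtain ⟨s, hs, hsn, hc⟩ := local_compact_nhds h1
    refine ⟨Sum.inl '' s, ?_, by rintro _ ⟨y, hy, rfl⟩; exact hsn hy,
      hc.image IsOpenEmbedding.inl.continuous⟩
    exact IsOpenEmbedding.inl.image_mem_nhds.2 hs
  · have h1 : Sum.inr ⁻¹' n ∈ 𝓝 x := IsOpenEmbedding.inr.continuous.continuousAt hn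
    obtain ⟨s, hs, hsn, hc⟩ := local_compact_nhds h1
    refine ⟨Sum.inr '' s, ?_, by rintro _ ⟨y, hy, rfl⟩; exact hsn hy,
      hc.image IsOpenEmbedding.inr.continuous⟩
    exact IsOpenEmbedding.inr.image_mem_nhds.2 hs

section sum

variable (A B : Type) [TopologicalSpace A] [TopologicalSpace B] [T2Space A] [T2Space B]

/-- inclusion of the first summand -/
def inlP : PMap A (A ⊕ B) := PMap.ofClosed Sum.inl IsClosedEmbedding.inl
/-- inclusion of the second summand -/
def inrP : PMap B (A ⊕ B) := PMap.ofClosed Sum.inr IsClosedEmbedding.inr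
/-- projection to the first summand -/
def prlP : PMap (A ⊕ B) A := PMap.ofOpen Sum.inl IsOpenEmbedding.inl
/-- projection to the second summand -/
def prrP : PMap (A ⊕ B) B := PMap.ofOpen Sum.inr IsOpenEmbedding.inr

theorem prlP_inlP : (prlP A B).comp (inlP A B) = PMap.id A :=
  PMap.ext fun x => PMap.ofOpen_coe _ IsOpenEmbedding.inl x

theorem prrP_inrP : (prrP A B).comp (inrP A B) = PMap.id B :=
  PMap.ext fun x => PMap.ofOpen_coe _ IsOpenEmbedding.inr x

theorem prrP_inlP : (prrP A B).comp (inlP A B) = PMap.zero A B :=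
  PMap.ext fun x => PMap.ofOpen_of_notMem _ IsOpenEmbedding.inr (by
    rintro ⟨y, hy⟩
    cases hy)

theorem prlP_inrP : (prlP A B).comp (inrP A B) = PMap.zero B A :=
  PMap.ext fun x => PMap.ofOpen_of_notMem _ IsOpenEmbedding.inl (by
    rintro ⟨y, hy⟩
    cases hy)

end sum

theorem sum (A B : LC) : ∃ (D : LC) (i₁ : A ⟶ D) (i₂ : B ⟶ D) (p₁ : D ⟶ A) (p₂ : D ⟶ B),
    i₁ ≫ p₁ = 𝟙 A ∧ i₂ ≫ p₂ = 𝟙 B ∧ i₁ ≫ p₂ = 0 ∧ i₂ ≫ p₁ = 0 := by
  refine ⟨LC.of (A ⊕ B), St.ofP (inlP A B), St.ofP (inrP A B), St.ofP (prlP A B),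
    St.ofP (prrP A B), ?_, ?_, ?_, ?_⟩
  · change (St.ofP (prlP A B)).comp (St.ofP (inlP A B)) = St.id A
    rw [← St.ofP_comp, prlP_inlP, St.ofP_id]
  · change (St.ofP (prrP A B)).comp (St.ofP (inrP A B)) = St.id B
    rw [← St.ofP_comp, prrP_inrP, St.ofP_id]
  · change (St.ofP (prrP A B)).comp (St.ofP (inlP A B)) = 0
    rw [← St.ofP_comp, prrP_inlP, St.ofP_zero]
  · change (St.ofP (prlP A B)).comp (St.ofP (inrP A B)) = 0
    rw [← St.ofP_comp, prlP_inrP, St.ofP_zero]

/-! ## the swap of two circles -/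

theorem sh_swap_io : sh (Homeomorph.prodComm Io Io) = -St.id (Io × Io) := by
  have h1 : sh (Homeomorph.prodComm ℝ ℝ) = sh ((Homeomorph.refl ℝ).prodCongr F1d541.neg) :=
    St.ofP_congr F1d541.swap_real
  have h2 : sh (Homeomorph.prodComm Io Io) =
      (sh (F1d541.RI.prodCongr F1d541.RI)).comp ((sh (Homeomorph.prodComm ℝ ℝ)).comp
        (sh (F1d541.RI.prodCongr F1d541.RI).symm)) := by
    rw [← sh_trans, ← sh_trans]
    refine sh_ext ?_
    rintro ⟨x, y⟩
    change (y, x) = (F1d541.RI (F1d541.RI.symm y), F1d541.RI (F1d541.RI.symm x))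
    rw [Homeomorph.apply_symm_apply, Homeomorph.apply_symm_apply]
  rw [h2, h1, ← sh_trans, ← sh_trans]
  have h3 : sh (((F1d541.RI.prodCongr F1d541.RI).symm.trans
      ((Homeomorph.refl ℝ).prodCongr F1d541.neg)).trans (F1d541.RI.prodCongr F1d541.RI)) =
      sh (fl Io) := by
    refine sh_ext ?_
    rintro ⟨x, y⟩
    change (F1d541.RI (F1d541.RI.symm x), F1d541.RI (-(F1d541.RI.symm y))) = (x, MC.flipIo y)
    rw [Homeomorph.apply_symm_apply, F1d541.RI_neg, Homeomorph.apply_symm_apply]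
  rw [h3]
  exact St.ofMap_fl

theorem neg_io : (β_ (LC.of Io) (LC.of Io)).hom = - 𝟙 (LC.of Io ⊗ LC.of Io) := sh_swap_io

end Crest.Agent.R090.StCat865
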