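import Crest.Agent.R090.Start_902
import Crest.Agent.R090.Strata_973
import Crest.Agent.R090.HasCells_933

/-!
# Row 90, A-START (owner helper902), part 2: powers of a finite union of complex cells
-/

set_option autoImplicit false
set_option linter.unusedSectionVars false

open Topology Filter Set OnePoint
open Crest.Agent.R090.Sp962

namespace Crest.Agent.R090.Start902

open Crest.Agent.R090.F0_933 (HasCells CellChain)
open Crest.Agent.R090.Strata973 (perm)

/-- labels of a finite union of complex cells -/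
structure Lab (V : Type) [TopologicalSpace V] (n : ℕ) where
  s : V → Fin n
  closed : ∀ i : ℕ, IsClosed {x | (s x : ℕ) ≤ i}
  dim : Fin n → ℕ
  e : ∀ i : Fin n, {x | s x = i} ≃ₜ (Fin (dim i) → ℂ)

theorem exists_lab {V : Type} [TopologicalSpace V] {n : ℕ} (h : HasCells V n) :
    Nonempty (Lab V n) := by
  classical
  obtain ⟨C⟩ := h.chain
  have hn : ∀ x : V, ∃ i, x ∈ C.F (i + 1) := fun x => ⟨n, C.mono (Nat.le_succ n) (by
    rw [C.top]; trivial)⟩
  have hlt : ∀ x : V, Nat.find (hn x) < n := by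
    intro x
    have hx : x ∈ C.F n := by rw [C.top]; trivial
    rcases n with _ | n
    · rw [C.zero] at hx; exact hx.elim
    · exact Nat.lt_succ_of_le (Nat.find_min' (hn x) hx)
  have hle : ∀ (x : V) (i : ℕ), Nat.find (hn x) ≤ i ↔ x ∈ C.F (i + 1) := by
    intro x i
    constructor
    · intro h
      exact C.mono (Nat.succ_le_succ h) (Nat.find_spec (hn x))
    · intro h
      exact Nat.find_min' (hn x) h
  have heq : ∀ (x : V) (i : ℕ), Nat.find (hn x) = i ↔ x ∈ C.F (i + 1) \ C.F i := by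
    intro x i
    constructor
    · intro h
      refine ⟨(hle x i).1 h.le, ?_⟩
      rcases i with _ | i
      · rw [C.zero]; exact fun h => h.elim
      · intro h'
        have := (hle x i).2 h'
        omega
    · rintro ⟨h1, h2⟩
      have h3 := (hle x i).2 h1
      rcases i with _ | i
      · omega
      · have : ¬ Nat.find (hn x) ≤ i := fun h => h2 ((hle x i).1 h)
        omega
  refine ⟨⟨fun x => ⟨Nat.find (hn x), hlt x⟩, ?_, fun i => C.dim i, fun i => ?_⟩⟩
  · intro i
    have : {x : V | ((⟨Nat.find (hn x), hlt x⟩ : Fin n) : ℕ) ≤ i} = C.F (i + 1) := by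
      ext x
      exact hle x i
    rw [this]
    exact C.closed _
  · have : {x : V | (⟨Nat.find (hn x), hlt x⟩ : Fin n) = i} = C.F (i + 1) \ C.F i := by
      ext x
      rw [← heq x i]
      exact Fin.ext_iff
    exact (Homeomorph.setCongr this).trans (C.cell i i.2).some

section power

variable {V : Type} [TopologicalSpace V] [T2Space V] [LocallyCompactSpace V] {n : ℕ} (Λ : Lab V n)
  {κ : Type} [Fintype κ] [DecidableEq κ]

/-- the word of a point of the power -/
def Lab.st (x : κ → V) : κ → Fin n := fun k => Λ.s (x k)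

/-- height of a word -/
def hgt (w : κ → Fin n) : ℕ := ∑ k, (w k : ℕ)

theorem Lab.isClosed_box (w : κ → ℕ) : IsClosed {x : κ → V | ∀ k, (Λ.s (x k) : ℕ) ≤ w k} := by
  have : {x : κ → V | ∀ k, (Λ.s (x k) : ℕ) ≤ w k} =
      ⋂ k, (fun x : κ → V => x k) ⁻¹' {v | (Λ.s v : ℕ) ≤ w k} := by
    ext x; simp
  rw [this]
  exact isClosed_iInter fun k => (Λ.closed _).preimage (continuous_apply k)

theorem Lab.isStrat : IsStrat (Λ.st : (κ → V) → κ → Fin n) hgt := by
  constructor
  · intro l
    have : {x : κ → V | hgt (Λ.st x) ≤ l} =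
        ⋃ w : {w : κ → Fin n // hgt w ≤ l}, {x : κ → V | ∀ k, (Λ.s (x k) : ℕ) ≤ (w.1 k : ℕ)} := by
      ext x
      simp only [mem_iUnion]
      constructor
      · intro hx
        exact ⟨⟨Λ.st x, hx⟩, fun k => le_rfl⟩
      · rintro ⟨w, hw⟩
        exact (Finset.sum_le_sum fun k _ => hw k).trans w.2
    rw [this]
    exact isClosed_iUnion_of_finite fun w => Λ.isClosed_box _
  · intro w
    refine ⟨{x : κ → V | ∀ k, (Λ.s (x k) : ℕ) ≤ (w k : ℕ)}, Λ.isClosed_box _, ?_⟩
    ext x
    constructor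
    · intro hx
      have hx' : Λ.st x = w := hx
      refine ⟨fun k => ?_, ?_⟩
      · rw [← hx']; exact le_rfl
      · change hgt (Λ.st x) = hgt w
        rw [hx']
    · rintro ⟨h1, h2⟩
      have h3 : ∑ k, ((Λ.st x k : Fin n) : ℕ) = ∑ k, (w k : ℕ) := h2
      have h4 := (Finset.sum_eq_sum_iff_of_le (fun k _ => h1 k)).1 h3
      change Λ.st x = w
      funext k
      exact Fin.ext (h4 k (Finset.mem_univ k))

/-- the stratum of a word is a vector space -/
noncomputable def Lab.strHomeo (w : κ → Fin n) :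
    {x : κ → V | Λ.st x = w} ≃ₜ (∀ k, Fin (Λ.dim (w k)) → ℂ) where
  toFun x := fun k => Λ.e (w k) ⟨x.1 k, congrFun x.2 k⟩
  invFun y := ⟨fun k => ((Λ.e (w k)).symm (y k)).1, funext fun k => ((Λ.e (w k)).symm (y k)).2⟩
  left_inv x := by
    apply Subtype.ext
    funext k
    simp
  right_inv y := by
    funext k
    simp
  continuous_toFun := by
    refine continuous_pi fun k => (Λ.e (w k)).continuous.comp ?_
    exact Continuous.subtype_mk ((continuous_apply k).comp continuous_subtype_val) _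
  continuous_invFun := by
    refine Continuous.subtype_mk (continuous_pi fun k => ?_) _
    exact continuous_subtype_val.comp ((Λ.e (w k)).symm.continuous.comp (continuous_apply k))

/-- casting -/
noncomputable def castE (d : Fin n → ℕ) {i j : Fin n} (h : i = j) : (Fin (d i) → ℂ) ≃ₗ[ℂ] (Fin (d j) → ℂ) :=
  h ▸ LinearEquiv.refl ℂ _

theorem Lab.castE_e {i j : Fin n} (h : i = j) (v : V) (hi : Λ.s v = i) (hj : Λ.s v = j) :
    castE Λ.dim h (Λ.e i ⟨v, hi⟩) = Λ.e j ⟨v, hj⟩ := by
  subst h
  rfl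

/-- the linear map on a fixed stratum -/
noncomputable def linPerm (d : Fin n → ℕ) (σ : Equiv.Perm κ) (w : κ → Fin n) (h : ∀ k, w k = w (σ k)) :
    (∀ k, Fin (d (w k)) → ℂ) ≃ₗ[ℂ] (∀ k, Fin (d (w k)) → ℂ) :=
  (LinearEquiv.piCongrRight fun k => castE d (h k)).trans
    (LinearEquiv.piCongrLeft ℂ (fun k => Fin (d (w k)) → ℂ) σ)

theorem linPerm_apply (d : Fin n → ℕ) (σ : Equiv.Perm κ) (w : κ → Fin n) (h : ∀ k, w k = w (σ k))
    (y : ∀ k, Fin (d (w k)) → ℂ) (k : κ) : linPerm d σ w h y (σ k) = castE d (h k) (y k) := by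
  rw [linPerm, LinearEquiv.trans_apply]
  exact Equiv.piCongrLeft_apply_apply (fun k => Fin (d (w k)) → ℂ) σ _ k

variable {F : Type*} [Field F] (T : LTh F)

theorem LTh.vec (E : Type) [NormedAddCommGroup E] [NormedSpace ℂ E] [FiniteDimensional ℂ E]
    [LocallyCompactSpace E] : T.Fd E ∧ T.L (PMap.id E) = 1 := by
  have e : (Fin (Module.finrank ℂ E) → ℂ) ≃L[ℂ] E :=
    ContinuousLinearEquiv.ofFinrankEq (by simp)
  refine ⟨T.fd_homeo e.toHomeomorph (T.fd_cell _), ?_⟩
  have h := T.L_ofHomeo_conj e.toHomeomorph (Homeomorph.refl _) (Homeomorph.refl _)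
    (fun x => rfl) (T.fd_cell _)
  rw [PMap.ofHomeo_refl, PMap.ofHomeo_refl] at h
  rw [h, T.L_cell]

theorem LTh.L_lin (E : Type) [NormedAddCommGroup E] [NormedSpace ℂ E] [FiniteDimensional ℂ E]
    [LocallyCompactSpace E] (A : E ≃L[ℂ] E) : T.L (PMap.ofHomeo A.toHomeomorph) = 1 := by
  rw [T.L_homotopic (Lin202.homotopic_id A), (T.vec E).2]

include Λ in
/-- **the Lefschetz number of a permutation of the coordinates is the number of fixed words** -/
theorem LTh.L_perm (σ : Equiv.Perm κ) : T.Fd (κ → V) ∧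
    T.L (PMap.ofHomeo (perm (X := V) σ)) =
      ((Finset.univ.filter fun w : κ → Fin n => w ∘ σ = w).card : F) := by
  have hfd : ∀ (w : κ → Fin n) [LocallyCompactSpace {x : κ → V | Λ.st x = w}],
      T.Fd {x : κ → V | Λ.st x = w} := fun w _ =>
    T.fd_homeo (Λ.strHomeo w).symm (T.vec _).1
  have hτ : ∀ w : κ → Fin n, (Equiv.arrowCongr σ (Equiv.refl (Fin n))) w = w ↔ w ∘ σ = w := by
    intro w
    constructor
    · intro h
      funext k
      have := congrFun h (σ k)
      change w (σ.symm (σ k)) = w (σ k) at this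
      rw [Equiv.symm_apply_apply] at this
      exact this.symm
    · intro h
      funext k
      change w (σ.symm k) = w k
      conv_rhs => rw [← σ.apply_symm_apply k]
      exact (congrFun h (σ.symm k)).symm
  have hc : ∀ (w : κ → Fin n) [LocallyCompactSpace {x : κ → V | Λ.st x = w}]
      (h : ∀ x, x ∈ {x : κ → V | Λ.st x = w} ↔ perm (X := V) σ x ∈ {x : κ → V | Λ.st x = w}),
      T.L (PMap.ofHomeo (rst (perm (X := V) σ) {x : κ → V | Λ.st x = w} h)) =
        if w ∘ σ = w then 1 else 0 := by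
    intro w _ h
    by_cases hw : w ∘ σ = w
    · rw [if_pos hw]
      have hk : ∀ k, w k = w (σ k) := fun k => (congrFun hw k).symm
      rw [← T.L_lin _ (linPerm Λ.dim σ w hk).toContinuousLinearEquiv]
      symm
      refine T.L_ofHomeo_conj (Λ.strHomeo w) _ _ (fun x => ?_) (hfd w)
      funext k'
      obtain ⟨k, rfl⟩ := σ.surjective k'
      change linPerm Λ.dim σ w hk (Λ.strHomeo w x) (σ k) = _
      rw [linPerm_apply]
      have hx : Λ.s (x.1 k) = w k := congrFun x.2 k
      refine (Λ.castE_e (hk k) (x.1 k) hx (hx.trans (hk k))).trans ?_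
      have e1 : ((rst (perm (X := V) σ) {x : κ → V | Λ.st x = w} h x).1 : κ → V) (σ k) = x.1 k := by
        change x.1 (σ.symm (σ k)) = x.1 k
        rw [Equiv.symm_apply_apply]
      change _ = Λ.e (w (σ k)) ⟨(rst (perm (X := V) σ) {x : κ → V | Λ.st x = w} h x).1 (σ k), _⟩
      congr 1
      exact Subtype.ext e1.symm
    · rw [if_neg hw]
      have : IsEmpty {x : κ → V | Λ.st x = w} := by
        refine ⟨fun x => hw ((hτ w).1 ?_)⟩
        have h1 : Λ.st (perm (X := V) σ x.1) = w := (h x.1).1 x.2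
        have h2 : Λ.st x.1 = w := x.2
        have h3 : Λ.st (perm (X := V) σ x.1) =
          (Equiv.arrowCongr σ (Equiv.refl (Fin n))) (Λ.st x.1) := rfl
        rw [h1, h2] at h3
        exact h3.symm
      rw [T.L_empty]
  obtain ⟨h1, h2⟩ := T.L_strat Λ.isStrat (perm (X := V) σ) (Equiv.arrowCongr σ (Equiv.refl (Fin n)))
    (fun x => rfl) (fun w => Equiv.sum_comp σ.symm fun k => (w k : ℕ)) hfd
    (fun w => if w ∘ σ = w then 1 else 0) hc
  refine ⟨h1, ?_⟩
  rw [h2, Finset.card_filter]
  push_cast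
  refine Finset.sum_congr rfl fun w _ => ?_
  by_cases hw : w ∘ σ = w
  · rw [if_pos ((hτ w).2 hw)]
  · rw [if_neg hw, ite_self]

end power

end Crest.Agent.R090.Start902
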