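import Crest.Agent.R090.Start2_902
import Crest.Agent.R090.CohT_253
import Crest.Agent.R090.Young_152

/-!
# Row 90, A-START (owner helper902), part 3: Lefschetz numbers of a theory `Coh` (helper253) and the
trace of the Young element
-/

set_option autoImplicit false
set_option linter.unusedSectionVars false

open Topology Filter Set OnePoint
open Crest.Agent.R090.Sp962

namespace Crest.Agent.R090.Start902

open Crest.Agent.R090.F0_933 (HasCells)
open Crest.Agent.R090.Strata973 (perm)
open Crest.Agent.R090.CohT253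

universe v w

variable {F : Type w} [Field F] (H : Coh.{0, v, w} F)

section clopen

variable {U : Type} [TopologicalSpace U] [T2Space U] [LocallyCompactSpace U]

/-- restriction to a clopen part, as a self map -/
noncomputable def clp (A : Set U) (hA : IsClopen A) : PMap U U :=
  (PMap.ofClosed (Subtype.val : A → U) hA.1.isClosedEmbedding_subtypeVal).comp
    (PMap.ofOpen (Subtype.val : A → U) hA.2.isOpenEmbedding_subtypeVal)

theorem clp_mem {A : Set U} (hA : IsClopen A) {x : U} (hx : x ∈ A) :
    clp A hA (x : OnePoint U) = x := by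
  have h : PMap.ofOpen (Subtype.val : A → U) hA.2.isOpenEmbedding_subtypeVal (x : OnePoint U) =
      ((⟨x, hx⟩ : A) : OnePoint A) :=
    PMap.ofOpen_coe (Subtype.val : A → U) hA.2.isOpenEmbedding_subtypeVal ⟨x, hx⟩
  rw [clp, PMap.comp_apply, h]
  rfl

theorem clp_notMem {A : Set U} (hA : IsClopen A) {x : U} (hx : x ∉ A) :
    clp A hA (x : OnePoint U) = ∞ := by
  have h : PMap.ofOpen (Subtype.val : A → U) hA.2.isOpenEmbedding_subtypeVal (x : OnePoint U) = ∞ :=
    PMap.ofOpen_of_notMem (Subtype.val : A → U) hA.2.isOpenEmbedding_subtypeVal (by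
      rintro ⟨y, rfl⟩; exact hx y.2)
  rw [clp, PMap.comp_apply, h]
  rfl

theorem clp_comp {A B : Set U} (hA : IsClopen A) (hB : IsClopen B) :
    (clp A hA).comp (clp B hB) = clp (A ∩ B) (hA.inter hB) := by
  refine PMap.ext fun x => ?_
  rw [PMap.comp_apply]
  by_cases hb : x ∈ B
  · rw [clp_mem hB hb]
    by_cases ha : x ∈ A
    · rw [clp_mem hA ha, clp_mem (hA.inter hB) ⟨ha, hb⟩]
    · rw [clp_notMem hA ha, clp_notMem (hA.inter hB) (fun h => ha h.1)]
  · rw [clp_notMem hB hb, clp_notMem (hA.inter hB) (fun h => hb h.2), PMap.map_inf]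

theorem clp_congr {A B : Set U} (hA : IsClopen A) (hB : IsClopen B) (h : A = B) :
    clp A hA = clp B hB := by subst h; rfl

theorem clp_empty : clp (∅ : Set U) isClopen_empty = PMap.zero U U :=
  PMap.ext fun x => clp_notMem isClopen_empty (by simp)

theorem clp_univ : clp (univ : Set U) isClopen_univ = PMap.id U :=
  PMap.ext fun x => clp_mem isClopen_univ (by simp)

/-- the decomposition of a space in a clopen set and its complement -/
def decClopen (A : Set U) (hA : IsClopen A) : Dec A U (Aᶜ : Set U) where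
  i := Subtype.val
  hi := hA.1.isClosedEmbedding_subtypeVal
  j := Subtype.val
  hj := hA.compl.2.isOpenEmbedding_subtypeVal
  compl := by rw [Subtype.range_coe, Subtype.range_coe]

theorem map_clp_add_compl (A : Set U) (hA : IsClopen A) (x : H.h U) :
    H.map (clp A hA) x + H.map (clp Aᶜ hA.compl) x = x := by
  set iA := PMap.ofClosed (Subtype.val : A → U) hA.1.isClosedEmbedding_subtypeVal with hiA
  set pA := PMap.ofOpen (Subtype.val : A → U) hA.2.isOpenEmbedding_subtypeVal with hpA
  set iB := PMap.ofClosed (Subtype.val : (Aᶜ : Set U) → U)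
    hA.compl.1.isClosedEmbedding_subtypeVal with hiB
  set pB := PMap.ofOpen (Subtype.val : (Aᶜ : Set U) → U)
    hA.compl.2.isOpenEmbedding_subtypeVal with hpB
  have e1 : pA.comp iA = PMap.id A := PMap.ext fun a =>
    PMap.ofOpen_coe (Subtype.val : A → U) hA.2.isOpenEmbedding_subtypeVal a
  have e2 : pA.comp iB = PMap.zero _ _ := PMap.ext fun a =>
    PMap.ofOpen_of_notMem (Subtype.val : A → U) hA.2.isOpenEmbedding_subtypeVal (by
      rintro ⟨y, hy⟩; exact a.2 (hy ▸ y.2))
  have e3 : pB.comp iB = PMap.id _ := PMap.ext fun a =>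
    PMap.ofOpen_coe (Subtype.val : (Aᶜ : Set U) → U) hA.compl.2.isOpenEmbedding_subtypeVal a
  have hex := H.exactU (decClopen A hA)
  have hker : H.map iA (x - H.map pA (H.map iA x)) = 0 := by
    rw [map_sub, ← H.map_comp pA iA, e1, H.map_id, sub_self]
  obtain ⟨y, hy⟩ := (hex _).1 hker
  have hy' : H.map pB y = x - H.map pA (H.map iA x) := hy
  have h4 : H.map iB x = y := by
    have h5 : H.map iB (H.map pB y) = y := by rw [← H.map_comp pB iB, e3, H.map_id]
    rw [hy', map_sub, ← H.map_comp pA iB, e2, H.map_zero', sub_zero] at h5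
    exact h5
  have h6 : H.map (clp A hA) x = H.map pA (H.map iA x) := H.map_comp iA pA x
  have h7 : H.map (clp Aᶜ hA.compl) x = H.map pB (H.map iB x) := H.map_comp iB pB x
  rw [h6, h7, h4, hy']
  abel

theorem map_clp_union {A B : Set U} (hA : IsClopen A) (hB : IsClopen B) (hd : Disjoint A B)
    (x : H.h U) : H.map (clp (A ∪ B) (hA.union hB)) x =
      H.map (clp A hA) x + H.map (clp B hB) x := by
  have e1 : (A ∪ B) ∩ A = A := inter_eq_right.2 subset_union_left
  have e2 : (A ∪ B) ∩ Aᶜ = B := by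
    ext z
    constructor
    · rintro ⟨h | h, h'⟩
      · exact absurd h h'
      · exact h
    · intro h
      exact ⟨Or.inr h, fun h' => hd.le_bot ⟨h', h⟩⟩
  have h1 := map_clp_add_compl H A hA (H.map (clp (A ∪ B) (hA.union hB)) x)
  rw [← H.map_comp, ← H.map_comp, clp_comp, clp_comp,
    clp_congr ((hA.union hB).inter hA) hA e1, clp_congr ((hA.union hB).inter hA.compl) hB e2] at h1
  exact h1.symm

theorem map_clp_biUnion {κ : Type} (A : κ → Set U) (hA : ∀ w, IsClopen (A w))
    (hd : ∀ w w', w ≠ w' → Disjoint (A w) (A w')) (s : Finset κ)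
    (hs : IsClopen (⋃ w ∈ s, A w)) (x : H.h U) :
    H.map (clp (⋃ w ∈ s, A w) hs) x = ∑ w ∈ s, H.map (clp (A w) (hA w)) x := by
  classical
  induction s using Finset.induction_on with
  | empty =>
    rw [clp_congr hs isClopen_empty (by simp), clp_empty, H.map_zero', Finset.sum_empty]
  | insert a s ha ih =>
    have hs' : IsClopen (⋃ w ∈ s, A w) :=
      s.finite_toSet.isClopen_biUnion fun w _ => hA w
    rw [Finset.sum_insert ha, ← ih hs', ← map_clp_union H (hA a) hs']
    · rw [clp_congr hs ((hA a).union hs') (by simp)]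
    · rw [Set.disjoint_iUnion₂_right]
      intro w hw
      exact hd _ _ (fun h => ha (h ▸ hw))

theorem sum_map_clp {κ : Type} [Fintype κ] (A : κ → Set U) (hA : ∀ w, IsClopen (A w))
    (h : ∀ x, ∃! w, x ∈ A w) (x : H.h U) : ∑ w, H.map (clp (A w) (hA w)) x = x := by
  have hd : ∀ w w', w ≠ w' → Disjoint (A w) (A w') := by
    intro w w' hne
    rw [Set.disjoint_left]
    intro x h1 h2
    obtain ⟨w0, _, hu⟩ := h x
    exact hne ((hu w h1).trans (hu w' h2).symm)
  have hs : (⋃ w ∈ (Finset.univ : Finset κ), A w) = univ := by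
    ext x
    simp only [Finset.mem_univ, iUnion_true, mem_iUnion, mem_univ, iff_true]
    exact (h x).exists
  have hs' : IsClopen (⋃ w ∈ (Finset.univ : Finset κ), A w) := by rw [hs]; exact isClopen_univ
  rw [← map_clp_biUnion H A hA hd Finset.univ hs', clp_congr hs' isClopen_univ hs, clp_univ,
    H.map_id]

theorem fin_parts {κ : Type} [Finite κ] (A : κ → Set U) (hA : ∀ w, IsClopen (A w))
    (h : ∀ x, ∃! w, x ∈ A w) (hf : ∀ w, H.Fin (A w)) : H.Fin U := by
  have := Fintype.ofFinite κ
  have : ∀ w, FiniteDimensional F (H.h (A w)) := hf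
  let φ : H.h U →ₗ[F] (∀ w, H.h (A w)) := LinearMap.pi fun w =>
    H.map (PMap.ofClosed (Subtype.val : A w → U) (hA w).1.isClosedEmbedding_subtypeVal)
  refine FiniteDimensional.of_injective φ ?_
  intro x y hxy
  rw [← sum_map_clp H A hA h x, ← sum_map_clp H A hA h y]
  refine Finset.sum_congr rfl fun w _ => ?_
  rw [clp, H.map_comp, H.map_comp]
  exact congrArg _ (congrFun hxy w)

theorem coh_L_parts {κ : Type} [Fintype κ] (A : κ → Set U) (hA : ∀ w, IsClopen (A w))
    (h : ∀ x, ∃! w, x ∈ A w) (hf : ∀ w, H.Fin (A w)) (f : PMap U U) :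
    H.L f = ∑ w, H.L ((PMap.ofOpen (Subtype.val : A w → U)
      (hA w).2.isOpenEmbedding_subtypeVal).comp (f.comp (PMap.ofClosed (Subtype.val : A w → U)
      (hA w).1.isClosedEmbedding_subtypeVal))) := by
  have hU : FiniteDimensional F (H.h U) := fin_parts H A hA h hf
  have e1 : H.T f = ∑ w, (H.eps U ∘ₗ H.map f ∘ₗ H.map (PMap.ofOpen (Subtype.val : A w → U)
      (hA w).2.isOpenEmbedding_subtypeVal)) ∘ₗ H.map (PMap.ofClosed (Subtype.val : A w → U)
      (hA w).1.isClosedEmbedding_subtypeVal) := by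
    ext x
    rw [LinearMap.sum_apply, Coh.T_apply]
    conv_lhs => rw [← sum_map_clp H A hA h x]
    rw [map_sum, map_sum]
    refine Finset.sum_congr rfl fun w _ => ?_
    rw [clp, H.map_comp]
    rfl
  rw [Coh.L, e1, map_sum]
  refine Finset.sum_congr rfl fun w _ => ?_
  have hw : FiniteDimensional F (H.h (A w)) := hf w
  rw [LinearMap.trace_comp_comm', Coh.L]
  congr 1
  ext x
  rw [Coh.T_apply, H.map_comp, H.map_comp]
  exact (H.eps_map _ _).symm

end clopen

/-- the Lefschetz numbers of a theory satisfy `LTh` -/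
noncomputable def LTh.ofCoh
    (hhom : ∀ {U : Type} [TopologicalSpace U] [T2Space U] [LocallyCompactSpace U] {f g : PMap U U},
      f.Homotopic g → H.map f = H.map g)
    (hemp : ∀ (U : Type) [TopologicalSpace U] [T2Space U] [LocallyCompactSpace U] [IsEmpty U],
      H.Fin U)
    (hcell : ∀ m : ℕ, H.Fin (Fin m → ℂ)) (hL : ∀ m : ℕ, H.L (PMap.id (Fin m → ℂ)) = 1) :
    LTh F where
  Fd U _ _ _ := H.Fin U
  L f := H.L f
  fd_empty U _ _ _ _ := hemp U
  fd_cell := hcell
  fd_homeo e hU := Coh.Fin.of_iso H (f := PMap.ofHomeo e.symm) (g := PMap.ofHomeo e)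
    (PMap.ofHomeo_comp_symm e) hU
  L_zero := by
    intro U _ _ _
    have : H.T (PMap.zero U U) = 0 := by
      ext x
      rw [Coh.T_apply, H.map_zero', map_zero]
      rfl
    rw [Coh.L, this, map_zero]
  L_cell := hL
  L_homotopic := by
    intro U _ _ _ f g h
    rw [Coh.L, Coh.L, Coh.T, Coh.T, hhom h]
  L_comm f g hU hV := H.L_comm hU hV f g
  fd_pair i hi j hj hij hK hO := Coh.Fin.of_dec H ⟨i, hi, j, hj, hij⟩ hK hO
  L_pair := by
    intro K U O _ _ _ _ _ _ _ _ _ i hi j hj hij hK hO f fK fO h1 h2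
    exact Coh.L_dec H (D := ⟨i, hi, j, hj, hij⟩) ⟨fK, f, fO, h1, h2⟩
      (Coh.Fin.of_dec H ⟨i, hi, j, hj, hij⟩ hK hO) hK hO
  fd_parts := by
    intro U κ _ _ _ _ A hA h hf
    exact fin_parts H A hA h fun w => by
      have : LocallyCompactSpace (A w) := (hA w).1.isLocallyClosed.locallyCompactSpace
      exact hf w
  L_parts := by
    intro U κ _ _ _ _ A hA h hf f c hc
    rw [coh_L_parts H A hA h (fun w => by
      have : LocallyCompactSpace (A w) := (hA w).1.isLocallyClosed.locallyCompactSpace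
      exact hf w) f]
    refine Finset.sum_congr rfl fun w _ => ?_
    have : LocallyCompactSpace (A w) := (hA w).1.isLocallyClosed.locallyCompactSpace
    exact hc w

end Crest.Agent.R090.Start902
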