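import Crest.Agent.R090.Start3_902

/-!
# Row 90, A-START (owner helper902), part 4: traces of the powers of the Young element
-/

set_option autoImplicit false
set_option linter.unusedSectionVars false

open Topology Filter Set OnePoint
open Crest.Agent.R090.Sp962

namespace Crest.Agent.R090.Start902

open Crest.Agent.R090.F0_933 (HasCells)
open Crest.Agent.R090.Strata973 (perm)
open Crest.Agent.R090.CohT253
open Crest.Agent.R090.Young152 (yr yF yF_sq_map trace_fin)

universe v w

variable {F : Type w} [Field F] (H : Coh.{0, v, w} F)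

section young

variable (V : Type) [TopologicalSpace V] [T2Space V] [LocallyCompactSpace V] (D c : ℕ)

/-- the operator of the Young element on the cohomology of `V^r` -/
noncomputable def yE : Module.End F (H.h (Fin (yr D c) → V)) :=
  ∑ g : Equiv.Perm (Fin (yr D c)), (yF D c).coeff g •
    H.map (PMap.ofHomeo (perm (X := V) g))

/-- the (anti)representation -/
noncomputable def rhoOp : Equiv.Perm (Fin (yr D c)) →* (Module.End F (H.h (Fin (yr D c) → V)))ᵐᵒᵖ where
  toFun g := MulOpposite.op (H.map (PMap.ofHomeo (perm (X := V) g)))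
  map_one' := by
    rw [← MulOpposite.op_one]
    congr 1
    have e : PMap.ofHomeo (perm (X := V) (1 : Equiv.Perm (Fin (yr D c)))) = PMap.id _ :=
      PMap.ext fun _ => rfl
    rw [e]
    ext x
    exact H.map_id _ x
  map_mul' g h := by
    rw [← MulOpposite.op_mul]
    congr 1
    have e : PMap.ofHomeo (perm (X := V) (g * h)) =
        (PMap.ofHomeo (perm (X := V) g)).comp (PMap.ofHomeo (perm (X := V) h)) :=
      PMap.ext fun _ => rfl
    rw [e]
    ext x
    exact H.map_comp (PMap.ofHomeo (perm (X := V) g)) (PMap.ofHomeo (perm (X := V) h)) x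

theorem yE_sq : yE H V D c * yE H V D c = Young152.M D c • yE H V D c := by
  have h := yF_sq_map (rhoOp H V D c)
  have e : (∑ g : Equiv.Perm (Fin (yr D c)), (yF D c).coeff g • rhoOp H V D c g) =
      MulOpposite.op (yE H V D c) := by
    have h2 := map_sum (MulOpposite.opAddEquiv (α := Module.End F (H.h (Fin (yr D c) → V))))
      (fun g : Equiv.Perm (Fin (yr D c)) => (yF D c).coeff g •
        H.map (PMap.ofHomeo (perm (X := V) g))) Finset.univ
    exact h2.symm
  rw [e, ← MulOpposite.op_mul, ← MulOpposite.op_smul] at h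
  exact MulOpposite.op_injective h

theorem yE_pow (j : ℕ) : yE H V D c ^ (j + 1) = Young152.M D c ^ j • yE H V D c := by
  induction j with
  | zero => simp
  | succ j ih =>
    rw [pow_succ, ih, smul_mul_assoc, yE_sq, smul_smul, pow_succ]

end young

section trace

variable {V : Type} [TopologicalSpace V] [T2Space V] [LocallyCompactSpace V] {D c n : ℕ}

theorem yE_trace (Λ : Lab V n)
    (hhom : ∀ {U : Type} [TopologicalSpace U] [T2Space U] [LocallyCompactSpace U] {f g : PMap U U},
      f.Homotopic g → H.map f = H.map g)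
    (hemp : ∀ (U : Type) [TopologicalSpace U] [T2Space U] [LocallyCompactSpace U] [IsEmpty U],
      H.Fin U)
    (hcell : ∀ m : ℕ, H.Fin (Fin m → ℂ)) (hL : ∀ m : ℕ, H.L (PMap.id (Fin m → ℂ)) = 1)
    (hq : (c + 1).Prime) (hD : D ≤ n) :
    H.Fin (Fin (yr D c) → V) ∧ ∃ k : ℕ, 0 < k ∧ ∀ j : ℕ,
      LinearMap.trace F _ (H.eps (Fin (yr D c) → V) ∘ₗ (yE H V D c ^ (j + 1))) =
        ((Young152.M D c ^ (j + 1) * k : ℤ) : F) := by
  classical
  let T : LTh F := LTh.ofCoh H hhom hemp hcell hL
  obtain ⟨k, hk, htr⟩ := trace_fin (D := D) (c := c) (ι := Fin n) hq (by simpa using hD)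
  refine ⟨(T.L_perm Λ (κ := Fin (yr D c)) 1).1, k, hk, fun j => ?_⟩
  have h1 : LinearMap.trace F _ (H.eps (Fin (yr D c) → V) ∘ₗ yE H V D c) =
      ((Young152.M D c * k : ℤ) : F) := by
    have e0 : H.eps (Fin (yr D c) → V) ∘ₗ yE H V D c = ∑ g : Equiv.Perm (Fin (yr D c)),
        H.eps (Fin (yr D c) → V) ∘ₗ ((yF D c).coeff g •
          H.map (PMap.ofHomeo (perm (X := V) g))) := by
      ext x
      rw [LinearMap.comp_apply, yE, LinearMap.sum_apply, LinearMap.sum_apply, map_sum]
      rfl
    rw [← htr, e0, map_sum]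
    push_cast
    refine Finset.sum_congr rfl fun g _ => ?_
    have e1 : H.eps (Fin (yr D c) → V) ∘ₗ ((yF D c).coeff g •
        H.map (PMap.ofHomeo (perm (X := V) g))) =
        (yF D c).coeff g • H.T (PMap.ofHomeo (perm (X := V) g)) := by
      ext x
      rw [LinearMap.comp_apply, LinearMap.smul_apply, LinearMap.smul_apply, map_zsmul]
      rfl
    have e2 : H.L (PMap.ofHomeo (perm (X := V) g)) =
        ((Finset.univ.filter fun w : Fin (yr D c) → Fin n => w ∘ g = w).card : F) :=
      (T.L_perm Λ g).2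
    rw [e1, map_zsmul]
    change (yF D c).coeff g • H.L (PMap.ofHomeo (perm (X := V) g)) = _
    rw [e2, zsmul_eq_mul, Fintype.card_subtype]
  have e3 : H.eps (Fin (yr D c) → V) ∘ₗ (yE H V D c ^ (j + 1)) =
      (Young152.M D c ^ j) • (H.eps (Fin (yr D c) → V) ∘ₗ yE H V D c) := by
    rw [yE_pow]
    ext x
    rw [LinearMap.comp_apply, LinearMap.smul_apply, LinearMap.smul_apply, map_zsmul]
    rfl
  rw [e3, map_zsmul, h1, zsmul_eq_mul, ← Int.cast_mul, pow_succ]
  congr 1
  ring

end trace

end Crest.Agent.R090.Start902
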