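import Crest.Agent.R090.Start4_902
import Crest.Agent.R090.Kun_493
import Crest.Agent.R090.HSt_285
import Crest.Agent.R090.SmIso_528
import Crest.Agent.R090.SpineDefs_796
import Crest.Agent.R090.PowA_253

/-!
# Row 90, A-START (owner helper902), part 5: the starting object of block (A)

* `hst_npow`, `Lst_npow`, `Lst_mk` : Lefschetz numbers of powers and of level-`n` representatives;
* `start` : the Young element on `V^r` has a level-`n` representative
  `φ : PMap (V^r × ℂ^n) (V^r × ℂ^n)` with `L (φ^(j+1)) = M^(j+1) k`, `k > 0`;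
* `start_lim` : its powers have the `q`-adic limit `k ≠ 0`.
-/

set_option autoImplicit false
set_option linter.unusedSectionVars false

open Topology Filter Set OnePoint
open Crest.Agent.R090.Sp962

namespace Crest.Agent.R090.Start902

open Crest.Agent.R090.F0_933 (HasCells)
open Crest.Agent.R090.Strata973 (perm)
open Crest.Agent.R090.CohT253 Crest.Agent.R090.HSt285 Crest.Agent.R090.Kun493
open Crest.Agent.R090.St528 Crest.Agent.R090.Grp528 Crest.Agent.R090.Spine
open Crest.Agent.R090.Dens255 (iter iter_succ)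
open Crest.Agent.R090.Young152 (yr yF)

variable {F : Type} [Field F] (H : CohX F)

section lst

variable {X : Type} [TopologicalSpace X] [T2Space X] [LocallyCompactSpace X]

theorem hst_npow (a : St X X) (j : ℕ) : H.hst (npow a j) = (H.hst a) ^ j := by
  induction j with
  | zero =>
    ext x
    rw [pow_zero]
    exact H.hst_id x
  | succ j ih =>
    ext x
    change H.hst ((npow a j).comp a) x = _
    rw [H.hst_comp, ih, pow_succ']
    rfl

theorem Lst_npow (a : St X X) (j : ℕ) :
    H.Lst (npow a j) = LinearMap.trace F _ (H.eps X ∘ₗ (H.hst a) ^ j) := by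
  rw [CohX.Lst, hst_npow]

theorem mk_iter {n : ℕ} (f : PMap (S X n) (S X n)) (j : ℕ) :
    St.mk n (iter f j) = npow (St.mk n f) j := by
  induction j with
  | zero => exact St.of_h1 n
  | succ j ih =>
    rw [iter_succ, ← St.comp_mk, ih]
    rfl

theorem Lst_mk {n : ℕ} (f : PMap (S X n) (S X n)) : H.Lst (St.mk n f) = H.toCoh.L f := by
  have e0 : H.hst (St.mk n f) = H.hn (HC.mk f) := H.hst_of n (HC.mk f)
  have e1 : H.eps X ∘ₗ H.hst (St.mk n f) = (H.susE X n).symm.toLinearMap ∘ₗ
      (H.eps (S X n) ∘ₗ H.map f) ∘ₗ (H.susE X n).toLinearMap := by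
    ext x
    rw [e0]
    simp only [LinearMap.comp_apply, LinearEquiv.coe_coe]
    refine (H.susE X n).injective ?_
    rw [LinearEquiv.apply_symm_apply, CohX.susE_apply, CohX.susE_apply, ← H.eps_sus, H.sus_hn]
    rfl
  rw [CohX.Lst, e1, Coh.L]
  exact LinearMap.trace_conj' (H.eps (S X n) ∘ₗ H.map f) (H.susE X n).symm

theorem L_iter_level {n : ℕ} (f : PMap (S X n) (S X n)) (j : ℕ) :
    H.toCoh.L (iter f j) = LinearMap.trace F _ (H.eps X ∘ₗ (H.hst (St.mk n f)) ^ j) := by
  rw [← Lst_npow, ← mk_iter, Lst_mk]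

theorem fin_level (hX : H.toCoh.Fin X) (n : ℕ) : H.toCoh.Fin (S X n) := by
  have : FiniteDimensional F (H.h X) := hX
  exact Module.Finite.equiv (H.susE X n)

end lst

section hst

variable (V : Type) [TopologicalSpace V] [T2Space V] [LocallyCompactSpace V] (D c : ℕ)

theorem hst_permSt : H.hst (permSt V (yF D c)) = yE H.toCoh V D c := by
  ext x
  rw [permSt, CohX.hst_sum, yE, LinearMap.sum_apply]
  refine Finset.sum_congr rfl fun σ _ => ?_
  rw [CohX.hst_zsmul, CohX.hst_ofP]
  rfl

end hst

/-! ## cells -/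

section cells

theorem hhom' {U : Type} [TopologicalSpace U] [T2Space U] [LocallyCompactSpace U] {f g : PMap U U}
    (h : f.Homotopic g) : H.map f = H.map g := LinearMap.ext (H.hmap h)

theorem hemp' (U : Type) [TopologicalSpace U] [T2Space U] [LocallyCompactSpace U] [IsEmpty U] :
    H.toCoh.Fin U := fin_of_null (null_of_isEmpty U)

/-- `pt × ℂ^m = ℂ^m` -/
noncomputable def uC (m : ℕ) : S Unit m ≃ₜ (Fin m → ℂ) := Homeomorph.punitProd _

variable {H} (K : KX H)
include K

theorem hcell' (m : ℕ) : H.toCoh.Fin (Fin m → ℂ) :=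
  Coh.Fin.of_iso H.toCoh (f := PMap.ofHomeo (uC m).symm) (g := PMap.ofHomeo (uC m))
    (PMap.ofHomeo_comp_symm (uC m)) (fin_level H (fin_unit K) m)

theorem L_unit : H.toCoh.L (PMap.id Unit) = 1 := by
  have : FiniteDimensional F (H.h Unit) := fin_unit K
  have e1 : H.toCoh.T (PMap.id Unit) = LinearMap.id := by
    ext x
    rw [Coh.T_apply, H.map_id]
    obtain ⟨r, rfl⟩ := K.one_gen x
    rw [_root_.map_smul, K.eps_one]
    rfl
  rw [Coh.L, e1, LinearMap.trace_id]
  have e2 : Module.finrank F (H.h Unit) = 1 :=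
    finrank_eq_one K.one K.one_ne fun x => by
      obtain ⟨r, rfl⟩ := K.one_gen x
      exact ⟨r, rfl⟩
  rw [e2, Nat.cast_one]

theorem hL' (m : ℕ) : H.toCoh.L (PMap.id (Fin m → ℂ)) = 1 := by
  have e1 : H.toCoh.L (PMap.id (S Unit m)) = 1 := by
    rw [← Lst_mk]
    have : St.mk m (PMap.id (S Unit m)) = St.id Unit := St.of_h1 m
    rw [this]
    have e : St.id Unit = St.ofP (PMap.id Unit) := St.map_id.symm
    rw [e, CohX.Lst_ofP, L_unit K]
  have e2 := H.toCoh.L_comm (fin_level H (fin_unit K) m) (hcell' K m) (PMap.ofHomeo (uC m))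
    (PMap.ofHomeo (uC m).symm)
  rw [PMap.ofHomeo_symm_comp, PMap.ofHomeo_comp_symm] at e2
  rw [← e1]
  first
    | exact e2
    | exact e2.symm

end cells

end Crest.Agent.R090.Start902
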