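import Crest.Agent.R090.LThInst_963
import Crest.Agent.R090.AAsm_923
import Crest.Agent.R090.SmIso_528

/-!
# Row 90, A-START (helper963): `AAsm923.StartStmt` from `CohX` + `KX`

`startStmt` : a level representative `φ` of the Young element (smashed with `ℂ^n`) is a pointed self
map of `V^r × ℂ^n` with `L (φ^k) = M^k k₀`.
-/

set_option autoImplicit false
set_option linter.unusedSectionVars false
set_option linter.style.haveILetI false

namespace Crest.Agent.R090.Start963

open Topology Set Crest.Agent.R090.Sp962 Crest.Agent.R090.Grp528 Crest.Agent.R090.St528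
open Crest.Agent.R090.CohT253 Crest.Agent.R090.Sm202 Crest.Agent.R090.HSt285
open Crest.Agent.R090.Kun493 (KX)
open Crest.Agent.R090.LThInst963
open Crest.Agent.R090.Spine Crest.Agent.R090.F0_933 Crest.Agent.R090.Young152
open Crest.Agent.R090.SmIso528 Crest.Agent.R090.Start902 Crest.Agent.R090.AClass923
open Crest.Agent.R090.AAsm923 (StartStmt sNull_comp_left)
open Crest.Agent.R090.Dens255 (iter iter_zero iter_succ)

/-! ## the ideal is closed under smash products -/

section ideal

variable {X X' X'' : Type} [TopologicalSpace X] [TopologicalSpace X'] [TopologicalSpace X'']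
  [T2Space X] [T2Space X'] [T2Space X''] [LocallyCompactSpace X] [LocallyCompactSpace X']
  [LocallyCompactSpace X'']
  {W : Type} [TopologicalSpace W] [T2Space W] [LocallyCompactSpace W]

theorem sNull_comp_right {g : St X' X''} (h : St X X') (hg : SNull g) : SNull (g.comp h) := by
  intro T _ _ _ j y
  rw [smR_comp, ← St.comp_assoc, hg T j y, St.zero_comp]

theorem sNull_smR {g : St X X'} (hg : SNull g) : SNull (g.smR W) := by
  intro T _ _ _ j y
  have e : (g.smR W).smR T = (sh (asC X' W T).symm).comp ((g.smR (W × T)).comp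
      (sh (asC X W T))) := by
    rw [smR_smR, cj]
    simp only [St.comp_assoc, sh_symm_comp_assoc, sh_symm_comp, St.comp_id]
  rw [e, ← St.comp_assoc, ← St.comp_assoc, hg (W × T) j, St.zero_comp]

variable {M : Type} [TopologicalSpace M] [T2Space M] [LocallyCompactSpace M]

theorem idQ_smR {q : ℕ} {Z : Set M} [Fact (IsClosed Z)] {a : St X X'} (ha : IdQ q Z a) :
    IdQ q Z (a.smR W) := by
  obtain ⟨l, hl⟩ := ha
  refine ⟨l, fun K s => ?_⟩
  obtain ⟨n, hn, hn'⟩ := hl K s
  refine ⟨n, hn, ?_⟩
  have e : n • tens (St.ofP (iotaP Z K s l)) (a.smR W) =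
      (sh (asC _ X' W)).comp (((n • tens (St.ofP (iotaP Z K s l)) a).smR W).comp
        (sh (asC _ X W).symm)) := by
    rw [tens, tens, smR_nsmul, ← prod_id_right, ← prod_id_right, ← prod_assoc, St.nsmul_comp,
      St.comp_nsmul]
  rw [e]
  exact sNull_comp_left _ (sNull_comp_right _ (sNull_smR hn'))

end ideal

/-! ## the operator of the Young element -/

section young

variable {F : Type} [Field F] {H : CohX F}

variable {V : Type} [TopologicalSpace V] [T2Space V] [LocallyCompactSpace V] {D c : ℕ}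

theorem hst_permSt (H : CohX F) :
    H.hst (permSt V (yF D c)) = yE H.toCoh V D c := by
  ext x
  rw [permSt, H.hst_sum, yE, LinearMap.sum_apply]
  refine Finset.sum_congr rfl fun g _ => ?_
  rw [H.hst_zsmul, H.hst_ofP]
  rfl

end young

/-! ## traces of a level representative -/

section level

variable {F : Type} [Field F] {H : CohX F} (K : KX H)
variable {X : Type} [TopologicalSpace X] [T2Space X] [LocallyCompactSpace X]

include K in
theorem trace_level (a : St X X) {n : ℕ} (φ : PMap (X × (Fin n → ℂ)) (X × (Fin n → ℂ)))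
    (h : a.smR (Fin n → ℂ) = St.ofP φ) (k : ℕ) :
    H.toCoh.L (iter φ k) = LinearMap.trace F _ (H.eps X ∘ₗ ((H.hst a : Module.End F (H.h X)) ^ k)) := by
  let B : H.h X →ₗ[F] H.h (X × (Fin n → ℂ)) := (H.cr X (Fin n → ℂ)).flip (csph K n)
  have hB : Function.Bijective B := cr_csph_bijective K n
  have h1 : ∀ x, H.map φ (B x) = B (H.hst a x) := by
    intro x
    change H.map φ (H.cr X (Fin n → ℂ) x (csph K n)) = H.cr X (Fin n → ℂ) (H.hst a x) (csph K n)
    rw [← H.hst_ofP, ← h, H.hst_smR]
  have h2 : ∀ (k : ℕ) (x : H.h X), H.map (iter φ k) (B x) =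
      B (((H.hst a : Module.End F (H.h X)) ^ k) x) := by
    intro k
    induction k with
    | zero => intro x; rw [iter_zero, H.map_id, pow_zero]; rfl
    | succ k ih =>
      intro x
      rw [iter_succ, H.map_comp, ih, h1, pow_succ']
      rfl
  have h3 : ∀ x, H.eps _ (B x) = B (H.eps X x) := by
    intro x
    change H.eps _ (H.cr X (Fin n → ℂ) x (csph K n)) = H.cr X (Fin n → ℂ) (H.eps X x) (csph K n)
    rw [H.eps_cr, eps_csph]
  let e : H.h X ≃ₗ[F] H.h (X × (Fin n → ℂ)) := LinearEquiv.ofBijective B hB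
  have h4 : H.toCoh.T (iter φ k) =
      e.conj (H.eps X ∘ₗ ((H.hst a : Module.End F (H.h X)) ^ k)) := by
    ext y
    obtain ⟨x, rfl⟩ := e.surjective y
    rw [LinearEquiv.conj_apply_apply, LinearEquiv.symm_apply_apply]
    change H.eps _ (H.map (iter φ k) (B x)) = B (H.eps X (((H.hst a : Module.End F (H.h X)) ^ k) x))
    rw [h2, h3]
  rw [Coh.L, h4, LinearMap.trace_conj']

end level

/-- **START** -/
theorem startStmt (H : CohX ℚ) (K : KX H) {Good : SpPred}
    (hGood : ∀ (V : Type) [TopologicalSpace V] [T2Space V] [LocallyCompactSpace V] (D : ℕ),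
      HasCells V D → ∀ r n : ℕ, Good ((Fin r → V) × (Fin n → ℂ))) :
    StartStmt Good (fun _ _ _ _ φ => H.toCoh.L φ) := by
  intro c D hq hD V _ _ _ hV
  obtain ⟨n, f, hf⟩ := (permSt V (yF D c)).mk_surj
  have hφ : (permSt V (yF D c)).smR (Fin n → ℂ) = St.ofP f := by
    rw [hf, mk_smR_level]
  obtain ⟨Λ⟩ := exists_lab hV
  obtain ⟨-, k, hk, htr⟩ := yE_trace H.toCoh Λ (c := c) (D := D) (fun h => hmap' h)
    (fun U _ _ _ _ => fin_empty U) (fin_cell K) (L_cell K) hq le_rfl
  refine ⟨(Fin (yr D c) → V) × (Fin n → ℂ), inferInstance, inferInstance, inferInstance,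
    hGood V D hV _ _, f, M D c, k, not_dvd_M hq, by exact_mod_cast hk.ne', ?_, ?_⟩
  · intro j hj
    obtain ⟨j, rfl⟩ : ∃ i, j = i + 1 := ⟨j - 1, by omega⟩
    refine (trace_level K (permSt V (yF D c)) f hφ (j + 1)).trans ?_
    rw [hst_permSt]
    refine (htr j).trans ?_
    push_cast
    rfl
  · intro M _ _ _ Z _ hI
    rw [← hφ]
    exact idQ_smR hI

end Crest.Agent.R090.Start963
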