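import Crest.Agent.R090.Start6_902
import Crest.Agent.R090.AAsm_923
import Crest.Agent.R090.Good_812

/-!
# Row 90, A-START (owner helper902), part 7: `AAsm923.StartStmt` for `Good812.Good H`
-/

set_option autoImplicit false
set_option linter.unusedSectionVars false

open Topology Filter Set OnePoint

namespace Crest.Agent.R090.Start902

open Crest.Agent.R090.Sp962 Crest.Agent.R090.F0_933
open Crest.Agent.R090.HSt285 Crest.Agent.R090.Kun493 Crest.Agent.R090.Spine
open Crest.Agent.R090.Young152 (yr yF)

/-- the Lefschetz number of a theory over `ℚ` as 542's `LFun` -/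
noncomputable def lfun (H : CohX ℚ) : AAsm542.LFun := fun _ _ _ _ φ => H.toCoh.L φ

/-- **A-START**, literally 923's `StartStmt` -/
theorem startStmt {H : CohX ℚ} (K : KX H) :
    AAsm923.StartStmt (fun U _ _ _ => Good812.Good H U) (lfun H) := by
  intro c D hq hD V _ _ _ hV
  obtain ⟨n, φ, -, h2, -, -, k, hk, hL⟩ := start K hq V hV
  refine ⟨(Fin (yr D c) → V) × (Fin n → ℂ), inferInstance, inferInstance, inferInstance,
    Good812.good_pow_hasCells K hV (Fin (yr D c)) n, φ, Young152.M D c, k,
    Young152.not_dvd_M hq, by exact_mod_cast hk.ne', ?_, ?_⟩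
  · intro j hj
    obtain ⟨j, rfl⟩ : ∃ i, j = i + 1 := ⟨j - 1, by omega⟩
    have := hL j
    change H.toCoh.L _ = _
    rw [this]
    push_cast
    rfl
  · intro M _ _ _ Z _ h
    rw [← h2]
    exact idQ_smR h _

end Crest.Agent.R090.Start902
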