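import Crest.Agent.R090.Sp_962
import Crest.Agent.R090.Ho_962
import Crest.Agent.R090.Lin_202

/-!
# Row 90, A-START (owner helper902), part 1: the number of fixed words

`LTh F` is the list of properties of the Lefschetz number `L` of the (co)homology theory that is used
(all of them are part of AS4 of helper58); `LTh.strat`: the Lefschetz number of a homeomorphism that
permutes the strata of a finite stratification; `LTh.L_perm`: if `V` is a finite union of complex cells,
the Lefschetz number of the permutation `g` of the coordinates of `κ → V` is the number of words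
`w : κ → Fin n` with `w ∘ g = w`.
-/

set_option autoImplicit false
set_option linter.unusedSectionVars false

open Topology Filter Set OnePoint
open Crest.Agent.R090.Sp962

namespace Crest.Agent.R090.Start902

/-- the properties of Lefschetz numbers -/
structure LTh (F : Type*) [Field F] where
  /-- finite dimensional homology -/
  Fd : ∀ (U : Type) [TopologicalSpace U] [T2Space U] [LocallyCompactSpace U], Prop
  /-- Lefschetz number -/
  L : ∀ {U : Type} [TopologicalSpace U] [T2Space U] [LocallyCompactSpace U], PMap U U → F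
  fd_empty : ∀ (U : Type) [TopologicalSpace U] [T2Space U] [LocallyCompactSpace U] [IsEmpty U], Fd U
  fd_cell : ∀ m : ℕ, Fd (Fin m → ℂ)
  fd_homeo : ∀ {U V : Type} [TopologicalSpace U] [T2Space U] [LocallyCompactSpace U]
    [TopologicalSpace V] [T2Space V] [LocallyCompactSpace V], (U ≃ₜ V) → Fd U → Fd V
  L_zero : ∀ {U : Type} [TopologicalSpace U] [T2Space U] [LocallyCompactSpace U],
    L (PMap.zero U U) = 0
  L_cell : ∀ m : ℕ, L (PMap.id (Fin m → ℂ)) = 1
  L_homotopic : ∀ {U : Type} [TopologicalSpace U] [T2Space U] [LocallyCompactSpace U]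
    {f g : PMap U U}, f.Homotopic g → L f = L g
  L_comm : ∀ {U V : Type} [TopologicalSpace U] [T2Space U] [LocallyCompactSpace U]
    [TopologicalSpace V] [T2Space V] [LocallyCompactSpace V] (f : PMap U V) (g : PMap V U),
    Fd U → Fd V → L (g.comp f) = L (f.comp g)
  fd_pair : ∀ {K U O : Type} [TopologicalSpace K] [T2Space K] [LocallyCompactSpace K]
    [TopologicalSpace U] [T2Space U] [LocallyCompactSpace U]
    [TopologicalSpace O] [T2Space O] [LocallyCompactSpace O]
    (i : K → U) (_ : IsClosedEmbedding i) (j : O → U) (_ : IsOpenEmbedding j),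
    range j = (range i)ᶜ → Fd K → Fd O → Fd U
  L_pair : ∀ {K U O : Type} [TopologicalSpace K] [T2Space K] [LocallyCompactSpace K]
    [TopologicalSpace U] [T2Space U] [LocallyCompactSpace U]
    [TopologicalSpace O] [T2Space O] [LocallyCompactSpace O]
    (i : K → U) (hi : IsClosedEmbedding i) (j : O → U) (hj : IsOpenEmbedding j),
    range j = (range i)ᶜ → Fd K → Fd O →
    ∀ (f : PMap U U) (fK : PMap K K) (fO : PMap O O),
      f.comp (PMap.ofClosed i hi) = (PMap.ofClosed i hi).comp fK →
      (PMap.ofOpen j hj).comp f = fO.comp (PMap.ofOpen j hj) → L f = L fK + L fO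
  fd_parts : ∀ {U κ : Type} [Finite κ] [TopologicalSpace U] [T2Space U] [LocallyCompactSpace U]
    (A : κ → Set U), (∀ w, IsClopen (A w)) → (∀ x, ∃! w, x ∈ A w) →
    (∀ w [LocallyCompactSpace (A w)], Fd (A w)) → Fd U
  L_parts : ∀ {U κ : Type} [Fintype κ] [TopologicalSpace U] [T2Space U] [LocallyCompactSpace U]
    (A : κ → Set U) (hA : ∀ w, IsClopen (A w)), (∀ x, ∃! w, x ∈ A w) →
    (∀ w [LocallyCompactSpace (A w)], Fd (A w)) → ∀ (f : PMap U U) (c : κ → F),
    (∀ w [LocallyCompactSpace (A w)], L ((PMap.ofOpen (Subtype.val : A w → U)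
      (hA w).2.isOpenEmbedding_subtypeVal).comp (f.comp (PMap.ofClosed (Subtype.val : A w → U)
      (hA w).1.isClosedEmbedding_subtypeVal))) = c w) → L f = ∑ w, c w

variable {F : Type*} [Field F] (T : LTh F)

section tools

variable {U V : Type} [TopologicalSpace U] [T2Space U] [LocallyCompactSpace U]
  [TopologicalSpace V] [T2Space V] [LocallyCompactSpace V]

/-- conjugation invariance -/
theorem LTh.L_conj (e : U ≃ₜ V) (f : PMap U U) (hU : T.Fd U) :
    T.L ((PMap.ofHomeo e).comp (f.comp (PMap.ofHomeo e.symm))) = T.L f := by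
  have hV : T.Fd V := T.fd_homeo e hU
  have h := T.L_comm (f.comp (PMap.ofHomeo e.symm)) (PMap.ofHomeo e) hV hU
  rw [h, PMap.comp_assoc, PMap.ofHomeo_symm_comp, PMap.comp_id]

theorem ofHomeo_conj (e : U ≃ₜ V) (t : U ≃ₜ U) (t' : V ≃ₜ V) (h : ∀ x, t' (e x) = e (t x)) :
    (PMap.ofHomeo e).comp ((PMap.ofHomeo t).comp (PMap.ofHomeo e.symm)) = PMap.ofHomeo t' := by
  refine PMap.ext fun x => ?_
  simp only [PMap.comp_apply, PMap.ofHomeo_coe]
  rw [← h, Homeomorph.apply_symm_apply]

theorem LTh.L_ofHomeo_conj (e : U ≃ₜ V) (t : U ≃ₜ U) (t' : V ≃ₜ V) (h : ∀ x, t' (e x) = e (t x))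
    (hU : T.Fd U) : T.L (PMap.ofHomeo t') = T.L (PMap.ofHomeo t) := by
  rw [← ofHomeo_conj e t t' h, T.L_conj e _ hU]

theorem pmap_eq_of_isEmpty [IsEmpty U] (f g : PMap U V) : f = g :=
  PMap.ext fun x => isEmptyElim x

theorem LTh.L_empty [IsEmpty U] (f : PMap U U) : T.L f = 0 := by
  rw [pmap_eq_of_isEmpty f (PMap.zero U U), T.L_zero]

end tools

/-! ## stratified homeomorphisms -/

section strat

variable {X : Type} [TopologicalSpace X] [T2Space X] [LocallyCompactSpace X]
  {ι : Type} [Fintype ι] [DecidableEq ι]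

/-- a finite stratification: labels `st`, heights `N` -/
structure IsStrat (st : X → ι) (N : ι → ℕ) : Prop where
  closed : ∀ l : ℕ, IsClosed {x | N (st x) ≤ l}
  closed_in : ∀ w : ι, ∃ C : Set X, IsClosed C ∧ {x | st x = w} = C ∩ {x | N (st x) = N w}

variable {st : X → ι} {N : ι → ℕ} (hs : IsStrat st N) (t : X ≃ₜ X) (τ : ι → ι)
  (ht : ∀ x, st (t x) = τ (st x)) (hτ : ∀ w, N (τ w) = N w)

theorem locallyCompact_of_locallyClosed {A : Set X} (h : IsLocallyClosed A) :
    LocallyCompactSpace A := h.locallyCompactSpace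

include hs in
theorem IsStrat.closed_lt (l : ℕ) : IsClosed {x | N (st x) < l} := by
  rcases l with _ | l
  · simp
  · have : {x | N (st x) < l + 1} = {x | N (st x) ≤ l} := by
      ext x; exact Nat.lt_succ_iff
    rw [this]; exact hs.closed l

include hs in
theorem IsStrat.isLocallyClosed_layer (l : ℕ) : IsLocallyClosed {x | N (st x) = l} := by
  have : {x | N (st x) = l} = {x | N (st x) ≤ l} ∩ {x | N (st x) < l}ᶜ := by
    ext x
    change N (st x) = l ↔ N (st x) ≤ l ∧ ¬ N (st x) < l
    omega
  rw [this]
  exact (hs.closed l).isLocallyClosed.inter (hs.closed_lt l).isOpen_compl.isLocallyClosed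

include hs in
theorem IsStrat.isLocallyClosed_stratum (w : ι) : IsLocallyClosed {x | st x = w} := by
  obtain ⟨C, hC, h⟩ := hs.closed_in w
  rw [h]
  exact hC.isLocallyClosed.inter (hs.isLocallyClosed_layer _)

/-- restriction of a homeomorphism to an invariant subset -/
def rst {X : Type} [TopologicalSpace X] (t : X ≃ₜ X) (A : Set X) (h : ∀ x, x ∈ A ↔ t x ∈ A) :
    A ≃ₜ A := t.subtype h

@[simp] theorem rst_apply {X : Type} [TopologicalSpace X] (t : X ≃ₜ X) (A : Set X)
    (h : ∀ x, x ∈ A ↔ t x ∈ A) (x : A) : ((rst t A h x : A) : X) = t x := rfl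

include hs in
theorem IsStrat.isClopen_part (l : ℕ) (w : {w : ι // N w = l}) :
    IsClopen {y : {x | N (st x) = l} | st y.1 = w.1} := by
  have hcl : ∀ w : {w : ι // N w = l}, IsClosed {y : {x | N (st x) = l} | st y.1 = w.1} := by
    intro w
    obtain ⟨C, hC, h⟩ := hs.closed_in w.1
    have : {y : {x | N (st x) = l} | st y.1 = w.1} = Subtype.val ⁻¹' C := by
      ext y
      have h1 : y.1 ∈ {x | st x = w.1} ↔ y.1 ∈ C ∩ {x | N (st x) = N w.1} := by rw [h]
      have h2 : N (st y.1) = N w.1 := by rw [w.2]; exact y.2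
      constructor
      · intro hy
        exact (h1.1 hy).1
      · intro hy
        exact h1.2 ⟨hy, h2⟩
    rw [this]
    exact hC.preimage continuous_subtype_val
  refine ⟨hcl w, ?_⟩
  have : {y : {x | N (st x) = l} | st y.1 = w.1}ᶜ =
      ⋃ w' : {w' : {w : ι // N w = l} // w' ≠ w}, {y : {x | N (st x) = l} | st y.1 = w'.1.1} := by
    ext y
    simp only [mem_compl_iff, mem_iUnion]
    constructor
    · intro hy
      exact ⟨⟨⟨st y.1, y.2⟩, fun h => hy (congrArg Subtype.val h)⟩, rfl⟩
    · rintro ⟨w', hw'⟩ hy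
      exact w'.2 (Subtype.ext (hw'.symm.trans hy))
  rw [← isClosed_compl_iff, this]
  exact isClosed_iUnion_of_finite fun w' => hcl w'.1

/-- a part of a layer is a stratum -/
def partHomeo (st : X → ι) (N : ι → ℕ) (l : ℕ) (w : {w : ι // N w = l}) :
    {y : {x | N (st x) = l} | st y.1 = w.1} ≃ₜ {x | st x = w.1} where
  toFun y := ⟨y.1.1, y.2⟩
  invFun x := ⟨⟨x.1, by
    have h : st x.1 = w.1 := x.2
    change N (st x.1) = l
    rw [h]; exact w.2⟩, x.2⟩
  left_inv _ := rfl
  right_inv _ := rfl
  continuous_toFun := by fun_prop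
  continuous_invFun := by fun_prop

include hs in
theorem LTh.fd_layer (l : ℕ) [LocallyCompactSpace {x | N (st x) = l}]
    (hFd : ∀ (w : ι) [LocallyCompactSpace {x | st x = w}], T.Fd {x | st x = w}) :
    T.Fd {x | N (st x) = l} := by
  refine T.fd_parts (κ := {w : ι // N w = l})
    (fun w => {y : {x | N (st x) = l} | st y.1 = w.1}) (hs.isClopen_part l) ?_ ?_
  · intro y
    exact ⟨⟨st y.1, y.2⟩, rfl, fun w' h => Subtype.ext h.symm⟩
  · intro w _
    have : LocallyCompactSpace {x | st x = w.1} :=
      locallyCompact_of_locallyClosed (hs.isLocallyClosed_stratum w.1)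
    exact T.fd_homeo (partHomeo st N l w).symm (hFd w.1)

include hs in
theorem LTh.L_layer (t : X ≃ₜ X) (τ : Equiv.Perm ι) (ht : ∀ x, st (t x) = τ (st x))
    (l : ℕ) [LocallyCompactSpace {x | N (st x) = l}]
    (hl : ∀ x, x ∈ {x | N (st x) = l} ↔ t x ∈ {x | N (st x) = l})
    (hFd : ∀ (w : ι) [LocallyCompactSpace {x | st x = w}], T.Fd {x | st x = w})
    (c : ι → F)
    (hc : ∀ (w : ι) [LocallyCompactSpace {x | st x = w}]
      (h : ∀ x, x ∈ {x | st x = w} ↔ t x ∈ {x | st x = w}),
        T.L (PMap.ofHomeo (rst t {x | st x = w} h)) = c w) :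
    T.L (PMap.ofHomeo (rst t {x | N (st x) = l} hl)) =
      ∑ w ∈ Finset.univ.filter (fun w => N w = l), if τ w = w then c w else 0 := by
  have hfin : ∀ (w : {w : ι // N w = l})
      [LocallyCompactSpace {y : {x | N (st x) = l} | st y.1 = w.1}],
      T.Fd {y : {x | N (st x) = l} | st y.1 = w.1} := by
    intro w _
    have : LocallyCompactSpace {x | st x = w.1} :=
      locallyCompact_of_locallyClosed (hs.isLocallyClosed_stratum w.1)
    exact T.fd_homeo (partHomeo st N l w).symm (hFd w.1)
  rw [T.L_parts (κ := {w : ι // N w = l}) (fun w => {y : {x | N (st x) = l} | st y.1 = w.1})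
    (hs.isClopen_part l) (fun y => ⟨⟨st y.1, y.2⟩, rfl, fun w' h => Subtype.ext h.symm⟩) hfin
    (PMap.ofHomeo (rst t {x | N (st x) = l} hl)) (fun w => if τ w.1 = w.1 then c w.1 else 0) ?_]
  · exact (Finset.sum_subtype _ (by simp) fun w => if τ w = w then c w else 0).symm
  · intro w _
    have : LocallyCompactSpace {x | st x = w.1} :=
      locallyCompact_of_locallyClosed (hs.isLocallyClosed_stratum w.1)
    by_cases hw : τ w.1 = w.1
    · rw [if_pos hw]
      have h : ∀ x, x ∈ {x | st x = w.1} ↔ t x ∈ {x | st x = w.1} := by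
        intro x
        change st x = w.1 ↔ st (t x) = w.1
        rw [ht]
        constructor
        · intro h; rw [h, hw]
        · intro h; exact τ.injective (h.trans hw.symm)
      rw [← hc w.1 h]
      have hsq : (PMap.ofOpen (Subtype.val : {y : {x | N (st x) = l} | st y.1 = w.1} → _)
          (hs.isClopen_part l w).2.isOpenEmbedding_subtypeVal).comp
          ((PMap.ofHomeo (rst t {x | N (st x) = l} hl)).comp (PMap.ofClosed (Subtype.val :
          {y : {x | N (st x) = l} | st y.1 = w.1} → _)
          (hs.isClopen_part l w).1.isClosedEmbedding_subtypeVal)) =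
          PMap.ofHomeo (((partHomeo st N l w).trans (rst t {x | st x = w.1} h)).trans
            (partHomeo st N l w).symm) := by
        refine PMap.ext fun y => ?_
        exact PMap.ofOpen_coe (Subtype.val : {y : {x | N (st x) = l} | st y.1 = w.1} → _)
          (hs.isClopen_part l w).2.isOpenEmbedding_subtypeVal
          ((((partHomeo st N l w).trans (rst t {x | st x = w.1} h)).trans
            (partHomeo st N l w).symm) y)
      rw [hsq]
      exact T.L_ofHomeo_conj (partHomeo st N l w).symm _ _ (fun x => by simp) (hFd w.1)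
    · rw [if_neg hw]
      have hz : (PMap.ofOpen (Subtype.val : {y : {x | N (st x) = l} | st y.1 = w.1} → _)
          (hs.isClopen_part l w).2.isOpenEmbedding_subtypeVal).comp
          ((PMap.ofHomeo (rst t {x | N (st x) = l} hl)).comp (PMap.ofClosed (Subtype.val :
          {y : {x | N (st x) = l} | st y.1 = w.1} → _)
          (hs.isClopen_part l w).1.isClosedEmbedding_subtypeVal)) = PMap.zero _ _ := by
        refine PMap.ext fun y => ?_
        refine PMap.ofOpen_of_notMem (Subtype.val : {y : {x | N (st x) = l} | st y.1 = w.1} → _)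
          (hs.isClopen_part l w).2.isOpenEmbedding_subtypeVal
          (y := rst t {x | N (st x) = l} hl y.1) ?_
        rintro ⟨z, hz⟩
        have h1 : st (t y.1.1) = w.1 := by
          have h2 : (z.1 : X) = t y.1.1 := congrArg Subtype.val hz
          rw [← h2]; exact z.2
        rw [ht] at h1
        have h3 : st y.1.1 = w.1 := y.2
        rw [h3] at h1
        exact hw h1
      rw [hz, T.L_zero]

/-- inclusion of `{N < l}` in `{N < l + 1}` -/
def incLow (st : X → ι) (N : ι → ℕ) (l : ℕ) : {x | N (st x) < l} → {x | N (st x) < l + 1} :=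
  fun x => ⟨x.1, Nat.lt_succ_of_lt x.2⟩

/-- inclusion of `{N = l}` in `{N < l + 1}` -/
def incLayer (st : X → ι) (N : ι → ℕ) (l : ℕ) : {x | N (st x) = l} → {x | N (st x) < l + 1} :=
  fun x => ⟨x.1, Nat.lt_succ_of_le (le_of_eq x.2)⟩

include hs in
theorem IsStrat.isClosedEmbedding_incLow (l : ℕ) : IsClosedEmbedding (incLow st N l) := by
  refine ⟨⟨?_, ?_⟩, ?_⟩
  · have h : IsInducing ((Subtype.val : {x | N (st x) < l + 1} → X) ∘ incLow st N l) :=
      IsInducing.subtypeVal
    exact IsInducing.of_comp (by unfold incLow; fun_prop) continuous_subtype_val h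
  · intro x y h
    exact Subtype.ext (congrArg (fun z : {x | N (st x) < l + 1} => z.1) h)
  · have : range (incLow st N l) = Subtype.val ⁻¹' {x | N (st x) < l} := by
      ext x
      constructor
      · rintro ⟨y, rfl⟩; exact y.2
      · intro hx; exact ⟨⟨x.1, hx⟩, rfl⟩
    rw [this]
    exact (hs.closed_lt l).preimage continuous_subtype_val

theorem range_incLayer (l : ℕ) : range (incLayer st N l) = (range (incLow st N l))ᶜ := by
  ext x
  constructor
  · rintro ⟨y, rfl⟩ ⟨z, hz⟩
    have h1 : (z.1 : X) = y.1 := congrArg Subtype.val hz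
    have h2 : N (st z.1) < l := z.2
    have h3 : N (st y.1) = l := y.2
    rw [h1] at h2
    omega
  · intro hx
    have h2 : N (st x.1) < l + 1 := x.2
    have h3 : ¬ N (st x.1) < l := fun h => hx ⟨⟨x.1, h⟩, rfl⟩
    exact ⟨⟨x.1, by change N (st x.1) = l; omega⟩, rfl⟩

include hs in
theorem IsStrat.isOpenEmbedding_incLayer (l : ℕ) : IsOpenEmbedding (incLayer st N l) := by
  refine ⟨⟨?_, ?_⟩, ?_⟩
  · have h : IsInducing ((Subtype.val : {x | N (st x) < l + 1} → X) ∘ incLayer st N l) :=
      IsInducing.subtypeVal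
    exact IsInducing.of_comp (by unfold incLayer; fun_prop) continuous_subtype_val h
  · intro x y h
    exact Subtype.ext (congrArg (fun z : {x | N (st x) < l + 1} => z.1) h)
  · rw [range_incLayer]
    exact (hs.isClosedEmbedding_incLow l).isClosed_range.isOpen_compl

include hs in
/-- **the Lefschetz number of a homeomorphism that permutes the strata** -/
theorem LTh.L_strat (t : X ≃ₜ X) (τ : Equiv.Perm ι) (ht : ∀ x, st (t x) = τ (st x))
    (hτ : ∀ w, N (τ w) = N w)
    (hFd : ∀ (w : ι) [LocallyCompactSpace {x | st x = w}], T.Fd {x | st x = w})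
    (c : ι → F)
    (hc : ∀ (w : ι) [LocallyCompactSpace {x | st x = w}]
      (h : ∀ x, x ∈ {x | st x = w} ↔ t x ∈ {x | st x = w}),
        T.L (PMap.ofHomeo (rst t {x | st x = w} h)) = c w) :
    T.Fd X ∧ T.L (PMap.ofHomeo t) = ∑ w, if τ w = w then c w else 0 := by
  have hN : ∀ x, N (st (t x)) = N (st x) := fun x => by rw [ht, hτ]
  have key : ∀ (l : ℕ) [LocallyCompactSpace {x | N (st x) < l}]
      (hl : ∀ x, x ∈ {x | N (st x) < l} ↔ t x ∈ {x | N (st x) < l}),
      T.Fd {x | N (st x) < l} ∧ T.L (PMap.ofHomeo (rst t {x | N (st x) < l} hl)) =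
        ∑ w ∈ Finset.univ.filter (fun w => N w < l), if τ w = w then c w else 0 := by
    intro l
    induction l with
    | zero =>
      intro _ hl
      have : IsEmpty {x | N (st x) < 0} := ⟨fun x => Nat.not_lt_zero _ x.2⟩
      exact ⟨T.fd_empty _, by rw [T.L_empty]; simp⟩
    | succ l ih =>
      intro _ hl
      have hl' : ∀ x, x ∈ {x | N (st x) < l} ↔ t x ∈ {x | N (st x) < l} := by
        intro x
        change N (st x) < l ↔ N (st (t x)) < l
        rw [hN]
      have hl'' : ∀ x, x ∈ {x | N (st x) = l} ↔ t x ∈ {x | N (st x) = l} := by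
        intro x
        change N (st x) = l ↔ N (st (t x)) = l
        rw [hN]
      have i1 : LocallyCompactSpace {x | N (st x) < l} :=
        locallyCompact_of_locallyClosed (hs.closed_lt l).isLocallyClosed
      have i2 : LocallyCompactSpace {x | N (st x) = l} :=
        locallyCompact_of_locallyClosed (hs.isLocallyClosed_layer l)
      obtain ⟨h1, h2⟩ := ih hl'
      have h3 := T.fd_layer hs l hFd
      refine ⟨T.fd_pair (incLow st N l) (hs.isClosedEmbedding_incLow l) (incLayer st N l)
        (hs.isOpenEmbedding_incLayer l) (range_incLayer l) h1 h3, ?_⟩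
      rw [T.L_pair (incLow st N l) (hs.isClosedEmbedding_incLow l) (incLayer st N l)
        (hs.isOpenEmbedding_incLayer l) (range_incLayer l) h1 h3
        (PMap.ofHomeo (rst t {x | N (st x) < l + 1} hl))
        (PMap.ofHomeo (rst t {x | N (st x) < l} hl'))
        (PMap.ofHomeo (rst t {x | N (st x) = l} hl'')) ?_ ?_, h2,
        T.L_layer hs t τ ht l hl'' hFd c hc]
      · have hd : Finset.univ.filter (fun w => N w < l + 1) =
            Finset.univ.filter (fun w => N w < l) ∪ Finset.univ.filter (fun w => N w = l) := by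
          ext w
          simp only [Finset.mem_filter, Finset.mem_union, Finset.mem_univ, true_and]
          omega
        rw [hd, Finset.sum_union]
        rw [Finset.disjoint_filter]
        intro w _ h1 h2
        omega
      · exact PMap.ext fun x => rfl
      · refine PMap.ext fun x => ?_
        have ho := hs.isOpenEmbedding_incLayer l
        change PMap.ofOpen (incLayer st N l) ho ((rst t {x | N (st x) < l + 1} hl x :
          {x | N (st x) < l + 1}) : OnePoint _) =
          PMap.ofHomeo (rst t {x | N (st x) = l} hl'')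
            (PMap.ofOpen (incLayer st N l) ho (x : OnePoint _))
        by_cases hx : N (st x.1) = l
        · have e1 : PMap.ofOpen (incLayer st N l) ho (x : OnePoint _) =
              ((⟨x.1, hx⟩ : {x | N (st x) = l}) : OnePoint _) :=
            PMap.ofOpen_coe (incLayer st N l) ho ⟨x.1, hx⟩
          have e2 : PMap.ofOpen (incLayer st N l) ho ((rst t {x | N (st x) < l + 1} hl x :
              {x | N (st x) < l + 1}) : OnePoint _) =
              ((rst t {x | N (st x) = l} hl'' ⟨x.1, hx⟩ : {x | N (st x) = l}) : OnePoint _) :=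
            PMap.ofOpen_coe (incLayer st N l) ho (rst t {x | N (st x) = l} hl'' ⟨x.1, hx⟩)
          rw [e1, e2]
          rfl
        · rw [PMap.ofOpen_of_notMem, PMap.ofOpen_of_notMem]
          · rfl
          · rintro ⟨y, hy⟩
            have : (y.1 : X) = x.1 := congrArg Subtype.val hy
            exact hx (this ▸ y.2)
          · rintro ⟨y, hy⟩
            have : (y.1 : X) = t x.1 := congrArg Subtype.val hy
            have h4 : N (st y.1) = l := y.2
            rw [this, hN] at h4
            exact hx h4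
  set l : ℕ := (Finset.univ.sup N) + 1 with hldef
  have hall : ∀ w, N w < l := fun w => Nat.lt_succ_of_le (Finset.le_sup (Finset.mem_univ w))
  have hl : ∀ x, x ∈ {x | N (st x) < l} ↔ t x ∈ {x | N (st x) < l} :=
    fun x => ⟨fun _ => hall _, fun _ => hall _⟩
  have i1 : LocallyCompactSpace {x | N (st x) < l} :=
    locallyCompact_of_locallyClosed (hs.closed_lt l).isLocallyClosed
  obtain ⟨h1, h2⟩ := key l hl
  let e : {x | N (st x) < l} ≃ₜ X :=
    { toFun := fun x => x.1
      invFun := fun x => ⟨x, hall _⟩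
      left_inv := fun _ => rfl
      right_inv := fun _ => rfl
      continuous_toFun := continuous_subtype_val
      continuous_invFun := by fun_prop }
  refine ⟨T.fd_homeo e h1, ?_⟩
  rw [T.L_ofHomeo_conj e (rst t {x | N (st x) < l} hl) t (fun x => rfl) h1, h2]
  congr 1
  rw [Finset.filter_true_of_mem]
  intro w _
  exact hall w

end strat

end Crest.Agent.R090.Start902
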