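import Crest.Agent.R090.T5Defs_758

/-!
# Row 90, T5-4: composition of group maps (owner helper758)
-/

set_option autoImplicit false

open Topology Filter Set

namespace Crest.Agent.R090.T5

open OnePoint Crest.Agent.R090.Sp962 Crest.OpAlg

section comp

variable {Yg E M : Type*} [TopologicalSpace Yg] [TopologicalSpace E] [TopologicalSpace M]

/-- iterated composition of the self maps `H (y i, τ, ·)` -/
def HR (H : Yg × unitInterval × OnePoint E → OnePoint E) :
    (R : ℕ) → (Fin R → Yg) × unitInterval × OnePoint E → OnePoint E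
  | 0, q => q.2.2
  | R + 1, q => HR H R (Fin.tail q.1, q.2.1, H (q.1 0, q.2.1, q.2.2))

theorem HR_continuous {H : Yg × unitInterval × OnePoint E → OnePoint E} (hH : Continuous H)
    (R : ℕ) : Continuous (HR H R) := by
  induction R with
  | zero => exact continuous_snd.comp continuous_snd
  | succ R ih =>
    refine ih.comp ?_
    refine Continuous.prodMk ?_ (Continuous.prodMk (continuous_fst.comp continuous_snd) ?_)
    · exact continuous_pi fun i => (continuous_apply (Fin.succ i)).comp continuous_fst
    · exact hH.comp (((continuous_apply 0).comp continuous_fst).prodMk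
        ((continuous_fst.comp continuous_snd).prodMk (continuous_snd.comp continuous_snd)))

theorem HR_inf {H : Yg × unitInterval × OnePoint E → OnePoint E}
    (hi : ∀ y τ, H (y, τ, ∞) = ∞) (R : ℕ) (y : Fin R → Yg) (τ : unitInterval) :
    HR H R (y, τ, ∞) = ∞ := by
  induction R with
  | zero => rfl
  | succ R ih =>
    change HR H R (Fin.tail y, τ, H (y 0, τ, ∞)) = ∞
    rw [hi, ih]

theorem HR_one {H : Yg × unitInterval × OnePoint E → OnePoint E}
    (h1 : ∀ y x, H (y, 1, x) = x) (R : ℕ) (y : Fin R → Yg) (x : OnePoint E) :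
    HR H R (y, 1, x) = x := by
  induction R generalizing x with
  | zero => rfl
  | succ R ih =>
    change HR H R (Fin.tail y, 1, H (y 0, 1, x)) = x
    rw [h1, ih]

/-- the extension of `W` by a junk value at `∞` -/
def Wext [Inhabited M] (W : E → M) : OnePoint E → M := fun x => x.elim default W

/-- the torus points of the groups -/
def cR [Inhabited M] (H : Yg × unitInterval × OnePoint E → OnePoint E) (W : E → M) :
    (R : ℕ) → (Fin R → Yg) × OnePoint E → (Fin R → M)
  | 0, _ => Fin.elim0
  | R + 1, q => Fin.cons (Wext W q.2) (cR H W R (Fin.tail q.1, H (q.1 0, 0, q.2)))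

theorem cR_good [Inhabited M] {H : Yg × unitInterval × OnePoint E → OnePoint E} {W : E → M}
    (hi : ∀ y τ, H (y, τ, ∞) = ∞) {Good : Yg → M → Prop}
    (hG : ∀ y (x : E), H (y, 0, x) ≠ ∞ → Good y (W x)) (R : ℕ) (y : Fin R → Yg)
    (x : OnePoint E) (hx : HR H R (y, 0, x) ≠ ∞) (i : Fin R) : Good (y i) (cR H W R (y, x) i) := by
  induction R generalizing x with
  | zero => exact i.elim0
  | succ R ih =>
    have h2 : H (y 0, 0, x) ≠ ∞ := by
      intro h
      apply hx
      change HR H R (Fin.tail y, 0, H (y 0, 0, x)) = ∞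
      rw [h, HR_inf hi]
    refine Fin.cases ?_ (fun j => ?_) i
    · change Good (y 0) (Wext W x)
      induction x using OnePoint.rec with
      | infty => exact absurd (hi _ _) h2
      | coe x => exact hG _ _ h2
    · exact ih (Fin.tail y) (H (y 0, 0, x)) hx j

theorem Wext_continuousAt [Inhabited M] {W : E → M} {D : Set E} (hD : IsOpen D)
    (hW : ContinuousOn W D) {x : E} (hx : x ∈ D) : ContinuousAt (Wext W) (x : OnePoint E) := by
  have h : ContinuousAt W x := hW.continuousAt (hD.mem_nhds hx)
  exact (isOpenEmbedding_coe (X := E)).continuousAt_iff.1 h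

theorem cR_continuousAt [Inhabited M] {H : Yg × unitInterval × OnePoint E → OnePoint E}
    (hH : Continuous H) {W : E → M}
    (hi : ∀ y τ, H (y, τ, ∞) = ∞) {D : Set E} (hD : IsOpen D) (hW : ContinuousOn W D)
    (hG : ∀ y (x : E), H (y, 0, x) ≠ ∞ → x ∈ D) (R : ℕ) (q : (Fin R → Yg) × OnePoint E)
    (hx : HR H R (q.1, 0, q.2) ≠ ∞) : ContinuousAt (cR H W R) q := by
  induction R with
  | zero =>
    have : cR H W 0 = fun _ => Fin.elim0 := rfl
    rw [this]
    exact continuousAt_const
  | succ R ih =>
    have h2 : H (q.1 0, 0, q.2) ≠ ∞ := by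
      intro h
      apply hx
      change HR H R (Fin.tail q.1, 0, H (q.1 0, 0, q.2)) = ∞
      rw [h, HR_inf hi]
    have hc : Continuous (fun q : (Fin (R + 1) → Yg) × OnePoint E =>
        ((Fin.tail q.1 : Fin R → Yg), H (q.1 0, 0, q.2))) := by
      refine Continuous.prodMk ?_ ?_
      · exact continuous_pi fun i => (continuous_apply (Fin.succ i)).comp continuous_fst
      · exact hH.comp (((continuous_apply 0).comp continuous_fst).prodMk
          (continuous_const.prodMk continuous_snd))
    rw [continuousAt_pi]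
    intro i
    refine Fin.cases ?_ (fun j => ?_) i
    · change ContinuousAt (fun q : (Fin (R + 1) → Yg) × OnePoint E => Wext W q.2) q
      obtain ⟨y, x⟩ := q
      induction x using OnePoint.rec with
      | infty => exact absurd (hi _ _) h2
      | coe x =>
        have : ContinuousAt (Wext W) (x : OnePoint E) := Wext_continuousAt hD hW (hG _ _ h2)
        exact ContinuousAt.comp (g := Wext W) (f := Prod.snd) (x := (y, (x : OnePoint E)))
          this continuousAt_snd
    · change ContinuousAt (fun q : (Fin (R + 1) → Yg) × OnePoint E =>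
        cR H W R (Fin.tail q.1, H (q.1 0, 0, q.2)) j) q
      have h3 : ContinuousAt (cR H W R) ((Fin.tail q.1 : Fin R → Yg), H (q.1 0, 0, q.2)) :=
        ih _ hx
      have h4 : ContinuousAt (fun q : (Fin (R + 1) → Yg) × OnePoint E =>
        cR H W R (Fin.tail q.1, H (q.1 0, 0, q.2))) q :=
        ContinuousAt.comp (g := cR H W R) (f := fun q : (Fin (R + 1) → Yg) × OnePoint E =>
          ((Fin.tail q.1 : Fin R → Yg), H (q.1 0, 0, q.2))) h3 hc.continuousAt
      exact (continuousAt_pi.1 h4) j

end comp

/-! ### continuity of `rad` and `wpt` -/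

theorem rad_coe {w : ℂ} (h : w ≠ 0) : (rad w : ℂ) = w / (‖w‖ : ℂ) := by
  rw [rad, dif_neg h]

theorem rad_continuousOn : ContinuousOn rad {w : ℂ | w ≠ 0} := by
  rw [continuousOn_iff_continuous_restrict]
  refine Continuous.subtype_mk (p := fun x : ℂ => x ∈ Submonoid.unitSphere ℂ)
    (f := fun w : {w : ℂ | w ≠ 0} => (w : ℂ) / (‖(w : ℂ)‖ : ℂ)) ?_ ?_ |>.congr ?_
  · refine Continuous.div continuous_subtype_val
      (Complex.continuous_ofReal.comp (continuous_norm.comp continuous_subtype_val)) ?_
    rintro ⟨w, hw⟩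
    simpa using hw
  · rintro ⟨w, hw⟩
    rw [← rad_coe hw]
    exact (rad w).2
  · rintro ⟨w, hw⟩
    apply Subtype.ext
    exact (rad_coe hw).symm

theorem wpt_continuousOn {p n u l : ℕ} :
    ContinuousOn (wpt : EE p n u l → Fin u → TT p n) {x | ∀ i, x.1 i ≠ 0} := by
  refine continuousOn_pi.2 fun b => continuousOn_pi.2 fun j => continuousOn_pi.2 fun k => ?_
  refine rad_continuousOn.comp (t := {w : ℂ | w ≠ 0}) (s := {x : EE p n u l | ∀ i, x.1 i ≠ 0})
    (f := fun x : EE p n u l => x.1 (b, j, k)) ?_ ?_
  · exact ((continuous_apply _).comp continuous_fst).continuousOn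
  · intro x hx
    exact hx _

theorem isOpen_dom {p n u l : ℕ} : IsOpen {x : EE p n u l | ∀ i, x.1 i ≠ 0} := by
  simp only [setOf_forall]
  refine isOpen_iInter_of_finite fun i => ?_
  exact isOpen_ne.preimage ((continuous_apply i).comp continuous_fst)

end Crest.Agent.R090.T5
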