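import Crest.Agent.R090.T5Out_758
import Crest.Agent.R090.T5Phi_758
import Crest.Agent.R090.T5c_513
import Crest.Agent.R090.HepCut_865
import Crest.Agent.R090.Asm_843

/-!
# Row 90, block T5 closed: `SI → S0119` (helper758)
-/

set_option autoImplicit false

namespace Crest.Agent.R090.T5

open Crest.OpAlg

/-- **T5**: the conclusion of S0119 from the stable input `SI`. -/
theorem result_of_SI (p n : ℕ) (hp : 1 ≤ p) (hn : 1 ≤ n) (a : ℝ) (ha : 0 < a)
    (ha' : a < 1 / 16) {Y : Type*} [TopologicalSpace Y] [CompactSpace Y] [T2Space Y]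
    (f : Y → Fin n → Fin (2 * p + 1) → ℝ) (hf : Continuous f)
    (hfC : ∀ y, f y ∈ Crest.OpAlg.cube (2 * p + 1) n) (h : SI p n a f) (U : ℕ) :
    ∃ u : ℕ, U ≤ u ∧ ∃ G : (Fin u → Y) → (Fin u × Fin n → Fin (2 * p + 1) → ℝ),
      Continuous G ∧ (∀ y s k, |G y s k| ≤ 1) ∧
      (∀ y, a / 8 * (u * n : ℝ) ≤
        (({s | Crest.OpAlg.IsBoundarySlot (G y s)} : Set (Fin u × Fin n)).ncard : ℝ)) ∧
      ∀ y (b : Fin u) (j : Fin n), Crest.OpAlg.IsBoundarySlot (f (y b) j) →
        G y (b, j) = f (y b) j := by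
  obtain ⟨u, m, l, hu, hm, hΘ⟩ := HepCut865.thetaInput_of_SI hf h
  have h1 : GroupMap p n a f u m l := groupMap_of_phiInput (phiInput_of_thetaInput hΘ)
  have h2 : UnstableInput p n a f := unstableInput_of_groupMap hu hm h1
  exact Asm_843.result_of_unstableInput p n hp hn a ha ha' f hf hfC h2 U

end Crest.Agent.R090.T5
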