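import Crest.Agent.R090.Ho_962

/-!
# Row 90, TOPCELL (helper491), part A: tools on pointed maps

* `isOpenEmbedding_of_inv` : explicit inverse on an open set;
* `ofProper` : pointed map of a proper map;
* `homotopic_of_param` : `f : PMap (I × U) V` is a homotopy from `f (0,·)` to `f (1,·)`.
-/

set_option autoImplicit false
set_option linter.unusedSectionVars false

open Topology Filter Set
open Crest.Agent.R090.Sp962
open scoped unitInterval

namespace Crest.Agent.R090.TopA491

universe u v w

variable {U : Type u} {V : Type v} {W : Type w}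
  [TopologicalSpace U] [TopologicalSpace V] [TopologicalSpace W]

/-- An explicit continuous inverse on an open set. -/
theorem isOpenEmbedding_of_inv {e : U → V} {O : Set V} (hO : IsOpen O) (he : Continuous e)
    (h1 : ∀ u, e u ∈ O) (inv : O → U) (hinv : Continuous inv) (h2 : ∀ u, inv ⟨e u, h1 u⟩ = u)
    (h3 : ∀ v : O, e (inv v) = v) : IsOpenEmbedding e := by
  let h : U ≃ₜ O :=
    { toFun := fun u => ⟨e u, h1 u⟩
      invFun := inv
      left_inv := h2
      right_inv := fun v => Subtype.ext (h3 v)
      continuous_toFun := he.subtype_mk h1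
      continuous_invFun := hinv }
  exact hO.isOpenEmbedding_subtypeVal.comp h.isOpenEmbedding

/-- The range of such a map. -/
theorem range_eq_of_inv {e : U → V} {O : Set V}
    (h1 : ∀ u, e u ∈ O) (inv : O → U) (h3 : ∀ v : O, e (inv v) = v) : range e = O := by
  ext v
  constructor
  · rintro ⟨u, rfl⟩
    exact h1 u
  · intro hv
    exact ⟨inv ⟨v, hv⟩, h3 ⟨v, hv⟩⟩

/-- The pointed map of a proper map. -/
def ofProper (f : U → V) (hf : IsProperMap f) : PMap U V where
  toFun := OnePoint.map f
  cont := OnePoint.continuous_map hf.continuous (by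
    rw [hasBasis_coclosedCompact.tendsto_iff hasBasis_coclosedCompact]
    rintro K ⟨hK, hK'⟩
    exact ⟨f ⁻¹' K, ⟨hK.preimage hf.continuous, hf.isCompact_preimage hK'⟩, fun x hx => hx⟩)
  map_inf := rfl

@[simp] theorem ofProper_coe (f : U → V) (hf : IsProperMap f) (x : U) :
    ofProper f hf x = (f x : OnePoint V) := rfl

/-- A continuous map from a compact space. -/
def ofCont [CompactSpace U] [T2Space V] (f : U → V) (hf : Continuous f) : PMap U V :=
  ofProper f hf.isProperMap

@[simp] theorem ofCont_coe [CompactSpace U] [T2Space V] (f : U → V) (hf : Continuous f) (x : U) :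
    ofCont f hf x = (f x : OnePoint V) := rfl

/-- A pointed map with a parameter is a homotopy. -/
theorem homotopic_of_param [T2Space U] {f₀ f₁ : PMap U V} (f : PMap (I × U) V)
    (h0 : ∀ x : U, f ((0, x) : I × U) = f₀ x) (h1 : ∀ x : U, f ((1, x) : I × U) = f₁ x) :
    f₀.Homotopic f₁ := by
  refine PMap.Homotopic.of (fun p => f (sm (p.1 : OnePoint I) p.2)) ?_ h0 h1 fun t => ?_
  · exact f.cont.comp ((OnePoint.continuous_coe.comp continuous_fst).sm962 continuous_snd)
  · change f (sm (t : OnePoint I) OnePoint.infty) = OnePoint.infty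
    simp

/-- Proper maps from a closed embedding after composition. -/
theorem isProperMap_of_comp [T2Space V] {f : U → V} {g : V → W} (hf : Continuous f)
    (hg : Continuous g) (h : IsProperMap (g ∘ f)) : IsProperMap f :=
  isProperMap_of_comp_of_t2 hf hg h

end Crest.Agent.R090.TopA491
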