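import Crest.Agent.R090.TopA_491
import Crest.Agent.R090.I0a_275

/-!
# Row 90, TOPCELL (helper491), part B: algebra of lines

* `exists_vec` : a projection of trace one is `α α*`, `|α| = 1`;
* `nq v = Σ |v i|²`, `ρ L w s = √(|L w|² + s²)`;
* `bl L w s` : the line of `L ⊕ ℂ` with Bloch vector `(L w, s)/ρ`; `isPr_bl`;
* `Rf b = (b + √(b² + 4))/2`, the inverse of `ρ ↦ ρ - 1/ρ`.
-/

set_option autoImplicit false
set_option linter.unusedSectionVars false

open Topology Filter Set Matrix
open Crest.Agent.R090.Sp962 Crest.Agent.R090.I0core275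

noncomputable section

namespace Crest.Agent.R090.TopB491

variable {ι : Type*} [Fintype ι] [DecidableEq ι]

/-- `|v|²`. -/
def nq (v : ι → ℂ) : ℝ := ∑ i, ‖v i‖ ^ 2

theorem nq_nonneg (v : ι → ℂ) : 0 ≤ nq v := Finset.sum_nonneg fun i _ => by positivity

theorem nq_cast (v : ι → ℂ) : ((nq v : ℝ) : ℂ) = ∑ i, star (v i) * v i := by
  unfold nq
  push_cast
  refine Finset.sum_congr rfl fun i _ => ?_
  rw [Complex.star_def, mul_comm, Complex.mul_conj, Complex.normSq_eq_norm_sq]
  push_cast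
  rfl

theorem nq_smul (c : ℂ) (v : ι → ℂ) : nq (c • v) = ‖c‖ ^ 2 * nq v := by
  unfold nq
  rw [Finset.mul_sum]
  refine Finset.sum_congr rfl fun i _ => ?_
  rw [Pi.smul_apply, smul_eq_mul, norm_mul, mul_pow]

theorem continuous_nq : Continuous (nq : (ι → ℂ) → ℝ) := by
  unfold nq
  fun_prop

theorem nq_eq_zero {v : ι → ℂ} : nq v = 0 ↔ v = 0 := by
  unfold nq
  rw [Finset.sum_eq_zero_iff_of_nonneg fun i _ => by positivity]
  constructor
  · intro h
    funext i
    have := h i (Finset.mem_univ i)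
    simpa using this
  · rintro rfl i _
    simp

open scoped ComplexOrder in
/-- Hermitian idempotents of trace zero vanish. -/
theorem eq_zero_of_trace {R : Matrix ι ι ℂ} (h1 : Rᴴ = R) (h2 : R * R = R) (h3 : R.trace = 0) :
    R = 0 := by
  have h4 : (Rᴴ * R).trace = 0 := by rw [h1, h2, h3]
  exact Matrix.trace_conjTranspose_mul_self_eq_zero_iff.1 h4

/-- A projection of trace one is `α α*`. -/
theorem exists_vec {L : Matrix ι ι ℂ} (h : IsPr 1 L) :
    ∃ α : ι → ℂ, nq α = 1 ∧ L = vecMulVec α (star α) := by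
  have h0 : ∃ i, L i i ≠ 0 := by
    by_contra hn
    push Not at hn
    have h1 := h.tr
    rw [Matrix.trace] at h1
    simp [hn] at h1
  obtain ⟨i, hi⟩ := h0
  have hs := h.sum_sq i
  set t : ℝ := ∑ j, ‖L i j‖ ^ 2 with ht
  have htpos : 0 < t := by
    have h1 : 0 ≤ t := Finset.sum_nonneg fun j _ => by positivity
    rcases h1.lt_or_eq with h2 | h2
    · exact h2
    · exfalso
      apply hi
      rw [← hs, ← h2]
      simp
  have hsq : Real.sqrt t ≠ 0 := (Real.sqrt_pos.2 htpos).ne'
  have hst : (Real.sqrt t : ℂ) * (Real.sqrt t : ℂ) = L i i := by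
    rw [← Complex.ofReal_mul, Real.mul_self_sqrt htpos.le, hs]
  have hherm : ∀ j k, star (L j k) = L k j := fun j k => by
    have := congrFun (congrFun h.herm k) j
    rw [Matrix.conjTranspose_apply] at this
    exact this
  set α : ι → ℂ := fun j => L j i / (Real.sqrt t : ℂ) with hα
  have hsqC : (Real.sqrt t : ℂ) ≠ 0 := by exact_mod_cast hsq
  have hαα : ∀ j k, α j * star (α k) = L j i * L i k / L i i := by
    intro j k
    rw [hα]
    simp only [star_div₀, hherm]
    have : star (Real.sqrt t : ℂ) = (Real.sqrt t : ℂ) := by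
      rw [Complex.star_def, Complex.conj_ofReal]
    rw [this, div_mul_div_comm, hst]
  have hn : nq α = 1 := by
    have h1 : nq α = (∑ j, ‖L j i‖ ^ 2) / t := by
      unfold nq
      rw [Finset.sum_div]
      refine Finset.sum_congr rfl fun j _ => ?_
      rw [hα]
      simp only [norm_div, div_pow]
      rw [Complex.norm_real, Real.norm_eq_abs, sq_abs, Real.sq_sqrt htpos.le]
    have h2 : ∑ j, ‖L j i‖ ^ 2 = t := by
      rw [ht]
      refine Finset.sum_congr rfl fun j _ => ?_
      rw [← hherm i j, norm_star]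
    rw [h1, h2, div_self htpos.ne']
  refine ⟨α, hn, ?_⟩
  set Q : Matrix ι ι ℂ := vecMulVec α (star α) with hQ
  have hQe : ∀ j k, Q j k = L j i * L i k / L i i := fun j k => hαα j k
  have hLQ : L * Q = Q := by
    ext j k
    rw [Matrix.mul_apply]
    simp only [hQe]
    have h1 : ∑ l, L j l * L l i = L j i := by
      have := congrFun (congrFun h.idem j) i
      rwa [Matrix.mul_apply] at this
    calc ∑ l, L j l * (L l i * L i k / L i i) = (∑ l, L j l * L l i) * (L i k / L i i) := by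
          rw [Finset.sum_mul]
          exact Finset.sum_congr rfl fun l _ => by ring
      _ = _ := by rw [h1]; ring
  have hQH : Qᴴ = Q := by
    ext j k
    rw [Matrix.conjTranspose_apply, hQe, hQe, star_div₀, star_mul', hherm, hherm, hherm]
    ring
  have hQL : Q * L = Q := by
    have := congrArg conjTranspose hLQ
    rwa [Matrix.conjTranspose_mul, h.herm, hQH] at this
  have hQQ : Q * Q = Q := by
    rw [hQ, vecMulVec_mul_vecMulVec]
    have : star α ⬝ᵥ α = 1 := by
      rw [dotProduct]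
      have := nq_cast α
      rw [hn] at this
      simpa using this.symm
    rw [this]
    simp
  have hQt : Q.trace = 1 := by
    rw [Matrix.trace]
    have := nq_cast α
    rw [hn] at this
    simp only [Matrix.diag_apply, hQ, vecMulVec_apply, Pi.star_apply]
    rw [Complex.ofReal_one] at this
    rw [this]
    exact Finset.sum_congr rfl fun l _ => mul_comm _ _
  have h3 : L - Q = 0 := by
    refine eq_zero_of_trace ?_ ?_ ?_
    · rw [Matrix.conjTranspose_sub, h.herm, hQH]
    · rw [sub_mul, mul_sub, mul_sub, h.idem, hLQ, hQL, hQQ]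
      abel
    · rw [Matrix.trace_sub, h.tr, hQt]
      simp
  exact sub_eq_zero.1 h3

theorem isPr_vec {α : ι → ℂ} (h : nq α = 1) : IsPr 1 (vecMulVec α (star α)) := by
  have h1 : star α ⬝ᵥ α = 1 := by
    rw [dotProduct]
    have := nq_cast α
    rw [h] at this
    simpa using this.symm
  refine ⟨?_, ?_, ?_⟩
  · ext j k
    rw [Matrix.conjTranspose_apply, vecMulVec_apply, vecMulVec_apply, star_mul', Pi.star_apply,
      Pi.star_apply, star_star, mul_comm]
  · rw [vecMulVec_mul_vecMulVec, h1]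
    simp
  · rw [Matrix.trace_vecMulVec, dotProduct_comm, h1]
    simp

theorem mulVec_vec (α w : ι → ℂ) : vecMulVec α (star α) *ᵥ w = (star α ⬝ᵥ w) • α := by
  funext i
  rw [Matrix.mulVec, dotProduct]
  simp only [vecMulVec_apply, Pi.star_apply, Pi.smul_apply, smul_eq_mul, dotProduct,
    Finset.sum_mul]
  exact Finset.sum_congr rfl fun j _ => by ring

/-- Vectors of a line. -/
theorem line_mul {L : Matrix ι ι ℂ} (h : IsPr 1 L) {v : ι → ℂ} (hv : L *ᵥ v = v) (i j : ι) :
    v i * star (v j) = (nq v : ℂ) * L i j := by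
  obtain ⟨α, hα, rfl⟩ := exists_vec h
  rw [mulVec_vec] at hv
  set l := star α ⬝ᵥ v with hl
  rw [← hv, nq_smul, hα, mul_one]
  simp only [Pi.smul_apply, smul_eq_mul, star_mul', vecMulVec_apply, Pi.star_apply]
  have : ((‖l‖ ^ 2 : ℝ) : ℂ) = l * star l := by
    rw [Complex.star_def, Complex.mul_conj, Complex.normSq_eq_norm_sq]
  rw [this]
  ring

theorem mulVec_idem {k : ℕ} {L : Matrix ι ι ℂ} (h : IsPr k L) (w : ι → ℂ) :
    L *ᵥ (L *ᵥ w) = L *ᵥ w := by
  rw [Matrix.mulVec_mulVec, h.idem]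

theorem herm_apply {k : ℕ} {L : Matrix ι ι ℂ} (h : IsPr k L) (i j : ι) : star (L i j) = L j i := by
  have := congrFun (congrFun h.herm j) i
  rwa [Matrix.conjTranspose_apply] at this

/-- The radius. -/
def rr (L : Matrix ι ι ℂ) (w : ι → ℂ) (s : ℝ) : ℝ := Real.sqrt (nq (L *ᵥ w) + s ^ 2)

theorem rr_nonneg (L : Matrix ι ι ℂ) (w : ι → ℂ) (s : ℝ) : 0 ≤ rr L w s := Real.sqrt_nonneg _

theorem rr_sq (L : Matrix ι ι ℂ) (w : ι → ℂ) (s : ℝ) :
    rr L w s ^ 2 = nq (L *ᵥ w) + s ^ 2 := by
  unfold rr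
  rw [Real.sq_sqrt]
  have := nq_nonneg (L *ᵥ w)
  positivity

/-- The line of `L ⊕ ℂ` with Bloch vector `(v, s)/r`. -/
def bl (L : Matrix ι ι ℂ) (v : ι → ℂ) (r s : ℝ) : Matrix (ι ⊕ Unit) (ι ⊕ Unit) ℂ :=
  fromBlocks ((((1 + s / r) / 2 : ℝ) : ℂ) • L) (of fun i _ => ((1 / (2 * r) : ℝ) : ℂ) * v i)
    (of fun _ i => ((1 / (2 * r) : ℝ) : ℂ) * star (v i)) (of fun _ _ => (((1 - s / r) / 2 : ℝ) : ℂ))

theorem isPr_bl {L : Matrix ι ι ℂ} (hL : IsPr 1 L) {v : ι → ℂ} (hv : L *ᵥ v = v) {r s : ℝ}
    (hr : 0 < r) (h : nq v + s ^ 2 = r ^ 2) : IsPr 1 (bl L v r s) := by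
  have hrC : (r : ℂ) ≠ 0 := by exact_mod_cast hr.ne'
  have hnq : (nq v : ℂ) = (r : ℂ) ^ 2 - (s : ℂ) ^ 2 := by
    have : nq v = r ^ 2 - s ^ 2 := by linarith
    rw [this]
    push_cast
    ring
  have hrow : ∀ i, ∑ j, star (v j) * L j i = star (v i) := by
    intro i
    have h1 : star ((L *ᵥ v) i) = star (v i) := by rw [hv]
    rw [← h1, Matrix.mulVec, dotProduct, star_sum]
    refine Finset.sum_congr rfl fun j _ => ?_
    rw [star_mul', herm_apply hL, mul_comm]
  have hcol : ∀ i, ∑ j, L i j * v j = v i := fun i => congrFun hv i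
  refine ⟨?_, ?_, ?_⟩
  · unfold bl
    rw [fromBlocks_conjTranspose]
    congr 1
    · rw [Matrix.conjTranspose_smul, hL.herm, Complex.star_def, Complex.conj_ofReal]
    · ext i j
      rw [Matrix.conjTranspose_apply, of_apply, of_apply, star_mul', star_star, Complex.star_def,
        Complex.conj_ofReal]
    · ext i j
      rw [Matrix.conjTranspose_apply, of_apply, of_apply, star_mul', Complex.star_def,
        Complex.conj_ofReal]
    · ext i j
      rw [Matrix.conjTranspose_apply, of_apply, Complex.star_def, Complex.conj_ofReal]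
  · unfold bl
    rw [fromBlocks_multiply]
    congr 1
    · ext i j
      rw [Matrix.add_apply, Matrix.smul_mul, Matrix.mul_smul, hL.idem, Matrix.smul_apply,
        Matrix.smul_apply, Matrix.mul_apply]
      simp only [Finset.univ_unique, Finset.sum_singleton, of_apply, smul_eq_mul]
      have h1 := line_mul hL hv i j
      have e1 : ((1 / (2 * r) : ℝ) : ℂ) * v i * (((1 / (2 * r) : ℝ) : ℂ) * star (v j)) =
          ((1 / (2 * r) : ℝ) : ℂ) ^ 2 * ((nq v : ℂ) * L i j) := by
        rw [← h1]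
        ring
      rw [e1, hnq]
      push_cast
      field_simp
      ring
    · ext i j
      rw [Matrix.add_apply, Matrix.smul_mul, Matrix.smul_apply, Matrix.mul_apply,
        Matrix.mul_apply]
      simp only [Finset.univ_unique, Finset.sum_singleton, of_apply, smul_eq_mul]
      have e1 : ∑ x, L i x * (((1 / (2 * r) : ℝ) : ℂ) * v x) =
          ((1 / (2 * r) : ℝ) : ℂ) * v i := by
        rw [← hcol i, Finset.mul_sum]
        exact Finset.sum_congr rfl fun x _ => by ring
      rw [e1]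
      push_cast
      field_simp
      ring
    · ext i j
      rw [Matrix.add_apply, Matrix.mul_smul, Matrix.smul_apply, Matrix.mul_apply,
        Matrix.mul_apply]
      simp only [Finset.univ_unique, Finset.sum_singleton, of_apply, smul_eq_mul]
      have e1 : ∑ x, (((1 / (2 * r) : ℝ) : ℂ) * star (v x)) * L x j =
          ((1 / (2 * r) : ℝ) : ℂ) * star (v j) := by
        rw [← hrow j, Finset.mul_sum]
        exact Finset.sum_congr rfl fun x _ => by ring
      rw [e1]
      push_cast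
      field_simp
      ring
    · ext i j
      rw [Matrix.add_apply, Matrix.mul_apply, Matrix.mul_apply]
      simp only [Finset.univ_unique, Finset.sum_singleton, of_apply]
      have e1 : ∑ x, (((1 / (2 * r) : ℝ) : ℂ) * star (v x)) * (((1 / (2 * r) : ℝ) : ℂ) * v x) =
          ((1 / (2 * r) : ℝ) : ℂ) ^ 2 * (nq v : ℂ) := by
        rw [nq_cast, Finset.mul_sum]
        exact Finset.sum_congr rfl fun x _ => by ring
      rw [e1, hnq]
      push_cast
      field_simp
      ring
  · unfold bl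
    have h1 := hL.tr
    rw [Matrix.trace] at h1 ⊢
    simp only [Matrix.diag_apply] at h1 ⊢
    rw [Fintype.sum_sum_type]
    simp only [fromBlocks_apply₁₁, fromBlocks_apply₂₂, Finset.univ_unique, Finset.sum_singleton,
      of_apply, Matrix.smul_apply, smul_eq_mul]
    rw [← Finset.mul_sum, h1]
    push_cast
    ring

theorem le_bl {L : Matrix ι ι ℂ} (hL : IsPr 1 L) {v : ι → ℂ} (hv : L *ᵥ v = v) (r s : ℝ) :
    fromBlocks L 0 0 1 * bl L v r s = bl L v r s := by
  unfold bl
  rw [fromBlocks_multiply]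
  have hcol : ∀ i, ∑ j, L i j * v j = v i := fun i => congrFun hv i
  congr 1
  · rw [Matrix.mul_smul, hL.idem, Matrix.zero_mul, add_zero]
  · rw [Matrix.zero_mul, add_zero]
    ext i j
    rw [Matrix.mul_apply]
    simp only [of_apply]
    calc ∑ x, L i x * (((1 / (2 * r) : ℝ) : ℂ) * v x) =
        ((1 / (2 * r) : ℝ) : ℂ) * ∑ x, L i x * v x := by
          rw [Finset.mul_sum]
          exact Finset.sum_congr rfl fun x _ => by ring
      _ = _ := by rw [hcol i]
  · rw [Matrix.zero_mul, zero_add, Matrix.one_mul]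
  · rw [Matrix.zero_mul, zero_add, Matrix.one_mul]

/-- Structure of a line in `L ⊕ ℂ`. -/
theorem line_struct {L : Matrix ι ι ℂ} (hL : IsPr 1 L) {Q : Matrix (ι ⊕ Unit) (ι ⊕ Unit) ℂ}
    (hQ : IsPr 1 Q) (h : fromBlocks L 0 0 1 * Q = Q) :
    (L *ᵥ (fun i => Q (Sum.inl i) (Sum.inr ())) = fun i => Q (Sum.inl i) (Sum.inr ())) ∧
    nq (fun i => Q (Sum.inl i) (Sum.inr ())) =
      (Q (Sum.inr ()) (Sum.inr ())).re - (Q (Sum.inr ()) (Sum.inr ())).re ^ 2 ∧
    ∀ R : ℝ, 0 < R → bl L (fun i => ((2 * R : ℝ) : ℂ) * Q (Sum.inl i) (Sum.inr ())) R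
      (R * (1 - 2 * (Q (Sum.inr ()) (Sum.inr ())).re)) = Q := by
  obtain ⟨u, hu, hQu⟩ := exists_vec hQ
  set x : ι → ℂ := fun i => u (Sum.inl i) with hx
  set c : ℂ := u (Sum.inr ()) with hc
  have hQe : ∀ i j, Q i j = u i * star (u j) := fun i j => by
    rw [hQu, vecMulVec_apply, Pi.star_apply]
  have hsum : nq x + ‖c‖ ^ 2 = 1 := by
    rw [← hu]
    unfold nq
    rw [Fintype.sum_sum_type]
    simp [hx, hc]
  have hQuu : Q *ᵥ u = u := by
    rw [hQu, mulVec_vec]
    have h1 : star u ⬝ᵥ u = 1 := by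
      rw [dotProduct]
      have := nq_cast u
      rw [hu] at this
      simpa using this.symm
    rw [h1, one_smul]
  have hLx : L *ᵥ x = x := by
    have h1 : fromBlocks L 0 0 1 *ᵥ u = u := by
      conv_lhs => rw [← hQuu, Matrix.mulVec_mulVec, h, hQuu]
    funext i
    have h2 := congrFun h1 (Sum.inl i)
    rw [Matrix.mulVec, dotProduct, Fintype.sum_sum_type] at h2
    change ∑ a, L i a * u (Sum.inl a) = u (Sum.inl i)
    simpa using h2
  have hcc : star c * c = ((‖c‖ ^ 2 : ℝ) : ℂ) := by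
    rw [Complex.star_def, mul_comm, Complex.mul_conj, Complex.normSq_eq_norm_sq]
  have hee : Q (Sum.inr ()) (Sum.inr ()) = ((‖c‖ ^ 2 : ℝ) : ℂ) := by
    rw [hQe, mul_comm]
    exact hcc
  have hcolv : (fun i => Q (Sum.inl i) (Sum.inr ())) = star c • x := by
    funext i
    rw [hQe, Pi.smul_apply, smul_eq_mul, mul_comm]
  have hre : (Q (Sum.inr ()) (Sum.inr ())).re = ‖c‖ ^ 2 := by
    rw [hee, Complex.ofReal_re]
  refine ⟨?_, ?_, fun R hR => ?_⟩
  · rw [hcolv, Matrix.mulVec_smul, hLx]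
  · rw [hcolv, nq_smul, norm_star, hre]
    have : nq x = 1 - ‖c‖ ^ 2 := by linarith
    rw [this]
    ring
  · have hRC : (R : ℂ) ≠ 0 := by exact_mod_cast hR.ne'
    rw [hre]
    have h1 : Q = fromBlocks Q.toBlocks₁₁ Q.toBlocks₁₂ Q.toBlocks₂₁ Q.toBlocks₂₂ :=
      (fromBlocks_toBlocks Q).symm
    rw [h1]
    unfold bl
    congr 1
    · ext i j
      rw [Matrix.smul_apply, smul_eq_mul]
      change _ = Q (Sum.inl i) (Sum.inl j)
      rw [hQe]
      have h2 := line_mul hL hLx i j
      change _ = x i * star (x j)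
      rw [h2]
      have h3 : nq x = 1 - ‖c‖ ^ 2 := by linarith
      rw [h3]
      push_cast
      field_simp
      ring
    · ext i j
      rw [of_apply]
      change _ = Q (Sum.inl i) (Sum.inr ())
      rw [fromBlocks_toBlocks]
      push_cast
      field_simp
    · ext i j
      rw [of_apply]
      change _ = Q (Sum.inr ()) (Sum.inl j)
      rw [fromBlocks_toBlocks, star_mul', herm_apply hQ, Complex.star_def, Complex.conj_ofReal]
      push_cast
      field_simp
    · ext i j
      rw [of_apply]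
      change _ = Q (Sum.inr ()) (Sum.inr ())
      rw [hee]
      push_cast
      field_simp
      ring

/-- The inverse of `r ↦ r - 1/r`. -/
def Rf (b : ℝ) : ℝ := (b + Real.sqrt (b ^ 2 + 4)) / 2

theorem Rf_sq (b : ℝ) : Rf b ^ 2 = b * Rf b + 1 := by
  unfold Rf
  have h : Real.sqrt (b ^ 2 + 4) ^ 2 = b ^ 2 + 4 := Real.sq_sqrt (by positivity)
  nlinarith

theorem Rf_pos (b : ℝ) : 0 < Rf b := by
  unfold Rf
  have h1 : |b| < Real.sqrt (b ^ 2 + 4) := by
    rw [← Real.sqrt_sq_eq_abs]
    exact Real.sqrt_lt_sqrt (by positivity) (by linarith)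
  have h2 := neg_abs_le b
  linarith

theorem Rf_sub_inv (b : ℝ) : Rf b - 1 / Rf b = b := by
  have h1 := Rf_pos b
  have h2 := Rf_sq b
  field_simp
  linarith

theorem Rf_of {x : ℝ} (hx : 0 < x) : Rf (x - 1 / x) = x := by
  unfold Rf
  have h1 : (x - 1 / x) ^ 2 + 4 = (x + 1 / x) ^ 2 := by
    field_simp
    ring
  have h2 : 0 ≤ x + 1 / x := by positivity
  rw [h1, Real.sqrt_sq h2]
  ring

theorem continuous_Rf : Continuous Rf := by
  unfold Rf
  fun_prop

end Crest.Agent.R090.TopB491
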