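import Crest.Agent.R090.TopB_491

/-!
# Row 90, TOPCELL (helper491), part C: the step collapse

`stepP L : PMap (A × (ℂ^ι × ℂ)) (Y L)`, `(a, w, z) ↦ (a, line of L_a ⊕ ℂ with Bloch vector
(L_a w, Re z)/ρ, w - L_a w, ρ - 1/ρ + i Im z)`, `∞` if `ρ = 0`.
-/

set_option autoImplicit false
set_option linter.unusedSectionVars false

open Topology Filter Set Matrix
open Crest.Agent.R090.Sp962 Crest.Agent.R090.I0core275
open Crest.Agent.R090.TopA491 Crest.Agent.R090.TopB491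

noncomputable section

namespace Crest.Agent.R090.TopC491

variable {ι : Type*} [Fintype ι] [DecidableEq ι] {A : Type*} [TopologicalSpace A]

/-- Lines of `L_a ⊕ ℂ`, a vector orthogonal to `L_a`, a complex number. -/
def Y (L : A → Matrix ι ι ℂ) : Type _ :=
  {p : A × (Matrix (ι ⊕ Unit) (ι ⊕ Unit) ℂ × ((ι → ℂ) × ℂ)) //
    IsPr 1 p.2.1 ∧ fromBlocks (L p.1) 0 0 1 * p.2.1 = p.2.1 ∧ L p.1 *ᵥ p.2.2.1 = 0}

instance (L : A → Matrix ι ι ℂ) : TopologicalSpace (Y L) :=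
  inferInstanceAs (TopologicalSpace {p : A × (Matrix (ι ⊕ Unit) (ι ⊕ Unit) ℂ × ((ι → ℂ) × ℂ)) //
    IsPr 1 p.2.1 ∧ fromBlocks (L p.1) 0 0 1 * p.2.1 = p.2.1 ∧ L p.1 *ᵥ p.2.2.1 = 0})

variable {L : A → Matrix ι ι ℂ}

theorem isClosed_Y [T2Space A] (hL : Continuous L) :
    IsClosed {p : A × (Matrix (ι ⊕ Unit) (ι ⊕ Unit) ℂ × ((ι → ℂ) × ℂ)) |
      IsPr 1 p.2.1 ∧ fromBlocks (L p.1) 0 0 1 * p.2.1 = p.2.1 ∧ L p.1 *ᵥ p.2.2.1 = 0} := by
  have h1 : IsClosed {p : A × (Matrix (ι ⊕ Unit) (ι ⊕ Unit) ℂ × ((ι → ℂ) × ℂ)) | IsPr 1 p.2.1} :=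
    (isClosed_isPr 1).preimage (continuous_fst.comp continuous_snd)
  have h2 : IsClosed {p : A × (Matrix (ι ⊕ Unit) (ι ⊕ Unit) ℂ × ((ι → ℂ) × ℂ)) |
      fromBlocks (L p.1) 0 0 1 * p.2.1 = p.2.1} := by
    refine isClosed_eq ?_ (continuous_fst.comp continuous_snd)
    exact ((hL.comp continuous_fst).matrix_fromBlocks continuous_const continuous_const
      continuous_const).matrix_mul (continuous_fst.comp continuous_snd)
  have h3 : IsClosed {p : A × (Matrix (ι ⊕ Unit) (ι ⊕ Unit) ℂ × ((ι → ℂ) × ℂ)) |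
      L p.1 *ᵥ p.2.2.1 = 0} := by
    refine isClosed_eq ?_ continuous_const
    exact (hL.comp continuous_fst).matrix_mulVec
      (continuous_fst.comp (continuous_snd.comp continuous_snd))
  exact h1.inter (h2.inter h3)

theorem isClosedEmbedding_Y [T2Space A] (hL : Continuous L) :
    IsClosedEmbedding (Subtype.val : Y L → A × (Matrix (ι ⊕ Unit) (ι ⊕ Unit) ℂ × ((ι → ℂ) × ℂ))) :=
  (isClosed_Y hL).isClosedEmbedding_subtypeVal

instance [T2Space A] : T2Space (Y L) :=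
  inferInstanceAs (T2Space {p : A × (Matrix (ι ⊕ Unit) (ι ⊕ Unit) ℂ × ((ι → ℂ) × ℂ)) //
    IsPr 1 p.2.1 ∧ fromBlocks (L p.1) 0 0 1 * p.2.1 = p.2.1 ∧ L p.1 *ᵥ p.2.2.1 = 0})

theorem locallyCompact_Y [T2Space A] [LocallyCompactSpace A] (hL : Continuous L) :
    LocallyCompactSpace (Y L) := (isClosedEmbedding_Y hL).locallyCompactSpace

/-- The open embedding of the step. -/
def eS (p : Y L) : A × ((ι → ℂ) × ℂ) :=
  (p.1.1, (fun i => p.1.2.2.1 i +
    ((2 * Rf p.1.2.2.2.re : ℝ) : ℂ) * p.1.2.1 (Sum.inl i) (Sum.inr ()),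
    ((Rf p.1.2.2.2.re * (1 - 2 * (p.1.2.1 (Sum.inr ()) (Sum.inr ())).re) : ℝ) : ℂ) +
      (p.1.2.2.2.im : ℂ) * Complex.I))

theorem continuous_eS : Continuous (eS : Y L → A × ((ι → ℂ) × ℂ)) := by
  have h0 : Continuous (fun p : Y L => p.1) := continuous_subtype_val
  have h1 : Continuous (fun p : Y L => p.1.2.1) := continuous_fst.comp (continuous_snd.comp h0)
  have h2 : Continuous (fun p : Y L => p.1.2.2.2) :=
    continuous_snd.comp (continuous_snd.comp (continuous_snd.comp h0))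
  have h3 : Continuous (fun p : Y L => p.1.2.2.1) :=
    continuous_fst.comp (continuous_snd.comp (continuous_snd.comp h0))
  have h4 : Continuous (fun p : Y L => Rf p.1.2.2.2.re) :=
    continuous_Rf.comp (Complex.continuous_re.comp h2)
  refine (continuous_fst.comp h0).prodMk (Continuous.prodMk ?_ ?_)
  · refine continuous_pi fun i => ?_
    refine ((continuous_apply i).comp h3).add ?_
    refine (Complex.continuous_ofReal.comp (continuous_const.mul h4)).mul ?_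
    exact h1.matrix_elem _ _
  · refine (Complex.continuous_ofReal.comp (h4.mul (continuous_const.sub
      (continuous_const.mul (Complex.continuous_re.comp (h1.matrix_elem _ _)))))).add ?_
    exact (Complex.continuous_ofReal.comp (Complex.continuous_im.comp h2)).mul continuous_const

theorem eS_snd_re (p : Y L) : (eS p).2.2.re =
    Rf p.1.2.2.2.re * (1 - 2 * (p.1.2.1 (Sum.inr ()) (Sum.inr ())).re) := by
  simp [eS]

theorem eS_snd_im (p : Y L) : (eS p).2.2.im = p.1.2.2.2.im := by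
  simp [eS]

theorem mulVec_eS (h1 : ∀ a, IsPr 1 (L a)) (p : Y L) : L p.1.1 *ᵥ (eS p).2.1 =
    fun i => ((2 * Rf p.1.2.2.2.re : ℝ) : ℂ) * p.1.2.1 (Sum.inl i) (Sum.inr ()) := by
  obtain ⟨hc, -, -⟩ := line_struct (h1 p.1.1) p.2.1 p.2.2.1
  have e : (eS p).2.1 = p.1.2.2.1 + ((2 * Rf p.1.2.2.2.re : ℝ) : ℂ) •
      (fun i => p.1.2.1 (Sum.inl i) (Sum.inr ())) := by
    funext i
    rfl
  rw [e, Matrix.mulVec_add, p.2.2.2, zero_add, Matrix.mulVec_smul, hc]
  rfl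

theorem rr_eS (h1 : ∀ a, IsPr 1 (L a)) (p : Y L) :
    rr (L p.1.1) (eS p).2.1 (eS p).2.2.re = Rf p.1.2.2.2.re := by
  obtain ⟨-, hn, -⟩ := line_struct (h1 p.1.1) p.2.1 p.2.2.1
  have hR := Rf_pos p.1.2.2.2.re
  unfold rr
  rw [mulVec_eS h1 p, eS_snd_re]
  have e : nq (fun i => ((2 * Rf p.1.2.2.2.re : ℝ) : ℂ) * p.1.2.1 (Sum.inl i) (Sum.inr ())) =
      (2 * Rf p.1.2.2.2.re) ^ 2 * nq (fun i => p.1.2.1 (Sum.inl i) (Sum.inr ())) := by
    have h2 := nq_smul ((2 * Rf p.1.2.2.2.re : ℝ) : ℂ)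
      (fun i => p.1.2.1 (Sum.inl i) (Sum.inr ()))
    rw [Complex.norm_real, Real.norm_eq_abs, sq_abs] at h2
    exact h2
  rw [e, hn, Real.sqrt_eq_iff_mul_self_eq_of_pos hR]
  ring

/-- The domain of the inverse. -/
def OS (L : A → Matrix ι ι ℂ) : Set (A × ((ι → ℂ) × ℂ)) :=
  {q | 0 < rr (L q.1) q.2.1 q.2.2.re}

theorem continuous_rr (hL : Continuous L) :
    Continuous (fun q : A × ((ι → ℂ) × ℂ) => rr (L q.1) q.2.1 q.2.2.re) := by
  unfold rr
  refine Real.continuous_sqrt.comp (Continuous.add ?_ ?_)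
  · exact continuous_nq.comp ((hL.comp continuous_fst).matrix_mulVec
      (continuous_fst.comp continuous_snd))
  · exact (Complex.continuous_re.comp (continuous_snd.comp continuous_snd)).pow 2

theorem isOpen_OS (hL : Continuous L) : IsOpen (OS L) :=
  isOpen_lt continuous_const (continuous_rr hL)

/-- The inverse. -/
def iS (h1 : ∀ a, IsPr 1 (L a)) (q : OS L) : Y L :=
  ⟨(q.1.1, (bl (L q.1.1) (L q.1.1 *ᵥ q.1.2.1) (rr (L q.1.1) q.1.2.1 q.1.2.2.re) q.1.2.2.re,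
    (q.1.2.1 - L q.1.1 *ᵥ q.1.2.1,
      ((rr (L q.1.1) q.1.2.1 q.1.2.2.re - 1 / rr (L q.1.1) q.1.2.1 q.1.2.2.re : ℝ) : ℂ) +
        (q.1.2.2.im : ℂ) * Complex.I))), by
    refine ⟨isPr_bl (h1 _) (mulVec_idem (h1 _) _) q.2 (rr_sq _ _ _).symm,
      le_bl (h1 _) (mulVec_idem (h1 _) _) _ _, ?_⟩
    change L q.1.1 *ᵥ (q.1.2.1 - L q.1.1 *ᵥ q.1.2.1) = 0
    rw [Matrix.mulVec_sub, mulVec_idem (h1 _), sub_self]⟩

theorem continuous_iS (hL : Continuous L) (h1 : ∀ a, IsPr 1 (L a)) : Continuous (iS h1) := by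
  have h0 : Continuous (fun q : OS L => q.1) := continuous_subtype_val
  have hr : Continuous (fun q : OS L => rr (L q.1.1) q.1.2.1 q.1.2.2.re) :=
    (continuous_rr hL).comp h0
  have hne : ∀ q : OS L, rr (L q.1.1) q.1.2.1 q.1.2.2.re ≠ 0 := fun q => (ne_of_gt q.2)
  have hLc : Continuous (fun q : OS L => L q.1.1) := hL.comp (continuous_fst.comp h0)
  have hw : Continuous (fun q : OS L => q.1.2.1) :=
    continuous_fst.comp (continuous_snd.comp h0)
  have hz : Continuous (fun q : OS L => q.1.2.2) :=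
    continuous_snd.comp (continuous_snd.comp h0)
  have hs : Continuous (fun q : OS L => q.1.2.2.re) := Complex.continuous_re.comp hz
  have hv : Continuous (fun q : OS L => L q.1.1 *ᵥ q.1.2.1) := hLc.matrix_mulVec hw
  have hsr : Continuous (fun q : OS L => q.1.2.2.re / rr (L q.1.1) q.1.2.1 q.1.2.2.re) :=
    hs.div hr hne
  have h2r : Continuous (fun q : OS L => 1 / (2 * rr (L q.1.1) q.1.2.1 q.1.2.2.re)) :=
    continuous_const.div (continuous_const.mul hr) fun q => by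
      have := hne q
      positivity
  refine Continuous.subtype_mk ?_ _
  refine (continuous_fst.comp h0).prodMk (Continuous.prodMk ?_ (Continuous.prodMk ?_ ?_))
  · unfold bl
    refine Continuous.matrix_fromBlocks ?_ ?_ ?_ ?_
    · exact (Complex.continuous_ofReal.comp ((continuous_const.add hsr).div_const 2)).smul hLc
    · refine continuous_matrix fun i j => ?_
      simp only [of_apply]
      exact (Complex.continuous_ofReal.comp h2r).mul ((continuous_apply i).comp hv)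
    · refine continuous_matrix fun i j => ?_
      simp only [of_apply]
      exact (Complex.continuous_ofReal.comp h2r).mul
        (continuous_star.comp ((continuous_apply j).comp hv))
    · refine continuous_matrix fun i j => ?_
      simp only [of_apply]
      exact Complex.continuous_ofReal.comp ((continuous_const.sub hsr).div_const 2)
  · exact hw.sub hv
  · refine (Complex.continuous_ofReal.comp (hr.sub (continuous_const.div hr hne))).add ?_
    exact (Complex.continuous_ofReal.comp (Complex.continuous_im.comp hz)).mul continuous_const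

theorem eS_mem (h1 : ∀ a, IsPr 1 (L a)) (p : Y L) : eS p ∈ OS L := by
  change 0 < rr (L p.1.1) (eS p).2.1 (eS p).2.2.re
  rw [rr_eS h1 p]
  exact Rf_pos _

theorem iS_eS (h1 : ∀ a, IsPr 1 (L a)) (p : Y L) : iS h1 ⟨eS p, eS_mem h1 p⟩ = p := by
  obtain ⟨-, -, hb⟩ := line_struct (h1 p.1.1) p.2.1 p.2.2.1
  have hR := Rf_pos p.1.2.2.2.re
  apply Subtype.ext
  have hr := rr_eS h1 p
  have hm := mulVec_eS h1 p
  have e1 : (iS h1 ⟨eS p, eS_mem h1 p⟩).1 = (p.1.1, (bl (L p.1.1) (L p.1.1 *ᵥ (eS p).2.1)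
      (rr (L p.1.1) (eS p).2.1 (eS p).2.2.re) (eS p).2.2.re,
      ((eS p).2.1 - L p.1.1 *ᵥ (eS p).2.1,
      ((rr (L p.1.1) (eS p).2.1 (eS p).2.2.re - 1 / rr (L p.1.1) (eS p).2.1 (eS p).2.2.re : ℝ) : ℂ)
        + ((eS p).2.2.im : ℂ) * Complex.I))) := rfl
  rw [e1, hr, hm, eS_snd_re, eS_snd_im, hb _ hR, Rf_sub_inv]
  refine Prod.ext rfl (Prod.ext rfl (Prod.ext ?_ ?_))
  · funext i
    change (p.1.2.2.1 i + _) - _ = _
    rw [add_sub_cancel_right]
  · exact Complex.re_add_im _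

theorem eS_iS (h1 : ∀ a, IsPr 1 (L a)) (q : OS L) : eS (iS h1 q) = q.1 := by
  have hr : 0 < rr (L q.1.1) q.1.2.1 q.1.2.2.re := q.2
  have hrC : (rr (L q.1.1) q.1.2.1 q.1.2.2.re : ℂ) ≠ 0 := by exact_mod_cast hr.ne'
  have hre : (iS h1 q).1.2.2.2.re =
      rr (L q.1.1) q.1.2.1 q.1.2.2.re - 1 / rr (L q.1.1) q.1.2.1 q.1.2.2.re := by
    change (((rr (L q.1.1) q.1.2.1 q.1.2.2.re - 1 / rr (L q.1.1) q.1.2.1 q.1.2.2.re : ℝ) : ℂ) +
        (q.1.2.2.im : ℂ) * Complex.I).re = _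
    simp
  have him : (iS h1 q).1.2.2.2.im = q.1.2.2.im := by
    change (((rr (L q.1.1) q.1.2.1 q.1.2.2.re - 1 / rr (L q.1.1) q.1.2.1 q.1.2.2.re : ℝ) : ℂ) +
        (q.1.2.2.im : ℂ) * Complex.I).im = _
    simp
  refine Prod.ext rfl (Prod.ext ?_ ?_)
  · funext i
    change (q.1.2.1 - L q.1.1 *ᵥ q.1.2.1) i + ((2 * Rf (iS h1 q).1.2.2.2.re : ℝ) : ℂ) *
      (((1 / (2 * rr (L q.1.1) q.1.2.1 q.1.2.2.re) : ℝ) : ℂ) * (L q.1.1 *ᵥ q.1.2.1) i) = q.1.2.1 i
    rw [hre, Rf_of hr, Pi.sub_apply]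
    push_cast
    field_simp
    ring
  · change ((Rf (iS h1 q).1.2.2.2.re *
      (1 - 2 * ((((1 - q.1.2.2.re / rr (L q.1.1) q.1.2.1 q.1.2.2.re) / 2 : ℝ) :
      ℂ)).re) : ℝ) : ℂ) + ((iS h1 q).1.2.2.2.im : ℂ) * Complex.I = q.1.2.2
    rw [hre, him, Rf_of hr, Complex.ofReal_re]
    have e : rr (L q.1.1) q.1.2.1 q.1.2.2.re *
        (1 - 2 * ((1 - q.1.2.2.re / rr (L q.1.1) q.1.2.1 q.1.2.2.re) / 2)) = q.1.2.2.re := by
      field_simp
      ring
    rw [e, Complex.re_add_im]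

theorem isOpenEmbedding_eS (hL : Continuous L) (h1 : ∀ a, IsPr 1 (L a)) :
    IsOpenEmbedding (eS : Y L → A × ((ι → ℂ) × ℂ)) :=
  isOpenEmbedding_of_inv (isOpen_OS hL) continuous_eS (eS_mem h1) (iS h1) (continuous_iS hL h1)
    (iS_eS h1) (eS_iS h1)

/-- The step collapse. -/
def stepP [T2Space A] (hL : Continuous L) (h1 : ∀ a, IsPr 1 (L a)) :
    PMap (A × ((ι → ℂ) × ℂ)) (Y L) := PMap.ofOpen eS (isOpenEmbedding_eS hL h1)

theorem stepP_of_pos [T2Space A] (hL : Continuous L) (h1 : ∀ a, IsPr 1 (L a))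
    (q : A × ((ι → ℂ) × ℂ)) (hq : q ∈ OS L) :
    stepP hL h1 (q : OnePoint (A × ((ι → ℂ) × ℂ))) = (iS h1 ⟨q, hq⟩ : OnePoint (Y L)) := by
  refine (PMap.collapse_eq_coe eS (isOpenEmbedding_eS hL h1)).2 ?_
  rw [eS_iS]

theorem stepP_of_not [T2Space A] (hL : Continuous L) (h1 : ∀ a, IsPr 1 (L a))
    (q : A × ((ι → ℂ) × ℂ)) (hq : q ∉ OS L) :
    stepP hL h1 (q : OnePoint (A × ((ι → ℂ) × ℂ))) = OnePoint.infty := by
  refine PMap.ofOpen_of_notMem _ _ ?_
  rintro ⟨p, rfl⟩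
  exact hq (eS_mem h1 p)

end Crest.Agent.R090.TopC491
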