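import Crest.Agent.R090.TopC_491
import Crest.Agent.R090.I0Glue_417

/-!
# Row 90, TOPCELL (helper491), part D: the chart and the linearising family

* `Pa a` : the line of `(1, a)`, inverse of `slope`;
* `famP` : `(a, w, z) ↦ (a, conj (L w)_{i₀}/(κ(r + 1 + lam s)), w - L w, q/r + i Im z)`, `s = Re z - 1`,
  `r² = lam²|L w|² + (1 + lam s)²`, `q = 2 s + lam (s² + |L w|²)`.
-/

set_option autoImplicit false
set_option linter.unusedSectionVars false

open Topology Filter Set Matrix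
open Crest.Agent.R090.Sp962 Crest.Agent.R090.I0core275
open Crest.Agent.R090.TopA491 Crest.Agent.R090.TopB491

noncomputable section

namespace Crest.Agent.R090.TopD491

section chart

variable {m : Type*} [Fintype m] [DecidableEq m]

/-- `(1, a)`. -/
def vec1 (a : m → ℂ) : Option m → ℂ := fun i => i.elim 1 a

theorem nq_vec1 (a : m → ℂ) : nq (vec1 a) = 1 + nq a := by
  unfold nq
  rw [Fintype.sum_option]
  simp [vec1]

theorem one_add_nq_pos (a : m → ℂ) : 0 < 1 + nq a := by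
  have := nq_nonneg a
  linarith

/-- The line of `(1, a)`. -/
def Pa (a : m → ℂ) : Matrix (Option m) (Option m) ℂ :=
  fun i j => ((1 / (1 + nq a) : ℝ) : ℂ) * (vec1 a i * star (vec1 a j))

theorem Pa_eq (a : m → ℂ) : Pa a = vecMulVec (((1 / Real.sqrt (1 + nq a) : ℝ) : ℂ) • vec1 a)
    (star (((1 / Real.sqrt (1 + nq a) : ℝ) : ℂ) • vec1 a)) := by
  have h := one_add_nq_pos a
  have h2 : Real.sqrt (1 + nq a) * Real.sqrt (1 + nq a) = 1 + nq a := Real.mul_self_sqrt h.le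
  ext i j
  rw [vecMulVec_apply, Pi.star_apply, Pi.smul_apply, Pi.smul_apply, smul_eq_mul, smul_eq_mul,
    star_mul', Complex.star_def, Complex.conj_ofReal]
  unfold Pa
  have h3 : ((1 / (1 + nq a) : ℝ) : ℂ) =
      ((1 / Real.sqrt (1 + nq a) : ℝ) : ℂ) * ((1 / Real.sqrt (1 + nq a) : ℝ) : ℂ) := by
    rw [← Complex.ofReal_mul, ← h2]
    congr 1
    rw [Real.sqrt_mul_self (Real.sqrt_nonneg _)]
    rw [div_mul_div_comm, one_mul]
  rw [h3, Complex.star_def]
  ring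

theorem isPr_Pa (a : m → ℂ) : IsPr 1 (Pa a) := by
  rw [Pa_eq]
  refine isPr_vec ?_
  have h := one_add_nq_pos a
  rw [nq_smul, nq_vec1, Complex.norm_real, Real.norm_eq_abs, sq_abs, div_pow, one_pow,
    Real.sq_sqrt h.le]
  field_simp

theorem Pa_none (a : m → ℂ) : Pa a none none = ((1 / (1 + nq a) : ℝ) : ℂ) := by
  simp [Pa, vec1]

theorem Pa_none_ne (a : m → ℂ) : Pa a none none ≠ 0 := by
  rw [Pa_none]
  have h := one_add_nq_pos a
  have : (1 / (1 + nq a) : ℝ) ≠ 0 := by positivity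
  exact_mod_cast this

theorem Pa_ratio (a : m → ℂ) (i : m) : Pa a (some i) none / Pa a none none = a i := by
  rw [div_eq_iff (Pa_none_ne a)]
  simp [Pa, vec1]
  ring

theorem continuous_Pa : Continuous (Pa : (m → ℂ) → Matrix (Option m) (Option m) ℂ) := by
  refine continuous_matrix fun i j => ?_
  unfold Pa
  have h1 : ∀ i : Option m, Continuous fun a : m → ℂ => vec1 a i := by
    intro i
    cases i with
    | none => exact continuous_const
    | some i => exact continuous_apply i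
  refine (Complex.continuous_ofReal.comp ?_).mul ((h1 i).mul (continuous_star.comp (h1 j)))
  exact continuous_const.div (continuous_const.add continuous_nq) fun a => (one_add_nq_pos a).ne'

theorem Pa_of {L : Matrix (Option m) (Option m) ℂ} (h : IsPr 1 L) (h0 : L none none ≠ 0) :
    Pa (fun i => L (some i) none / L none none) = L := by
  obtain ⟨α, hα, hL⟩ := exists_vec h
  have he : ∀ i j, L i j = α i * star (α j) := fun i j => by rw [hL, vecMulVec_apply, Pi.star_apply]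
  have hα0 : α none ≠ 0 := by
    intro h1
    apply h0
    rw [he, h1, zero_mul]
  have hv : vec1 (fun i => L (some i) none / L none none) = (α none)⁻¹ • α := by
    funext i
    cases i with
    | none =>
      simp [vec1, hα0]
    | some i =>
      simp only [vec1, Option.elim, Pi.smul_apply, smul_eq_mul, he]
      have : star (α none) ≠ 0 := star_ne_zero.2 hα0
      field_simp
  have hn : 1 + nq (fun i => L (some i) none / L none none) = ‖α none‖⁻¹ ^ 2 := by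
    rw [← nq_vec1, hv, nq_smul, hα, norm_inv, mul_one]
  ext i j
  unfold Pa
  rw [hn, hv, he]
  simp only [Pi.smul_apply, smul_eq_mul, star_mul']
  have h1 : ((1 / ‖α none‖⁻¹ ^ 2 : ℝ) : ℂ) = α none * star (α none) := by
    rw [Complex.star_def, Complex.mul_conj, Complex.normSq_eq_norm_sq]
    congr 1
    rw [inv_pow, one_div, inv_inv]
  have h2 : star (α none) ≠ 0 := star_ne_zero.2 hα0
  rw [h1, star_inv₀]
  field_simp

end chart

/-! ## The family -/

section family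

variable {ι : Type*} [Fintype ι] [DecidableEq ι] {A : Type*} [TopologicalSpace A]

/-- The column of a line. -/
theorem col_facts {L : Matrix ι ι ℂ} (h : IsPr 1 L) (i0 : ι) :
    (L *ᵥ (fun i => L i i0) = fun i => L i i0) ∧ nq (fun i => L i i0) = (L i0 i0).re ∧
    L i0 i0 = (((L i0 i0).re : ℝ) : ℂ) ∧
    ∀ w : ι → ℂ, ‖(L *ᵥ w) i0‖ ^ 2 = (L i0 i0).re * nq (L *ᵥ w) ∧
      (L *ᵥ w) i0 • (fun i => L i i0) = (L i0 i0) • (L *ᵥ w) := by
  obtain ⟨α, hα, hL⟩ := exists_vec h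
  have he : ∀ i j, L i j = α i * star (α j) := fun i j => by rw [hL, vecMulVec_apply, Pi.star_apply]
  have h00 : L i0 i0 = ((‖α i0‖ ^ 2 : ℝ) : ℂ) := by
    rw [he, Complex.star_def, Complex.mul_conj, Complex.normSq_eq_norm_sq]
  have hre : (L i0 i0).re = ‖α i0‖ ^ 2 := by rw [h00, Complex.ofReal_re]
  have hcol : (fun i => L i i0) = star (α i0) • α := by
    funext i
    rw [he, Pi.smul_apply, smul_eq_mul, mul_comm]
  have hLw : ∀ w : ι → ℂ, L *ᵥ w = (star α ⬝ᵥ w) • α := fun w => by rw [hL, mulVec_vec]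
  refine ⟨?_, ?_, ?_, fun w => ⟨?_, ?_⟩⟩
  · funext i
    have := congrFun (congrFun h.idem i) i0
    rwa [Matrix.mul_apply] at this
  · rw [hcol, nq_smul, hα, norm_star, hre, mul_one]
  · rw [hre, h00]
  · rw [hLw w, nq_smul, hα, hre, Pi.smul_apply, smul_eq_mul, norm_mul, mul_pow]
    ring
  · rw [hLw w, hcol, he]
    funext i
    simp only [Pi.smul_apply, smul_eq_mul]
    ring

/-- Target of the family. -/
def Y2 (L : A → Matrix ι ι ℂ) : Type _ :=
  {p : A × (ℂ × ((ι → ℂ) × ℂ)) // L p.1 *ᵥ p.2.2.1 = 0}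

instance (L : A → Matrix ι ι ℂ) : TopologicalSpace (Y2 L) :=
  inferInstanceAs (TopologicalSpace {p : A × (ℂ × ((ι → ℂ) × ℂ)) // L p.1 *ᵥ p.2.2.1 = 0})

instance (L : A → Matrix ι ι ℂ) [T2Space A] : T2Space (Y2 L) :=
  inferInstanceAs (T2Space {p : A × (ℂ × ((ι → ℂ) × ℂ)) // L p.1 *ᵥ p.2.2.1 = 0})

variable {L : A → Matrix ι ι ℂ} {lam : A → ℝ} {i0 : ι}

theorem isClosedEmbedding_Y2 [T2Space A] (hL : Continuous L) :
    IsClosedEmbedding (Subtype.val : Y2 L → A × (ℂ × ((ι → ℂ) × ℂ))) := by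
  have h3 : IsClosed {p : A × (ℂ × ((ι → ℂ) × ℂ)) | L p.1 *ᵥ p.2.2.1 = 0} := by
    refine isClosed_eq ?_ continuous_const
    exact (hL.comp continuous_fst).matrix_mulVec
      (continuous_fst.comp (continuous_snd.comp continuous_snd))
  exact h3.isClosedEmbedding_subtypeVal

/-- `r`. -/
def rl (l : ℝ) (L : Matrix ι ι ℂ) (w : ι → ℂ) (s : ℝ) : ℝ :=
  Real.sqrt (l ^ 2 * nq (L *ᵥ w) + (1 + l * s) ^ 2)

theorem rl_sq (l : ℝ) (L : Matrix ι ι ℂ) (w : ι → ℂ) (s : ℝ) :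
    rl l L w s ^ 2 = l ^ 2 * nq (L *ᵥ w) + (1 + l * s) ^ 2 := by
  unfold rl
  rw [Real.sq_sqrt]
  have := nq_nonneg (L *ᵥ w)
  positivity

theorem rl_nonneg (l : ℝ) (L : Matrix ι ι ℂ) (w : ι → ℂ) (s : ℝ) : 0 ≤ rl l L w s :=
  Real.sqrt_nonneg _

theorem rl_pos {l : ℝ} {L : Matrix ι ι ℂ} {w : ι → ℂ} {s : ℝ}
    (h : 0 < rl l L w s + (1 + l * s)) : 0 < rl l L w s := by
  rcases (rl_nonneg l L w s).lt_or_eq with h1 | h1
  · exact h1
  · exfalso
    have h2 := rl_sq l L w s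
    rw [← h1] at h2 h
    have h3 := nq_nonneg (L *ᵥ w)
    have h4 : (1 + l * s) ^ 2 = 0 := by
      have : 0 ≤ l ^ 2 * nq (L *ᵥ w) := by positivity
      nlinarith [sq_nonneg (1 + l * s)]
    have h5 : 1 + l * s = 0 := by
      rw [sq_eq_zero_iff] at h4
      exact h4
    rw [h5] at h
    simp at h

/-- The `s`-component of the forward map. -/
def sf (l k n b : ℝ) : ℝ :=
  (b * Rf (l * b) / (Rf (l * b) + 1) - l * k * n * (Rf (l * b) + 1)) / (1 + l ^ 2 * k * n)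

/-- `D`. -/
def Df (l k n b : ℝ) : ℝ := 2 * Rf (l * b) / (1 + l ^ 2 * k * n)

/-- Real identities of the forward map, `n = |c|²`. -/
theorem real_fwd {l k n b : ℝ} (hk : 0 ≤ k) (hn : 0 ≤ n) :
    0 < Df l k n b ∧
    l ^ 2 * (n * Df l k n b ^ 2 * k) + (1 + l * sf l k n b) ^ 2 = Rf (l * b) ^ 2 ∧
    Rf (l * b) + (1 + l * sf l k n b) = Df l k n b ∧
    (2 * sf l k n b + l * (sf l k n b ^ 2 + n * Df l k n b ^ 2 * k)) / Rf (l * b) = b := by
  have hR := Rf_pos (l * b)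
  have hR2 := Rf_sq (l * b)
  set R := Rf (l * b) with hRdef
  have hkn : 0 < 1 + l ^ 2 * k * n := by positivity
  have hR1 : 0 < R + 1 := by linarith
  have hR1' : R + 1 ≠ 0 := hR1.ne'
  have h1 : 1 + l * sf l k n b = R * (1 - l ^ 2 * k * n) / (1 + l ^ 2 * k * n) := by
    unfold sf
    rw [← hRdef]
    have e1 : l * (b * R / (R + 1)) = R - 1 := by
      field_simp
      nlinarith
    have e2 : l * ((b * R / (R + 1) - l * k * n * (R + 1)) / (1 + l ^ 2 * k * n)) =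
        (l * (b * R / (R + 1)) - l ^ 2 * k * n * (R + 1)) / (1 + l ^ 2 * k * n) := by
      field_simp
    rw [e2, e1]
    field_simp
    ring
  have h2 : Df l k n b = 2 * R / (1 + l ^ 2 * k * n) := rfl
  have h3 : l ^ 2 * (n * Df l k n b ^ 2 * k) + (1 + l * sf l k n b) ^ 2 = R ^ 2 := by
    rw [h1, h2]
    field_simp
    ring
  refine ⟨?_, h3, ?_, ?_⟩
  · rw [h2]
    positivity
  · rw [h1, h2]
    field_simp
    ring
  · rcases eq_or_ne l 0 with hl | hl
    · subst hl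
      have hR0 : R = 1 := by
        rw [hRdef, zero_mul]
        unfold Rf
        norm_num
      have hs : sf 0 k n b = b / 2 := by
        unfold sf
        rw [← hRdef, hR0]
        norm_num
      rw [hs, hR0]
      ring
    · rw [div_eq_iff hR.ne']
      have h4 : l * (2 * sf l k n b + l * (sf l k n b ^ 2 + n * Df l k n b ^ 2 * k)) =
          l * (b * R) := by
        nlinarith
      exact mul_left_cancel₀ hl h4

/-- Real identities of the inverse map. -/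
theorem real_inv {l k N s r : ℝ} (hk : 0 < k)
    (hsq : r ^ 2 = l ^ 2 * N + (1 + l * s) ^ 2) (hD : 0 < r + (1 + l * s)) (hr0 : 0 < r) :
    Rf (l * ((2 * s + l * (s ^ 2 + N)) / r)) = r ∧
    Df l k (N / (k * (r + (1 + l * s)) ^ 2)) ((2 * s + l * (s ^ 2 + N)) / r) =
      r + (1 + l * s) ∧
    sf l k (N / (k * (r + (1 + l * s)) ^ 2)) ((2 * s + l * (s ^ 2 + N)) / r) = s := by
  set q := 2 * s + l * (s ^ 2 + N) with hq
  have h1 : l * (q / r) = r - 1 / r := by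
    field_simp
    nlinarith
  have hR : Rf (l * (q / r)) = r := by rw [h1, Rf_of hr0]
  set D := r + (1 + l * s) with hDdef
  have hkn : 1 + l ^ 2 * k * (N / (k * D ^ 2)) = 2 * r / D := by
    have e1 : l ^ 2 * k * (N / (k * D ^ 2)) = (l ^ 2 * N) / D ^ 2 := by
      field_simp
    rw [e1]
    have e2 : l ^ 2 * N = (r - (1 + l * s)) * D := by
      rw [hDdef]
      nlinarith
    rw [e2]
    field_simp
    rw [hDdef]
    ring
  refine ⟨hR, ?_, ?_⟩
  · unfold Df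
    rw [hR, hkn]
    field_simp
  · unfold sf
    rw [hR, hkn]
    have hr1 : 0 < r + 1 := by linarith
    have e3 : l * k * (N / (k * D ^ 2)) = l * N / D ^ 2 := by
      field_simp
    rw [e3]
    rcases eq_or_ne l 0 with hl | hl
    · subst hl
      have hr2 : r = 1 := by
        have : r ^ 2 = 1 := by rw [hsq]; ring
        nlinarith
      have hD2 : D = 2 := by rw [hDdef, hr2]; ring
      rw [hq, hr2, hD2]
      ring
    · have h4 : l * ((q / r * r / (r + 1) - l * N / D ^ 2 * (r + 1)) / (2 * r / D)) = l * s := by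
        have e4 : q / r * r / (r + 1) = q / (r + 1) := by
          field_simp
        have e5 : l * (q / (r + 1)) = r - 1 := by
          have : l * q = (r - 1) * (r + 1) := by
            rw [hq]
            nlinarith
          rw [← mul_div_assoc, this]
          field_simp
        have e6 : l * (l * N / D ^ 2 * (r + 1)) = (r - (1 + l * s)) / D * (r + 1) := by
          have : l ^ 2 * N = (r - (1 + l * s)) * D := by
            rw [hDdef]
            nlinarith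
          have e7 : l * (l * N / D ^ 2 * (r + 1)) = (l ^ 2 * N) / D ^ 2 * (r + 1) := by ring
          rw [e7, this]
          field_simp
        have e8 : l * ((q / r * r / (r + 1) - l * N / D ^ 2 * (r + 1)) / (2 * r / D)) =
            (l * (q / (r + 1)) - l * (l * N / D ^ 2 * (r + 1))) / (2 * r / D) := by
          rw [e4]
          ring
        rw [e8, e5, e6]
        have hD' : r + (1 + l * s) ≠ 0 := hD.ne'
        rw [hDdef]
        field_simp
        ring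
      exact mul_left_cancel₀ hl h4

/-- The forward map of the family. -/
def e2 (L : A → Matrix ι ι ℂ) (lam : A → ℝ) (i0 : ι) (p : Y2 L) : A × ((ι → ℂ) × ℂ) :=
  (p.1.1, (fun i => p.1.2.2.1 i +
    (star p.1.2.1 * ((Df (lam p.1.1) (L p.1.1 i0 i0).re (‖p.1.2.1‖ ^ 2) p.1.2.2.2.re : ℝ) : ℂ)) *
      L p.1.1 i i0,
    ((1 + sf (lam p.1.1) (L p.1.1 i0 i0).re (‖p.1.2.1‖ ^ 2) p.1.2.2.2.re : ℝ) : ℂ) +
      (p.1.2.2.2.im : ℂ) * Complex.I))

theorem e2_re (L : A → Matrix ι ι ℂ) (lam : A → ℝ) (i0 : ι) (p : Y2 L) :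
    (e2 L lam i0 p).2.2.re =
      1 + sf (lam p.1.1) (L p.1.1 i0 i0).re (‖p.1.2.1‖ ^ 2) p.1.2.2.2.re := by
  simp [e2]

theorem e2_im (L : A → Matrix ι ι ℂ) (lam : A → ℝ) (i0 : ι) (p : Y2 L) :
    (e2 L lam i0 p).2.2.im = p.1.2.2.2.im := by
  simp [e2]

/-- `D` at a point of the source. -/
def DD (L : A → Matrix ι ι ℂ) (lam : A → ℝ) (q : A × ((ι → ℂ) × ℂ)) : ℝ :=
  rl (lam q.1) (L q.1) q.2.1 (q.2.2.re - 1) + (1 + lam q.1 * (q.2.2.re - 1))

/-- The open set. -/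
def O2 (L : A → Matrix ι ι ℂ) (lam : A → ℝ) : Set (A × ((ι → ℂ) × ℂ)) := {q | 0 < DD L lam q}

theorem continuous_rl (hL : Continuous L) (hlam : Continuous lam) :
    Continuous (fun q : A × ((ι → ℂ) × ℂ) => rl (lam q.1) (L q.1) q.2.1 (q.2.2.re - 1)) := by
  have hs : Continuous (fun q : A × ((ι → ℂ) × ℂ) => q.2.2.re - 1) :=
    (Complex.continuous_re.comp (continuous_snd.comp continuous_snd)).sub continuous_const
  have hl : Continuous (fun q : A × ((ι → ℂ) × ℂ) => lam q.1) := hlam.comp continuous_fst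
  have hn : Continuous (fun q : A × ((ι → ℂ) × ℂ) => nq (L q.1 *ᵥ q.2.1)) :=
    continuous_nq.comp ((hL.comp continuous_fst).matrix_mulVec
      (continuous_fst.comp continuous_snd))
  unfold rl
  exact Real.continuous_sqrt.comp (((hl.pow 2).mul hn).add
    ((continuous_const.add (hl.mul hs)).pow 2))

theorem continuous_DD (hL : Continuous L) (hlam : Continuous lam) : Continuous (DD L lam) := by
  have hs : Continuous (fun q : A × ((ι → ℂ) × ℂ) => q.2.2.re - 1) :=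
    (Complex.continuous_re.comp (continuous_snd.comp continuous_snd)).sub continuous_const
  have hl : Continuous (fun q : A × ((ι → ℂ) × ℂ) => lam q.1) := hlam.comp continuous_fst
  exact (continuous_rl hL hlam).add (continuous_const.add (hl.mul hs))

theorem isOpen_O2 (hL : Continuous L) (hlam : Continuous lam) : IsOpen (O2 L lam) :=
  isOpen_lt continuous_const (continuous_DD hL hlam)

/-- The inverse. -/
def i2 (h1 : ∀ a, IsPr 1 (L a)) (lam : A → ℝ) (i0 : ι) (q : O2 L lam) : Y2 L :=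
  ⟨(q.1.1, (star ((L q.1.1 *ᵥ q.1.2.1) i0) / (((L q.1.1 i0 i0).re * DD L lam q.1 : ℝ) : ℂ),
    (q.1.2.1 - L q.1.1 *ᵥ q.1.2.1,
      (((2 * (q.1.2.2.re - 1) + lam q.1.1 * ((q.1.2.2.re - 1) ^ 2 + nq (L q.1.1 *ᵥ q.1.2.1))) /
        rl (lam q.1.1) (L q.1.1) q.1.2.1 (q.1.2.2.re - 1) : ℝ) : ℂ) +
        (q.1.2.2.im : ℂ) * Complex.I))), by
    change L q.1.1 *ᵥ (q.1.2.1 - L q.1.1 *ᵥ q.1.2.1) = 0
    rw [Matrix.mulVec_sub, mulVec_idem (h1 _), sub_self]⟩

theorem rl_pos' (q : O2 L lam) : 0 < rl (lam q.1.1) (L q.1.1) q.1.2.1 (q.1.2.2.re - 1) :=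
  rl_pos q.2

theorem continuous_i2 (hL : Continuous L) (h1 : ∀ a, IsPr 1 (L a)) (hlam : Continuous lam)
    (hk : ∀ a, 0 < (L a i0 i0).re) : Continuous (i2 h1 lam i0) := by
  have h0 : Continuous (fun q : O2 L lam => q.1) := continuous_subtype_val
  have hLc : Continuous (fun q : O2 L lam => L q.1.1) := hL.comp (continuous_fst.comp h0)
  have hw : Continuous (fun q : O2 L lam => q.1.2.1) :=
    continuous_fst.comp (continuous_snd.comp h0)
  have hz : Continuous (fun q : O2 L lam => q.1.2.2) :=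
    continuous_snd.comp (continuous_snd.comp h0)
  have hs : Continuous (fun q : O2 L lam => q.1.2.2.re - 1) :=
    (Complex.continuous_re.comp hz).sub continuous_const
  have hl : Continuous (fun q : O2 L lam => lam q.1.1) := hlam.comp (continuous_fst.comp h0)
  have hv : Continuous (fun q : O2 L lam => L q.1.1 *ᵥ q.1.2.1) := hLc.matrix_mulVec hw
  have hr : Continuous (fun q : O2 L lam =>
      rl (lam q.1.1) (L q.1.1) q.1.2.1 (q.1.2.2.re - 1)) := (continuous_rl hL hlam).comp h0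
  have hD : Continuous (fun q : O2 L lam => DD L lam q.1) := (continuous_DD hL hlam).comp h0
  refine Continuous.subtype_mk ?_ _
  refine (continuous_fst.comp h0).prodMk (Continuous.prodMk ?_ (Continuous.prodMk ?_ ?_))
  · refine (continuous_star.comp ((continuous_apply i0).comp hv)).div ?_ ?_
    · exact Complex.continuous_ofReal.comp
        ((Complex.continuous_re.comp (hLc.matrix_elem _ _)).mul hD)
    · intro q
      have h2 : 0 < (L q.1.1 i0 i0).re * DD L lam q.1 := mul_pos (hk _) q.2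
      exact_mod_cast h2.ne'
  · exact hw.sub hv
  · refine (Complex.continuous_ofReal.comp (Continuous.div ?_ hr fun q => (rl_pos' q).ne')).add ?_
    · exact (continuous_const.mul hs).add (hl.mul ((hs.pow 2).add (continuous_nq.comp hv)))
    · exact (Complex.continuous_ofReal.comp (Complex.continuous_im.comp hz)).mul continuous_const

theorem continuous_e2 (hL : Continuous L) (hlam : Continuous lam)
    (hk : ∀ a, 0 < (L a i0 i0).re) : Continuous (e2 L lam i0) := by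
  have h0 : Continuous (fun p : Y2 L => p.1) := continuous_subtype_val
  have hLc : Continuous (fun p : Y2 L => L p.1.1) := hL.comp (continuous_fst.comp h0)
  have hc : Continuous (fun p : Y2 L => p.1.2.1) :=
    continuous_fst.comp (continuous_snd.comp h0)
  have hy : Continuous (fun p : Y2 L => p.1.2.2.1) :=
    continuous_fst.comp (continuous_snd.comp (continuous_snd.comp h0))
  have hz : Continuous (fun p : Y2 L => p.1.2.2.2) :=
    continuous_snd.comp (continuous_snd.comp (continuous_snd.comp h0))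
  have hl : Continuous (fun p : Y2 L => lam p.1.1) := hlam.comp (continuous_fst.comp h0)
  have hκ : Continuous (fun p : Y2 L => (L p.1.1 i0 i0).re) :=
    Complex.continuous_re.comp (hLc.matrix_elem _ _)
  have hn : Continuous (fun p : Y2 L => ‖p.1.2.1‖ ^ 2) := hc.norm.pow 2
  have hb : Continuous (fun p : Y2 L => p.1.2.2.2.re) := Complex.continuous_re.comp hz
  have hR : Continuous (fun p : Y2 L => Rf (lam p.1.1 * p.1.2.2.2.re)) :=
    continuous_Rf.comp (hl.mul hb)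
  have hden : Continuous (fun p : Y2 L =>
      1 + lam p.1.1 ^ 2 * (L p.1.1 i0 i0).re * ‖p.1.2.1‖ ^ 2) :=
    continuous_const.add (((hl.pow 2).mul hκ).mul hn)
  have hden0 : ∀ p : Y2 L, 1 + lam p.1.1 ^ 2 * (L p.1.1 i0 i0).re * ‖p.1.2.1‖ ^ 2 ≠ 0 := by
    intro p
    have h2 := hk p.1.1
    positivity
  have hD : Continuous (fun p : Y2 L =>
      Df (lam p.1.1) (L p.1.1 i0 i0).re (‖p.1.2.1‖ ^ 2) p.1.2.2.2.re) := by
    unfold Df
    exact (continuous_const.mul hR).div hden hden0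
  have hS : Continuous (fun p : Y2 L =>
      sf (lam p.1.1) (L p.1.1 i0 i0).re (‖p.1.2.1‖ ^ 2) p.1.2.2.2.re) := by
    unfold sf
    refine Continuous.div (Continuous.sub ?_ ?_) hden hden0
    · refine (hb.mul hR).div (hR.add continuous_const) fun p => ?_
      have := Rf_pos (lam p.1.1 * p.1.2.2.2.re)
      positivity
    · exact ((hl.mul hκ).mul hn).mul (hR.add continuous_const)
  refine (continuous_fst.comp h0).prodMk (Continuous.prodMk ?_ ?_)
  · refine continuous_pi fun i => ?_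
    refine ((continuous_apply i).comp hy).add ?_
    exact ((continuous_star.comp hc).mul (Complex.continuous_ofReal.comp hD)).mul
      (hLc.matrix_elem _ _)
  · refine (Complex.continuous_ofReal.comp (continuous_const.add hS)).add ?_
    exact (Complex.continuous_ofReal.comp (Complex.continuous_im.comp hz)).mul continuous_const

theorem mulVec_e2 (h1 : ∀ a, IsPr 1 (L a)) (p : Y2 L) :
    L p.1.1 *ᵥ (e2 L lam i0 p).2.1 =
      (star p.1.2.1 * ((Df (lam p.1.1) (L p.1.1 i0 i0).re (‖p.1.2.1‖ ^ 2) p.1.2.2.2.re : ℝ) : ℂ)) •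
        (fun i => L p.1.1 i i0) := by
  obtain ⟨hc, -, -, -⟩ := col_facts (h1 p.1.1) i0
  have e : (e2 L lam i0 p).2.1 = p.1.2.2.1 +
      (star p.1.2.1 * ((Df (lam p.1.1) (L p.1.1 i0 i0).re (‖p.1.2.1‖ ^ 2) p.1.2.2.2.re : ℝ) : ℂ)) •
        (fun i => L p.1.1 i i0) := by
    funext i
    rfl
  rw [e, Matrix.mulVec_add, p.2, zero_add, Matrix.mulVec_smul, hc]

theorem nq_e2 (h1 : ∀ a, IsPr 1 (L a)) (p : Y2 L) :
    nq (L p.1.1 *ᵥ (e2 L lam i0 p).2.1) = ‖p.1.2.1‖ ^ 2 *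
      Df (lam p.1.1) (L p.1.1 i0 i0).re (‖p.1.2.1‖ ^ 2) p.1.2.2.2.re ^ 2 * (L p.1.1 i0 i0).re := by
  obtain ⟨-, hn, -, -⟩ := col_facts (h1 p.1.1) i0
  rw [mulVec_e2 h1, nq_smul, hn, norm_mul, norm_star, mul_pow, Complex.norm_real,
    Real.norm_eq_abs, sq_abs]

theorem rl_e2 (h1 : ∀ a, IsPr 1 (L a)) (hk : ∀ a, 0 < (L a i0 i0).re) (p : Y2 L) :
    rl (lam p.1.1) (L p.1.1) (e2 L lam i0 p).2.1 ((e2 L lam i0 p).2.2.re - 1) =
      Rf (lam p.1.1 * p.1.2.2.2.re) := by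
  obtain ⟨-, h2, -, -⟩ := real_fwd (l := lam p.1.1) (b := p.1.2.2.2.re) (hk p.1.1).le
    (sq_nonneg ‖p.1.2.1‖)
  have hR := Rf_pos (lam p.1.1 * p.1.2.2.2.re)
  unfold rl
  rw [nq_e2 h1, e2_re, add_sub_cancel_left, h2, Real.sqrt_sq hR.le]

theorem DD_e2 (h1 : ∀ a, IsPr 1 (L a)) (hk : ∀ a, 0 < (L a i0 i0).re) (p : Y2 L) :
    DD L lam (e2 L lam i0 p) =
      Df (lam p.1.1) (L p.1.1 i0 i0).re (‖p.1.2.1‖ ^ 2) p.1.2.2.2.re := by
  obtain ⟨-, -, h3, -⟩ := real_fwd (l := lam p.1.1) (b := p.1.2.2.2.re) (hk p.1.1).le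
    (sq_nonneg ‖p.1.2.1‖)
  have h4 : DD L lam (e2 L lam i0 p) =
      rl (lam p.1.1) (L p.1.1) (e2 L lam i0 p).2.1 ((e2 L lam i0 p).2.2.re - 1) +
        (1 + lam p.1.1 * ((e2 L lam i0 p).2.2.re - 1)) := rfl
  rw [h4, rl_e2 h1 hk, e2_re, add_sub_cancel_left, h3]

theorem e2_mem (h1 : ∀ a, IsPr 1 (L a)) (hk : ∀ a, 0 < (L a i0 i0).re) (p : Y2 L) :
    e2 L lam i0 p ∈ O2 L lam := by
  obtain ⟨h2, -, -, -⟩ := real_fwd (l := lam p.1.1) (b := p.1.2.2.2.re) (hk p.1.1).le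
    (sq_nonneg ‖p.1.2.1‖)
  change 0 < DD L lam (e2 L lam i0 p)
  rw [DD_e2 h1 hk]
  exact h2

theorem i2_e2 (h1 : ∀ a, IsPr 1 (L a)) (hk : ∀ a, 0 < (L a i0 i0).re) (p : Y2 L) :
    i2 h1 lam i0 ⟨e2 L lam i0 p, e2_mem h1 hk p⟩ = p := by
  obtain ⟨hD0, -, -, h4⟩ := real_fwd (l := lam p.1.1) (b := p.1.2.2.2.re) (hk p.1.1).le
    (sq_nonneg ‖p.1.2.1‖)
  obtain ⟨-, -, h00, -⟩ := col_facts (h1 p.1.1) i0
  have hκ := hk p.1.1
  apply Subtype.ext
  have e1 : (i2 h1 lam i0 ⟨e2 L lam i0 p, e2_mem h1 hk p⟩).1 = (p.1.1,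
      (star ((L p.1.1 *ᵥ (e2 L lam i0 p).2.1) i0) /
        (((L p.1.1 i0 i0).re * DD L lam (e2 L lam i0 p) : ℝ) : ℂ),
      ((e2 L lam i0 p).2.1 - L p.1.1 *ᵥ (e2 L lam i0 p).2.1,
      (((2 * ((e2 L lam i0 p).2.2.re - 1) + lam p.1.1 * (((e2 L lam i0 p).2.2.re - 1) ^ 2 +
        nq (L p.1.1 *ᵥ (e2 L lam i0 p).2.1))) /
        rl (lam p.1.1) (L p.1.1) (e2 L lam i0 p).2.1 ((e2 L lam i0 p).2.2.re - 1) : ℝ) : ℂ) +
        ((e2 L lam i0 p).2.2.im : ℂ) * Complex.I))) := rfl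
  rw [e1, DD_e2 h1 hk, rl_e2 h1 hk, nq_e2 h1, e2_re, e2_im, add_sub_cancel_left, h4,
    mulVec_e2 h1]
  set D := Df (lam p.1.1) (L p.1.1 i0 i0).re (‖p.1.2.1‖ ^ 2) p.1.2.2.2.re with hDdef
  refine Prod.ext rfl (Prod.ext ?_ (Prod.ext ?_ ?_))
  · change star ((star p.1.2.1 * (D : ℂ)) * L p.1.1 i0 i0) /
      (((L p.1.1 i0 i0).re * D : ℝ) : ℂ) = p.1.2.1
    have hne : (((L p.1.1 i0 i0).re * D : ℝ) : ℂ) ≠ 0 := by
      exact_mod_cast (mul_pos hκ hD0).ne'
    have e5 : star (L p.1.1 i0 i0) = (((L p.1.1 i0 i0).re : ℝ) : ℂ) := by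
      conv_lhs => rw [h00]
      exact Complex.conj_ofReal _
    have e6 : star (D : ℂ) = (D : ℂ) := Complex.conj_ofReal _
    rw [div_eq_iff hne, star_mul', star_mul', star_star, e5, e6]
    push_cast
    ring
  · funext i
    change (p.1.2.2.1 i + _) - _ = _
    rw [add_sub_assoc]
    refine add_eq_left.2 ?_
    exact sub_self _
  · exact Complex.re_add_im _

theorem e2_i2 (h1 : ∀ a, IsPr 1 (L a)) (hk : ∀ a, 0 < (L a i0 i0).re) (q : O2 L lam) :
    e2 L lam i0 (i2 h1 lam i0 q) = q.1 := by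
  obtain ⟨-, -, h00, hcf⟩ := col_facts (h1 q.1.1) i0
  obtain ⟨hn1, hcol⟩ := hcf q.1.2.1
  have hκ := hk q.1.1
  have hD0 : 0 < DD L lam q.1 := q.2
  have hr0 := rl_pos' q
  obtain ⟨hR, hD, hS⟩ := real_inv (l := lam q.1.1) (N := nq (L q.1.1 *ᵥ q.1.2.1))
    (s := q.1.2.2.re - 1) hκ (rl_sq (lam q.1.1) (L q.1.1) q.1.2.1 (q.1.2.2.re - 1)) q.2 hr0
  have hre : (i2 h1 lam i0 q).1.2.2.2.re =
      (2 * (q.1.2.2.re - 1) + lam q.1.1 * ((q.1.2.2.re - 1) ^ 2 + nq (L q.1.1 *ᵥ q.1.2.1))) /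
        rl (lam q.1.1) (L q.1.1) q.1.2.1 (q.1.2.2.re - 1) := by
    change ((((2 * (q.1.2.2.re - 1) + lam q.1.1 * ((q.1.2.2.re - 1) ^ 2 +
      nq (L q.1.1 *ᵥ q.1.2.1))) /
        rl (lam q.1.1) (L q.1.1) q.1.2.1 (q.1.2.2.re - 1) : ℝ) : ℂ) +
        (q.1.2.2.im : ℂ) * Complex.I).re = _
    rw [Complex.add_re, Complex.ofReal_re, Complex.mul_re, Complex.I_re, Complex.I_im,
      Complex.ofReal_im]
    ring
  have him : (i2 h1 lam i0 q).1.2.2.2.im = q.1.2.2.im := by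
    change ((((2 * (q.1.2.2.re - 1) + lam q.1.1 * ((q.1.2.2.re - 1) ^ 2 +
      nq (L q.1.1 *ᵥ q.1.2.1))) /
        rl (lam q.1.1) (L q.1.1) q.1.2.1 (q.1.2.2.re - 1) : ℝ) : ℂ) +
        (q.1.2.2.im : ℂ) * Complex.I).im = _
    rw [Complex.add_im, Complex.ofReal_im, Complex.mul_im, Complex.I_re, Complex.I_im,
      Complex.ofReal_re]
    ring
  have hc : (i2 h1 lam i0 q).1.2.1 = star ((L q.1.1 *ᵥ q.1.2.1) i0) /
      (((L q.1.1 i0 i0).re * DD L lam q.1 : ℝ) : ℂ) := rfl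
  have hnc : ‖(i2 h1 lam i0 q).1.2.1‖ ^ 2 = nq (L q.1.1 *ᵥ q.1.2.1) /
      ((L q.1.1 i0 i0).re * (rl (lam q.1.1) (L q.1.1) q.1.2.1 (q.1.2.2.re - 1) +
        (1 + lam q.1.1 * (q.1.2.2.re - 1))) ^ 2) := by
    rw [hc, norm_div, norm_star, div_pow, hn1, Complex.norm_real, Real.norm_eq_abs, sq_abs]
    change _ / ((L q.1.1 i0 i0).re * DD L lam q.1) ^ 2 = _ /
      ((L q.1.1 i0 i0).re * (DD L lam q.1) ^ 2)
    field_simp
  have ha : (i2 h1 lam i0 q).1.1 = q.1.1 := rfl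
  refine Prod.ext rfl (Prod.ext ?_ ?_)
  · funext i
    change (q.1.2.1 - L q.1.1 *ᵥ q.1.2.1) i + (star (i2 h1 lam i0 q).1.2.1 *
      ((Df (lam q.1.1) (L q.1.1 i0 i0).re (‖(i2 h1 lam i0 q).1.2.1‖ ^ 2)
        (i2 h1 lam i0 q).1.2.2.2.re : ℝ) : ℂ)) * L q.1.1 i i0 = q.1.2.1 i
    rw [hnc, hre, hD, hc]
    have hcol' : (L q.1.1 *ᵥ q.1.2.1) i0 * L q.1.1 i i0 =
        L q.1.1 i0 i0 * (L q.1.1 *ᵥ q.1.2.1) i := congrFun hcol i
    change (q.1.2.1 - L q.1.1 *ᵥ q.1.2.1) i + (star (star ((L q.1.1 *ᵥ q.1.2.1) i0) /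
      (((L q.1.1 i0 i0).re * DD L lam q.1 : ℝ) : ℂ)) * ((DD L lam q.1 : ℝ) : ℂ)) *
        L q.1.1 i i0 = q.1.2.1 i
    have hκC : ((L q.1.1 i0 i0).re : ℂ) ≠ 0 := by exact_mod_cast hκ.ne'
    have hDC : ((DD L lam q.1 : ℝ) : ℂ) ≠ 0 := by exact_mod_cast hD0.ne'
    rw [star_div₀, star_star, Complex.star_def, Complex.conj_ofReal, Pi.sub_apply,
      Complex.ofReal_mul]
    have e3 : (L q.1.1 *ᵥ q.1.2.1) i0 / (((L q.1.1 i0 i0).re : ℂ) * ((DD L lam q.1 : ℝ) : ℂ)) *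
        ((DD L lam q.1 : ℝ) : ℂ) * L q.1.1 i i0 =
        ((L q.1.1 *ᵥ q.1.2.1) i0 * L q.1.1 i i0) / ((L q.1.1 i0 i0).re : ℂ) := by
      field_simp
    have e4 : L q.1.1 i0 i0 * (L q.1.1 *ᵥ q.1.2.1) i / ((L q.1.1 i0 i0).re : ℂ) =
        (L q.1.1 *ᵥ q.1.2.1) i := by
      rw [div_eq_iff hκC]
      conv_lhs => rw [h00]
      ring
    rw [e3, hcol', e4, sub_add_cancel]
  · change ((1 + sf (lam q.1.1) (L q.1.1 i0 i0).re (‖(i2 h1 lam i0 q).1.2.1‖ ^ 2)
        (i2 h1 lam i0 q).1.2.2.2.re : ℝ) : ℂ) +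
        ((i2 h1 lam i0 q).1.2.2.2.im : ℂ) * Complex.I = q.1.2.2
    rw [hnc, hre, hS, him, add_sub_cancel, Complex.re_add_im]

theorem isOpenEmbedding_e2 (hL : Continuous L) (h1 : ∀ a, IsPr 1 (L a)) (hlam : Continuous lam)
    (hk : ∀ a, 0 < (L a i0 i0).re) : IsOpenEmbedding (e2 L lam i0) :=
  isOpenEmbedding_of_inv (isOpen_O2 hL hlam) (continuous_e2 hL hlam hk) (e2_mem h1 hk)
    (i2 h1 lam i0) (continuous_i2 hL h1 hlam hk) (i2_e2 h1 hk) (e2_i2 h1 hk)

/-- The family. -/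
def famP [T2Space A] (hL : Continuous L) (h1 : ∀ a, IsPr 1 (L a)) (hlam : Continuous lam)
    (hk : ∀ a, 0 < (L a i0 i0).re) : PMap (A × ((ι → ℂ) × ℂ)) (Y2 L) :=
  PMap.ofOpen (e2 L lam i0) (isOpenEmbedding_e2 hL h1 hlam hk)

theorem famP_of_pos [T2Space A] (hL : Continuous L) (h1 : ∀ a, IsPr 1 (L a))
    (hlam : Continuous lam) (hk : ∀ a, 0 < (L a i0 i0).re)
    (q : A × ((ι → ℂ) × ℂ)) (hq : q ∈ O2 L lam) :
    famP hL h1 hlam hk (q : OnePoint (A × ((ι → ℂ) × ℂ))) =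
      (i2 h1 lam i0 ⟨q, hq⟩ : OnePoint (Y2 L)) := by
  refine (PMap.collapse_eq_coe (e2 L lam i0) (isOpenEmbedding_e2 hL h1 hlam hk)).2 ?_
  rw [e2_i2 h1 hk]

theorem famP_of_not [T2Space A] (hL : Continuous L) (h1 : ∀ a, IsPr 1 (L a))
    (hlam : Continuous lam) (hk : ∀ a, 0 < (L a i0 i0).re)
    (q : A × ((ι → ℂ) × ℂ)) (hq : q ∉ O2 L lam) :
    famP hL h1 hlam hk (q : OnePoint (A × ((ι → ℂ) × ℂ))) = OnePoint.infty := by
  refine PMap.ofOpen_of_notMem _ _ ?_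
  rintro ⟨p, rfl⟩
  exact hq (e2_mem h1 hk p)

end family

end Crest.Agent.R090.TopD491
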