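import Crest.Agent.R090.TopD_491

/-!
# Row 90, TOPCELL (helper491), part E: block sums, the two proper maps

* `bsum` : block sum `T_k × {(L, y, ζ)} → T_{k + |ι|}`;
* `Bn L` : lines of `L_b ⊕ ℂ`, the next base; `k1`, `k2` proper.
-/

set_option autoImplicit false
set_option linter.unusedSectionVars false

open Topology Filter Set Matrix
open Crest.Agent.R090.Sp962 Crest.Agent.R090.I0core275 Crest.Agent.R090.I0Defs417
  Crest.Agent.R090.I0Glue417
open Crest.Agent.R090.TopA491 Crest.Agent.R090.TopB491 Crest.Agent.R090.TopC491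
  Crest.Agent.R090.TopD491
open scoped unitInterval

noncomputable section

namespace Crest.Agent.R090.TopE491

section blocks

variable {ι κ : Type*} [Fintype ι] [DecidableEq ι] [Fintype κ] [DecidableEq κ]

/-- `(1 - L) ⊕ 1`. -/
def cb (L : Matrix ι ι ℂ) : Matrix (ι ⊕ Unit) (ι ⊕ Unit) ℂ := fromBlocks (1 - L) 0 0 1

theorem isPr_cb {L : Matrix ι ι ℂ} (h : IsPr 1 L) : IsPr (Fintype.card ι) (cb L) := by
  refine ⟨?_, ?_, ?_⟩
  · rw [cb, fromBlocks_conjTranspose, conjTranspose_sub, conjTranspose_one, h.herm]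
    simp
  · rw [cb, fromBlocks_multiply]
    have : (1 - L) * (1 - L) = 1 - L := by
      rw [Matrix.sub_mul, Matrix.one_mul, Matrix.mul_sub, Matrix.mul_one, h.idem, sub_self,
        sub_zero]
    rw [this]
    simp
  · rw [trace, Fintype.sum_sum_type]
    simp only [cb, diag_apply, fromBlocks_apply₁₁, fromBlocks_apply₂₂]
    have h1 : ∑ x, (1 - L) x x = (1 - L).trace := rfl
    rw [h1, trace_sub, trace_one, h.tr]
    simp

/-- The block sum. -/
def bsum {k k' : ℕ} (hk : k + Fintype.card ι = k') (t : Th k κ) (L : Matrix ι ι ℂ)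
    (h : IsPr 1 L) (y : ι → ℂ) (hy : L *ᵥ y = 0) (ζ : ℂ) : Th k' (κ ⊕ (ι ⊕ Unit)) :=
  ⟨(fromBlocks t.1.1 0 0 (cb L), Sum.elim t.1.2 (Sum.elim y fun _ => ζ)), by
    subst hk
    exact isPr_fromBlocks t.2.1 (isPr_cb h), by
    rw [fromBlocks_diag_mulVec, t.2.2, cb, fromBlocks_diag_mulVec, sub_mulVec, one_mulVec, hy,
      sub_zero, one_mulVec]⟩

theorem bsum_congr {k k' : ℕ} (hk : k + Fintype.card ι = k') (t : Th k κ) {L L' : Matrix ι ι ℂ}
    (h : IsPr 1 L) (h' : IsPr 1 L') {y y' : ι → ℂ} (hy : L *ᵥ y = 0) (hy' : L' *ᵥ y' = 0)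
    {ζ ζ' : ℂ} (eL : L = L') (ey : y = y') (eζ : ζ = ζ') :
    bsum hk t L h y hy ζ = bsum hk t L' h' y' hy' ζ' := by
  subst eL
  subst ey
  subst eζ
  rfl

theorem continuous_bsum {X : Type*} [TopologicalSpace X] {k k' : ℕ}
    (hk : k + Fintype.card ι = k') {t : X → Th k κ} {L : X → Matrix ι ι ℂ}
    (h : ∀ x, IsPr 1 (L x)) {y : X → ι → ℂ} (hy : ∀ x, L x *ᵥ y x = 0) {ζ : X → ℂ}
    (ht : Continuous t) (hL : Continuous L) (hyc : Continuous y) (hζ : Continuous ζ) :
    Continuous fun x => bsum hk (t x) (L x) (h x) (y x) (hy x) (ζ x) := by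
  have ht0 : Continuous fun x => (t x).1 := continuous_subtype_val.comp ht
  refine Continuous.subtype_mk (Continuous.prodMk ?_ ?_) _
  · refine Continuous.matrix_fromBlocks (continuous_fst.comp ht0) continuous_const
      continuous_const ?_
    exact (continuous_const.sub hL).matrix_fromBlocks continuous_const continuous_const
      continuous_const
  · exact continuous_sumElim (continuous_snd.comp ht0)
      (continuous_sumElim hyc (continuous_pi fun _ => hζ))

/-- Reading off the data. -/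
def rT {k' : ℕ} (t : Th k' (κ ⊕ (ι ⊕ Unit))) :
    (Matrix κ κ ℂ × (κ → ℂ)) × ((ι → ℂ) × ℂ) :=
  ((fun i j => t.1.1 (Sum.inl i) (Sum.inl j), fun i => t.1.2 (Sum.inl i)),
    (fun i => t.1.2 (Sum.inr (Sum.inl i)), t.1.2 (Sum.inr (Sum.inr ()))))

theorem continuous_rT {k' : ℕ} : Continuous (rT : Th k' (κ ⊕ (ι ⊕ Unit)) → _) := by
  have h0 : Continuous fun t : Th k' (κ ⊕ (ι ⊕ Unit)) => t.1 := continuous_subtype_val
  have h1 : Continuous fun t : Th k' (κ ⊕ (ι ⊕ Unit)) => t.1.1 := continuous_fst.comp h0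
  have h2 : Continuous fun t : Th k' (κ ⊕ (ι ⊕ Unit)) => t.1.2 := continuous_snd.comp h0
  refine Continuous.prodMk (Continuous.prodMk ?_ ?_) (Continuous.prodMk ?_ ?_)
  · exact continuous_matrix fun i j => h1.matrix_elem _ _
  · exact continuous_pi fun i => (continuous_apply _).comp h2
  · exact continuous_pi fun i => (continuous_apply _).comp h2
  · exact (continuous_apply _).comp h2

theorem rT_bsum {k k' : ℕ} (hk : k + Fintype.card ι = k') (t : Th k κ) (L : Matrix ι ι ℂ)
    (h : IsPr 1 L) (y : ι → ℂ) (hy : L *ᵥ y = 0) (ζ : ℂ) :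
    rT (bsum hk t L h y hy ζ) = (t.1, (y, ζ)) := rfl

end blocks

section base

variable {ι κ : Type*} [Fintype ι] [DecidableEq ι] [Fintype κ] [DecidableEq κ]
variable {B : Type*} [TopologicalSpace B] {L : B → Matrix ι ι ℂ}

/-- The next base. -/
def Bn (L : B → Matrix ι ι ℂ) : Type _ :=
  {p : B × Matrix (ι ⊕ Unit) (ι ⊕ Unit) ℂ // IsPr 1 p.2 ∧ fromBlocks (L p.1) 0 0 1 * p.2 = p.2}

instance (L : B → Matrix ι ι ℂ) : TopologicalSpace (Bn L) :=
  inferInstanceAs (TopologicalSpace {p : B × Matrix (ι ⊕ Unit) (ι ⊕ Unit) ℂ //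
    IsPr 1 p.2 ∧ fromBlocks (L p.1) 0 0 1 * p.2 = p.2})

instance (L : B → Matrix ι ι ℂ) [T2Space B] : T2Space (Bn L) :=
  inferInstanceAs (T2Space {p : B × Matrix (ι ⊕ Unit) (ι ⊕ Unit) ℂ //
    IsPr 1 p.2 ∧ fromBlocks (L p.1) 0 0 1 * p.2 = p.2})

theorem compactSpace_Bn [CompactSpace B] [T2Space B] (hL : Continuous L) :
    CompactSpace (Bn L) := by
  have h1 : IsCompact {M : Matrix (ι ⊕ Unit) (ι ⊕ Unit) ℂ | ∀ i j, ‖M i j‖ ≤ 1} := by
    have : {M : Matrix (ι ⊕ Unit) (ι ⊕ Unit) ℂ | ∀ i j, ‖M i j‖ ≤ 1} =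
        (Set.univ.pi fun _ : ι ⊕ Unit => Set.univ.pi fun _ : ι ⊕ Unit =>
          Metric.closedBall (0 : ℂ) 1) := by
      ext M
      constructor
      · intro h i _ j _
        exact mem_closedBall_zero_iff.2 (h i j)
      · intro h i j
        exact mem_closedBall_zero_iff.1 (h i (mem_univ i) j (mem_univ j))
    rw [this]
    exact isCompact_univ_pi fun _ => isCompact_univ_pi fun _ => isCompact_closedBall _ _
  have h2 : IsClosed {p : B × Matrix (ι ⊕ Unit) (ι ⊕ Unit) ℂ |
      IsPr 1 p.2 ∧ fromBlocks (L p.1) 0 0 1 * p.2 = p.2} := by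
    refine ((isClosed_isPr 1).preimage continuous_snd).inter ?_
    refine isClosed_eq ?_ continuous_snd
    exact ((hL.comp continuous_fst).matrix_fromBlocks continuous_const continuous_const
      continuous_const).matrix_mul continuous_snd
  refine isCompact_iff_compactSpace.1 ((isCompact_univ.prod h1).of_isClosed_subset h2 ?_)
  rintro p ⟨hp, -⟩
  exact ⟨trivial, fun i j => hp.norm_entry_le i j⟩

variable {k k' : ℕ}

/-- The first proper map. -/
def k1 (hP : ∀ b, IsPr 1 (L b)) (hk : k + Fintype.card ι = k')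
    (p : Y (fun q : B × Th k κ => L q.1)) : Bn L × Th k' (κ ⊕ (ι ⊕ Unit)) :=
  (⟨(p.1.1.1, p.1.2.1), p.2.1, p.2.2.1⟩,
    bsum hk p.1.1.2 (L p.1.1.1) (hP _) p.1.2.2.1 p.2.2.2 p.1.2.2.2)

theorem continuous_k1 (hL : Continuous L) (hP : ∀ b, IsPr 1 (L b))
    (hk : k + Fintype.card ι = k') : Continuous (k1 (κ := κ) hP hk) := by
  have h0 : Continuous fun p : Y (fun q : B × Th k κ => L q.1) => p.1 := continuous_subtype_val
  have h1 : Continuous fun p : Y (fun q : B × Th k κ => L q.1) => p.1.1 := continuous_fst.comp h0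
  have h2 : Continuous fun p : Y (fun q : B × Th k κ => L q.1) => p.1.2 := continuous_snd.comp h0
  refine Continuous.prodMk (Continuous.subtype_mk ?_ _) ?_
  · exact (continuous_fst.comp h1).prodMk (continuous_fst.comp h2)
  · exact continuous_bsum hk _ _ (continuous_snd.comp h1) (hL.comp (continuous_fst.comp h1))
      (continuous_fst.comp (continuous_snd.comp h2)) (continuous_snd.comp (continuous_snd.comp h2))

theorem isProperMap_k1 [T2Space B] (hL : Continuous L) (hP : ∀ b, IsPr 1 (L b))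
    (hk : k + Fintype.card ι = k') : IsProperMap (k1 (κ := κ) hP hk) := by
  let g : Bn L × Th k' (κ ⊕ (ι ⊕ Unit)) → (B × (Matrix κ κ ℂ × (κ → ℂ))) ×
      (Matrix (ι ⊕ Unit) (ι ⊕ Unit) ℂ × ((ι → ℂ) × ℂ)) :=
    fun q => ((q.1.1.1, (rT q.2).1), (q.1.1.2, (rT q.2).2))
  have hg : Continuous g := by
    have h0 : Continuous fun q : Bn L × Th k' (κ ⊕ (ι ⊕ Unit)) => q.1.1 :=
      continuous_subtype_val.comp continuous_fst
    have h1 : Continuous fun q : Bn L × Th k' (κ ⊕ (ι ⊕ Unit)) => rT q.2 :=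
      continuous_rT.comp continuous_snd
    exact ((continuous_fst.comp h0).prodMk (continuous_fst.comp h1)).prodMk
      ((continuous_snd.comp h0).prodMk (continuous_snd.comp h1))
  refine isProperMap_of_comp (continuous_k1 hL hP hk) hg ?_
  have e : g ∘ k1 (κ := κ) hP hk = (Prod.map (Prod.map id Subtype.val) id) ∘
      (Subtype.val : Y (fun q : B × Th k κ => L q.1) → _) := rfl
  rw [e]
  exact ((isProperMap_id.prodMap (isClosedEmbedding_val k).isProperMap).prodMap
    isProperMap_id).comp (isClosedEmbedding_Y (hL.comp continuous_fst)).isProperMap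

end base

section fam

variable {m κ : Type*} [Fintype m] [DecidableEq m] [Fintype κ] [DecidableEq κ] {k k' : ℕ}

/-- The family of lines. -/
def Lf (m : Type*) [Fintype m] [DecidableEq m] (T : Type*) (a : I × ((m → ℂ) × T)) :
    Matrix (Option m) (Option m) ℂ := Pa (((a.1 : ℝ) : ℂ) • a.2.1)

/-- The parameter. -/
def lf (m T : Type*) (a : I × ((m → ℂ) × T)) : ℝ := a.1

theorem continuous_Lf (T : Type*) [TopologicalSpace T] : Continuous (Lf m T) := by
  refine continuous_Pa.comp ?_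
  exact (Complex.continuous_ofReal.comp (continuous_subtype_val.comp continuous_fst)).smul
    (continuous_fst.comp continuous_snd)

theorem continuous_lf (T : Type*) [TopologicalSpace T] : Continuous (lf m T) :=
  continuous_subtype_val.comp continuous_fst

theorem isPr_Lf (T : Type*) (a : I × ((m → ℂ) × T)) : IsPr 1 (Lf m T a) := isPr_Pa _

theorem Lf_pos (T : Type*) (a : I × ((m → ℂ) × T)) : 0 < (Lf m T a none none).re := by
  unfold Lf
  rw [Pa_none, Complex.ofReal_re]
  have := one_add_nq_pos (((a.1 : ℝ) : ℂ) • a.2.1)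
  positivity

/-- The second proper map. -/
def k2 (hk : k + Fintype.card (Option m) = k') (p : Y2 (Lf m (Th k κ))) :
    ((m ⊕ Unit) → ℂ) × Th k' (κ ⊕ (Option m ⊕ Unit)) :=
  (Sum.elim p.1.1.2.1 (fun _ => p.1.2.1),
    bsum hk p.1.1.2.2 (Lf m (Th k κ) p.1.1) (isPr_Lf _ _) p.1.2.2.1 p.2 p.1.2.2.2)

theorem continuous_k2 (hk : k + Fintype.card (Option m) = k') :
    Continuous (k2 (κ := κ) hk) := by
  have h0 : Continuous fun p : Y2 (Lf m (Th k κ)) => p.1 := continuous_subtype_val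
  have h1 : Continuous fun p : Y2 (Lf m (Th k κ)) => p.1.1 := continuous_fst.comp h0
  have h2 : Continuous fun p : Y2 (Lf m (Th k κ)) => p.1.2 := continuous_snd.comp h0
  refine Continuous.prodMk ?_ ?_
  · exact continuous_sumElim (continuous_fst.comp (continuous_snd.comp h1))
      (continuous_pi fun _ => continuous_fst.comp h2)
  · exact continuous_bsum hk _ _ (continuous_snd.comp (continuous_snd.comp h1))
      ((continuous_Lf _).comp h1)
      (continuous_fst.comp (continuous_snd.comp h2)) (continuous_snd.comp (continuous_snd.comp h2))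

theorem isProperMap_k2 (hk : k + Fintype.card (Option m) = k') :
    IsProperMap (k2 (κ := κ) hk) := by
  let g : ((m ⊕ Unit) → ℂ) × Th k' (κ ⊕ (Option m ⊕ Unit)) →
      ((m → ℂ) × (Matrix κ κ ℂ × (κ → ℂ))) × (ℂ × ((Option m → ℂ) × ℂ)) :=
    fun q => ((fun i => q.1 (Sum.inl i), (rT q.2).1), (q.1 (Sum.inr ()), (rT q.2).2))
  have hg : Continuous g := by
    have h0 : ∀ i, Continuous fun q : ((m ⊕ Unit) → ℂ) × Th k' (κ ⊕ (Option m ⊕ Unit)) => q.1 i :=
      fun i => (continuous_apply i).comp continuous_fst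
    have h1 : Continuous fun q : ((m ⊕ Unit) → ℂ) × Th k' (κ ⊕ (Option m ⊕ Unit)) => rT q.2 :=
      continuous_rT.comp continuous_snd
    exact ((continuous_pi fun i => h0 _).prodMk (continuous_fst.comp h1)).prodMk
      ((h0 _).prodMk (continuous_snd.comp h1))
  refine isProperMap_of_comp (continuous_k2 hk) hg ?_
  have e : g ∘ k2 (κ := κ) hk = (Prod.map (Prod.map id Subtype.val) id) ∘
      (Prod.map Prod.snd id) ∘ (Subtype.val : Y2 (Lf m (Th k κ)) → _) := rfl
  rw [e]
  exact ((isProperMap_id.prodMap (isClosedEmbedding_val k).isProperMap).prodMap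
    isProperMap_id).comp ((isProperMap_snd_of_compactSpace.prodMap isProperMap_id).comp
      (isClosedEmbedding_Y2 (continuous_Lf _)).isProperMap)

/-- The homotopy as a pointed map. -/
def GG (hk : k + Fintype.card (Option m) = k') :
    PMap (I × (((m → ℂ) × Th k κ) × ((Option m → ℂ) × ℂ)))
      (((m ⊕ Unit) → ℂ) × Th k' (κ ⊕ (Option m ⊕ Unit))) :=
  (ofProper (k2 hk) (isProperMap_k2 hk)).comp
    ((famP (continuous_Lf (Th k κ)) (isPr_Lf _) (continuous_lf _) (i0 := none) (Lf_pos _)).comp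
      (PMap.ofHomeo (Homeomorph.prodAssoc I ((m → ℂ) × Th k κ) ((Option m → ℂ) × ℂ)).symm))

theorem GG_of_pos (hk : k + Fintype.card (Option m) = k') (u : I) (a : m → ℂ) (t : Th k κ)
    (w : Option m → ℂ) (z : ℂ) (hq : ((u, (a, t)), (w, z)) ∈ O2 (Lf m (Th k κ)) (lf m (Th k κ))) :
    GG (κ := κ) hk ((u, ((a, t), (w, z))) : I × (((m → ℂ) × Th k κ) × ((Option m → ℂ) × ℂ))) =
      (k2 hk (i2 (isPr_Lf _) (lf m (Th k κ)) none ⟨((u, (a, t)), (w, z)), hq⟩) :
        OnePoint (((m ⊕ Unit) → ℂ) × Th k' (κ ⊕ (Option m ⊕ Unit)))) := by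
  change ofProper (k2 hk) (isProperMap_k2 hk) (famP (continuous_Lf (Th k κ)) (isPr_Lf _)
    (continuous_lf _) (i0 := none) (Lf_pos _) (((u, (a, t)), (w, z)) :
      (I × ((m → ℂ) × Th k κ)) × ((Option m → ℂ) × ℂ))) = _
  rw [famP_of_pos _ _ _ _ _ hq]
  rfl

theorem GG_of_not (hk : k + Fintype.card (Option m) = k') (u : I) (a : m → ℂ) (t : Th k κ)
    (w : Option m → ℂ) (z : ℂ) (hq : ((u, (a, t)), (w, z)) ∉ O2 (Lf m (Th k κ)) (lf m (Th k κ))) :
    GG (κ := κ) hk ((u, ((a, t), (w, z))) : I × (((m → ℂ) × Th k κ) × ((Option m → ℂ) × ℂ))) =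
      OnePoint.infty := by
  change ofProper (k2 hk) (isProperMap_k2 hk) (famP (continuous_Lf (Th k κ)) (isPr_Lf _)
    (continuous_lf _) (i0 := none) (Lf_pos _) (((u, (a, t)), (w, z)) :
      (I × ((m → ℂ) × Th k κ)) × ((Option m → ℂ) × ℂ))) = _
  rw [famP_of_not _ _ _ _ _ hq]
  rfl

end fam

end Crest.Agent.R090.TopE491
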