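import Crest.Agent.R090.TopE_491

/-!
# Row 90, TOPCELL (helper491), part F: the step identity
-/

set_option autoImplicit false
set_option linter.unusedSectionVars false

open Topology Filter Set Matrix
open Crest.Agent.R090.Sp962 Crest.Agent.R090.I0core275 Crest.Agent.R090.I0Defs417
  Crest.Agent.R090.I0Glue417
open Crest.Agent.R090.TopA491 Crest.Agent.R090.TopB491 Crest.Agent.R090.TopC491
  Crest.Agent.R090.TopD491 Crest.Agent.R090.TopE491
open scoped unitInterval

noncomputable section

namespace Crest.Agent.R090.TopF491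

/-- The index equivalence. -/
def eI (m : Type*) : Option m ⊕ Unit ≃ Option (m ⊕ Unit) where
  toFun x := match x with
    | .inl none => none
    | .inl (some i) => some (.inl i)
    | .inr _ => some (.inr ())
  invFun x := match x with
    | none => .inl none
    | some (.inl i) => .inl (some i)
    | some (.inr _) => .inr ()
  left_inv x := by rcases x with (_ | i) | _ <;> rfl
  right_inv x := by rcases x with _ | (i | _) <;> rfl

section step

variable {m κ : Type*} [Fintype m] [DecidableEq m] [Fintype κ] [DecidableEq κ] {k k' : ℕ}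
variable {B : Type*} [TopologicalSpace B]

/-- The next family. -/
def Ln (L : B → Matrix (Option m) (Option m) ℂ) (p : Bn L) :
    Matrix (Option (m ⊕ Unit)) (Option (m ⊕ Unit)) ℂ := Matrix.reindex (eI m) (eI m) p.1.2

theorem continuous_Ln (L : B → Matrix (Option m) (Option m) ℂ) : Continuous (Ln L) :=
  (continuous_snd.comp continuous_subtype_val).matrix_reindex _ _

theorem isPr_Ln (L : B → Matrix (Option m) (Option m) ℂ) (p : Bn L) : IsPr 1 (Ln L p) :=
  isPr_reindex p.2.1 _

/-- `y ↦ (u, y)`. -/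
def incI {U : Type*} [TopologicalSpace U] [T2Space U] (u : I) : PMap U (I × U) where
  toFun y := sm (u : OnePoint I) y
  cont := continuous_const.sm962 continuous_id
  map_inf := sm_inf_right _

theorem GG_homotopic (hk : k + Fintype.card (Option m) = k') :
    ((GG (κ := κ) hk).comp (incI 0)).Homotopic ((GG (κ := κ) hk).comp (incI 1)) :=
  homotopic_of_param (GG hk) (fun _ => rfl) (fun _ => rfl)

theorem rl_one (L : Matrix (Option m) (Option m) ℂ) (w : Option m → ℂ) (s : ℝ) :
    rl 1 L w (s - 1) = rr L w s := by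
  unfold rl rr
  congr 1
  ring

theorem Lf_one (T : Type*) {L : Matrix (Option m) (Option m) ℂ} (h : IsPr 1 L)
    (h0 : L none none ≠ 0) (t : T) : Lf m T (1, (I0Defs417.slope L, t)) = L := by
  change Pa (((1 : ℝ) : ℂ) • I0Defs417.slope L) = L
  rw [Complex.ofReal_one, one_smul]
  exact Pa_of h h0

theorem abs_le_rr (L : Matrix (Option m) (Option m) ℂ) (w : Option m → ℂ) (s : ℝ) :
    |s| ≤ rr L w s := by
  have h1 := rr_sq L w s
  have h2 := nq_nonneg (L *ᵥ w)
  have h3 := rr_nonneg L w s
  refine abs_le_of_sq_le_sq ?_ h3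
  rw [h1]
  linarith

theorem pch_bl_inf (L : Matrix (Option m) (Option m) ℂ) (v : Option m → ℂ) (r s : ℝ)
    (h : (((1 + s / r) / 2 : ℝ) : ℂ) * L none none = 0) :
    pch (Matrix.reindex (eI m) (eI m) (bl L v r s)) = OnePoint.infty := pch_of_eq h

theorem pch_bl {L : Matrix (Option m) (Option m) ℂ} (hL : IsPr 1 L) (h0 : L none none ≠ 0)
    (v : Option m → ℂ) {r s : ℝ} (hr : 0 < r) (hD : 0 < r + s) :
    pch (Matrix.reindex (eI m) (eI m) (bl L v r s)) =
      ((Sum.elim (I0Defs417.slope L) (fun _ => star (v none) /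
        (((L none none).re * (r + s) : ℝ) : ℂ)) : m ⊕ Unit → ℂ) : OnePoint (m ⊕ Unit → ℂ)) := by
  obtain ⟨-, -, h00, -⟩ := col_facts hL none
  have h1 : ((1 + s / r) / 2 : ℝ) ≠ 0 := by
    have : (1 + s / r) / 2 = (r + s) / (2 * r) := by
      field_simp
    rw [this]
    positivity
  have h1C : (((1 + s / r) / 2 : ℝ) : ℂ) ≠ 0 := by exact_mod_cast h1
  have h2 : Matrix.reindex (eI m) (eI m) (bl L v r s) none none =
      (((1 + s / r) / 2 : ℝ) : ℂ) * L none none := rfl
  rw [pch_of_ne (by rw [h2]; exact mul_ne_zero h1C h0)]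
  refine congrArg _ (funext fun i => ?_)
  have h3 : I0Defs417.slope (Matrix.reindex (eI m) (eI m) (bl L v r s)) i =
      Matrix.reindex (eI m) (eI m) (bl L v r s) (some i) none /
        ((((1 + s / r) / 2 : ℝ) : ℂ) * L none none) := rfl
  rw [h3]
  rcases i with i | i
  · change ((((1 + s / r) / 2 : ℝ) : ℂ) * L (some i) none) /
      ((((1 + s / r) / 2 : ℝ) : ℂ) * L none none) = L (some i) none / L none none
    rw [mul_div_mul_left _ _ h1C]
  · change (((1 / (2 * r) : ℝ) : ℂ) * star (v none)) /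
      ((((1 + s / r) / 2 : ℝ) : ℂ) * L none none) = star (v none) /
        (((L none none).re * (r + s) : ℝ) : ℂ)
    have h4 : ((L none none).re : ℝ) ≠ 0 := by
      intro h5
      rw [h5] at h00
      exact h0 (by rw [h00, Complex.ofReal_zero])
    have h6 : (((1 + s / r) / 2 : ℝ) : ℂ) * L none none =
        (((1 / (2 * r)) * ((L none none).re * (r + s)) : ℝ) : ℂ) := by
      have h7 : (1 + s / r) / 2 * (L none none).re =
          (1 / (2 * r)) * ((L none none).re * (r + s)) := by
        field_simp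
      rw [← h7]
      conv_lhs => rw [h00]
      push_cast
      ring
    rw [h6, Complex.ofReal_mul]
    have h8 : ((1 / (2 * r) : ℝ) : ℂ) ≠ 0 := by
      have : (1 / (2 * r) : ℝ) ≠ 0 := by positivity
      exact_mod_cast this
    rw [mul_div_mul_left _ _ h8]

variable [T2Space B] {L : B → Matrix (Option m) (Option m) ℂ}

theorem step_eq [CompactSpace B] [CompactSpace (Bn L)] (hL : Continuous L)
    (hP : ∀ b, IsPr 1 (L b)) (hk : k + Fintype.card (Option m) = k')
    (x : (B × Th k κ) × ((Option m → ℂ) × ℂ)) :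
    ((pinch (Ln L) (continuous_Ln L) (isPr_Ln L)).smash
      (PMap.id (Th k' (κ ⊕ (Option m ⊕ Unit))))) ((ofProper (k1 hP hk) (isProperMap_k1 hL hP hk))
        (stepP (A := B × Th k κ) (L := fun q => L q.1) (hL.comp continuous_fst)
          (fun q => hP q.1) (x : OnePoint ((B × Th k κ) × ((Option m → ℂ) × ℂ))))) =
    ((GG (κ := κ) hk).comp (incI 1)) ((((pinch L hL hP).smash (PMap.id (Th k κ))).smash
      (PMap.id ((Option m → ℂ) × ℂ))) (x : OnePoint ((B × Th k κ) × ((Option m → ℂ) × ℂ)))) := by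
  obtain ⟨⟨b, t⟩, ⟨w, z⟩⟩ := x
  change _ = GG (κ := κ) hk (sm ((1 : I) : OnePoint I) (sm (sm (pch (L b)) (t : OnePoint (Th k κ)))
    (((w, z) : (Option m → ℂ) × ℂ) : OnePoint ((Option m → ℂ) × ℂ))))
  by_cases h0 : L b none none = 0
  · rw [pch_of_eq h0, sm_inf_left, sm_inf_left, sm_inf_right, PMap.map_inf]
    by_cases hS : (((b, t), (w, z)) : (B × Th k κ) × ((Option m → ℂ) × ℂ)) ∈ OS (fun q => L q.1)
    · rw [stepP_of_pos _ _ _ hS]
      have h1 : pch (Ln L (k1 hP hk (iS (A := B × Th k κ) (L := fun q => L q.1)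
          (fun q => hP q.1) ⟨((b, t), (w, z)), hS⟩)).1) = OnePoint.infty := by
        refine pch_bl_inf _ _ _ _ ?_
        change _ * L b none none = 0
        rw [h0, mul_zero]
      change sm (pch (Ln L (k1 hP hk (iS (A := B × Th k κ) (L := fun q => L q.1)
          (fun q => hP q.1) ⟨((b, t), (w, z)), hS⟩)).1)) _ = _
      rw [h1, sm_inf_left]
    · rw [stepP_of_not _ _ _ hS]
      simp
  · have e0 : sm ((1 : I) : OnePoint I) (sm (sm (pch (L b)) (t : OnePoint (Th k κ)))
        (((w, z) : (Option m → ℂ) × ℂ) : OnePoint ((Option m → ℂ) × ℂ))) =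
        ((1, ((I0Defs417.slope (L b), t), (w, z))) :
          I × (((m → ℂ) × Th k κ) × ((Option m → ℂ) × ℂ))) := by
      rw [pch_of_ne h0]
      rfl
    rw [e0]
    have hLf : Lf m (Th k κ) (1, (I0Defs417.slope (L b), t)) = L b := Lf_one _ (hP b) h0 t
    have hDD : DD (Lf m (Th k κ)) (lf m (Th k κ)) ((1, (I0Defs417.slope (L b), t)), (w, z)) =
        rr (L b) w z.re + z.re := by
      change rl 1 (Lf m (Th k κ) (1, (I0Defs417.slope (L b), t))) w (z.re - 1) +
        (1 + 1 * (z.re - 1)) = _
      rw [hLf, rl_one]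
      ring
    by_cases hO : ((1, (I0Defs417.slope (L b), t)), (w, z)) ∈ O2 (Lf m (Th k κ)) (lf m (Th k κ))
    · have hD : 0 < rr (L b) w z.re + z.re := by
        rw [← hDD]
        exact hO
      have hr : 0 < rr (L b) w z.re := by
        have := rl_pos' ⟨_, hO⟩
        change 0 < rl 1 (Lf m (Th k κ) (1, (I0Defs417.slope (L b), t))) w (z.re - 1) at this
        rwa [hLf, rl_one] at this
      have hS : (((b, t), (w, z)) : (B × Th k κ) × ((Option m → ℂ) × ℂ)) ∈
          OS (fun q => L q.1) := hr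
      rw [stepP_of_pos _ _ _ hS, GG_of_pos hk _ _ _ _ _ hO]
      change sm (pch (Ln L (k1 hP hk (iS (A := B × Th k κ) (L := fun q => L q.1)
          (fun q => hP q.1) ⟨((b, t), (w, z)), hS⟩)).1)) (((k1 hP hk (iS (A := B × Th k κ)
          (L := fun q => L q.1) (fun q => hP q.1) ⟨((b, t), (w, z)), hS⟩)).2 :
            OnePoint (Th k' (κ ⊕ (Option m ⊕ Unit))))) = _
      have h1 : pch (Ln L (k1 hP hk (iS (A := B × Th k κ) (L := fun q => L q.1)
          (fun q => hP q.1) ⟨((b, t), (w, z)), hS⟩)).1) = _ :=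
        pch_bl (hP b) h0 (L b *ᵥ w) hr hD
      rw [h1]
      refine congrArg (fun q : ((m ⊕ Unit) → ℂ) × Th k' (κ ⊕ (Option m ⊕ Unit)) =>
        (q : OnePoint (((m ⊕ Unit) → ℂ) × Th k' (κ ⊕ (Option m ⊕ Unit))))) (Prod.ext ?_ ?_)
      · change _ = Sum.elim (I0Defs417.slope (L b)) (fun _ =>
          star ((Lf m (Th k κ) (1, (I0Defs417.slope (L b), t)) *ᵥ w) none) /
          (((Lf m (Th k κ) (1, (I0Defs417.slope (L b), t)) none none).re *
            DD (Lf m (Th k κ)) (lf m (Th k κ)) ((1, (I0Defs417.slope (L b), t)), (w, z)) : ℝ) : ℂ))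
        rw [hDD, hLf]
      · refine bsum_congr hk t (hP b) (isPr_Lf _ _)
          (iS (A := B × Th k κ) (L := fun q => L q.1) (fun q => hP q.1)
            ⟨((b, t), (w, z)), hS⟩).2.2.2
          (i2 (isPr_Lf _) (lf m (Th k κ)) none ⟨_, hO⟩).2 hLf.symm ?_ ?_
        · change w - L b *ᵥ w = w - Lf m (Th k κ) (1, (I0Defs417.slope (L b), t)) *ᵥ w
          rw [hLf]
        · change ((rr (L b) w z.re - 1 / rr (L b) w z.re : ℝ) : ℂ) + (z.im : ℂ) * Complex.I =
            (((2 * (z.re - 1) + 1 * ((z.re - 1) ^ 2 +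
              nq (Lf m (Th k κ) (1, (I0Defs417.slope (L b), t)) *ᵥ w))) /
              rl 1 (Lf m (Th k κ) (1, (I0Defs417.slope (L b), t))) w (z.re - 1) : ℝ) : ℂ) +
              (z.im : ℂ) * Complex.I
          rw [hLf, rl_one]
          congr 2
          have h2 := rr_sq (L b) w z.re
          rw [eq_div_iff hr.ne', sub_mul, div_mul_cancel₀ _ hr.ne']
          nlinarith
    · rw [GG_of_not hk _ _ _ _ _ hO]
      by_cases hS : (((b, t), (w, z)) : (B × Th k κ) × ((Option m → ℂ) × ℂ)) ∈
          OS (fun q => L q.1)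
      · rw [stepP_of_pos _ _ _ hS]
        have hr : 0 < rr (L b) w z.re := hS
        have hD : rr (L b) w z.re + z.re ≤ 0 := by
          rw [← hDD]
          exact not_lt.1 hO
        have h2 := abs_le_rr (L b) w z.re
        have h3 : z.re = - rr (L b) w z.re := by
          have := neg_le_of_abs_le h2
          linarith
        have h1 : pch (Ln L (k1 hP hk (iS (A := B × Th k κ) (L := fun q => L q.1)
            (fun q => hP q.1) ⟨((b, t), (w, z)), hS⟩)).1) = OnePoint.infty := by
          refine pch_bl_inf _ _ _ _ ?_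
          change (((1 + z.re / rr (L b) w z.re) / 2 : ℝ) : ℂ) * L b none none = 0
          have h4 : (1 + z.re / rr (L b) w z.re) / 2 = 0 := by
            have h5 : z.re / rr (L b) w z.re = -1 := by
              rw [div_eq_iff hr.ne']
              linarith
            rw [h5]
            norm_num
          rw [h4, Complex.ofReal_zero, zero_mul]
        change sm (pch (Ln L (k1 hP hk (iS (A := B × Th k κ) (L := fun q => L q.1)
            (fun q => hP q.1) ⟨((b, t), (w, z)), hS⟩)).1)) _ = _
        rw [h1, sm_inf_left]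
      · rw [stepP_of_not _ _ _ hS]
        simp

end step

end Crest.Agent.R090.TopF491
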