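import Crest.Agent.R090.TopF_491

/-!
# Row 90, TOPCELL (helper491), part G: the induction, `TopCellIn (Fin M)`
-/

set_option autoImplicit false
set_option linter.unusedSectionVars false

open Topology Filter Set Matrix
open Crest.Agent.R090.Sp962 Crest.Agent.R090.I0core275 Crest.Agent.R090.I0Defs417
  Crest.Agent.R090.I0Glue417
open Crest.Agent.R090.TopA491 Crest.Agent.R090.TopB491 Crest.Agent.R090.TopC491
  Crest.Agent.R090.TopD491 Crest.Agent.R090.TopE491 Crest.Agent.R090.TopF491
open scoped unitInterval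

noncomputable section

namespace Crest.Agent.R090.TopG491

section zero

variable {m κ γ : Type*} [Fintype m] [DecidableEq m] [Fintype κ] [DecidableEq κ] [Fintype γ]
  {k k' : ℕ}

/-- The coordinate change. -/
def th (m γ : Type*) : ((m → ℂ) × (γ → ℂ)) × ((Option m → ℂ) × ℂ) ≃ₜ
    ((m ⊕ Unit) → ℂ) × ((γ ⊕ (m ⊕ Unit)) → ℂ) where
  toFun x := (Sum.elim x.1.1 (fun _ => star (x.2.1 none) / 2),
    Sum.elim x.1.2 (Sum.elim (fun i => x.2.1 (some i))
      (fun _ => ((2 * (x.2.2.re - 1) : ℝ) : ℂ) + (x.2.2.im : ℂ) * Complex.I)))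
  invFun y := ((fun i => y.1 (Sum.inl i), fun i => y.2 (Sum.inl i)),
    (fun i => i.elim (2 * star (y.1 (Sum.inr ()))) (fun i => y.2 (Sum.inr (Sum.inl i))),
      (((y.2 (Sum.inr (Sum.inr ()))).re / 2 + 1 : ℝ) : ℂ) +
        ((y.2 (Sum.inr (Sum.inr ()))).im : ℂ) * Complex.I))
  left_inv x := by
    obtain ⟨⟨a, v⟩, ⟨w, z⟩⟩ := x
    refine Prod.ext rfl (Prod.ext ?_ ?_)
    · funext i
      cases i with
      | none =>
        change 2 * star (star (w none) / 2) = w none
        rw [star_div₀, star_star]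
        have : star (2 : ℂ) = 2 := Complex.conj_ofNat 2
        rw [this]
        ring
      | some i => rfl
    · change (((((2 * (z.re - 1) : ℝ) : ℂ) + (z.im : ℂ) * Complex.I).re / 2 + 1 : ℝ) : ℂ) +
        ((((2 * (z.re - 1) : ℝ) : ℂ) + (z.im : ℂ) * Complex.I).im : ℂ) * Complex.I = z
      apply Complex.ext
      · simp
      · simp
  right_inv y := by
    obtain ⟨a, v⟩ := y
    refine Prod.ext ?_ ?_
    · funext i
      rcases i with i | i
      · rfl
      · change star (2 * star (a (Sum.inr ()))) / 2 = a (Sum.inr ())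
        rw [star_mul', star_star]
        have : star (2 : ℂ) = 2 := Complex.conj_ofNat 2
        rw [this]
        ring
    · funext i
      rcases i with i | (i | i)
      · rfl
      · rfl
      · cases i
        apply Complex.ext
        · simp
          ring
        · simp
  continuous_toFun := by
    have h1 : Continuous fun x : ((m → ℂ) × (γ → ℂ)) × ((Option m → ℂ) × ℂ) => x.2.2 :=
      continuous_snd.comp continuous_snd
    have h2 : ∀ i, Continuous fun x : ((m → ℂ) × (γ → ℂ)) × ((Option m → ℂ) × ℂ) => x.2.1 i :=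
      fun i => (continuous_apply i).comp (continuous_fst.comp continuous_snd)
    refine Continuous.prodMk (continuous_pi fun i => ?_) (continuous_pi fun i => ?_)
    · rcases i with i | i
      · exact (continuous_apply i).comp (continuous_fst.comp continuous_fst)
      · exact (continuous_star.comp (h2 none)).div_const 2
    · rcases i with i | (i | i)
      · exact (continuous_apply i).comp (continuous_snd.comp continuous_fst)
      · exact h2 _
      · exact (Complex.continuous_ofReal.comp (continuous_const.mul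
          ((Complex.continuous_re.comp h1).sub continuous_const))).add
          ((Complex.continuous_ofReal.comp (Complex.continuous_im.comp h1)).mul continuous_const)
  continuous_invFun := by
    have h1 : ∀ i, Continuous fun y : ((m ⊕ Unit) → ℂ) × ((γ ⊕ (m ⊕ Unit)) → ℂ) => y.1 i :=
      fun i => (continuous_apply i).comp continuous_fst
    have h2 : ∀ i, Continuous fun y : ((m ⊕ Unit) → ℂ) × ((γ ⊕ (m ⊕ Unit)) → ℂ) => y.2 i :=
      fun i => (continuous_apply i).comp continuous_snd
    refine Continuous.prodMk (Continuous.prodMk (continuous_pi fun i => h1 _)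
      (continuous_pi fun i => h2 _)) (Continuous.prodMk (continuous_pi fun i => ?_) ?_)
    · cases i with
      | none => exact continuous_const.mul (continuous_star.comp (h1 _))
      | some i => exact h2 _
    · exact (Complex.continuous_ofReal.comp (((Complex.continuous_re.comp (h2 _)).div_const
        2).add continuous_const)).add
          ((Complex.continuous_ofReal.comp (Complex.continuous_im.comp (h2 _))).mul
            continuous_const)

theorem Pa_zero_apply (i j : Option m) :
    Pa (0 : m → ℂ) i j = if i = none ∧ j = none then 1 else 0 := by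
  have h : nq (0 : m → ℂ) = 0 := nq_eq_zero.2 rfl
  unfold Pa
  rw [h]
  cases i <;> cases j <;> simp [vec1]

theorem Pa_zero_mulVec (w : Option m → ℂ) (i : Option m) :
    (Pa (0 : m → ℂ) *ᵥ w) i = if i = none then w none else 0 := by
  rw [mulVec, dotProduct, Fintype.sum_option]
  simp only [Pa_zero_apply]
  cases i <;> simp

theorem one_sub_Pa_zero : (1 : Matrix (Option m) (Option m) ℂ) - Pa 0 = pJ some := by
  classical
  ext i j
  rw [Matrix.sub_apply, Pa_zero_apply, pJ, Matrix.diagonal_apply, Matrix.one_apply]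
  cases i <;> cases j <;> simp

theorem pJ_id : pJ (id : Unit → Unit) = 1 := by
  classical
  ext i j
  rw [pJ, Matrix.diagonal_apply, Matrix.one_apply]
  simp

theorem cb_Pa_zero : cb (Pa (0 : m → ℂ)) = pJ (Sum.map some id) := by
  rw [← pJ_sum, one_sub_Pa_zero.symm, pJ_id]
  rfl

theorem Lf_zero (T : Type*) (a : m → ℂ) (t : T) : Lf m T (0, (a, t)) = Pa 0 := by
  change Pa (((0 : ℝ) : ℂ) • a) = Pa 0
  rw [Complex.ofReal_zero, zero_smul]

theorem rl_zero (L : Matrix (Option m) (Option m) ℂ) (w : Option m → ℂ) (s : ℝ) :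
    rl 0 L w s = 1 := by
  unfold rl
  norm_num

theorem injective_sm {s : γ → κ} (hs : Function.Injective s) :
    Function.Injective (Sum.map s (Sum.map (some : m → Option m) (id : Unit → Unit))) :=
  hs.sumMap ((Option.some_injective _).sumMap Function.injective_id)

theorem GG_zero (hk : Fintype.card γ + Fintype.card (Option m) = Fintype.card (γ ⊕ (m ⊕ Unit)))
    (s : γ → κ) (hs : Function.Injective s) :
    ((GG (κ := κ) hk).comp (incI 0)).comp (((PMap.id (m → ℂ)).smash (fibJ s hs)).smash
      (PMap.id ((Option m → ℂ) × ℂ))) =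
    ((PMap.id ((m ⊕ Unit) → ℂ)).smash (fibJ (Sum.map s (Sum.map some id))
      (injective_sm hs))).comp (PMap.ofHomeo (th m γ)) := by
  refine PMap.ext fun x => ?_
  obtain ⟨⟨a, v⟩, ⟨w, z⟩⟩ := x
  change GG (κ := κ) hk ((0, ((a, (⟨(pJ s, Function.extend s v 0), isPr_pJ hs,
      pJ_mulVec_extLin s hs v⟩ : Th (Fintype.card γ) κ)), (w, z))) :
        I × (((m → ℂ) × Th (Fintype.card γ) κ) × ((Option m → ℂ) × ℂ))) = _
  set t : Th (Fintype.card γ) κ := ⟨(pJ s, Function.extend s v 0), isPr_pJ hs,
      pJ_mulVec_extLin s hs v⟩ with ht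
  have hLf : Lf m (Th (Fintype.card γ) κ) (0, (a, t)) = Pa 0 := Lf_zero _ a t
  have hDD : DD (Lf m (Th (Fintype.card γ) κ)) (lf m (Th (Fintype.card γ) κ))
      ((0, (a, t)), (w, z)) = 2 := by
    change rl 0 _ w (z.re - 1) + (1 + 0 * (z.re - 1)) = _
    rw [rl_zero]
    ring
  have hO : ((0, (a, t)), (w, z)) ∈ O2 (Lf m (Th (Fintype.card γ) κ))
      (lf m (Th (Fintype.card γ) κ)) := by
    change 0 < DD (Lf m (Th (Fintype.card γ) κ)) (lf m (Th (Fintype.card γ) κ))
      ((0, (a, t)), (w, z))
    rw [hDD]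
    norm_num
  rw [GG_of_pos hk _ _ _ _ _ hO]
  change _ = (((((th m γ) ((a, v), (w, z))).1,
    (⟨(pJ (Sum.map s (Sum.map some id)), Function.extend (Sum.map s (Sum.map some id))
      ((th m γ) ((a, v), (w, z))).2 0), isPr_pJ (injective_sm hs),
      pJ_mulVec_extLin _ (injective_sm hs) _⟩ :
        Th (Fintype.card (γ ⊕ (m ⊕ Unit))) (κ ⊕ (Option m ⊕ Unit)))) :
    ((m ⊕ Unit) → ℂ) × Th (Fintype.card (γ ⊕ (m ⊕ Unit))) (κ ⊕ (Option m ⊕ Unit))) :
    OnePoint (((m ⊕ Unit) → ℂ) × Th (Fintype.card (γ ⊕ (m ⊕ Unit))) (κ ⊕ (Option m ⊕ Unit))))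
  refine congrArg (fun q : ((m ⊕ Unit) → ℂ) × Th (Fintype.card (γ ⊕ (m ⊕ Unit)))
    (κ ⊕ (Option m ⊕ Unit)) => (q : OnePoint (((m ⊕ Unit) → ℂ) ×
      Th (Fintype.card (γ ⊕ (m ⊕ Unit))) (κ ⊕ (Option m ⊕ Unit))))) (Prod.ext ?_ ?_)
  · change Sum.elim a (fun _ => star ((Lf m (Th (Fintype.card γ) κ) (0, (a, t)) *ᵥ w) none) /
      (((Lf m (Th (Fintype.card γ) κ) (0, (a, t)) none none).re *
        DD (Lf m (Th (Fintype.card γ) κ)) (lf m (Th (Fintype.card γ) κ))
          ((0, (a, t)), (w, z)) : ℝ) : ℂ)) = Sum.elim a (fun _ => star (w none) / 2)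
    rw [hDD, hLf, Pa_zero_mulVec, Pa_zero_apply]
    simp
  · apply Subtype.ext
    refine Prod.ext ?_ ?_
    · change fromBlocks (pJ s) 0 0 (cb (Lf m (Th (Fintype.card γ) κ) (0, (a, t)))) = _
      rw [hLf, cb_Pa_zero]
      exact pJ_sum _ _
    · change Sum.elim (Function.extend s v 0) (Sum.elim
        (w - Lf m (Th (Fintype.card γ) κ) (0, (a, t)) *ᵥ w)
        (fun _ => ((((2 * (z.re - 1) + 0 * ((z.re - 1) ^ 2 +
          nq (Lf m (Th (Fintype.card γ) κ) (0, (a, t)) *ᵥ w))) /
          rl 0 (Lf m (Th (Fintype.card γ) κ) (0, (a, t))) w (z.re - 1) : ℝ) : ℂ) +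
          (z.im : ℂ) * Complex.I))) = Function.extend (Sum.map s (Sum.map some id))
          (Sum.elim v (Sum.elim (fun i => w (some i))
      (fun _ => ((2 * (z.re - 1) : ℝ) : ℂ) + (z.im : ℂ) * Complex.I))) 0
      have e1 : w - Lf m (Th (Fintype.card γ) κ) (0, (a, t)) *ᵥ w =
          Function.extend (some : m → Option m) (fun i => w (some i)) 0 := by
        rw [hLf]
        funext i
        rw [Pi.sub_apply, Pa_zero_mulVec]
        cases i with
        | none =>
          rw [Function.extend_apply' _ _ _ (by simp)]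
          simp
        | some i =>
          rw [(Option.some_injective m).extend_apply]
          simp
      have e2 : ∀ f : Unit → ℂ, f = Function.extend (id : Unit → Unit) f 0 := by
        intro f
        funext i
        exact (Function.injective_id.extend_apply f 0 i).symm
      rw [rl_zero, e1, zero_mul, add_zero, div_one, ← extend_sum hs
        ((Option.some_injective _).sumMap Function.injective_id),
        ← extend_sum (Option.some_injective _) Function.injective_id, ← e2]

end zero

/-! ## The induction -/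

/-- The statement for a general finite type. -/
def TC (m : Type) [Fintype m] [DecidableEq m] : Prop :=
  ∃ (B : Type) (_ : TopologicalSpace B) (_ : CompactSpace B) (_ : T2Space B)
    (L : B → Matrix (Option m) (Option m) ℂ) (hL : Continuous L) (hP : ∀ b, IsPr 1 (L b))
    (κ : Type) (_ : Fintype κ) (_ : DecidableEq κ) (γ : Type) (_ : Fintype γ) (s : γ → κ)
    (hs : Function.Injective s)
    (τ : PMap ((m → ℂ) × (γ → ℂ)) (B × Th (Fintype.card γ) κ)),
    (((pinch L hL hP).smash (PMap.id (Th (Fintype.card γ) κ))).comp τ).Homotopic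
      ((PMap.id (m → ℂ)).smash (fibJ s hs))

theorem step {m : Type} [Fintype m] [DecidableEq m] (h : TC m) : TC (m ⊕ Unit) := by
  obtain ⟨B, _, _, _, L, hL, hP, κ, _, _, γ, _, s, hs, τ, hτ⟩ := h
  have := compactSpace_Bn hL
  have hk : Fintype.card γ + Fintype.card (Option m) = Fintype.card (γ ⊕ (m ⊕ Unit)) := by
    simp
  refine ⟨Bn L, inferInstance, inferInstance, inferInstance, Ln L, continuous_Ln L, isPr_Ln L,
    κ ⊕ (Option m ⊕ Unit), inferInstance, inferInstance, γ ⊕ (m ⊕ Unit), inferInstance,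
    Sum.map s (Sum.map some id), injective_sm hs,
    ((ofProper (k1 hP hk) (isProperMap_k1 hL hP hk)).comp
      ((stepP (A := B × Th (Fintype.card γ) κ) (L := fun q => L q.1) (hL.comp continuous_fst)
        (fun q => hP q.1)).comp (τ.smash (PMap.id ((Option m → ℂ) × ℂ))))).comp
      (PMap.ofHomeo (th m γ).symm), ?_⟩
  have e1 : ((pinch (Ln L) (continuous_Ln L) (isPr_Ln L)).smash
      (PMap.id (Th (Fintype.card (γ ⊕ (m ⊕ Unit))) (κ ⊕ (Option m ⊕ Unit))))).comp
      ((ofProper (k1 hP hk) (isProperMap_k1 hL hP hk)).comp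
        (stepP (A := B × Th (Fintype.card γ) κ) (L := fun q => L q.1) (hL.comp continuous_fst)
          (fun q => hP q.1))) =
      ((GG (κ := κ) hk).comp (incI 1)).comp
        (((pinch L hL hP).smash (PMap.id (Th (Fintype.card γ) κ))).smash
          (PMap.id ((Option m → ℂ) × ℂ))) :=
    PMap.ext fun x => step_eq hL hP hk x
  have e2 : ((pinch (Ln L) (continuous_Ln L) (isPr_Ln L)).smash
      (PMap.id (Th (Fintype.card (γ ⊕ (m ⊕ Unit))) (κ ⊕ (Option m ⊕ Unit))))).comp
      (((ofProper (k1 hP hk) (isProperMap_k1 hL hP hk)).comp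
        ((stepP (A := B × Th (Fintype.card γ) κ) (L := fun q => L q.1) (hL.comp continuous_fst)
        (fun q => hP q.1)).comp (τ.smash (PMap.id ((Option m → ℂ) × ℂ))))).comp
        (PMap.ofHomeo (th m γ).symm)) =
      (((GG (κ := κ) hk).comp (incI 1)).comp
        (((((pinch L hL hP).smash (PMap.id (Th (Fintype.card γ) κ))).comp τ).smash
          (PMap.id ((Option m → ℂ) × ℂ))))).comp (PMap.ofHomeo (th m γ).symm) := by
    have e3 : (((pinch L hL hP).smash (PMap.id (Th (Fintype.card γ) κ))).comp τ).smash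
          (PMap.id ((Option m → ℂ) × ℂ)) =
        (((pinch L hL hP).smash (PMap.id (Th (Fintype.card γ) κ))).smash
          (PMap.id ((Option m → ℂ) × ℂ))).comp (τ.smash (PMap.id ((Option m → ℂ) × ℂ))) := by
      rw [PMap.smash_comp]
      rfl
    rw [e3]
    exact congrArg (fun f => (f.comp (τ.smash (PMap.id ((Option m → ℂ) × ℂ)))).comp
      (PMap.ofHomeo (th m γ).symm)) e1
  rw [e2]
  have h2 := ((GG_homotopic (m := m) (κ := κ) hk).symm.comp
    (hτ.smash (PMap.Homotopic.refl (PMap.id ((Option m → ℂ) × ℂ))))).comp_right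
      (PMap.ofHomeo (th m γ).symm)
  rw [GG_zero hk s hs] at h2
  refine h2.trans (.of_eq ?_)
  rw [PMap.comp_assoc, PMap.ofHomeo_comp_symm, PMap.comp_id]

theorem base : TC (Fin 0) := by
  have hP : ∀ b : Unit, IsPr 1 ((fun _ => 1 : Unit → Matrix (Option (Fin 0)) (Option (Fin 0)) ℂ) b) :=
    fun _ => ⟨by simp, by simp, by simp⟩
  let e : (Fin 0 → ℂ) ≃ₜ Unit := Homeomorph.homeomorphOfUnique _ _
  refine ⟨Unit, inferInstance, inferInstance, inferInstance, fun _ => 1, continuous_const, hP,
    Fin 0, inferInstance, inferInstance, Fin 0, inferInstance, id, Function.injective_id,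
    (PMap.ofHomeo e).smash (fibJ id Function.injective_id), .of_eq ?_⟩
  rw [PMap.smash_comp, PMap.id_comp]
  congr 1
  refine PMap.ext fun x => ?_
  change pch (1 : Matrix (Option (Fin 0)) (Option (Fin 0)) ℂ) = _
  rw [pch_of_ne (by simp)]
  exact congrArg _ (Subsingleton.elim _ _)

theorem transport {m m' : Type} [Fintype m] [DecidableEq m] [Fintype m'] [DecidableEq m']
    (e : m ≃ m') (h : TC m) : TC m' := by
  obtain ⟨B, _, _, _, L, hL, hP, κ, _, _, γ, _, s, hs, τ, hτ⟩ := h
  have hL' : Continuous fun b => Matrix.reindex e.optionCongr e.optionCongr (L b) :=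
    hL.matrix_reindex _ _
  have hP' : ∀ b, IsPr 1 (Matrix.reindex e.optionCongr e.optionCongr (L b)) :=
    fun b => isPr_reindex (hP b) _
  refine ⟨B, inferInstance, inferInstance, inferInstance, _, hL', hP', κ, inferInstance,
    inferInstance, γ, inferInstance, s, hs,
    τ.comp ((PMap.ofHomeo (funH e).symm).smash (PMap.id (γ → ℂ))), ?_⟩
  have e1 : pinch _ hL' hP' = (PMap.ofHomeo (funH e)).comp (pinch L hL hP) := by
    refine PMap.ext fun b => ?_
    change pch (Matrix.reindex e.optionCongr e.optionCongr (L b)) =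
      PMap.ofHomeo (funH e) (pch (L b))
    by_cases h0 : L b none none = 0
    · rw [pch_of_eq h0, pch_of_eq, PMap.map_inf]
      exact h0
    · rw [pch_of_ne h0, pch_of_ne]
      · refine congrArg _ (funext fun i => ?_)
        rfl
      · exact h0
  have e2 : ((pinch _ hL' hP').smash (PMap.id (Th (Fintype.card γ) κ))).comp
      (τ.comp ((PMap.ofHomeo (funH e).symm).smash (PMap.id (γ → ℂ)))) =
      ((PMap.ofHomeo (funH e)).smash (PMap.id (Th (Fintype.card γ) κ))).comp
        ((((pinch L hL hP).smash (PMap.id (Th (Fintype.card γ) κ))).comp τ).comp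
          ((PMap.ofHomeo (funH e).symm).smash (PMap.id (γ → ℂ)))) := by
    rw [e1]
    have e3 : ((PMap.ofHomeo (funH e)).comp (pinch L hL hP)).smash
        (PMap.id (Th (Fintype.card γ) κ)) =
        ((PMap.ofHomeo (funH e)).smash (PMap.id (Th (Fintype.card γ) κ))).comp
          ((pinch L hL hP).smash (PMap.id (Th (Fintype.card γ) κ))) := by
      rw [PMap.smash_comp]
      rfl
    rw [e3]
    rfl
  rw [e2]
  refine ((hτ.comp_right _).comp_left _).trans (.of_eq ?_)
  rw [PMap.smash_comp, PMap.smash_comp, PMap.id_comp, PMap.id_comp, PMap.ofHomeo_comp_symm,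
    PMap.comp_id]

theorem all (M : ℕ) : TC (Fin M) := by
  induction M with
  | zero => exact base
  | succ M ih => exact transport (Fintype.equivOfCardEq (by simp)) (step ih)

/-- **TOPCELL**, the input of the block (I0). -/
theorem topCell (M : ℕ) : TopCellIn (Fin M) := by
  obtain ⟨B, _, _, _, L, hL, hP, κ, _, _, γ, _, s, hs, τ, hτ⟩ := all M
  let e : Fin (Fintype.card γ) ≃ γ := (Fintype.equivFin γ).symm
  have hs' : Function.Injective (s ∘ e) := hs.comp e.injective
  refine ⟨B, inferInstance, inferInstance, inferInstance, L, hL, hP, κ, inferInstance,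
    inferInstance, Fintype.card γ, s ∘ e, hs',
    τ.comp ((PMap.id (Fin M → ℂ)).smash (PMap.ofHomeo (funH e))), ?_⟩
  refine (hτ.comp_right _).trans (.of_eq ?_)
  rw [PMap.smash_comp, PMap.id_comp]
  congr 1
  refine PMap.ext fun x => ?_
  refine congrArg (fun y : Th (Fintype.card γ) κ => (y : OnePoint (Th (Fintype.card γ) κ)))
    (Subtype.ext ?_)
  refine Eq.trans ?_ (castTh_val (Fintype.card_fin _) _).symm
  refine Prod.ext ?_ ?_
  · exact (pJ_comp_equiv s e).symm
  · exact (extend_comp_equiv hs e x).symm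

end Crest.Agent.R090.TopG491
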