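import Mathlib

/-!
# Row 90, F1 (words): owner helper370

Mathlib only.  Let `G = Perm ι`, `row : ι → ρ` and let `x ∈ ℤ[G]` be arbitrary.

* `rowSum_smul_eq_zero` : the row symmetrizer `a` kills every `m` with `swap i j • m = - m`
  for some `i ≠ j` in one row;
* `exists_equal_in_row` : a word with more than `(number of rows) * (number of O-letters)`
  O-letters has two equal O-letters in one row;
* `kill_homogeneous`, `kill_graded` : `a * x` kills the pieces of a module graded by words;
* `nil_of_filtration` : nilpotence along a filtration;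
* `pow_eq`, `scaled_kill` : `e² = M e ⟹ e^(L+1) = M^L e`.
-/

set_option autoImplicit false
set_option linter.unusedSectionVars false

open Equiv Finset

namespace Crest.Agent.R090.Words370

variable {ι : Type*} [Fintype ι] [DecidableEq ι] {ρ : Type*} [DecidableEq ρ] {Λ : Type*}

/-- row group -/
def rowGroup (row : ι → ρ) : Subgroup (Perm ι) where
  carrier := {σ | ∀ i, row (σ i) = row i}
  mul_mem' := by
    intro a b ha hb i
    change row (a (b i)) = row i
    rw [ha, hb]
  one_mem' := by intro i; rfl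
  inv_mem' := by
    intro a ha i
    have h1 := ha (a⁻¹ i)
    have h2 : a (a⁻¹ i) = i := a.apply_symm_apply i
    rw [h2] at h1
    exact h1.symm

theorem mem_rowGroup {row : ι → ρ} {σ : Perm ι} : σ ∈ rowGroup row ↔ ∀ i, row (σ i) = row i :=
  Iff.rfl

instance (row : ι → ρ) : DecidablePred (· ∈ rowGroup row) := fun σ =>
  decidable_of_iff (∀ i, row (σ i) = row i) Iff.rfl

theorem swap_mem_rowGroup {row : ι → ρ} {i j : ι} (h : row i = row j) :
    swap i j ∈ rowGroup row := by
  intro k
  by_cases hki : k = i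
  · subst hki; rw [swap_apply_left]; exact h.symm
  · by_cases hkj : k = j
    · subst hkj; rw [swap_apply_right]; exact h
    · rw [swap_apply_of_ne_of_ne hki hkj]

/-- the sum of the elements of a finite set of permutations -/
noncomputable def gsum (S : Finset (Perm ι)) : MonoidAlgebra ℤ (Perm ι) :=
  ∑ σ ∈ S, MonoidAlgebra.single σ 1

/-- row symmetrizer -/
noncomputable def rowSum (row : ι → ρ) : MonoidAlgebra ℤ (Perm ι) :=
  gsum (univ.filter fun σ => σ ∈ rowGroup row)

section module

variable {Mo : Type*} [AddCommGroup Mo] [Module (MonoidAlgebra ℤ (Perm ι)) Mo]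

/-- the action of a permutation -/
noncomputable def act (σ : Perm ι) (m : Mo) : Mo := (MonoidAlgebra.single σ (1 : ℤ)) • m

theorem act_add (σ : Perm ι) (m n : Mo) : act σ (m + n) = act σ m + act σ n := smul_add _ _ _

theorem act_neg (σ : Perm ι) (m : Mo) : act σ (-m) = -act σ m := smul_neg _ _

@[simp] theorem act_zero (σ : Perm ι) : act σ (0 : Mo) = 0 := smul_zero _

theorem act_mul (σ τ : Perm ι) (m : Mo) : act (σ * τ) m = act σ (act τ m) := by
  simp only [act, smul_smul, MonoidAlgebra.single_mul_single, mul_one]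

@[simp] theorem act_one (m : Mo) : act (1 : Perm ι) m = m := by
  change (1 : MonoidAlgebra ℤ (Perm ι)) • m = m
  exact one_smul _ _

theorem gsum_smul (S : Finset (Perm ι)) (m : Mo) : gsum S • m = ∑ σ ∈ S, act σ m := by
  rw [gsum, Finset.sum_smul]; rfl

/-- a sum over a set of permutations closed under right multiplication by a transposition kills
anything on which the transposition acts by `-1` -/
theorem gsum_smul_eq_zero {S : Finset (Perm ι)} {i j : ι} (hij : i ≠ j)
    (hS : ∀ σ ∈ S, σ * swap i j ∈ S) {m : Mo} (hm : act (swap i j) m = -m) :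
    gsum S • m = 0 := by
  rw [gsum_smul]
  refine Finset.sum_involution (fun σ _ => σ * swap i j) ?_ ?_ ?_ ?_
  · intro σ _
    rw [act_mul, hm, act_neg, add_neg_cancel]
  · intro σ _ _ h
    have h1 : swap i j = 1 := by
      have := congrArg (fun t => σ⁻¹ * t) h
      simpa using this
    exact hij (swap_eq_one_iff.1 h1)
  · intro σ hσ; exact hS σ hσ
  · intro σ _
    rw [mul_assoc, swap_mul_self, mul_one]

theorem rowSum_smul_eq_zero {row : ι → ρ} {i j : ι} (hij : i ≠ j) (hr : row i = row j)
    {m : Mo} (hm : act (swap i j) m = -m) : rowSum row • m = 0 := by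
  refine gsum_smul_eq_zero hij ?_ hm
  intro σ hσ
  simp only [mem_filter, mem_univ, true_and] at hσ ⊢
  exact (rowGroup row).mul_mem hσ (swap_mem_rowGroup hr)

end module

/-! ### pigeonhole -/

theorem exists_equal_in_row [Fintype ρ] [DecidableEq Λ] (row : ι → ρ) (w : ι → Λ) (O : Finset Λ)
    (h : Fintype.card ρ * O.card < (univ.filter fun i => w i ∈ O).card) :
    ∃ i j, i ≠ j ∧ row i = row j ∧ w i = w j ∧ w i ∈ O := by
  obtain ⟨i, hi, j, hj, hij, he⟩ := Finset.exists_ne_map_eq_of_card_lt_of_maps_to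
    (s := univ.filter fun i => w i ∈ O) (t := (univ : Finset ρ) ×ˢ O)
    (f := fun i => (row i, w i)) (by
      rw [card_product, card_univ]; exact h) (by
      intro i hi
      simp only [coe_filter, mem_univ, true_and, Set.mem_ofPred_eq] at hi
      simp [hi])
  simp only [mem_filter, mem_univ, true_and] at hi hj
  have := Prod.ext_iff.1 he
  exact ⟨i, j, hij, this.1, this.2, hi⟩

theorem card_filter_comp_perm [DecidableEq Λ] (w : ι → Λ) (O : Finset Λ) (σ : Perm ι) :
    (univ.filter fun i => (w ∘ σ) i ∈ O).card = (univ.filter fun i => w i ∈ O).card := by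
  refine Finset.card_bij (fun i _ => σ i) ?_ ?_ ?_
  · intro i hi
    simpa using hi
  · intro i _ j _ h
    exact σ.injective h
  · intro j hj
    exact ⟨σ⁻¹ j, by simpa using hj, by simp⟩

/-! ### graded modules -/

section graded

variable {Mo : Type*} [AddCommGroup Mo] [Module (MonoidAlgebra ℤ (Perm ι)) Mo]
variable (P : (ι → Λ) → AddSubgroup Mo)

/-- a homogeneous element of a word with two equal O-letters in one row of every rearrangement is
killed by `a * x` -/
theorem kill_homogeneous (hP : ∀ (σ : Perm ι) (w : ι → Λ) (m : Mo), m ∈ P w →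
      act σ m ∈ P (w ∘ ⇑σ⁻¹))
    (O : Set Λ)
    (hO : ∀ (w : ι → Λ) (i j : ι) (m : Mo), m ∈ P w → i ≠ j → w i = w j → w i ∈ O →
      act (swap i j) m = -m)
    (row : ι → ρ) (w : ι → Λ)
    (hw : ∀ σ : Perm ι, ∃ i j, i ≠ j ∧ row i = row j ∧ (w ∘ σ) i = (w ∘ σ) j ∧ (w ∘ σ) i ∈ O)
    (x : MonoidAlgebra ℤ (Perm ι)) (m : Mo) (hm : m ∈ P w) : (rowSum row * x) • m = 0 := by
  rw [mul_smul]
  induction x using MonoidAlgebra.induction_linear with
  | zero => simp
  | add f g hf hg => rw [add_smul, smul_add, hf, hg, add_zero]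
  | single σ z =>
    have h1 : (MonoidAlgebra.single σ z : MonoidAlgebra ℤ (Perm ι)) • m =
        z • act σ m := by
      rw [act, ← Int.cast_smul_eq_zsmul (MonoidAlgebra ℤ (Perm ι)), smul_smul]
      congr 1
      have : ((z : ℤ) : MonoidAlgebra ℤ (Perm ι)) = MonoidAlgebra.single 1 z := by
        rw [MonoidAlgebra.intCast_def]; simp
      rw [this, MonoidAlgebra.single_mul_single, one_mul, mul_one]
    rw [h1, smul_comm]
    obtain ⟨i, j, hij, hr, he, hO'⟩ := hw σ⁻¹
    rw [rowSum_smul_eq_zero hij hr (hO _ i j _ (hP σ w m hm) hij he hO'), smul_zero]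

/-- the version for a whole module spanned by homogeneous pieces -/
theorem kill_graded [Fintype ρ] [DecidableEq Λ] (hP : ∀ (σ : Perm ι) (w : ι → Λ) (m : Mo),
      m ∈ P w → act σ m ∈ P (w ∘ ⇑σ⁻¹))
    (O : Finset Λ)
    (hO : ∀ (w : ι → Λ) (i j : ι) (m : Mo), m ∈ P w → i ≠ j → w i = w j → w i ∈ O →
      act (swap i j) m = -m)
    (row : ι → ρ) (W : Set (ι → Λ))
    (hW : ∀ w ∈ W, (P w = ⊥) ∨
      Fintype.card ρ * O.card < (univ.filter fun i => w i ∈ O).card)
    (hspan : ∀ m : Mo, m ∈ ⨆ w ∈ W, P w)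
    (x : MonoidAlgebra ℤ (Perm ι)) (m : Mo) : (rowSum row * x) • m = 0 := by
  have key : (⨆ w ∈ W, P w) ≤
      ((rowSum row * x : MonoidAlgebra ℤ (Perm ι)) • AddMonoidHom.id Mo :
        Mo →+ Mo).ker := by
    refine iSup₂_le fun w hw => ?_
    intro m hm
    rw [AddMonoidHom.mem_ker]
    change (rowSum row * x) • m = 0
    rcases hW w hw with h | h
    · rw [h, AddSubgroup.mem_bot] at hm
      rw [hm, smul_zero]
    · refine kill_homogeneous P hP (↑O) (fun w i j m h1 h2 h3 h4 => hO w i j m h1 h2 h3 h4)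
        row w ?_ x m hm
      intro σ
      exact exists_equal_in_row row (w ∘ σ) O (by rw [card_filter_comp_perm]; exact h)
  exact key (hspan m)

end graded

/-! ### filtrations -/

section filtration

variable {A : Type*} [Ring A]

/-- one step of the filtration argument: `L → F → F'` exact and equivariant -/
theorem nil_step {L F F' : Type*} [AddCommGroup L] [AddCommGroup F] [AddCommGroup F']
    [Module A L] [Module A F] [Module A F'] (i : L →ₗ[A] F) (p : F →ₗ[A] F')
    (hex : ∀ x, p x = 0 → ∃ y, i y = x) (e : A) (k : ℕ)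
    (hL : ∀ y : L, e • y = 0) (hF' : ∀ x : F', e ^ k • x = 0) (x : F) : e ^ (k + 1) • x = 0 := by
  have h1 : p (e ^ k • x) = 0 := by rw [map_smul, hF']
  obtain ⟨y, hy⟩ := hex _ h1
  rw [pow_succ', mul_smul, ← hy, ← map_smul, hL, map_zero]

/-- the filtration argument -/
theorem nil_of_filtration (F L : ℕ → Type*) [∀ k, AddCommGroup (F k)] [∀ k, AddCommGroup (L k)]
    [∀ k, Module A (F k)] [∀ k, Module A (L k)] (i : ∀ k, L k →ₗ[A] F (k + 1))
    (p : ∀ k, F (k + 1) →ₗ[A] F k) (hex : ∀ k x, p k x = 0 → ∃ y, i k y = x)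
    (e : A) (h0 : ∀ x : F 0, x = 0) (hL : ∀ k (y : L k), e • y = 0) (k : ℕ) (x : F k) :
    e ^ k • x = 0 := by
  induction k with
  | zero => rw [h0 x, smul_zero]
  | succ k ih => exact nil_step (i k) (p k) (hex k) e k (hL k) ih x

theorem pow_eq (e : A) (M : ℤ) (h : e * e = M • e) (L : ℕ) : e ^ (L + 1) = M ^ L • e := by
  induction L with
  | zero => simp
  | succ L ih =>
    rw [pow_succ, ih, smul_mul_assoc, h, smul_smul, pow_succ]

theorem scaled_kill {Mo : Type*} [AddCommGroup Mo] [Module A Mo] (e : A) (M : ℤ)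
    (h : e * e = M • e) (L : ℕ) (x : Mo) (hx : e ^ (L + 1) • x = 0) :
    M ^ L • (e • x) = 0 := by
  rw [pow_eq e M h] at hx
  rw [← hx]
  rw [smul_assoc]

end filtration

end Crest.Agent.R090.Words370
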